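import Mathlib
import Vale.Agent.P127.MathlibUsed
import Vale.Agent.P127.KDefs

set_option linter.all false

section

section

/-!
# P127: finite Shannon entropy

A small library of Shannon entropies of functions on finite probability spaces.
-/

namespace Vale.Agent.P127

open Finset

/-- A finite probability law. -/
structure Law (Ω : Type) [Fintype Ω] where
  w : Ω → ℝ
  nn : ∀ ω, 0 ≤ w ω
  sum_one : ∑ ω, w ω = 1

open Classical in
/-- the finite range of a function -/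
noncomputable def img {Ω : Type} [Fintype Ω] {S : Type*} (X : Ω → S) : Finset S := univ.image X

@[simp] lemma mem_img {Ω : Type} [Fintype Ω] {S : Type*} {X : Ω → S} {x : S} :
    x ∈ img X ↔ ∃ ω, X ω = x := by
  simp only [img, mem_image, mem_univ, true_and]

namespace Law

variable {Ω : Type} [Fintype Ω] {S T U : Type*}

open Classical in
/-- probability that `X = x` -/
noncomputable def pr (P : Law Ω) (X : Ω → S) (x : S) : ℝ :=
  ∑ ω with X ω = x, P.w ω

/-- expectation -/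
noncomputable def ex (P : Law Ω) (f : Ω → ℝ) : ℝ := ∑ ω, P.w ω * f ω

/-- Shannon entropy of `X` -/
noncomputable def H (P : Law Ω) (X : Ω → S) : ℝ := P.ex fun ω => -Real.log (P.pr X (X ω))

lemma ex_mono (P : Law Ω) {f g : Ω → ℝ} (h : ∀ ω, 0 < P.w ω → f ω ≤ g ω) : P.ex f ≤ P.ex g := by
  unfold ex
  refine Finset.sum_le_sum fun ω _ => ?_
  rcases (P.nn ω).eq_or_lt with h0 | h0
  · simp only [← h0, zero_mul, Std.le_refl]
  · exact mul_le_mul_of_nonneg_left (h ω h0) h0.le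

lemma ex_congr (P : Law Ω) {f g : Ω → ℝ} (h : ∀ ω, 0 < P.w ω → f ω = g ω) : P.ex f = P.ex g :=
  le_antisymm (P.ex_mono fun ω hω => (h ω hω).le) (P.ex_mono fun ω hω => (h ω hω).ge)

lemma ex_add (P : Law Ω) (f g : Ω → ℝ) : P.ex (fun ω => f ω + g ω) = P.ex f + P.ex g := by
  simp only [ex, mul_add, sum_add_distrib]

lemma ex_sub (P : Law Ω) (f g : Ω → ℝ) : P.ex (fun ω => f ω - g ω) = P.ex f - P.ex g := by
  simp only [ex, mul_sub, sum_sub_distrib]

lemma ex_neg (P : Law Ω) (f : Ω → ℝ) : P.ex (fun ω => - f ω) = - P.ex f := by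
  simp only [ex, mul_neg, sum_neg_distrib]

lemma ex_const_mul (P : Law Ω) (c : ℝ) (f : Ω → ℝ) : P.ex (fun ω => c * f ω) = c * P.ex f := by
  simp only [ex, Finset.mul_sum]
  exact Finset.sum_congr rfl fun ω _ => by ring

lemma ex_const (P : Law Ω) (c : ℝ) : P.ex (fun _ => c) = c := by
  simp only [ex, ← sum_mul, P.sum_one, one_mul]

lemma ex_nonneg (P : Law Ω) {f : Ω → ℝ} (h : ∀ ω, 0 < P.w ω → 0 ≤ f ω) : 0 ≤ P.ex f := by
  have := P.ex_mono (f := fun _ => 0) (g := f) h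
  rwa [P.ex_const] at this

lemma pr_nonneg (P : Law Ω) (X : Ω → S) (x : S) : 0 ≤ P.pr X x :=
  Finset.sum_nonneg fun ω _ => P.nn ω

lemma pr_le_one (P : Law Ω) (X : Ω → S) (x : S) : P.pr X x ≤ 1 := by
  classical
  unfold pr
  rw [← P.sum_one]
  exact Finset.sum_le_sum_of_subset_of_nonneg (Finset.filter_subset _ _) fun ω _ _ => P.nn ω

lemma w_le_pr (P : Law Ω) (X : Ω → S) (ω : Ω) : P.w ω ≤ P.pr X (X ω) := by
  classical
  unfold pr
  exact Finset.single_le_sum (f := P.w) (fun ω _ => P.nn ω) (by simp only [mem_filter, mem_univ,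
                                                                  and_self])

lemma pr_pos (P : Law Ω) (X : Ω → S) {ω : Ω} (h : 0 < P.w ω) : 0 < P.pr X (X ω) :=
  h.trans_le (P.w_le_pr X ω)

lemma H_nonneg (P : Law Ω) (X : Ω → S) : 0 ≤ P.H X :=
  P.ex_nonneg fun ω _ => by
    have := Real.log_nonpos (P.pr_nonneg X (X ω)) (P.pr_le_one X (X ω))
    linarith

lemma ex_comp (P : Law Ω) (X : Ω → S) (g : S → ℝ) :
    P.ex (fun ω => g (X ω)) = ∑ x ∈ img X, P.pr X x * g x := by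
  classical
  unfold ex pr
  rw [← Finset.sum_fiberwise_of_maps_to (g := X) (t := img X) (by simp only [mem_univ, mem_img,
                                                                    exists_apply_eq_apply,
                                                                    imp_self, implies_true])]
  refine Finset.sum_congr rfl fun x _ => ?_
  rw [Finset.sum_mul]
  refine Finset.sum_congr (by ext; simp only [mem_filter, mem_univ, true_and]) fun ω hω => ?_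
  have : X ω = x := by simpa only [mem_filter, mem_univ, true_and] using hω
  simp only [this]

lemma sum_pr_image (P : Law Ω) (X : Ω → S) : ∑ x ∈ img X, P.pr X x = 1 := by
  have := P.ex_comp X (fun _ => 1)
  simpa only [mul_one, P.ex_const] using this.symm

/-- Gibbs inequality. -/
theorem gibbs (P : Law Ω) (X : Ω → S) (q : S → ℝ) (hq0 : ∀ x, 0 ≤ q x)
    (hq1 : ∑ x ∈ img X, q x ≤ 1) (hpos : ∀ ω, 0 < P.w ω → 0 < q (X ω)) :
    P.H X ≤ P.ex (fun ω => - Real.log (q (X ω))) := by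
  have h1 : P.ex (fun ω => Real.log (q (X ω)) - Real.log (P.pr X (X ω))) ≤
      P.ex (fun ω => q (X ω) / P.pr X (X ω) - 1) := by
    refine P.ex_mono fun ω hω => ?_
    rw [← Real.log_div (hpos ω hω).ne' (P.pr_pos X hω).ne']
    exact Real.log_le_sub_one_of_pos (div_pos (hpos ω hω) (P.pr_pos X hω))
  have h2 : P.ex (fun ω => q (X ω) / P.pr X (X ω) - 1) ≤ 0 := by
    rw [P.ex_sub, P.ex_const, P.ex_comp X (fun x => q x / P.pr X x)]
    have : ∑ x ∈ img X, P.pr X x * (q x / P.pr X x) ≤ ∑ x ∈ img X, q x := by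
      refine Finset.sum_le_sum fun x _ => ?_
      rcases (P.pr_nonneg X x).eq_or_lt with h0 | h0
      · simp [← h0, hq0 x]
      · rw [mul_div_cancel₀ _ h0.ne']
    linarith only [hq1, this]
  rw [P.ex_sub] at h1
  unfold H
  rw [P.ex_neg, P.ex_neg]
  linarith

/-- Conditional Gibbs inequality. -/
theorem gibbs_cond (P : Law Ω) (X : Ω → S) (Y : Ω → T) (q : S → T → ℝ)
    (hq0 : ∀ x y, 0 ≤ q x y) (hq1 : ∀ y, ∀ F : Finset S, ∑ x ∈ F, q x y ≤ 1)
    (hpos : ∀ ω, 0 < P.w ω → 0 < q (X ω) (Y ω)) :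
    P.H (fun ω => (X ω, Y ω)) - P.H Y ≤ P.ex (fun ω => - Real.log (q (X ω) (Y ω))) := by
  classical
  have h := P.gibbs (fun ω => (X ω, Y ω)) (fun z => q z.1 z.2 * P.pr Y z.2)
    (fun z => mul_nonneg (hq0 _ _) (P.pr_nonneg _ _)) ?_
    (fun ω hω => mul_pos (hpos ω hω) (P.pr_pos Y hω))
  · have h2 : P.ex (fun ω => - Real.log (q (X ω) (Y ω) * P.pr Y (Y ω))) =
        P.ex (fun ω => - Real.log (q (X ω) (Y ω))) + P.H Y := by
      unfold H
      rw [← P.ex_add]
      refine P.ex_congr fun ω hω => ?_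
      rw [Real.log_mul (hpos ω hω).ne' (P.pr_pos Y hω).ne']
      ring
    linarith only [h, h2]
  · calc ∑ z ∈ img (fun ω => (X ω, Y ω)), q z.1 z.2 * P.pr Y z.2
        ≤ ∑ z ∈ (img X) ×ˢ (img Y), q z.1 z.2 * P.pr Y z.2 := by
          refine Finset.sum_le_sum_of_subset_of_nonneg ?_
            fun z _ _ => mul_nonneg (hq0 _ _) (P.pr_nonneg _ _)
          intro z hz
          simp only [mem_img, mem_product] at hz ⊢
          obtain ⟨ω, rfl⟩ := hz
          exact ⟨⟨ω, rfl⟩, ⟨ω, rfl⟩⟩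
      _ = ∑ y ∈ img Y, (∑ x ∈ img X, q x y) * P.pr Y y := by
          rw [Finset.sum_product_right]
          refine Finset.sum_congr rfl fun y _ => ?_
          rw [Finset.sum_mul]
      _ ≤ ∑ y ∈ img Y, P.pr Y y := by
          refine Finset.sum_le_sum fun y _ => ?_
          have := mul_le_mul_of_nonneg_right (hq1 y (img X)) (P.pr_nonneg Y y)
          simpa only [ge_iff_le, one_mul] using this
      _ ≤ 1 := (P.sum_pr_image Y).le

/-- entropy depends only on the partition -/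
theorem H_congr (P : Law Ω) {X : Ω → S} {Y : Ω → T} (h : ∀ ω ω', X ω = X ω' ↔ Y ω = Y ω') :
    P.H X = P.H Y := by
  unfold H
  refine P.ex_congr fun ω _ => ?_
  have : P.pr X (X ω) = P.pr Y (Y ω) := by
    unfold pr
    refine Finset.sum_congr ?_ fun _ _ => rfl
    ext ω'
    simp only [mem_filter, mem_univ, h ω' ω, true_and]
  rw [this]

/-- a function of `X` has smaller entropy -/
theorem H_mono (P : Law Ω) {X : Ω → S} {Y : Ω → T} (h : ∀ ω ω', X ω = X ω' → Y ω = Y ω') :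
    P.H Y ≤ P.H X := by
  unfold H
  refine P.ex_mono fun ω hω => ?_
  have : P.pr X (X ω) ≤ P.pr Y (Y ω) := by
    unfold pr
    refine Finset.sum_le_sum_of_subset_of_nonneg ?_ fun _ _ _ => P.nn _
    intro ω'
    simp only [mem_filter, mem_univ, true_and]
    exact h ω' ω
  have := Real.log_le_log (P.pr_pos X hω) this
  linarith only [this]

lemma sum_pr_pair_le (P : Law Ω) (X : Ω → S) (Z : Ω → U) (z : U) (F : Finset S) :
    ∑ x ∈ F, P.pr (fun ω => (X ω, Z ω)) (x, z) ≤ P.pr Z z := by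
  classical
  have key : ∀ x, P.pr (fun ω => (X ω, Z ω)) (x, z) =
      ∑ ω ∈ (univ.filter (fun ω => Z ω = z)).filter (fun ω => X ω = x), P.w ω := by
    intro x
    unfold pr
    refine Finset.sum_congr ?_ fun _ _ => rfl
    ext ω
    simp only [Prod.mk.injEq, mem_filter, mem_univ, true_and, and_comm]
  simp only [key]
  unfold pr
  calc ∑ x ∈ F, ∑ ω ∈ (univ.filter (fun ω => Z ω = z)).filter (fun ω => X ω = x), P.w ω
    _ = ∑ ω ∈ (univ.filter (fun ω => Z ω = z)).filter (fun ω => X ω ∈ F), P.w ω := by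
        rw [← Finset.sum_fiberwise_of_maps_to (g := X) (t := F)
          (s := (univ.filter (fun ω => Z ω = z)).filter (fun ω => X ω ∈ F))]
        · refine Finset.sum_congr rfl fun x hx => Finset.sum_congr ?_ fun _ _ => rfl
          ext ω
          simp only [mem_filter, mem_univ, true_and]
          constructor
          · rintro ⟨h1, h2⟩
            exact ⟨⟨h1, h2 ▸ hx⟩, h2⟩
          · rintro ⟨⟨h1, _⟩, h2⟩
            exact ⟨h1, h2⟩
        · intro ω hω
          simp only [mem_filter, mem_univ, true_and] at hω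
          exact hω.2
    _ ≤ ∑ ω with Z ω = z, P.w ω := by
        refine Finset.sum_le_sum_of_subset_of_nonneg (Finset.filter_subset _ _) fun _ _ _ => P.nn _

/-- submodularity -/
theorem submod (P : Law Ω) (X : Ω → S) (Y : Ω → T) (Z : Ω → U) :
    P.H (fun ω => (X ω, Y ω, Z ω)) + P.H Z ≤
      P.H (fun ω => (X ω, Z ω)) + P.H (fun ω => (Y ω, Z ω)) := by
  have h := P.gibbs_cond X (fun ω => (Y ω, Z ω))
    (fun x yz => P.pr (fun ω => (X ω, Z ω)) (x, yz.2) / P.pr Z yz.2)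
    (fun x yz => div_nonneg (P.pr_nonneg _ _) (P.pr_nonneg _ _)) ?_
    (fun ω hω => div_pos (P.pr_pos (fun ω => (X ω, Z ω)) hω) (P.pr_pos Z hω))
  · have h2 : P.ex (fun ω => - Real.log (P.pr (fun ω => (X ω, Z ω)) (X ω, Z ω) / P.pr Z (Z ω)))
        = P.H (fun ω => (X ω, Z ω)) - P.H Z := by
      unfold H
      rw [← P.ex_sub]
      refine P.ex_congr fun ω hω => ?_
      rw [Real.log_div (P.pr_pos (fun ω => (X ω, Z ω)) hω).ne' (P.pr_pos Z hω).ne']
      ring
    linarith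
  · intro yz F
    rw [← Finset.sum_div]
    exact div_le_one_of_le₀ (P.sum_pr_pair_le X Z yz.2 F) (P.pr_nonneg _ _)

/-! ### Conditioning -/

open Classical in
/-- the law conditioned on `Z = z` (junk value if the event has probability zero) -/
noncomputable def cond (P : Law Ω) (Z : Ω → U) (z : U) : Law Ω :=
  if hz : 0 < P.pr Z z then
    { w := fun ω => if Z ω = z then P.w ω / P.pr Z z else 0
      nn := fun ω => by
        split_ifs
        · exact div_nonneg (P.nn ω) hz.le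
        · exact le_rfl
      sum_one := by
        rw [← Finset.sum_filter, ← Finset.sum_div]
        exact div_self hz.ne' }
  else P

open Classical in
lemma cond_w (P : Law Ω) (Z : Ω → U) (z : U) (hz : 0 < P.pr Z z) (ω : Ω) :
    (P.cond Z z).w ω = if Z ω = z then P.w ω / P.pr Z z else 0 := by
  simp [cond, hz]

lemma cond_pr (P : Law Ω) (Z : Ω → U) (z : U) (hz : 0 < P.pr Z z) (X : Ω → S) (x : S) :
    (P.cond Z z).pr X x = P.pr (fun ω => (X ω, Z ω)) (x, z) / P.pr Z z := by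
  classical
  unfold pr
  simp only [P.cond_w Z z hz]
  rw [← Finset.sum_filter, Finset.filter_filter, Finset.sum_div]
  refine Finset.sum_congr ?_ fun _ _ => rfl
  ext ω
  simp only [mem_filter, mem_univ, true_and, Prod.mk.injEq]

/-- conditional entropy is the average of the entropies of the conditioned laws -/
theorem H_cond_eq (P : Law Ω) (X : Ω → S) (Z : Ω → U) :
    P.H (fun ω => (X ω, Z ω)) - P.H Z =
      ∑ z ∈ img Z, P.pr Z z * (P.cond Z z).H X := by
  classical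
  have h1 : P.H (fun ω => (X ω, Z ω)) - P.H Z =
      ∑ z ∈ img Z, ∑ ω with Z ω = z, P.w ω *
        (Real.log (P.pr Z (Z ω)) - Real.log (P.pr (fun ω => (X ω, Z ω)) (X ω, Z ω))) := by
    unfold H
    rw [← P.ex_sub]
    unfold ex
    rw [← Finset.sum_fiberwise_of_maps_to (g := Z) (t := img Z) (by simp only [mem_univ, mem_img,
                                                                      exists_apply_eq_apply,
                                                                      imp_self, implies_true])]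
    refine Finset.sum_congr rfl fun z _ => Finset.sum_congr rfl fun ω _ => ?_
    ring
  rw [h1]
  refine Finset.sum_congr rfl fun z _ => ?_
  rcases (P.pr_nonneg Z z).eq_or_lt with h0 | h0
  · rw [← h0, zero_mul]
    refine Finset.sum_eq_zero fun ω hω => ?_
    have hω' : Z ω = z := by simpa only [mem_filter, mem_univ, true_and] using hω
    have : P.w ω ≤ 0 := by
      have := P.w_le_pr Z ω
      rwa [hω', ← h0] at this
    rw [le_antisymm this (P.nn ω), zero_mul]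
  · unfold H ex
    simp only [P.cond_w Z z h0, P.cond_pr Z z h0, ite_mul, zero_mul]
    rw [← Finset.sum_filter, Finset.mul_sum]
    refine Finset.sum_congr rfl fun ω hω => ?_
    have hω' : Z ω = z := by simpa only [mem_filter, mem_univ, true_and] using hω
    rcases (P.nn ω).eq_or_lt with hw | hw
    · simp [← hw]
    · have h3 : 0 < P.pr (fun ω => (X ω, Z ω)) (X ω, z) := by
        have := P.pr_pos (fun ω => (X ω, Z ω)) hw
        rwa [hω'] at this
      rw [hω', Real.log_div h3.ne' h0.ne']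
      field_simp
      ring

/-! ### Uniform bound -/

theorem H_le_log_card (P : Law Ω) {F : Type} [Fintype F] (X : Ω → F) :
    P.H X ≤ Real.log (Fintype.card F) := by
  classical
  have hne : Nonempty Ω := by
    by_contra hcon
    rw [not_nonempty_iff] at hcon
    have := P.sum_one
    simp at this
  have hF : Nonempty F := ⟨X hne.some⟩
  have hc : (0 : ℝ) < Fintype.card F := by exact_mod_cast Fintype.card_pos
  have h := P.gibbs X (fun _ => 1 / (Fintype.card F : ℝ)) (fun _ => by positivity) ?_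
    (fun _ _ => by positivity)
  · refine h.trans (le_of_eq ?_)
    rw [P.ex_const, one_div, Real.log_inv, neg_neg]
  · rw [Finset.sum_const, nsmul_eq_mul]
    have : ((img X).card : ℝ) ≤ Fintype.card F := by exact_mod_cast Finset.card_le_univ _
    rw [mul_one_div]
    exact div_le_one_of_le₀ this hc.le

/-! ### Heavy tailed reference laws -/

lemma tail_aux (K : ℝ) (hK : 1 ≤ K) (n : ℕ) :
    ∑ k ∈ Finset.Icc (-(n : ℤ)) n, K / ((|k| : ℤ) + K) ^ 2 ≤ 3 - 2 * K / (n + K) := by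
  have hK0 : 0 < K := by linarith
  induction n with
  | zero =>
    simp only [CharP.cast_eq_zero, neg_zero, Icc_self, Int.cast_abs, sum_singleton, Int.cast_zero, abs_zero, zero_add, ge_iff_le]
    have h1 : K / K ^ 2 = K⁻¹ := by (clear * - hK; field_simp)
    have h2 : 2 * K / K = 2 := by field_simp
    rw [h1, h2]
    have : K⁻¹ ≤ 1 := inv_le_one_of_one_le₀ hK
    linarith only [this]
  | succ n ih =>
    have hset : Finset.Icc (-((n + 1 : ℕ) : ℤ)) ((n + 1 : ℕ) : ℤ) =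
        insert (-((n + 1 : ℕ) : ℤ)) (insert ((n + 1 : ℕ) : ℤ) (Finset.Icc (-(n : ℤ)) n)) := by
      ext k
      simp only [Finset.mem_Icc, Finset.mem_insert]
      push_cast
      omega
    rw [hset, Finset.sum_insert, Finset.sum_insert]
    · have e1 : ((|(-((n + 1 : ℕ) : ℤ))| : ℤ) : ℝ) = n + 1 := by
        rw [abs_neg, Nat.abs_cast]; push_cast; ring
      have e2 : ((|((n + 1 : ℕ) : ℤ)| : ℤ) : ℝ) = n + 1 := by
        rw [Nat.abs_cast]; push_cast; ring
      rw [e1, e2]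
      have hn : (0 : ℝ) < n + K := by (clear * - hK; (clear * - hK; positivity))
      have hn1 : (0 : ℝ) < n + 1 + K := by (clear * - hK; positivity)
      have key : K / (n + 1 + K) ^ 2 ≤ K / (n + K) - K / (n + 1 + K) := by
        rw [div_sub_div _ _ hn.ne' hn1.ne', div_le_div_iff₀ (by (clear * - hK; positivity)) (by (clear * - hK; positivity))]
        linarith only [mul_pos hK0 hn1]
      have e3 : 2 * K / (n + K) = 2 * (K / (n + K)) := by ring
      have e4 : 2 * K / (((n + 1 : ℕ) : ℝ) + K) = 2 * (K / (n + 1 + K)) := by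
        push_cast; ring
      rw [e4]
      rw [e3] at ih
      linarith only [ih, key]
    · simp only [Nat.cast_add, Nat.cast_one, mem_Icc, add_le_iff_nonpos_right, Int.reduceLE,
        and_false, not_false_eq_true]
    · simp only [Finset.mem_insert, Finset.mem_Icc, not_or]
      push_cast
      omega

lemma tail_sum (K : ℝ) (hK : 1 ≤ K) (g : ℤ) (F : Finset ℤ) :
    ∑ k ∈ F, K / (4 * ((|k - g| : ℤ) + K) ^ 2) ≤ 1 := by
  classical
  have hK0 : 0 < K := by linarith only [hK]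
  obtain ⟨n, hn⟩ : ∃ n : ℕ, ∀ k ∈ F, |k - g| ≤ n := by
    refine ⟨∑ k ∈ F, (k - g).natAbs, fun k hk => ?_⟩
    have := Finset.single_le_sum (f := fun k => (k - g).natAbs) (fun _ _ => Nat.zero_le _) hk
    rw [Int.abs_eq_natAbs]
    exact_mod_cast this
  have h1 : ∑ k ∈ F, K / ((|k - g| : ℤ) + K) ^ 2 ≤
      ∑ k ∈ Finset.Icc (-(n : ℤ)) n, K / ((|k| : ℤ) + K) ^ 2 := by
    have h2 : ∑ k ∈ F, K / ((|k - g| : ℤ) + K) ^ 2 =
        ∑ k ∈ F.image (fun k => k - g), K / ((|k| : ℤ) + K) ^ 2 := by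
      rw [Finset.sum_image]
      intro a _ b _ hab
      simpa using hab
    rw [h2]
    refine Finset.sum_le_sum_of_subset_of_nonneg ?_ ?_
    · intro k hk
      obtain ⟨k', hk', rfl⟩ := Finset.mem_image.1 hk
      have := abs_le.1 (hn k' hk')
      simpa only [mem_Icc, neg_le_sub_iff_le_add, tsub_le_iff_right] using this
    · intro k _ _
      (clear * - hK; (clear * - hK; positivity))
  have h3 := tail_aux K hK n
  have h4 : 0 ≤ 2 * K / (n + K) := by (clear * - hK; positivity)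
  have h5 : ∑ k ∈ F, K / (4 * ((|k - g| : ℤ) + K) ^ 2) =
      (∑ k ∈ F, K / ((|k - g| : ℤ) + K) ^ 2) / 4 := by
    rw [Finset.sum_div]
    refine Finset.sum_congr rfl fun k _ => ?_
    rw [div_div, mul_comm]
  rw [h5]
  linarith only [h1, h3, h4]

/-- scalar heavy tail bound -/
theorem H_scale (P : Law Ω) (Z : Ω → ℤ) (Y : Ω → T) (K : ℝ) (hK : 1 ≤ K) :
    P.H (fun ω => (Z ω, Y ω)) - P.H Y ≤
      Real.log 4 + Real.log K + 2 * P.ex (fun ω => Real.log (1 + |(Z ω : ℝ)| / K)) := by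
  have hK0 : 0 < K := by linarith only [hK]
  have h := P.gibbs_cond Z Y (fun k _ => K / (4 * ((|k| : ℤ) + K) ^ 2))
    (fun k _ => by (clear * - hK; positivity)) (fun _ F => by simpa only [Int.cast_abs,
                                                sub_zero] using tail_sum K hK 0 F)
    (fun ω _ => by (clear * - hK; positivity))
  refine h.trans (le_of_eq ?_)
  rw [← P.ex_const_mul]
  have : Real.log 4 + Real.log K = P.ex (fun _ => Real.log 4 + Real.log K) := by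
    rw [P.ex_const]
  rw [this, ← P.ex_add]
  refine P.ex_congr fun ω _ => ?_
  have hz : (0 : ℝ) ≤ |(Z ω : ℝ)| := abs_nonneg _
  have e1 : K / (4 * (((|Z ω| : ℤ) : ℝ) + K) ^ 2) = (4 * K * (1 + |(Z ω : ℝ)| / K) ^ 2)⁻¹ := by
    push_cast
    field_simp
    ring
  rw [e1, Real.log_inv, neg_neg, Real.log_mul (by positivity) (by (clear * - hK; positivity)),
    Real.log_mul (by norm_num) hK0.ne', Real.log_pow]
  push_cast
  ring

/-- approximate determination of an integer vector -/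
theorem H_det (P : Law Ω) {m : ℕ} (Z : Ω → Fin m → ℤ) (Y : Ω → T) (g : T → Fin m → ℝ)
    (R : Ω → ℝ) (hR : ∀ ω c, |(Z ω c : ℝ) - g (Y ω) c| ≤ R ω) :
    P.H (fun ω => (Z ω, Y ω)) - P.H Y ≤
      m * (Real.log 4 + 2 * P.ex (fun ω => Real.log (2 + R ω))) := by
  classical
  set q : (Fin m → ℤ) → T → ℝ :=
    fun z y => ∏ c, (1 / (4 * ((|z c - ⌊g y c⌋| : ℤ) + (1 : ℝ)) ^ 2)) with hq
  have hqpos : ∀ z y, 0 < q z y := by
    intro z y
    refine Finset.prod_pos fun c _ => ?_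
    (clear * -; positivity)
  have h := P.gibbs_cond Z Y q (fun z y => (hqpos z y).le) ?_ (fun ω _ => hqpos _ _)
  · refine h.trans ?_
    have : (m : ℝ) * (Real.log 4 + 2 * P.ex (fun ω => Real.log (2 + R ω))) =
        P.ex (fun ω => m * (Real.log 4 + 2 * Real.log (2 + R ω))) := by
      rw [P.ex_const_mul, P.ex_add, P.ex_const, P.ex_const_mul]
    rw [this]
    refine P.ex_mono fun ω _ => ?_
    rw [hq]
    simp only
    rw [Real.log_prod]
    · rw [← Finset.sum_neg_distrib]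
      have hb : ∀ c ∈ (univ : Finset (Fin m)),
          -Real.log (1 / (4 * ((|Z ω c - ⌊g (Y ω) c⌋| : ℤ) + (1 : ℝ)) ^ 2)) ≤
            Real.log 4 + 2 * Real.log (2 + R ω) := by
        intro c _
        have h1 : ((|Z ω c - ⌊g (Y ω) c⌋| : ℤ) : ℝ) ≤ R ω + 1 := by
          push_cast
          have h2 := hR ω c
          have h3 := Int.floor_le (g (Y ω) c)
          have h4 := Int.lt_floor_add_one (g (Y ω) c)
          rw [abs_le] at h2 ⊢
          constructor <;> linarith only [h2, h3, h4]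
        have h0 : (0 : ℝ) ≤ ((|Z ω c - ⌊g (Y ω) c⌋| : ℤ) : ℝ) := by (clear * -; positivity)
        rw [one_div, Real.log_inv, neg_neg, Real.log_mul (by norm_num) (by (clear * -; positivity)),
          Real.log_pow]
        have h5 := Real.log_le_log (by (clear * -; positivity) :
          0 < ((|Z ω c - ⌊g (Y ω) c⌋| : ℤ) : ℝ) + 1) (by linarith only [h1] : _ ≤ 2 + R ω)
        push_cast at h5 ⊢
        linarith only [h5]
      refine (Finset.sum_le_sum hb).trans (le_of_eq ?_)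
      simp only [sum_const, card_univ, Fintype.card_fin, smul_add, nsmul_eq_mul, mul_add]
    · intro c _
      (clear * -; (clear * -; positivity))
  · intro y F
    calc ∑ z ∈ F, q z y
        ≤ ∑ z ∈ Fintype.piFinset (fun c => F.image (fun z => z c)), q z y := by
          refine Finset.sum_le_sum_of_subset_of_nonneg ?_ fun z _ _ => (hqpos z y).le
          intro z hz
          rw [Fintype.mem_piFinset]
          intro c
          exact Finset.mem_image_of_mem _ hz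
      _ = ∏ c, ∑ k ∈ F.image (fun z => z c),
            (1 / (4 * ((|k - ⌊g y c⌋| : ℤ) + (1 : ℝ)) ^ 2)) := by
          rw [Finset.prod_univ_sum]
      _ ≤ 1 := by
          refine Finset.prod_le_one (fun c _ => Finset.sum_nonneg fun k _ => by (clear * -; positivity)) ?_
          intro c _
          exact tail_sum 1 le_rfl _ _

/-! ### Heights -/

/-- `N / (|i - j| + 1)` -/
noncomputable def qd (N : ℕ) (i j : Fin N) : ℝ := N / (|(i : ℝ) - j| + 1)

lemma sum_inv_sqrt (n : ℕ) : ∑ k ∈ Finset.range n, 1 / Real.sqrt (k + 1) ≤ 2 * Real.sqrt n := by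
  induction n with
  | zero => simp
  | succ n ih =>
    rw [Finset.sum_range_succ]
    have h1 : 0 < Real.sqrt ((n : ℝ) + 1) := Real.sqrt_pos.2 (by positivity)
    have h0 : 0 ≤ Real.sqrt (n : ℝ) := Real.sqrt_nonneg _
    have e1 : Real.sqrt ((n : ℝ) + 1) ^ 2 = n + 1 := Real.sq_sqrt (by positivity)
    have e0 : Real.sqrt (n : ℝ) ^ 2 = n := Real.sq_sqrt (by positivity)
    have key : 1 / Real.sqrt ((n : ℝ) + 1) ≤ 2 * Real.sqrt ((n : ℝ) + 1) - 2 * Real.sqrt n := by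
      rw [div_le_iff₀ h1]
      linarith only [sq_nonneg (Real.sqrt ((n : ℝ) + 1) - Real.sqrt n), e1, e0]
    push_cast
    linarith only [ih, key]

lemma sum_height (N : ℕ) (j : Fin N) (F : Finset (Fin N)) :
    ∑ i ∈ F, 1 / (4 * Real.sqrt N * Real.sqrt (|(i : ℝ) - j| + 1)) ≤ 1 := by
  classical
  have hN : 0 < N := j.pos
  have hN' : (0 : ℝ) < N := by exact_mod_cast hN
  have hs : 0 < Real.sqrt (N : ℝ) := Real.sqrt_pos.2 hN'
  have h1 : ∑ i ∈ F, 1 / Real.sqrt (|(i : ℝ) - j| + 1) ≤ 4 * Real.sqrt N := by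
    have h2 : ∑ i ∈ F, 1 / Real.sqrt (|(i : ℝ) - j| + 1) ≤
        ∑ i : Fin N, 1 / Real.sqrt (|(i : ℝ) - j| + 1) :=
      Finset.sum_le_sum_of_subset_of_nonneg (Finset.subset_univ _) fun i _ _ => by (clear * -; (clear * -; positivity))
    have h3 : ∑ i : Fin N, 1 / Real.sqrt (|(i : ℝ) - j| + 1) =
        ∑ i ∈ Finset.range N, 1 / Real.sqrt (|(i : ℝ) - j| + 1) := by
      rw [Finset.sum_range]
    have h4 : ∀ i ∈ Finset.range N, 1 / Real.sqrt (|(i : ℝ) - j| + 1) ≤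
        (if i ≤ (j : ℕ) then 1 / Real.sqrt ((((j : ℕ) - i : ℕ) : ℝ) + 1) else 0) +
        (if (j : ℕ) ≤ i then 1 / Real.sqrt (((i - (j : ℕ) : ℕ) : ℝ) + 1) else 0) := by
      intro i _
      rcases le_total i (j : ℕ) with h | h
      · rw [if_pos h]
        have : |(i : ℝ) - j| = (((j : ℕ) - i : ℕ) : ℝ) := by
          rw [Nat.cast_sub h, abs_sub_comm, abs_of_nonneg]
          have : (i : ℝ) ≤ (j : ℕ) := by exact_mod_cast h
          linarith only [this]
        rw [this]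
        have : (0 : ℝ) ≤ (if (j : ℕ) ≤ i then 1 / Real.sqrt (((i - (j : ℕ) : ℕ) : ℝ) + 1) else 0) := by
          split_ifs
          · (clear * -; (clear * -; positivity))
          · exact le_rfl
        linarith only [this]
      · rw [if_pos h]
        have : |(i : ℝ) - j| = ((i - (j : ℕ) : ℕ) : ℝ) := by
          rw [Nat.cast_sub h, abs_of_nonneg]
          have : ((j : ℕ) : ℝ) ≤ i := by exact_mod_cast h
          linarith only [this]
        rw [this]
        have : (0 : ℝ) ≤ (if i ≤ (j : ℕ) then 1 / Real.sqrt ((((j : ℕ) - i : ℕ) : ℝ) + 1) else 0) := by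
          split_ifs
          · (clear * -; (clear * -; positivity))
          · exact le_rfl
        linarith only [this]
    have h5 : ∑ i ∈ Finset.range N,
        (if i ≤ (j : ℕ) then 1 / Real.sqrt ((((j : ℕ) - i : ℕ) : ℝ) + 1) else 0) ≤
        ∑ k ∈ Finset.range N, 1 / Real.sqrt ((k : ℝ) + 1) := by
      rw [← Finset.sum_filter]
      have : ∑ i ∈ (Finset.range N).filter (fun i => i ≤ (j : ℕ)),
          1 / Real.sqrt ((((j : ℕ) - i : ℕ) : ℝ) + 1) =
          ∑ k ∈ ((Finset.range N).filter (fun i => i ≤ (j : ℕ))).image (fun i => (j : ℕ) - i),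
            1 / Real.sqrt ((k : ℝ) + 1) := by
        rw [Finset.sum_image]
        intro a ha b hb hab
        simp only [Finset.coe_filter, Finset.mem_range, Set.mem_ofPred_eq] at ha hb
        simp only at hab
        omega
      rw [this]
      refine Finset.sum_le_sum_of_subset_of_nonneg ?_ fun i _ _ => by (clear * -; (clear * -; positivity))
      intro k hk
      obtain ⟨i, hi, rfl⟩ := Finset.mem_image.1 hk
      have := j.2
      simp only [Finset.mem_range]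
      omega
    have h6 : ∑ i ∈ Finset.range N,
        (if (j : ℕ) ≤ i then 1 / Real.sqrt (((i - (j : ℕ) : ℕ) : ℝ) + 1) else 0) ≤
        ∑ k ∈ Finset.range N, 1 / Real.sqrt ((k : ℝ) + 1) := by
      rw [← Finset.sum_filter]
      have : ∑ i ∈ (Finset.range N).filter (fun i => (j : ℕ) ≤ i),
          1 / Real.sqrt (((i - (j : ℕ) : ℕ) : ℝ) + 1) =
          ∑ k ∈ ((Finset.range N).filter (fun i => (j : ℕ) ≤ i)).image (fun i => i - (j : ℕ)),
            1 / Real.sqrt ((k : ℝ) + 1) := by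
        rw [Finset.sum_image]
        intro a ha b hb hab
        simp only [Finset.coe_filter, Finset.mem_range, Set.mem_ofPred_eq] at ha hb
        simp only at hab
        omega
      rw [this]
      refine Finset.sum_le_sum_of_subset_of_nonneg ?_ fun i _ _ => by (clear * -; (clear * -; positivity))
      intro k hk
      obtain ⟨i, hi, rfl⟩ := Finset.mem_image.1 hk
      have := (Finset.mem_filter.1 hi).1
      simp only [Finset.mem_range] at this ⊢
      omega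
    have h7 := Finset.sum_le_sum h4
    rw [Finset.sum_add_distrib] at h7
    have h8 := sum_inv_sqrt N
    rw [h3] at h2
    linarith only [h2, h5, h6, h7, h8]
  have h9 : ∑ i ∈ F, 1 / (4 * Real.sqrt N * Real.sqrt (|(i : ℝ) - j| + 1)) =
      (∑ i ∈ F, 1 / Real.sqrt (|(i : ℝ) - j| + 1)) / (4 * Real.sqrt N) := by
    rw [Finset.sum_div]
    refine Finset.sum_congr rfl fun i _ => ?_
    rw [div_div, mul_comm]
  rw [h9]
  exact div_le_one_of_le₀ h1 (by positivity)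

/-- two heights with large conditional entropy are far apart on logarithmic average -/
theorem ex_log_qd (P : Law Ω) {N : ℕ} (t t' : Ω → Fin N) :
    P.ex (fun ω => Real.log (qd N (t ω) (t' ω))) ≤
      2 * (Real.log 4 + Real.log N - (P.H (fun ω => (t ω, t' ω)) - P.H t')) := by
  have hne : Nonempty Ω := by
    by_contra hcon
    rw [not_nonempty_iff] at hcon
    have := P.sum_one
    simp only [univ_eq_empty, sum_empty, zero_ne_one] at this
  have hN : (0 : ℝ) < N := by exact_mod_cast (t hne.some).pos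
  have hs : 0 < Real.sqrt (N : ℝ) := Real.sqrt_pos.2 hN
  have h := P.gibbs_cond t t' (fun i j => 1 / (4 * Real.sqrt N * Real.sqrt (|(i : ℝ) - j| + 1)))
    (fun i j => by (clear * - hN; positivity)) (fun j F => sum_height N j F)
    (fun ω _ => by
      have : 0 < Real.sqrt (|((t ω : ℕ) : ℝ) - (t' ω : ℕ)| + 1) := Real.sqrt_pos.2 (by positivity)
      (clear * - hN; positivity))
  have h2 : P.ex (fun ω => -Real.log (1 / (4 * Real.sqrt N *
      Real.sqrt (|((t ω : ℕ) : ℝ) - (t' ω : ℕ)| + 1)))) =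
      (Real.log 4 + Real.log N) - (1 / 2) * P.ex (fun ω => Real.log (qd N (t ω) (t' ω))) := by
    rw [← P.ex_const_mul, ← P.ex_const (Real.log 4 + Real.log N), ← P.ex_sub]
    refine P.ex_congr fun ω _ => ?_
    have h3 : (0 : ℝ) < |((t ω : ℕ) : ℝ) - (t' ω : ℕ)| + 1 := by (clear * -; positivity)
    rw [one_div, Real.log_inv, neg_neg, Real.log_mul (by positivity)
      (Real.sqrt_pos.2 h3).ne', Real.log_mul (by norm_num) hs.ne', Real.log_sqrt hN.le,
      Real.log_sqrt h3.le, qd, Real.log_div hN.ne' h3.ne']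
    ring
  linarith only [h, h2]

/-! ### Gluing -/

section Glue

variable {Ω₁ Ω₂ : Type} [Fintype Ω₁] [Fintype Ω₂]

/-- fibre product -/
structure GT (X₁ : Ω₁ → S) (X₂ : Ω₂ → S) : Type where
  fst : Ω₁
  snd : Ω₂
  eq : X₁ fst = X₂ snd

/-- the embedding of the fibre product in the product -/
def GT.emb (X₁ : Ω₁ → S) (X₂ : Ω₂ → S) : GT X₁ X₂ ↪ Ω₁ × Ω₂ where
  toFun p := (p.fst, p.snd)
  inj' := by
    rintro ⟨a, b, h⟩ ⟨a', b', h'⟩ hh
    simp only [Prod.mk.injEq] at hh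
    obtain ⟨rfl, rfl⟩ := hh
    rfl

noncomputable instance (X₁ : Ω₁ → S) (X₂ : Ω₂ → S) : Fintype (GT X₁ X₂) :=
  Fintype.ofInjective (GT.emb X₁ X₂) (GT.emb X₁ X₂).injective

open Classical in
lemma GT_sum (X₁ : Ω₁ → S) (X₂ : Ω₂ → S) (F : Ω₁ → Ω₂ → ℝ) :
    ∑ p : GT X₁ X₂, F p.fst p.snd = ∑ a, ∑ b with X₂ b = X₁ a, F a b := by
  have h1 : ∑ p : GT X₁ X₂, F p.fst p.snd =
      ∑ p ∈ (univ : Finset (Ω₁ × Ω₂)).filter (fun p => X₁ p.1 = X₂ p.2), F p.1 p.2 := by
    have h2 : (univ : Finset (Ω₁ × Ω₂)).filter (fun p => X₁ p.1 = X₂ p.2) =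
        (univ : Finset (GT X₁ X₂)).map (GT.emb X₁ X₂) := by
      ext p
      simp only [mem_filter, mem_univ, true_and, mem_map]
      constructor
      · intro h
        exact ⟨⟨p.1, p.2, h⟩, rfl⟩
      · rintro ⟨⟨a, b, h⟩, rfl⟩
        exact h
    rw [h2, Finset.sum_map]
    rfl
  rw [h1, Finset.sum_filter, ← Finset.univ_product_univ, Finset.sum_product]
  refine Finset.sum_congr rfl fun a _ => ?_
  rw [Finset.sum_filter]
  refine Finset.sum_congr rfl fun b _ => ?_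
  simp [eq_comm]

variable (P : Law Ω₁) (Q : Law Ω₂) (X₁ : Ω₁ → S) (X₂ : Ω₂ → S)

/-- conditionally independent gluing along a common marginal -/
noncomputable def glue (h : ∀ x, P.pr X₁ x = Q.pr X₂ x) : Law (GT X₁ X₂) where
  w p := P.w p.fst * Q.w p.snd / P.pr X₁ (X₁ p.fst)
  nn p := div_nonneg (mul_nonneg (P.nn _) (Q.nn _)) (P.pr_nonneg _ _)
  sum_one := by
    classical
    rw [GT_sum X₁ X₂ (fun a b => P.w a * Q.w b / P.pr X₁ (X₁ a)), ← P.sum_one]
    refine Finset.sum_congr rfl fun a _ => ?_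
    rcases (P.nn a).eq_or_lt with h0 | h0
    · simp only [← h0, zero_mul, zero_div, sum_const_zero]
    · have h1 := P.pr_pos X₁ h0
      rw [← Finset.sum_div, ← Finset.mul_sum]
      have : ∑ b with X₂ b = X₁ a, Q.w b = P.pr X₁ (X₁ a) := by
        rw [h, pr]
      rw [this, mul_div_assoc, div_self h1.ne', mul_one]

variable {P Q X₁ X₂}

lemma glue_ex (h : ∀ x, P.pr X₁ x = Q.pr X₂ x) (f : Ω₁ → ℝ) :
    (glue P Q X₁ X₂ h).ex (fun p => f p.fst) = P.ex f := by
  classical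
  unfold ex glue
  simp only
  rw [GT_sum X₁ X₂ (fun a b => P.w a * Q.w b / P.pr X₁ (X₁ a) * f a)]
  refine Finset.sum_congr rfl fun a _ => ?_
  rcases (P.nn a).eq_or_lt with h0 | h0
  · simp only [← h0, zero_mul, zero_div, sum_const_zero]
  · have h1 := P.pr_pos X₁ h0
    rw [← Finset.sum_mul, ← Finset.sum_div, ← Finset.mul_sum]
    have : ∑ b with X₂ b = X₁ a, Q.w b = P.pr X₁ (X₁ a) := by
      rw [h, pr]
    rw [this, mul_div_assoc, div_self h1.ne', mul_one]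

open Classical in
/-- indicator of a proposition -/
noncomputable def ind (p : Prop) : ℝ := if p then 1 else 0

lemma ind_of {p : Prop} (h : p) : ind p = 1 := by simp [ind, h]

lemma ind_not {p : Prop} (h : ¬ p) : ind p = 0 := by simp [ind, h]

lemma pr_eq_ex (P : Law Ω₁) (X : Ω₁ → S) (x : S) :
    P.pr X x = P.ex (fun ω => ind (X ω = x)) := by
  unfold pr ex
  rw [Finset.sum_filter]
  refine Finset.sum_congr rfl fun ω _ => ?_
  split_ifs with hh
  · simp only [ind_of hh, mul_one]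
  · simp only [ind_not hh, mul_zero]

lemma glue_pr (h : ∀ x, P.pr X₁ x = Q.pr X₂ x) (f : Ω₁ → T) (y : T) :
    (glue P Q X₁ X₂ h).pr (fun p => f p.fst) y = P.pr f y := by
  rw [pr_eq_ex, pr_eq_ex]
  exact glue_ex h (fun a => ind (f a = y))

/-- swap -/
def GT.swapE (X₁ : Ω₁ → S) (X₂ : Ω₂ → S) : GT X₁ X₂ ≃ GT X₂ X₁ where
  toFun p := ⟨p.snd, p.fst, p.eq.symm⟩
  invFun p := ⟨p.snd, p.fst, p.eq.symm⟩
  left_inv _ := rfl
  right_inv _ := rfl

lemma glue_ex' (h : ∀ x, P.pr X₁ x = Q.pr X₂ x) (f : Ω₂ → ℝ) :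
    (glue P Q X₁ X₂ h).ex (fun p => f p.snd) = Q.ex f := by
  rw [← glue_ex (P := Q) (Q := P) (X₁ := X₂) (X₂ := X₁) (fun x => (h x).symm) f]
  unfold ex
  refine Fintype.sum_equiv (GT.swapE X₁ X₂) _ _ fun p => ?_
  simp only [glue, GT.swapE, Equiv.coe_fn_mk]
  rw [← p.eq, ← h, mul_comm (P.w _)]

lemma glue_pr' (h : ∀ x, P.pr X₁ x = Q.pr X₂ x) (f : Ω₂ → T) (y : T) :
    (glue P Q X₁ X₂ h).pr (fun p => f p.snd) y = Q.pr f y := by
  rw [pr_eq_ex, pr_eq_ex]
  exact glue_ex' h (fun a => ind (f a = y))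

lemma glue_H (h : ∀ x, P.pr X₁ x = Q.pr X₂ x) (f : Ω₁ → T) :
    (glue P Q X₁ X₂ h).H (fun p => f p.fst) = P.H f := by
  unfold H
  simp only [glue_pr]
  exact glue_ex h (fun a => - Real.log (P.pr f (f a)))

lemma glue_H' (h : ∀ x, P.pr X₁ x = Q.pr X₂ x) (f : Ω₂ → T) :
    (glue P Q X₁ X₂ h).H (fun p => f p.snd) = Q.H f := by
  unfold H
  simp only [glue_pr']
  exact glue_ex' h (fun a => - Real.log (Q.pr f (f a)))

/-- conditional independence in a glued law -/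
theorem glue_indep (h : ∀ x, P.pr X₁ x = Q.pr X₂ x) (f : Ω₁ → T) (g : Ω₂ → U) :
    (glue P Q X₁ X₂ h).H (fun p => (f p.fst, g p.snd, X₁ p.fst)) =
      P.H (fun a => (f a, X₁ a)) + Q.H (fun b => (g b, X₂ b)) - P.H X₁ := by
  classical
  have key : ∀ y z x, (glue P Q X₁ X₂ h).pr (fun p => (f p.fst, g p.snd, X₁ p.fst)) (y, z, x) =
      P.pr (fun a => (f a, X₁ a)) (y, x) * Q.pr (fun b => (g b, X₂ b)) (z, x) / P.pr X₁ x := by
    intro y z x
    rw [pr_eq_ex]
    unfold ex glue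
    simp only
    rw [GT_sum X₁ X₂ (fun a b => P.w a * Q.w b / P.pr X₁ (X₁ a) *
      ind ((f a, g b, X₁ a) = (y, z, x)))]
    have h1 : ∀ a, ∑ b with X₂ b = X₁ a, P.w a * Q.w b / P.pr X₁ (X₁ a) *
        ind ((f a, g b, X₁ a) = (y, z, x)) =
          P.w a * ind ((f a, X₁ a) = (y, x)) *
            (Q.pr (fun b => (g b, X₂ b)) (z, x) / P.pr X₁ x) := by
      intro a
      by_cases hc : (f a, X₁ a) = (y, x)
      · rw [ind_of hc]
        simp only [Prod.mk.injEq] at hc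
        obtain ⟨rfl, rfl⟩ := hc
        rw [pr_eq_ex Q, ex, Finset.sum_div, Finset.mul_sum, Finset.sum_filter]
        refine Finset.sum_congr rfl fun b _ => ?_
        by_cases h3 : X₂ b = X₁ a
        · rw [if_pos h3]
          by_cases h4 : g b = z
          · rw [ind_of (by rw [h4]), ind_of (by rw [h3, h4])]
            ring
          · rw [ind_not (by simp [h4]), ind_not (by simp [h4])]
            ring
        · rw [if_neg h3, ind_not (by simp [h3])]
          ring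
      · rw [ind_not hc]
        rw [mul_zero, zero_mul]
        refine Finset.sum_eq_zero fun b _ => ?_
        rw [ind_not, mul_zero]
        simp only [Prod.mk.injEq, not_and] at hc ⊢
        intro h1 _ h2
        exact hc h1 h2
    simp only [h1]
    rw [← Finset.sum_mul, mul_div_assoc, pr_eq_ex P (fun a => (f a, X₁ a))]
    rfl
  unfold H
  simp only [key]
  rw [← glue_ex h (fun a => -Real.log (P.pr (fun a => (f a, X₁ a)) (f a, X₁ a))),
    ← glue_ex' h (fun b => -Real.log (Q.pr (fun b => (g b, X₂ b)) (g b, X₂ b))),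
    ← glue_ex h (fun a => -Real.log (P.pr X₁ (X₁ a))), ← ex_add, ← ex_sub]
  refine ex_congr _ fun p hp => ?_
  have hp' : 0 < P.w p.fst * Q.w p.snd / P.pr X₁ (X₁ p.fst) := hp
  have ha : 0 < P.w p.fst := by
    rcases (P.nn p.fst).eq_or_lt with h0 | h0
    · simp [← h0] at hp'
    · exact h0
  have hb : 0 < Q.w p.snd := by
    rcases (Q.nn p.snd).eq_or_lt with h0 | h0
    · simp [← h0] at hp'
    · exact h0
  have p1 := P.pr_pos (fun a => (f a, X₁ a)) ha
  have p2 := Q.pr_pos (fun b => (g b, X₂ b)) hb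
  have p3 := P.pr_pos X₁ ha
  have e := p.eq
  rw [Real.log_div _ p3.ne', Real.log_mul p1.ne' _, e]
  · ring
  · rw [e]; exact p2.ne'
  · rw [e]; exact mul_ne_zero (by rw [← e]; exact p1.ne') p2.ne'

end Glue

end Law

/-! ### Joint entropies of families -/

section FamilyList

variable {Ω : Type} {ι : Type} {T : ι → Type}

/-- nested product of the types with index in a list -/
def TT (T : ι → Type) : List ι → Type
  | [] => Unit
  | [i] => T i
  | i :: j :: l => T i × TT T (j :: l)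

/-- nested tuple of the variables with index in a list -/
def tup (Z : ∀ i, Ω → T i) : (l : List ι) → Ω → TT T l
  | [], _ => ()
  | [i], ω => Z i ω
  | i :: j :: l, ω => (Z i ω, tup Z (j :: l) ω)

lemma tup_eq_iff (Z : ∀ i, Ω → T i) : ∀ (l : List ι) (ω ω' : Ω),
    tup Z l ω = tup Z l ω' ↔ ∀ i ∈ l, Z i ω = Z i ω'
  | [], ω, ω' => ⟨fun _ i hi => absurd hi List.not_mem_nil, fun _ => rfl⟩
  | [i], ω, ω' => ⟨fun h j hj => by rw [List.mem_singleton.1 hj]; exact h,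
      fun h => h i (List.mem_singleton.2 rfl)⟩
  | i :: j :: l, ω, ω' => by
      rw [List.forall_mem_cons, ← tup_eq_iff Z (j :: l) ω ω']
      exact Prod.ext_iff (x := ((Z i ω, tup Z (j :: l) ω) : T i × TT T (j :: l)))
        (y := (Z i ω', tup Z (j :: l) ω'))

variable [Fintype Ω]

/-- joint entropy of the variables with index in a list -/
noncomputable def Law.hl (P : Law Ω) (Z : ∀ i, Ω → T i) (l : List ι) : ℝ := P.H (tup Z l)

/-- inclusion of lists, as a Boolean -/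
def lsub [DecidableEq ι] (A B : List ι) : Bool := A.all fun i => B.any fun j => decide (i = j)

lemma lsub_iff [DecidableEq ι] {A B : List ι} (h : lsub A B = true) : ∀ i ∈ A, i ∈ B := by
  intro i hi
  have h1 := List.all_eq_true.1 h i hi
  obtain ⟨j, hj, h2⟩ := List.any_eq_true.1 h1
  rw [of_decide_eq_true h2]
  exact hj

/-- variables in `B` that are functions of those in `A` -/
lemma Law.hl_det (P : Law Ω) (Z : ∀ i, Ω → T i) {A B : List ι}
    (h : ∀ ω ω', (∀ i ∈ A, Z i ω = Z i ω') → ∀ i ∈ B, Z i ω = Z i ω') :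
    P.hl Z B ≤ P.hl Z A :=
  P.H_mono fun ω ω' h1 => (tup_eq_iff Z B ω ω').2 (h ω ω' ((tup_eq_iff Z A ω ω').1 h1))

lemma Law.hl_mono [DecidableEq ι] (P : Law Ω) (Z : ∀ i, Ω → T i) {A B : List ι}
    (h : lsub A B = true) : P.hl Z A ≤ P.hl Z B :=
  P.hl_det Z fun _ _ h1 i hi => h1 i (lsub_iff h i hi)

lemma Law.hl_submod [DecidableEq ι] (P : Law Ω) (Z : ∀ i, Ω → T i) (A B D E : List ι)
    (hD : (lsub D (A ++ B) && (lsub E A && lsub E B)) = true) :
    P.hl Z D + P.hl Z E ≤ P.hl Z A + P.hl Z B := by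
  rw [Bool.and_eq_true, Bool.and_eq_true] at hD
  obtain ⟨hD, hEA, hEB⟩ := hD
  have h := P.submod (tup Z A) (tup Z B) (tup Z E)
  have h1 : P.hl Z D ≤ P.H (fun ω => (tup Z A ω, tup Z B ω, tup Z E ω)) := by
    refine P.H_mono fun ω ω' h1 => ?_
    rw [Prod.mk.injEq, Prod.mk.injEq, tup_eq_iff, tup_eq_iff] at h1
    rw [tup_eq_iff]
    intro i hi
    rcases List.mem_append.1 (lsub_iff hD i hi) with h3 | h3
    · exact h1.1 i h3
    · exact h1.2.1 i h3
  have h2 : P.H (fun ω => (tup Z A ω, tup Z E ω)) = P.hl Z A := by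
    refine P.H_congr fun ω ω' => ?_
    rw [Prod.mk.injEq, tup_eq_iff, tup_eq_iff]
    exact ⟨fun h => h.1, fun h => ⟨h, fun i hi => h i (lsub_iff hEA i hi)⟩⟩
  have h3 : P.H (fun ω => (tup Z B ω, tup Z E ω)) = P.hl Z B := by
    refine P.H_congr fun ω ω' => ?_
    rw [Prod.mk.injEq, tup_eq_iff, tup_eq_iff]
    exact ⟨fun h => h.1, fun h => ⟨h, fun i hi => h i (lsub_iff hEB i hi)⟩⟩
  have h4 : P.hl Z E = P.H (tup Z E) := rfl
  rw [h2, h3, ← h4] at h
  exact (add_le_add_left h1 _).trans h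

lemma Law.hl_assoc (P : Law Ω) {S U W : Type*} (X : Ω → S) (Y : Ω → U) (V : Ω → W) :
    P.H (fun ω => (X ω, Y ω, V ω)) = P.H (fun ω => ((X ω, Y ω), V ω)) := by
  refine P.H_congr fun ω ω' => ?_
  rw [Prod.mk.injEq, Prod.mk.injEq, Prod.mk.injEq, Prod.mk.injEq, and_assoc]

end FamilyList

end Vale.Agent.P127
end
end

section

section

/-!
# P127: discretised line families and the entropic sums-differences statement
-/

namespace Vale.Agent.P127

open Finset Law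

/-- A finite family of discretised lines `i ↦ X l + (i/N) V l` with separated slopes. -/
structure LineFam (m : ℕ) (B : ℝ) where
  N : ℕ
  hN : 1 ≤ N
  Λ : Type
  fin : Fintype Λ
  X : Λ → Fin m → ℝ
  V : Λ → Fin m → ℝ
  hX : ∀ l c, |X l c| ≤ B * N
  hV : ∀ l c, |V l c| ≤ B * N
  inj : Function.Injective (fun l => fun c => ⌊V l c⌋)

namespace LineFam

variable {m : ℕ} {B : ℝ} (F : LineFam m B)

/-- position at height `i` -/
noncomputable def pos (l : F.Λ) (i : Fin F.N) (c : Fin m) : ℝ :=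
  F.X l c + ((i : ℝ) / F.N) * F.V l c

/-- cell at height `i` -/
noncomputable def cell (l : F.Λ) (i : Fin F.N) : Fin m → ℤ := fun c => ⌊F.pos l i c⌋

lemma N_pos : (0 : ℝ) < F.N := by
  have := F.hN
  exact_mod_cast this

lemma one_le_N : (1 : ℝ) ≤ F.N := by
  exact_mod_cast F.hN

end LineFam

/-- Entropic sums-differences statement with exponent `β`:
`H(line) ≤ β H(cell | height) + C (1 + log N - H(height | line))`. -/
def SD (m : ℕ) (B β C : ℝ) : Prop :=
  ∀ (F : LineFam m B) (Ω : Type) [Fintype Ω] (P : Law Ω) (L : Ω → F.Λ) (t : Ω → Fin F.N),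
    P.H L ≤ β * (P.H (fun ω => (F.cell (L ω) (t ω), t ω)) - P.H t) +
      C * (1 + (Real.log F.N - (P.H (fun ω => (t ω, L ω)) - P.H L)))

theorem SD.cond {m : ℕ} {B β C : ℝ} (h : SD m B β C) (F : LineFam m B) {Ω : Type} [Fintype Ω]
    (P : Law Ω) (L : Ω → F.Λ) (t : Ω → Fin F.N) {U : Type*} (Z : Ω → U) :
    P.H (fun ω => (L ω, Z ω)) - P.H Z ≤
      β * (P.H (fun ω => ((F.cell (L ω) (t ω), t ω), Z ω)) - P.H (fun ω => (t ω, Z ω))) +
      C * (1 + (Real.log F.N - (P.H (fun ω => ((t ω, L ω), Z ω)) - P.H (fun ω => (L ω, Z ω))))) := by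
  have h1 := P.H_cond_eq L Z
  have h2 := P.H_cond_eq (fun ω => (F.cell (L ω) (t ω), t ω)) Z
  have h3 := P.H_cond_eq t Z
  have h4 := P.H_cond_eq (fun ω => (t ω, L ω)) Z
  have h5 : ∑ z ∈ img Z, P.pr Z z * (P.cond Z z).H L ≤
      ∑ z ∈ img Z, (β * (P.pr Z z * (P.cond Z z).H (fun ω => (F.cell (L ω) (t ω), t ω)) -
        P.pr Z z * (P.cond Z z).H t) +
      C * (P.pr Z z + (P.pr Z z * Real.log F.N - (P.pr Z z * (P.cond Z z).H (fun ω => (t ω, L ω)) -
        P.pr Z z * (P.cond Z z).H L)))) := by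
    refine Finset.sum_le_sum fun z _ => ?_
    have := mul_le_mul_of_nonneg_left (h F Ω (P.cond Z z) L t) (P.pr_nonneg Z z)
    refine this.trans (le_of_eq ?_)
    ring
  rw [Finset.sum_add_distrib, ← Finset.mul_sum, ← Finset.mul_sum, Finset.sum_sub_distrib,
    Finset.sum_add_distrib, Finset.sum_sub_distrib, Finset.sum_sub_distrib, ← Finset.sum_mul,
    P.sum_pr_image Z, one_mul, ← h1, ← h2, ← h3, ← h4] at h5
  linarith only [h5]

/-- conditional entropy of a line is controlled by any approximate knowledge of its slope -/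
theorem H_line_det {m : ℕ} {B : ℝ} (F : LineFam m B) {Ω : Type} [Fintype Ω] (P : Law Ω)
    (L : Ω → F.Λ) {T : Type*} (Y : Ω → T) (g : T → Fin m → ℝ) (R : Ω → ℝ)
    (hR : ∀ ω c, |F.V (L ω) c - g (Y ω) c| ≤ R ω) :
    P.H (fun ω => (L ω, Y ω)) - P.H Y ≤
      m * (Real.log 4 + 2 * P.ex (fun ω => Real.log (3 + R ω))) := by
  have h1 : P.H (fun ω => (L ω, Y ω)) =
      P.H (fun ω => ((fun c => ⌊F.V (L ω) c⌋), Y ω)) := by
    refine P.H_congr fun ω ω' => ?_
    simp only [Prod.mk.injEq]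
    constructor
    · rintro ⟨h1, h2⟩
      exact ⟨by rw [h1], h2⟩
    · rintro ⟨h1, h2⟩
      exact ⟨F.inj h1, h2⟩
  rw [h1]
  have h2 := P.H_det (fun ω => (fun c => ⌊F.V (L ω) c⌋)) Y g (fun ω => R ω + 1) (by
    intro ω c
    have h3 := hR ω c
    have h4 := Int.floor_le (F.V (L ω) c)
    have h5 := Int.lt_floor_add_one (F.V (L ω) c)
    rw [abs_le] at h3 ⊢
    constructor <;> linarith only [h3, h4, h5])
  refine h2.trans (le_of_eq ?_)
  congr 3
  congr 1
  ext ω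
  congr 1
  ring

/-! ### Distances of heights -/

section Heights

variable {N : ℕ}

lemma fin_diff_le (i j : Fin N) : |(i : ℝ) - j| + 1 ≤ N := by
  have hi := i.2
  have hj := j.2
  have hi' : ((i : ℕ) : ℝ) + 1 ≤ N := by exact_mod_cast hi
  have hj' : ((j : ℕ) : ℝ) + 1 ≤ N := by exact_mod_cast hj
  have hi0 : (0 : ℝ) ≤ ((i : ℕ) : ℝ) := by (clear * -; positivity)
  have hj0 : (0 : ℝ) ≤ ((j : ℕ) : ℝ) := by positivity
  have : |((i : ℕ) : ℝ) - (j : ℕ)| ≤ N - 1 := by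
    rw [abs_le]
    constructor <;> linarith only [hi', hj']
  linarith only [this]

lemma one_le_qd (i j : Fin N) : 1 ≤ qd N i j := by
  unfold qd
  rw [le_div_iff₀ (by (clear * -; positivity))]
  simpa only [one_mul] using fin_diff_le i j

lemma qd_self (i j : Fin N) (h : i = j) : qd N i j = N := by
  subst h
  simp only [qd, sub_self, abs_zero, zero_add, div_one]

lemma qd_spec (i j : Fin N) (h : i ≠ j) : (N : ℝ) ≤ 2 * qd N i j * |(i : ℝ) - j| := by
  have h1 : (1 : ℝ) ≤ |(i : ℝ) - j| := by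
    have h2 : (i : ℕ) ≠ (j : ℕ) := fun hh => h (Fin.ext hh)
    have h3 : (1 : ℤ) ≤ |((i : ℕ) : ℤ) - ((j : ℕ) : ℤ)| := by
      rw [← Int.zero_add 1]
      rw [Int.add_one_le_iff, abs_pos, sub_ne_zero]
      exact_mod_cast h2
    exact_mod_cast h3
  have hN : (0 : ℝ) ≤ N := by positivity
  unfold qd
  have h0 : (0 : ℝ) < |(i : ℝ) - j| + 1 := by (clear * - h1; positivity)
  rw [mul_assoc, div_mul_eq_mul_div, mul_div_assoc', le_div_iff₀ h0]
  nlinarith only [h1]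

end Heights

end Vale.Agent.P127
end
end

section

section

/-!
# P127: paths of three lines

`l0` and `l1` share their cell at height `t0`, `l1` and `l2` share their cell at height `t1`.
Extra heights: `a` on `l1`, `b` on `l0`, `s` and `t` on `l2`.
-/

namespace Vale.Agent.P127

open Finset Law

/-- all the properties of the path configuration that are used -/
structure IsPath {m : ℕ} {B : ℝ} (F : LineFam m B) {Ω : Type} [Fintype Ω] (P : Law Ω)
    (L0 L1 L2 : Ω → F.Λ) (t0 t1 a b s t : Ω → Fin F.N) (D W K Ht : ℝ) : Prop where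
  cp : ∀ ω, F.cell (L0 ω) (t0 ω) = F.cell (L1 ω) (t0 ω)
  cq : ∀ ω, F.cell (L2 ω) (t1 ω) = F.cell (L1 ω) (t1 ω)
  a1 : P.H (fun ω => (L0 ω, L1 ω, t0 ω, t1 ω)) = 3 * W - D - K
  a2 : P.H (fun ω => (L1 ω, L2 ω, t0 ω, t1 ω, s ω)) = 4 * W - 2 * D - K
  a3 : P.H (fun ω => (L0 ω, L1 ω, L2 ω, t0 ω, t1 ω, s ω)) = 5 * W - 2 * D - 2 * K
  a4 : P.H (fun ω => (L0 ω, L1 ω, L2 ω, t0 ω, t1 ω, s ω, t ω)) = 6 * W - 3 * D - 2 * K
  a5 : P.H (fun ω => (L0 ω, L1 ω, L2 ω, t0 ω, t1 ω, s ω, t ω, a ω)) = 7 * W - 4 * D - 2 * K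
  a6 : P.H (fun ω => (L0 ω, L1 ω, L2 ω, t0 ω, t1 ω, s ω, t ω, a ω, b ω)) =
    8 * W - 5 * D - 2 * K
  a9 : P.H (fun ω => (L1 ω, t0 ω, t1 ω)) = 2 * W - D
  a9' : P.H (fun ω => (L1 ω, t1 ω)) = W
  ma : P.H a = Ht
  mb : P.H b = Ht
  mt : P.H t = Ht
  ms : P.H s = Ht
  mxa : P.H (fun ω => (F.cell (L1 ω) (a ω), a ω)) = K
  mxb : P.H (fun ω => (F.cell (L0 ω) (b ω), b ω)) = K
  mxt : P.H (fun ω => (F.cell (L2 ω) (t ω), t ω)) = K
  mxs : P.H (fun ω => (F.cell (L2 ω) (s ω), s ω)) = K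
  a8 : P.H (fun ω => (F.cell (L1 ω) (a ω), F.cell (L0 ω) (b ω), a ω, b ω, t0 ω)) -
      P.H (fun ω => (a ω, b ω, t0 ω)) =
    P.H (fun ω => (F.cell (L1 ω) (t0 ω), F.cell (L2 ω) (s ω), t0 ω, s ω, t1 ω)) -
      P.H (fun ω => (t0 ω, s ω, t1 ω))

section Construction

variable {m : ℕ} {B : ℝ} (F : LineFam m B) {Ω : Type} [Fintype Ω] (P : Law Ω)
    (L : Ω → F.Λ) (t : Ω → Fin F.N)

/-- two heights on the same line -/
noncomputable def E2 : Law (GT L L) := glue P P L L (fun _ => rfl)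

/-- height and cell of the first point -/
noncomputable def X2 (u : GT L L) : Fin F.N × (Fin m → ℤ) := (t u.fst, F.cell (L u.fst) (t u.fst))

/-- two lines sharing a cell, with an extra height on each of them -/
noncomputable def V2 : Law (GT (X2 F L t) (X2 F L t)) :=
  glue (E2 F P L) (E2 F P L) (X2 F L t) (X2 F L t) (fun _ => rfl)

noncomputable def XA (v : GT (X2 F L t) (X2 F L t)) : Fin F.N × F.Λ := (t v.fst.fst, L v.fst.fst)

noncomputable def XB (v : GT (X2 F L t) (X2 F L t)) : Fin F.N × F.Λ := (t v.fst.snd, L v.fst.snd)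

lemma pr_XA (x : Fin F.N × F.Λ) : (V2 F P L t).pr (XA F L t) x =
    P.pr (fun ω => (t ω, L ω)) x := by
  have h1 : (V2 F P L t).pr (XA F L t) x =
      (E2 F P L).pr (fun u => (t u.fst, L u.fst)) x :=
    glue_pr (P := E2 F P L) (Q := E2 F P L) _ (fun u => (t u.fst, L u.fst)) x
  rw [h1]
  exact glue_pr (P := P) (Q := P) _ (fun ω => (t ω, L ω)) x

lemma pr_XB (x : Fin F.N × F.Λ) : (V2 F P L t).pr (XB F L t) x =
    P.pr (fun ω => (t ω, L ω)) x := by
  have h1 : (V2 F P L t).pr (XB F L t) x =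
      (E2 F P L).pr (fun u => (t u.snd, L u.snd)) x :=
    glue_pr (P := E2 F P L) (Q := E2 F P L) _ (fun u => (t u.snd, L u.snd)) x
  rw [h1]
  exact glue_pr' (P := P) (Q := P) _ (fun ω => (t ω, L ω)) x

/-- the path of three lines -/
noncomputable def Q3 : Law (GT (XA F L t) (XB F L t)) :=
  glue (V2 F P L t) (V2 F P L t) (XA F L t) (XB F L t)
    (fun x => (pr_XA F P L t x).trans (pr_XB F P L t x).symm)

noncomputable def XC (q : GT (XA F L t) (XB F L t)) : F.Λ := L q.snd.snd.fst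

lemma pr_XC (x : F.Λ) : (Q3 F P L t).pr (XC F L t) x = P.pr L x := by
  have h1 : (Q3 F P L t).pr (XC F L t) x = (V2 F P L t).pr (fun v => L v.snd.fst) x :=
    glue_pr' (P := V2 F P L t) (Q := V2 F P L t) _ (fun v => L v.snd.fst) x
  have h2 : (V2 F P L t).pr (fun v => L v.snd.fst) x = (E2 F P L).pr (fun u => L u.fst) x :=
    glue_pr' (P := E2 F P L) (Q := E2 F P L) _ (fun u => L u.fst) x
  rw [h1, h2]
  exact glue_pr (P := P) (Q := P) _ L x

/-- the path of three lines, with one more height on the last line -/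
noncomputable def P3 : Law (GT (XC F L t) L) :=
  glue (Q3 F P L t) P (XC F L t) L (fun x => pr_XC F P L t x)

/-! #### entropies at the first level -/

lemma E2_one : (E2 F P L).H (fun u => (t u.fst, L u.fst)) = P.H (fun ω => (t ω, L ω)) :=
  glue_H (P := P) (Q := P) _ (fun ω => (t ω, L ω))

lemma E2_X2 : (E2 F P L).H (X2 F L t) = P.H (fun ω => (F.cell (L ω) (t ω), t ω)) := by
  rw [← glue_H (P := P) (Q := P) (X₁ := L) (X₂ := L) (fun _ => rfl)
    (fun ω => (F.cell (L ω) (t ω), t ω))]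
  refine Law.H_congr _ fun u u' => ?_
  simp only [X2, Prod.mk.injEq]
  (clear * -; tauto)

lemma E2_two : (E2 F P L).H (fun u => (t u.fst, t u.snd, L u.fst)) =
    2 * P.H (fun ω => (t ω, L ω)) - P.H L := by
  have := glue_indep (P := P) (Q := P) (X₁ := L) (X₂ := L) (fun _ => rfl) t t
  rw [two_mul]
  exact this

lemma E2_L : (E2 F P L).H (fun u => L u.fst) = P.H L :=
  glue_H (P := P) (Q := P) _ L

/-! #### entropies at the second level -/

/-- both lines -/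
lemma V2_LL : (V2 F P L t).H (fun v => (L v.snd.fst, XA F L t v)) =
    2 * P.H (fun ω => (t ω, L ω)) - P.H (fun ω => (F.cell (L ω) (t ω), t ω)) := by
  have h := glue_indep (P := E2 F P L) (Q := E2 F P L) (X₁ := X2 F L t) (X₂ := X2 F L t)
    (fun _ => rfl) (fun u => L u.fst) (fun u => L u.fst)
  have h1 : (V2 F P L t).H (fun v => (L v.snd.fst, XA F L t v)) =
      (V2 F P L t).H (fun v => (L v.fst.fst, L v.snd.fst, X2 F L t v.fst)) := by
    refine Law.H_congr _ fun v v' => ?_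
    simp only [XA, Prod.mk.injEq, X2]
    constructor
    · rintro ⟨h1, h2, h3⟩
      rw [h1, h2, h3]
      exact ⟨rfl, rfl, rfl, rfl⟩
    · rintro ⟨h1, h2, h3, h4⟩
      exact ⟨h2, h3, h1⟩
  have h2 : (E2 F P L).H (fun u => (L u.fst, X2 F L t u)) = P.H (fun ω => (t ω, L ω)) := by
    rw [← E2_one]
    refine Law.H_congr _ fun u u' => ?_
    simp only [X2, Prod.mk.injEq]
    constructor
    · rintro ⟨h1, h2, _⟩
      exact ⟨h2, h1⟩
    · rintro ⟨h1, h2⟩
      rw [h1, h2]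
      exact ⟨rfl, rfl, rfl⟩
  rw [h1]
  refine h.trans ?_
  rw [h2, E2_X2]
  ring

lemma E2_two' : (E2 F P L).H (fun u => ((L u.fst, t u.snd), X2 F L t u)) =
    2 * P.H (fun ω => (t ω, L ω)) - P.H L := by
  rw [← E2_two]
  refine Law.H_congr _ fun u u' => ?_
  simp only [X2, Prod.mk.injEq]
  constructor
  · rintro ⟨⟨h1, h2⟩, h3, _⟩
    exact ⟨h3, h2, h1⟩
  · rintro ⟨h1, h2, h3⟩
    rw [h1, h2, h3]
    exact ⟨⟨rfl, rfl⟩, rfl, rfl⟩

lemma E2_one' : (E2 F P L).H (fun u => (L u.fst, X2 F L t u)) = P.H (fun ω => (t ω, L ω)) := by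
  rw [← E2_one]
  refine Law.H_congr _ fun u u' => ?_
  simp only [X2, Prod.mk.injEq]
  constructor
  · rintro ⟨h1, h2, _⟩
    exact ⟨h2, h1⟩
  · rintro ⟨h1, h2⟩
    rw [h1, h2]
    exact ⟨rfl, rfl, rfl⟩

/-- both lines, extra height on the first one -/
lemma V2_LLa : (V2 F P L t).H (fun v => ((L v.snd.fst, t v.fst.snd), XA F L t v)) =
    3 * P.H (fun ω => (t ω, L ω)) - P.H L - P.H (fun ω => (F.cell (L ω) (t ω), t ω)) := by
  have h := glue_indep (P := E2 F P L) (Q := E2 F P L) (X₁ := X2 F L t) (X₂ := X2 F L t)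
    (fun _ => rfl) (fun u => (L u.fst, t u.snd)) (fun u => L u.fst)
  have h1 : (V2 F P L t).H (fun v => ((L v.snd.fst, t v.fst.snd), XA F L t v)) =
      (V2 F P L t).H (fun v => ((L v.fst.fst, t v.fst.snd), L v.snd.fst, X2 F L t v.fst)) := by
    refine Law.H_congr _ fun v v' => ?_
    simp only [XA, X2, Prod.mk.injEq]
    constructor
    · rintro ⟨⟨h1, h4⟩, h2, h3⟩
      rw [h1, h2, h3, h4]
      exact ⟨⟨rfl, rfl⟩, rfl, rfl, rfl⟩
    · rintro ⟨⟨h1, h5⟩, h2, h3, h4⟩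
      exact ⟨⟨h2, h5⟩, h3, h1⟩
  rw [h1]
  refine h.trans ?_
  rw [E2_two', E2_one', E2_X2]
  ring

/-- both lines, extra heights on both -/
lemma V2_LLab : (V2 F P L t).H
      (fun v => ((L v.snd.fst, t v.fst.snd, t v.snd.snd), XA F L t v)) =
    4 * P.H (fun ω => (t ω, L ω)) - 2 * P.H L -
      P.H (fun ω => (F.cell (L ω) (t ω), t ω)) := by
  have h := glue_indep (P := E2 F P L) (Q := E2 F P L) (X₁ := X2 F L t) (X₂ := X2 F L t)
    (fun _ => rfl) (fun u => (L u.fst, t u.snd)) (fun u => (L u.fst, t u.snd))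
  have h1 : (V2 F P L t).H (fun v => ((L v.snd.fst, t v.fst.snd, t v.snd.snd), XA F L t v)) =
      (V2 F P L t).H (fun v => ((L v.fst.fst, t v.fst.snd), (L v.snd.fst, t v.snd.snd),
        X2 F L t v.fst)) := by
    refine Law.H_congr _ fun v v' => ?_
    simp only [XA, X2, Prod.mk.injEq]
    constructor
    · rintro ⟨⟨h1, h4, h5⟩, h2, h3⟩
      rw [h1, h2, h3, h4, h5]
      exact ⟨⟨rfl, rfl⟩, ⟨rfl, rfl⟩, rfl, rfl⟩
    · rintro ⟨⟨h1, h5⟩, ⟨h2, h6⟩, h3, h4⟩
      exact ⟨⟨h2, h5, h6⟩, h3, h1⟩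
  rw [h1]
  refine h.trans ?_
  rw [E2_two', E2_X2]
  ring

/-- the second part of the path -/
lemma V2_B : (V2 F P L t).H (fun v => ((t v.fst.fst, L v.snd.fst, t v.snd.snd), XB F L t v)) =
    4 * P.H (fun ω => (t ω, L ω)) - 2 * P.H L -
      P.H (fun ω => (F.cell (L ω) (t ω), t ω)) := by
  rw [← V2_LLab]
  refine Law.H_congr _ fun v v' => ?_
  simp only [XA, XB, Prod.mk.injEq, v.fst.eq, v'.fst.eq]
  tauto

lemma V2_B1 : (V2 F P L t).H (fun v => (t v.fst.fst, XB F L t v)) =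
    2 * P.H (fun ω => (t ω, L ω)) - P.H L := by
  rw [← E2_two F P L t]
  have h1 : (V2 F P L t).H (fun v => (t v.fst.fst, XB F L t v)) =
      (V2 F P L t).H (fun v => (t v.fst.fst, t v.fst.snd, L v.fst.fst)) := by
    refine Law.H_congr _ fun v v' => ?_
    simp only [XB, Prod.mk.injEq, v.fst.eq, v'.fst.eq]
  rw [h1]
  exact glue_H (P := E2 F P L) (Q := E2 F P L) _ (fun u => (t u.fst, t u.snd, L u.fst))

lemma V2_XA : (V2 F P L t).H (XA F L t) = P.H (fun ω => (t ω, L ω)) := by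
  rw [← E2_one F P L t]
  exact glue_H (P := E2 F P L) (Q := E2 F P L) _ (fun u => (t u.fst, L u.fst))

/-! #### entropies at the third level -/

/-- generic independence formula for the path -/
lemma Q3_indep {T U : Type*} (f : GT (X2 F L t) (X2 F L t) → T)
    (g : GT (X2 F L t) (X2 F L t) → U) :
    (Q3 F P L t).H (fun q => (f q.fst, g q.snd, XA F L t q.fst)) =
      (V2 F P L t).H (fun v => (f v, XA F L t v)) + (V2 F P L t).H (fun v => (g v, XB F L t v)) -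
        P.H (fun ω => (t ω, L ω)) := by
  rw [← V2_XA F P L t]
  exact glue_indep (P := V2 F P L t) (Q := V2 F P L t) (X₁ := XA F L t) (X₂ := XB F L t)
    (fun x => (pr_XA F P L t x).trans (pr_XB F P L t x).symm) f g

lemma P3_indep {T : Type*} (f : GT (XA F L t) (XB F L t) → T) :
    (P3 F P L t).H (fun x => (f x.fst, t x.snd, XC F L t x.fst)) =
      (Q3 F P L t).H (fun q => (f q, XC F L t q)) + P.H (fun ω => (t ω, L ω)) - P.H L := by
  have h := glue_indep (P := Q3 F P L t) (Q := P) (X₁ := XC F L t) (X₂ := L)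
    (fun x => pr_XC F P L t x) f t
  have h1 : (Q3 F P L t).H (XC F L t) = P.H L := by
    have h2 : (Q3 F P L t).H (XC F L t) = (V2 F P L t).H (fun v => L v.snd.fst) :=
      glue_H' (P := V2 F P L t) (Q := V2 F P L t) _ (fun v => L v.snd.fst)
    have h3 : (V2 F P L t).H (fun v => L v.snd.fst) = (E2 F P L).H (fun u => L u.fst) :=
      glue_H' (P := E2 F P L) (Q := E2 F P L) _ (fun u => L u.fst)
    rw [h2, h3, E2_L]
  rw [h1] at h
  exact h

/-! #### the final statement -/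

theorem isPath : IsPath F (P3 F P L t)
    (fun x => L x.fst.fst.snd.fst) (fun x => L x.fst.fst.fst.fst) (fun x => L x.fst.snd.snd.fst)
    (fun x => t x.fst.fst.fst.fst) (fun x => t x.fst.snd.fst.fst) (fun x => t x.fst.fst.fst.snd)
    (fun x => t x.fst.fst.snd.snd) (fun x => t x.fst.snd.snd.snd) (fun x => t x.snd)
    (P.H L) (P.H (fun ω => (t ω, L ω))) (P.H (fun ω => (F.cell (L ω) (t ω), t ω))) (P.H t) := by
  -- relations
  have r1 : ∀ v : GT (X2 F L t) (X2 F L t), L v.fst.fst = L v.fst.snd := fun v => v.fst.eq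
  have r2 : ∀ v : GT (X2 F L t) (X2 F L t), L v.snd.fst = L v.snd.snd := fun v => v.snd.eq
  have r3 : ∀ v : GT (X2 F L t) (X2 F L t), t v.fst.fst = t v.snd.fst ∧
      F.cell (L v.fst.fst) (t v.fst.fst) = F.cell (L v.snd.fst) (t v.snd.fst) := fun v => by
    simpa [X2, Prod.mk.injEq] using v.eq
  have r4 : ∀ q : GT (XA F L t) (XB F L t), t q.fst.fst.fst = t q.snd.fst.snd ∧
      L q.fst.fst.fst = L q.snd.fst.snd := fun q => by
    simpa [XA, XB, Prod.mk.injEq] using q.eq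
  have r5 : ∀ x : GT (XC F L t) L, L x.fst.snd.snd.fst = L x.snd := fun x => x.eq
  have r6 : ∀ q : GT (XA F L t) (XB F L t), L q.snd.fst.fst = L q.fst.fst.fst := fun q => by
    rw [(r4 q).2, r1 q.snd]
  -- lifting
  have lift : ∀ {T : Type} (f : GT (XA F L t) (XB F L t) → T),
      (P3 F P L t).H (fun x => f x.fst) = (Q3 F P L t).H f := fun f =>
    glue_H (P := Q3 F P L t) (Q := P) _ f
  have liftA : ∀ {T : Type} (f : GT (X2 F L t) (X2 F L t) → T),
      (P3 F P L t).H (fun x => f x.fst.fst) = (V2 F P L t).H f := fun f => by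
    refine (lift (fun q => f q.fst)).trans ?_
    exact glue_H (P := V2 F P L t) (Q := V2 F P L t) _ f
  have liftB : ∀ {T : Type} (f : GT (X2 F L t) (X2 F L t) → T),
      (P3 F P L t).H (fun x => f x.fst.snd) = (V2 F P L t).H f := fun f => by
    refine (lift (fun q => f q.snd)).trans ?_
    exact glue_H' (P := V2 F P L t) (Q := V2 F P L t) _ f
  have liftAA : ∀ {T : Type} (f : GT L L → T),
      (V2 F P L t).H (fun v => f v.fst) = (E2 F P L).H f := fun f =>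
    glue_H (P := E2 F P L) (Q := E2 F P L) _ f
  have liftAB : ∀ {T : Type} (f : GT L L → T),
      (V2 F P L t).H (fun v => f v.snd) = (E2 F P L).H f := fun f =>
    glue_H' (P := E2 F P L) (Q := E2 F P L) _ f
  have lift1 : ∀ {T : Type} (f : Ω → T), (E2 F P L).H (fun u => f u.fst) = P.H f := fun f =>
    glue_H (P := P) (Q := P) _ f
  have lift2 : ∀ {T : Type} (f : Ω → T), (E2 F P L).H (fun u => f u.snd) = P.H f := fun f =>
    glue_H' (P := P) (Q := P) _ f
  have q3 : (Q3 F P L t).H (fun q => ((L q.fst.snd.fst, L q.fst.fst.fst, t q.fst.fst.fst,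
      t q.snd.fst.fst, t q.snd.snd.snd), XC F L t q)) =
      5 * P.H (fun ω => (t ω, L ω)) - 2 * P.H L -
        2 * P.H (fun ω => (F.cell (L ω) (t ω), t ω)) := by
    have h := Q3_indep F P L t (fun v => L v.snd.fst) (fun v => (t v.fst.fst, L v.snd.fst, t v.snd.snd))
    rw [V2_LL, V2_B] at h
    have h2 : (Q3 F P L t).H (fun q => ((L q.fst.snd.fst, L q.fst.fst.fst, t q.fst.fst.fst,
        t q.snd.fst.fst, t q.snd.snd.snd), XC F L t q)) =
        (Q3 F P L t).H (fun q => (L q.fst.snd.fst,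
        (t q.snd.fst.fst, L q.snd.snd.fst, t q.snd.snd.snd), XA F L t q.fst)) := by
      refine Law.H_congr _ fun q q' => ?_
      simp only [XA, XC, Prod.mk.injEq]
      (clear * -; tauto)
    rw [h2, h]
    ring
  have q4 : (Q3 F P L t).H (fun q => ((L q.fst.snd.fst, L q.fst.fst.fst, t q.fst.fst.fst,
      t q.snd.fst.fst, t q.snd.snd.snd, t q.fst.fst.snd), XC F L t q)) =
      6 * P.H (fun ω => (t ω, L ω)) - 3 * P.H L -
        2 * P.H (fun ω => (F.cell (L ω) (t ω), t ω)) := by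
    have h := Q3_indep F P L t (fun v => (L v.snd.fst, t v.fst.snd))
      (fun v => (t v.fst.fst, L v.snd.fst, t v.snd.snd))
    rw [V2_LLa, V2_B] at h
    have h2 : (Q3 F P L t).H (fun q => ((L q.fst.snd.fst, L q.fst.fst.fst, t q.fst.fst.fst,
        t q.snd.fst.fst, t q.snd.snd.snd, t q.fst.fst.snd), XC F L t q)) =
        (Q3 F P L t).H (fun q => ((L q.fst.snd.fst, t q.fst.fst.snd),
        (t q.snd.fst.fst, L q.snd.snd.fst, t q.snd.snd.snd), XA F L t q.fst)) := by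
      refine Law.H_congr _ fun q q' => ?_
      simp only [XA, XC, Prod.mk.injEq]
      (clear * -; tauto)
    rw [h2, h]
    ring
  have q5 : (Q3 F P L t).H (fun q => ((L q.fst.snd.fst, L q.fst.fst.fst, t q.fst.fst.fst,
      t q.snd.fst.fst, t q.snd.snd.snd, t q.fst.fst.snd, t q.fst.snd.snd), XC F L t q)) =
      7 * P.H (fun ω => (t ω, L ω)) - 4 * P.H L -
        2 * P.H (fun ω => (F.cell (L ω) (t ω), t ω)) := by
    have h := Q3_indep F P L t (fun v => (L v.snd.fst, t v.fst.snd, t v.snd.snd))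
      (fun v => (t v.fst.fst, L v.snd.fst, t v.snd.snd))
    rw [V2_LLab, V2_B] at h
    have h2 : (Q3 F P L t).H (fun q => ((L q.fst.snd.fst, L q.fst.fst.fst, t q.fst.fst.fst,
        t q.snd.fst.fst, t q.snd.snd.snd, t q.fst.fst.snd, t q.fst.snd.snd), XC F L t q)) =
        (Q3 F P L t).H (fun q => ((L q.fst.snd.fst, t q.fst.fst.snd, t q.fst.snd.snd),
        (t q.snd.fst.fst, L q.snd.snd.fst, t q.snd.snd.snd), XA F L t q.fst)) := by
      refine Law.H_congr _ fun q q' => ?_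
      simp only [XA, XC, Prod.mk.injEq]
      (clear * -; tauto)
    rw [h2, h]
    ring
  refine
    { cp := fun x => ?_
      cq := fun x => ?_
      a1 := ?_
      a2 := ?_
      a3 := ?_
      a4 := ?_
      a5 := ?_
      a6 := ?_
      a9 := ?_
      a9' := ?_
      ma := ?_
      mb := ?_
      mt := ?_
      ms := ?_
      mxa := ?_
      mxb := ?_
      mxt := ?_
      mxs := ?_
      a8 := ?_ }
  · -- cp
    have h := r3 x.fst.fst
    rw [h.2, ← h.1]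
  · -- cq
    have h := r3 x.fst.snd
    rw [← r6 x.fst, h.2, ← h.1]
  · -- a1
    have h := Q3_indep F P L t (fun v => L v.snd.fst) (fun v => t v.fst.fst)
    rw [V2_LL, V2_B1] at h
    have h1 := lift (fun q => (L q.fst.snd.fst, L q.fst.fst.fst, t q.fst.fst.fst, t q.snd.fst.fst))
    have h2 : (Q3 F P L t).H (fun q => (L q.fst.snd.fst, L q.fst.fst.fst, t q.fst.fst.fst,
        t q.snd.fst.fst)) =
        (Q3 F P L t).H (fun q => (L q.fst.snd.fst, t q.snd.fst.fst, XA F L t q.fst)) := by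
      refine Law.H_congr _ fun q q' => ?_
      simp only [XA, Prod.mk.injEq]
      (clear * -; (clear * -; tauto))
    refine h1.trans (h2.trans (h.trans ?_))
    ring
  · -- a2
    have h1 := liftB (fun v => ((t v.fst.fst, L v.snd.fst, t v.snd.snd), XB F L t v))
    rw [V2_B] at h1
    rw [← h1]
    refine Law.H_congr _ fun x x' => ?_
    simp only [XB, Prod.mk.injEq]
    rw [(r4 x.fst).1, (r4 x'.fst).1, (r4 x.fst).2, (r4 x'.fst).2]
    (clear * -; tauto)
  · -- a3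
    rw [← q3]
    have h1 := lift (fun q => ((L q.fst.snd.fst, L q.fst.fst.fst, t q.fst.fst.fst,
      t q.snd.fst.fst, t q.snd.snd.snd), XC F L t q))
    rw [← h1]
    refine Law.H_congr _ fun x x' => ?_
    simp only [XC, Prod.mk.injEq]
    (clear * -; tauto)
  · -- a4
    have h := P3_indep F P L t (fun q => (L q.fst.snd.fst, L q.fst.fst.fst, t q.fst.fst.fst,
      t q.snd.fst.fst, t q.snd.snd.snd))
    rw [q3] at h
    have h2 : (6 * P.H (fun ω => (t ω, L ω)) - 3 * P.H L -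
        2 * P.H (fun ω => (F.cell (L ω) (t ω), t ω))) =
        5 * P.H (fun ω => (t ω, L ω)) - 2 * P.H L -
        2 * P.H (fun ω => (F.cell (L ω) (t ω), t ω)) + P.H (fun ω => (t ω, L ω)) - P.H L := by ring
    rw [h2, ← h]
    refine Law.H_congr _ fun x x' => ?_
    simp only [XC, Prod.mk.injEq]
    (clear * -; tauto)
  · -- a5
    have h := P3_indep F P L t (fun q => (L q.fst.snd.fst, L q.fst.fst.fst, t q.fst.fst.fst,
      t q.snd.fst.fst, t q.snd.snd.snd, t q.fst.fst.snd))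
    rw [q4] at h
    have h2 : (7 * P.H (fun ω => (t ω, L ω)) - 4 * P.H L -
        2 * P.H (fun ω => (F.cell (L ω) (t ω), t ω))) =
        6 * P.H (fun ω => (t ω, L ω)) - 3 * P.H L -
        2 * P.H (fun ω => (F.cell (L ω) (t ω), t ω)) + P.H (fun ω => (t ω, L ω)) - P.H L := by ring
    rw [h2, ← h]
    refine Law.H_congr _ fun x x' => ?_
    simp only [XC, Prod.mk.injEq]
    (clear * -; tauto)
  · -- a6
    have h := P3_indep F P L t (fun q => (L q.fst.snd.fst, L q.fst.fst.fst, t q.fst.fst.fst,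
      t q.snd.fst.fst, t q.snd.snd.snd, t q.fst.fst.snd, t q.fst.snd.snd))
    rw [q5] at h
    have h2 : (8 * P.H (fun ω => (t ω, L ω)) - 5 * P.H L -
        2 * P.H (fun ω => (F.cell (L ω) (t ω), t ω))) =
        7 * P.H (fun ω => (t ω, L ω)) - 4 * P.H L -
        2 * P.H (fun ω => (F.cell (L ω) (t ω), t ω)) + P.H (fun ω => (t ω, L ω)) - P.H L := by ring
    rw [h2, ← h]
    refine Law.H_congr _ fun x x' => ?_
    simp only [XC, Prod.mk.injEq]
    (clear * -; tauto)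
  · -- a9
    have h1 := liftB (fun v => (t v.fst.fst, XB F L t v))
    rw [V2_B1] at h1
    rw [← h1]
    refine Law.H_congr _ fun x x' => ?_
    simp only [XB, Prod.mk.injEq]
    rw [(r4 x.fst).1, (r4 x'.fst).1, (r4 x.fst).2, (r4 x'.fst).2]
    (clear * -; tauto)
  · -- a9'
    have h1 := liftB (fun v => (t v.fst.fst, L v.fst.fst))
    rw [liftAA (fun u => (t u.fst, L u.fst)), lift1 (fun ω => (t ω, L ω))] at h1
    rw [← h1]
    refine Law.H_congr _ fun x x' => ?_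
    simp only [Prod.mk.injEq]
    rw [r6 x.fst, r6 x'.fst]
    (clear * -; tauto)
  · -- ma
    exact (liftA (fun v => t v.fst.snd)).trans ((liftAA (fun u => t u.snd)).trans (lift2 t))
  · -- mb
    exact (liftA (fun v => t v.snd.snd)).trans ((liftAB (fun u => t u.snd)).trans (lift2 t))
  · -- mt
    exact glue_H' (P := Q3 F P L t) (Q := P) _ t
  · -- ms
    exact (liftB (fun v => t v.snd.snd)).trans ((liftAB (fun u => t u.snd)).trans (lift2 t))
  · -- mxa
    have h1 := (liftA (fun v => (F.cell (L v.fst.snd) (t v.fst.snd), t v.fst.snd))).trans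
      ((liftAA (fun u => (F.cell (L u.snd) (t u.snd), t u.snd))).trans
        (lift2 (fun ω => (F.cell (L ω) (t ω), t ω))))
    rw [← h1]
    refine Law.H_congr _ fun x x' => ?_
    rw [r1 x.fst.fst, r1 x'.fst.fst]
  · -- mxb
    have h1 := (liftA (fun v => (F.cell (L v.snd.snd) (t v.snd.snd), t v.snd.snd))).trans
      ((liftAB (fun u => (F.cell (L u.snd) (t u.snd), t u.snd))).trans
        (lift2 (fun ω => (F.cell (L ω) (t ω), t ω))))
    rw [← h1]
    refine Law.H_congr _ fun x x' => ?_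
    rw [r2 x.fst.fst, r2 x'.fst.fst]
  · -- mxt
    have h1 := glue_H' (P := Q3 F P L t) (Q := P) (X₁ := XC F L t) (X₂ := L)
      (fun x => pr_XC F P L t x) (fun ω => (F.cell (L ω) (t ω), t ω))
    rw [← h1]
    refine Law.H_congr _ fun x x' => ?_
    rw [r5 x, r5 x']
  · -- mxs
    have h1 := (liftB (fun v => (F.cell (L v.snd.snd) (t v.snd.snd), t v.snd.snd))).trans
      ((liftAB (fun u => (F.cell (L u.snd) (t u.snd), t u.snd))).trans
        (lift2 (fun ω => (F.cell (L ω) (t ω), t ω))))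
    rw [← h1]
    refine Law.H_congr _ fun x x' => ?_
    rw [r2 x.fst.snd, r2 x'.fst.snd]
  · -- a8
    have h1 := liftA (fun v => (F.cell (L v.fst.fst) (t v.fst.snd),
      F.cell (L v.snd.fst) (t v.snd.snd), t v.fst.snd, t v.snd.snd, t v.fst.fst))
    have h2 := liftA (fun v => (t v.fst.snd, t v.snd.snd, t v.fst.fst))
    have h3 := liftB (fun v => (F.cell (L v.fst.fst) (t v.fst.snd),
      F.cell (L v.snd.fst) (t v.snd.snd), t v.fst.snd, t v.snd.snd, t v.fst.fst))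
    have h4 := liftB (fun v => (t v.fst.snd, t v.snd.snd, t v.fst.fst))
    have h5 : (P3 F P L t).H (fun x => (F.cell (L x.fst.snd.fst.fst) (t x.fst.snd.fst.snd),
      F.cell (L x.fst.snd.snd.fst) (t x.fst.snd.snd.snd), t x.fst.snd.fst.snd,
      t x.fst.snd.snd.snd, t x.fst.snd.fst.fst)) =
      (P3 F P L t).H (fun x => (F.cell (L x.fst.fst.fst.fst) (t x.fst.fst.fst.fst),
      F.cell (L x.fst.snd.snd.fst) (t x.fst.snd.snd.snd), t x.fst.fst.fst.fst,
      t x.fst.snd.snd.snd, t x.fst.snd.fst.fst)) := by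
      refine Law.H_congr _ fun x x' => ?_
      simp only [Prod.mk.injEq]
      rw [(r4 x.fst).1, (r4 x'.fst).1, r6 x.fst, r6 x'.fst]
    have h6 : (P3 F P L t).H (fun x => (t x.fst.snd.fst.snd,
      t x.fst.snd.snd.snd, t x.fst.snd.fst.fst)) =
      (P3 F P L t).H (fun x => (t x.fst.fst.fst.fst,
      t x.fst.snd.snd.snd, t x.fst.snd.fst.fst)) := by
      refine Law.H_congr _ fun x x' => ?_
      simp only [Prod.mk.injEq]
      rw [(r4 x.fst).1, (r4 x'.fst).1]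
    rw [← h5, ← h6, h1, h2, h3, h4]

end Construction

end Vale.Agent.P127
end
end

section

section

/-!
# P127: pointwise estimates for the height parameters
-/

namespace Vale.Agent.P127

open Finset Law

/-- rounding away from zero -/
noncomputable def rnd (z : ℝ) : ℤ := if 0 ≤ z then ⌊z⌋ + 1 else ⌊z⌋

lemma rnd_sub (z : ℝ) : |(rnd z : ℝ) - z| ≤ 1 := by
  unfold rnd
  have h1 := Int.floor_le z
  have h2 := Int.lt_floor_add_one z
  split_ifs
  · push_cast
    rw [abs_le]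
    constructor <;> linarith only [h1, h2]
  · rw [abs_le]
    constructor <;> linarith

lemma rnd_abs (z : ℝ) : |z| ≤ |(rnd z : ℝ)| := by
  unfold rnd
  have h1 := Int.floor_le z
  have h2 := Int.lt_floor_add_one z
  split_ifs with h
  · push_cast
    rw [abs_of_nonneg h, abs_of_nonneg (by linarith)]
    linarith only [h2]
  · push Not at h
    rw [abs_of_neg h, abs_of_neg (by linarith)]
    linarith only [h1]

lemma rnd_one (z : ℝ) : 1 ≤ |(rnd z : ℝ)| := by
  have h3 : rnd z ≠ 0 := by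
    unfold rnd
    split_ifs with h
    · have : 0 ≤ ⌊z⌋ := Int.floor_nonneg.2 h
      omega
    · push Not at h
      have : ⌊z⌋ < 0 := Int.floor_lt.2 (by simpa only [Int.cast_zero] using h)
      omega
  have h4 : (1 : ℤ) ≤ |rnd z| := Int.one_le_abs h3
  exact_mod_cast h4

lemma rnd_le (z : ℝ) : |(rnd z : ℝ)| ≤ |z| + 1 := by
  have h1 := rnd_sub z
  have h2 : |(rnd z : ℝ)| ≤ |(rnd z : ℝ) - z| + |z| := by
    have := abs_add_le ((rnd z : ℝ) - z) z
    simpa only [ge_iff_le, sub_add_cancel] using this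
  linarith only [h1, h2]

section

variable {N : ℕ}

/-- the parameter of the pencil -/
noncomputable def gam (t0 t1 a b : Fin N) : ℝ :=
  ((b : ℝ) - t0) * ((a : ℝ) - t1) / ((a : ℝ) - t0)

/-- the parameter of the second pencil -/
noncomputable def cc (t0 t1 a b s t : Fin N) : ℝ :=
  gam t0 t1 a b * ((t : ℝ) - s) / ((t : ℝ) - t1)

lemma hN_pos (i : Fin N) : (0 : ℝ) < N := by exact_mod_cast i.pos

lemma diff_le (i j : Fin N) : |(i : ℝ) - j| ≤ N := by
  have := fin_diff_le i j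
  linarith only [this]

lemma diff_ge (i j : Fin N) (h : i ≠ j) : 1 ≤ |(i : ℝ) - j| := by
  have h2 : (i : ℕ) ≠ (j : ℕ) := fun hh => h (Fin.ext hh)
  have h3 : (1 : ℤ) ≤ |((i : ℕ) : ℤ) - ((j : ℕ) : ℤ)| := by
    rw [← Int.zero_add 1]
    rw [Int.add_one_le_iff, abs_pos, sub_ne_zero]
    exact_mod_cast h2
  exact_mod_cast h3

lemma diff_ne (i j : Fin N) (h : i ≠ j) : (i : ℝ) - j ≠ 0 := by
  have := diff_ge i j h
  intro h0
  rw [h0, abs_zero] at this
  linarith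

/-- reciprocal differences -/
lemma inv_diff (i j : Fin N) (h : i ≠ j) : (N : ℝ) / |(i : ℝ) - j| ≤ 2 * qd N i j := by
  rw [div_le_iff₀ (by linarith [diff_ge i j h])]
  exact qd_spec i j h

lemma gam_mul (t0 t1 a b : Fin N) (h : a ≠ t0) :
    gam t0 t1 a b * ((a : ℝ) - t0) = ((b : ℝ) - t0) * ((a : ℝ) - t1) := by
  unfold gam
  rw [div_mul_cancel₀ _ (diff_ne a t0 h)]

lemma cc_mul (t0 t1 a b s t : Fin N) (h : t ≠ t1) :
    cc t0 t1 a b s t * ((t : ℝ) - t1) = gam t0 t1 a b * ((t : ℝ) - s) := by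
  unfold cc
  rw [div_mul_cancel₀ _ (diff_ne t t1 h)]

lemma gam_self (t0 t1 a b : Fin N) (h : a = t0) : gam t0 t1 a b = 0 := by
  simp only [gam, h, sub_self, div_zero]

lemma cc_self (t0 t1 a b s t : Fin N) (h : t = t1) : cc t0 t1 a b s t = 0 := by
  simp only [cc, h, sub_self, div_zero]

/-- lower bound for the first parameter -/
lemma gam_lower (t0 t1 a b : Fin N) :
    (N : ℝ) ≤ 4 * (qd N a t0 * qd N a t1 * qd N b t0) * |(rnd (gam t0 t1 a b) : ℝ)| := by
  have hN := hN_pos a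
  have q1 := one_le_qd a t0
  have q2 := one_le_qd a t1
  have q3 := one_le_qd b t0
  have g1 := rnd_one (gam t0 t1 a b)
  have g2 := rnd_abs (gam t0 t1 a b)
  set G := |(rnd (gam t0 t1 a b) : ℝ)|
  set x := qd N a t0
  set y := qd N a t1
  set z := qd N b t0
  have base : ∀ w : ℝ, 1 ≤ w → (N : ℝ) ≤ w → ∀ u v : ℝ, 1 ≤ u → 1 ≤ v →
      (N : ℝ) ≤ 4 * (w * u * v) * G := by
    intro w hw hNw u v hu hv
    have h1 : w ≤ w * (u * v * G) := le_mul_of_one_le_right (by linarith only [hw])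
      (one_le_mul_of_one_le_of_one_le (one_le_mul_of_one_le_of_one_le hu hv) g1)
    linarith only [h1, hNw]
  by_cases h1 : a = t0
  · have := base x q1 (qd_self _ _ h1).ge y z q2 q3
    exact this
  by_cases h2 : a = t1
  · have := base y q2 (qd_self _ _ h2).ge x z q1 q3
    calc (N : ℝ) ≤ 4 * (y * x * z) * G := this
      _ = 4 * (x * y * z) * G := by ring
  by_cases h3 : b = t0
  · have := base z q3 (qd_self _ _ h3).ge x y q1 q2
    calc (N : ℝ) ≤ 4 * (z * x * y) * G := this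
      _ = 4 * (x * y * z) * G := by ring
  have e2 := qd_spec a t1 h2
  have e3 := qd_spec b t0 h3
  have d1 := diff_le a t0
  have m1 : |gam t0 t1 a b| * |(a : ℝ) - t0| = |(b : ℝ) - t0| * |(a : ℝ) - t1| := by
    rw [← abs_mul, gam_mul t0 t1 a b h1, abs_mul]
  have e4 : (N : ℝ) * N ≤ (2 * z * |(b : ℝ) - t0|) * (2 * y * |(a : ℝ) - t1|) :=
    mul_le_mul e3 e2 hN.le (by (clear * - q3; (clear * - q3; positivity)))
  have e5 : (2 * z * |(b : ℝ) - t0|) * (2 * y * |(a : ℝ) - t1|) =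
      4 * (y * z) * (|gam t0 t1 a b| * |(a : ℝ) - t0|) := by
    rw [m1]; ring
  have e6 : 4 * (y * z) * (|gam t0 t1 a b| * |(a : ℝ) - t0|) ≤ 4 * (y * z) * (G * N) := by
    refine mul_le_mul_of_nonneg_left ?_ (by positivity)
    exact mul_le_mul g2 d1 (abs_nonneg _) (by (clear * - g1; positivity))
  have e7 : (N : ℝ) * N ≤ (4 * (y * z) * G) * N :=
    (e4.trans (e5.le.trans e6)).trans_eq (mul_assoc _ _ _).symm
  have e8 : (N : ℝ) ≤ 4 * (y * z) * G := le_of_mul_le_mul_right e7 hN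
  have e9 : 4 * (y * z) * G ≤ x * (4 * (y * z) * G) := le_mul_of_one_le_left (by (clear * - q2 q3 g1; positivity)) q1
  calc (N : ℝ) ≤ x * (4 * (y * z) * G) := e8.trans e9
    _ = 4 * (x * y * z) * G := by ring

/-- lower bound for the second parameter -/
lemma cc_lower (t0 t1 a b s t : Fin N) :
    (N : ℝ) ≤ 8 * (qd N a t0 * qd N a t1 * qd N b t0 * qd N t s * qd N t t1) *
      |(rnd (cc t0 t1 a b s t) : ℝ)| := by
  have hN := hN_pos a
  have q1 := one_le_qd a t0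
  have q2 := one_le_qd a t1
  have q3 := one_le_qd b t0
  have q4 := one_le_qd t s
  have q5 := one_le_qd t t1
  have g1 := rnd_one (cc t0 t1 a b s t)
  have g2 := rnd_abs (cc t0 t1 a b s t)
  set G := |(rnd (cc t0 t1 a b s t) : ℝ)|
  set x := qd N a t0
  set y := qd N a t1
  set z := qd N b t0
  set u := qd N t s
  set v := qd N t t1
  have base : ∀ w p : ℝ, (N : ℝ) ≤ w → 1 ≤ p → (N : ℝ) ≤ 8 * (w * p) * G := by
    intro w p hNw hp
    have hw : 0 ≤ w := by linarith only [hNw]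
    have h1 : w ≤ w * (p * G) := le_mul_of_one_le_right hw
      (one_le_mul_of_one_le_of_one_le hp g1)
    linarith only [h1, hw, hNw]
  have m : ∀ {r s : ℝ}, 1 ≤ r → 1 ≤ s → 1 ≤ r * s := fun hr hs =>
    one_le_mul_of_one_le_of_one_le hr hs
  by_cases h1 : a = t0
  · have := base x (y * z * u * v) (by rw [← qd_self _ _ h1]) (m (m (m q2 q3) q4) q5)
    calc (N : ℝ) ≤ 8 * (x * (y * z * u * v)) * G := this
      _ = 8 * (x * y * z * u * v) * G := by ring
  by_cases h2 : a = t1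
  · have := base y (x * z * u * v) (by rw [← qd_self _ _ h2]) (m (m (m q1 q3) q4) q5)
    calc (N : ℝ) ≤ 8 * (y * (x * z * u * v)) * G := this
      _ = 8 * (x * y * z * u * v) * G := by ring
  by_cases h3 : b = t0
  · have := base z (x * y * u * v) (by rw [← qd_self _ _ h3]) (m (m (m q1 q2) q4) q5)
    calc (N : ℝ) ≤ 8 * (z * (x * y * u * v)) * G := this
      _ = 8 * (x * y * z * u * v) * G := by ring
  by_cases h4 : t = s
  · have := base u (x * y * z * v) (by rw [← qd_self _ _ h4]) (m (m (m q1 q2) q3) q5)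
    calc (N : ℝ) ≤ 8 * (u * (x * y * z * v)) * G := this
      _ = 8 * (x * y * z * u * v) * G := by ring
  by_cases h5 : t = t1
  · have := base v (x * y * z * u) (by rw [← qd_self _ _ h5]) (m (m (m q1 q2) q3) q4)
    calc (N : ℝ) ≤ 8 * (v * (x * y * z * u)) * G := this
      _ = 8 * (x * y * z * u * v) * G := by ring
  have e2 := qd_spec a t1 h2
  have e3 := qd_spec b t0 h3
  have e4 := qd_spec t s h4
  have d1 := diff_le a t0
  have d5 := diff_le t t1
  have m1 : |gam t0 t1 a b| * |(a : ℝ) - t0| = |(b : ℝ) - t0| * |(a : ℝ) - t1| := by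
    rw [← abs_mul, gam_mul t0 t1 a b h1, abs_mul]
  have m2 : |cc t0 t1 a b s t| * |(t : ℝ) - t1| = |gam t0 t1 a b| * |(t : ℝ) - s| := by
    rw [← abs_mul, cc_mul t0 t1 a b s t h5, abs_mul]
  have f1 : (N : ℝ) * N * N ≤ ((2 * z * |(b : ℝ) - t0|) * (2 * y * |(a : ℝ) - t1|)) *
      (2 * u * |(t : ℝ) - s|) :=
    mul_le_mul (mul_le_mul e3 e2 hN.le (by (clear * - q3; (clear * - q3; positivity)))) e4 hN.le (by (clear * - q2 q3; positivity))
  have f2 : ((2 * z * |(b : ℝ) - t0|) * (2 * y * |(a : ℝ) - t1|)) * (2 * u * |(t : ℝ) - s|) =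
      8 * (y * z * u) * (|cc t0 t1 a b s t| * |(t : ℝ) - t1| * |(a : ℝ) - t0|) := by
    have : |cc t0 t1 a b s t| * |(t : ℝ) - t1| * |(a : ℝ) - t0| =
        |(b : ℝ) - t0| * |(a : ℝ) - t1| * |(t : ℝ) - s| := by
      rw [m2, mul_right_comm, m1]
    rw [this]; ring
  have f3 : |cc t0 t1 a b s t| * |(t : ℝ) - t1| * |(a : ℝ) - t0| ≤ G * N * N :=
    mul_le_mul (mul_le_mul g2 d5 (abs_nonneg _) (by (clear * - g1; positivity))) d1 (abs_nonneg _) (by (clear * - g1 hN; positivity))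
  have f4 : 8 * (y * z * u) * (|cc t0 t1 a b s t| * |(t : ℝ) - t1| * |(a : ℝ) - t0|) ≤
      8 * (y * z * u) * (G * N * N) := mul_le_mul_of_nonneg_left f3 (by (clear * - q2 q3 q4; positivity))
  have f5 : (N : ℝ) * (N * N) ≤ (8 * (y * z * u) * G) * (N * N) := by
    rw [mul_assoc (8 * (y * z * u)), ← mul_assoc G, ← mul_assoc (N : ℝ)]
    exact f1.trans (f2.le.trans f4)
  have f6 : (N : ℝ) ≤ 8 * (y * z * u) * G := le_of_mul_le_mul_right f5 (by (clear * - hN; positivity))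
  have f7 : 8 * (y * z * u) * G ≤ (x * v) * (8 * (y * z * u) * G) :=
    le_mul_of_one_le_left (by (clear * - g1 q2 q3 q4; positivity)) (m q1 q5)
  calc (N : ℝ) ≤ (x * v) * (8 * (y * z * u) * G) := f6.trans f7
    _ = 8 * (x * y * z * u * v) * G := by ring

/-- upper bound for the first parameter -/
lemma gam_upper (t0 t1 a b : Fin N) : |gam t0 t1 a b| ≤ 2 * qd N a t0 * N := by
  have hN := hN_pos a
  have q1 := one_le_qd a t0
  by_cases h1 : a = t0
  · rw [gam_self _ _ _ _ h1, abs_zero]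
    (clear * - q1 hN; positivity)
  · have m1 : |gam t0 t1 a b| = |(b : ℝ) - t0| * (|(a : ℝ) - t1| / |(a : ℝ) - t0|) := by
      unfold gam
      rw [abs_div, abs_mul, mul_div_assoc]
    have d0 : 0 < |(a : ℝ) - t0| := by linarith only [diff_ge a t0 h1]
    have e1 : |(a : ℝ) - t1| / |(a : ℝ) - t0| ≤ 2 * qd N a t0 := by
      refine le_trans ?_ (inv_diff a t0 h1)
      exact div_le_div_of_nonneg_right (diff_le a t1) d0.le
    rw [m1]
    calc |(b : ℝ) - t0| * (|(a : ℝ) - t1| / |(a : ℝ) - t0|)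
        ≤ N * (2 * qd N a t0) := mul_le_mul (diff_le b t0) e1 (by (clear * - d0; (clear * - d0; positivity))) hN.le
      _ = 2 * qd N a t0 * N := by ring

/-- crude upper bound for the first parameter -/
lemma gam_upper' (t0 t1 a b : Fin N) : |gam t0 t1 a b| ≤ (N : ℝ) * N := by
  have hN := hN_pos a
  by_cases h1 : a = t0
  · rw [gam_self _ _ _ _ h1, abs_zero]
    positivity
  · have d0 := diff_ge a t0 h1
    unfold gam
    rw [abs_div, abs_mul]
    refine (div_le_self (by (clear * -; positivity)) d0).trans ?_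
    exact mul_le_mul (diff_le b t0) (diff_le a t1) (abs_nonneg _) hN.le

/-- upper bound for the second parameter -/
lemma cc_upper (t0 t1 a b s t : Fin N) :
    |cc t0 t1 a b s t| ≤ 4 * (qd N a t0 * qd N t t1) * N := by
  have hN := hN_pos a
  have q1 := one_le_qd a t0
  have q5 := one_le_qd t t1
  by_cases h1 : t = t1
  · rw [cc_self _ _ _ _ _ _ h1, abs_zero]
    (clear * - q1 q5 hN; positivity)
  · have m1 : |cc t0 t1 a b s t| = |gam t0 t1 a b| * (|(t : ℝ) - s| / |(t : ℝ) - t1|) := by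
      unfold cc
      rw [abs_div, abs_mul, mul_div_assoc]
    have d0 : 0 < |(t : ℝ) - t1| := by linarith only [diff_ge t t1 h1, h1]
    have e1 : |(t : ℝ) - s| / |(t : ℝ) - t1| ≤ 2 * qd N t t1 := by
      refine le_trans ?_ (inv_diff t t1 h1)
      exact div_le_div_of_nonneg_right (diff_le t s) d0.le
    rw [m1]
    calc |gam t0 t1 a b| * (|(t : ℝ) - s| / |(t : ℝ) - t1|)
        ≤ (2 * qd N a t0 * N) * (2 * qd N t t1) :=
          mul_le_mul (gam_upper t0 t1 a b) e1 (by (clear * - d0; (clear * - d0; positivity))) (by (clear * - q1 hN; positivity))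
      _ = 4 * (qd N a t0 * qd N t t1) * N := by ring

/-- recovering `b` from the first parameter -/
lemma b_of_gam (t0 t1 a b : Fin N) :
    |(b : ℝ) - (t0 + (rnd (gam t0 t1 a b) : ℝ) * ((a : ℝ) - t0) / ((a : ℝ) - t1))| ≤
      2 * (qd N a t0 * qd N a t1) := by
  have hN := hN_pos a
  have q1 := one_le_qd a t0
  have q2 := one_le_qd a t1
  by_cases h2 : a = t1
  · have : ((a : ℝ) - t1) = 0 := by rw [h2, sub_self]
    rw [this, div_zero, add_zero]
    have := diff_le b t0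
    rw [← qd_self _ _ h2] at this
    have h3 : qd N a t1 ≤ qd N a t0 * qd N a t1 := le_mul_of_one_le_left (by linarith only [q2]) q1
    linarith only [this, h3, q2]
  by_cases h1 : a = t0
  · have : ((a : ℝ) - t0) = 0 := by rw [h1, sub_self]
    rw [this, mul_zero, zero_div, add_zero]
    have := diff_le b t0
    rw [← qd_self _ _ h1] at this
    have h3 : qd N a t0 ≤ qd N a t0 * qd N a t1 := le_mul_of_one_le_right (by linarith only [q1]) q2
    linarith only [this, h3, q1]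
  have d2 := diff_ne a t1 h2
  have m1 := gam_mul t0 t1 a b h1
  have e1 : (b : ℝ) - (t0 + (rnd (gam t0 t1 a b) : ℝ) * ((a : ℝ) - t0) / ((a : ℝ) - t1)) =
      -((rnd (gam t0 t1 a b) : ℝ) - gam t0 t1 a b) * (((a : ℝ) - t0) / ((a : ℝ) - t1)) := by
    have : (b : ℝ) - t0 = gam t0 t1 a b * ((a : ℝ) - t0) / ((a : ℝ) - t1) := by
      rw [m1, mul_div_assoc, div_self d2, mul_one]
    have h3 : (b : ℝ) = t0 + gam t0 t1 a b * ((a : ℝ) - t0) / ((a : ℝ) - t1) := by (clear * - this; linarith)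
    rw [h3]
    ring
  rw [e1, abs_mul, abs_neg, abs_div]
  have e2 : |(a : ℝ) - t0| / |(a : ℝ) - t1| ≤ 2 * qd N a t1 := by
    refine le_trans ?_ (inv_diff a t1 h2)
    exact div_le_div_of_nonneg_right (diff_le a t0) (abs_nonneg _)
  calc |(rnd (gam t0 t1 a b) : ℝ) - gam t0 t1 a b| * (|(a : ℝ) - t0| / |(a : ℝ) - t1|)
      ≤ 1 * (2 * qd N a t1) := mul_le_mul (rnd_sub _) e2 (by (clear * - d2; (clear * - d2; positivity))) (by norm_num)
    _ ≤ 2 * (qd N a t0 * qd N a t1) := by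
        have h3 : qd N a t1 ≤ qd N a t0 * qd N a t1 := le_mul_of_one_le_left (by linarith only [q2]) q1
        linarith only [h3]

/-- recovering the first parameter from the second one -/
lemma gam_of_cc (t0 t1 a b s t : Fin N) :
    |(rnd (gam t0 t1 a b) : ℝ) -
      (rnd (cc t0 t1 a b s t) : ℝ) * ((t : ℝ) - t1) / ((t : ℝ) - s)| ≤
      3 * (qd N t s * qd N t t1) ^ 2 := by
  have hN := hN_pos a
  have q4 := one_le_qd t s
  have q5 := one_le_qd t t1
  have hg := rnd_le (gam t0 t1 a b)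
  have hg' := gam_upper' t0 t1 a b
  have hN1 : (1 : ℝ) ≤ N := by
    have := fin_diff_le a t0
    have h0 := abs_nonneg ((a : ℝ) - t0)
    linarith only [this, h0]
  have hq : 1 ≤ qd N t s * qd N t t1 := one_le_mul_of_one_le_of_one_le q4 q5
  have hQ2 : 1 ≤ (qd N t s * qd N t t1) ^ 2 := one_le_pow₀ hq
  have deg : (N : ℝ) ≤ qd N t s * qd N t t1 →
      |(rnd (gam t0 t1 a b) : ℝ)| ≤ 3 * (qd N t s * qd N t t1) ^ 2 := by
    intro h
    have h2 : (N : ℝ) * N ≤ (qd N t s * qd N t t1) ^ 2 := by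
      rw [sq]
      exact mul_le_mul h h hN.le (by linarith only [hq])
    linarith only [h2, hg, hg', hQ2]
  by_cases h4 : t = s
  · have : ((t : ℝ) - s) = 0 := by rw [h4, sub_self]
    rw [this, div_zero, sub_zero]
    refine deg ?_
    rw [qd_self _ _ h4]
    exact le_mul_of_one_le_right hN.le q5
  by_cases h5 : t = t1
  · have : ((t : ℝ) - t1) = 0 := by rw [h5, sub_self]
    rw [this, mul_zero, zero_div, sub_zero]
    refine deg ?_
    rw [qd_self _ _ h5]
    exact le_mul_of_one_le_left hN.le q4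
  have d4 := diff_ne t s h4
  have m2 := cc_mul t0 t1 a b s t h5
  have e1 : gam t0 t1 a b = cc t0 t1 a b s t * ((t : ℝ) - t1) / ((t : ℝ) - s) := by
    rw [m2, mul_div_assoc, div_self d4, mul_one]
  have e2 : (rnd (gam t0 t1 a b) : ℝ) -
      (rnd (cc t0 t1 a b s t) : ℝ) * ((t : ℝ) - t1) / ((t : ℝ) - s) =
      ((rnd (gam t0 t1 a b) : ℝ) - gam t0 t1 a b) +
      (-((rnd (cc t0 t1 a b s t) : ℝ) - cc t0 t1 a b s t)) * (((t : ℝ) - t1) / ((t : ℝ) - s)) := by
    have : (rnd (gam t0 t1 a b) : ℝ) - gam t0 t1 a b = (rnd (gam t0 t1 a b) : ℝ) -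
      cc t0 t1 a b s t * ((t : ℝ) - t1) / ((t : ℝ) - s) := by rw [← e1]
    rw [this]
    ring
  rw [e2]
  refine (abs_add_le _ _).trans ?_
  rw [abs_mul, abs_neg, abs_div]
  have e3 : |(t : ℝ) - t1| / |(t : ℝ) - s| ≤ 2 * qd N t s := by
    refine le_trans ?_ (inv_diff t s h4)
    exact div_le_div_of_nonneg_right (diff_le t t1) (abs_nonneg _)
  have e4 : |(rnd (cc t0 t1 a b s t) : ℝ) - cc t0 t1 a b s t| *
      (|(t : ℝ) - t1| / |(t : ℝ) - s|) ≤ 1 * (2 * qd N t s) :=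
    mul_le_mul (rnd_sub _) e3 (by (clear * - d4; (clear * - d4; positivity))) (by norm_num)
  have e5 := rnd_sub (gam t0 t1 a b)
  have e6 : qd N t s ≤ qd N t s * qd N t t1 := le_mul_of_one_le_right (by linarith only [q4]) q5
  have e7 : qd N t s * qd N t t1 ≤ (qd N t s * qd N t t1) ^ 2 := le_self_pow₀ hq two_ne_zero
  linarith only [e4, e5, e6, e7, hQ2]

/-- recovering `b` from the second parameter -/
lemma b_of_cc (t0 t1 a b s t : Fin N) :
    |(b : ℝ) - (t0 + (rnd (cc t0 t1 a b s t) : ℝ) * (((t : ℝ) - t1) / ((t : ℝ) - s)) *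
      (((a : ℝ) - t0) / ((a : ℝ) - t1)))| ≤
      4 * (qd N a t0 * qd N a t1 * qd N t s * qd N t t1) := by
  have hN := hN_pos a
  have q1 := one_le_qd a t0
  have q2 := one_le_qd a t1
  have q4 := one_le_qd t s
  have q5 := one_le_qd t t1
  have m : ∀ {r s : ℝ}, 1 ≤ r → 1 ≤ s → 1 ≤ r * s := fun hr hs =>
    one_le_mul_of_one_le_of_one_le hr hs
  have hb := diff_le b t0
  have deg : ∀ w p : ℝ, (N : ℝ) ≤ w → 1 ≤ p → |(b : ℝ) - t0| ≤ 4 * (w * p) := by
    intro w p hw hp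
    have : w ≤ w * p := le_mul_of_one_le_right (by linarith only [hN, hw]) hp
    linarith only [this, hb, hw]
  by_cases h1 : a = t0
  · have : ((a : ℝ) - t0) = 0 := by rw [h1, sub_self]
    rw [this, zero_div, mul_zero, add_zero]
    have := deg (qd N a t0) (qd N a t1 * qd N t s * qd N t t1) (by rw [qd_self _ _ h1])
      (m (m q2 q4) q5)
    calc _ ≤ _ := this
      _ = _ := by ring
  by_cases h2 : a = t1
  · have : ((a : ℝ) - t1) = 0 := by rw [h2, sub_self]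
    rw [this, div_zero, mul_zero, add_zero]
    have := deg (qd N a t1) (qd N a t0 * qd N t s * qd N t t1) (by rw [qd_self _ _ h2])
      (m (m q1 q4) q5)
    calc _ ≤ _ := this
      _ = _ := by ring
  by_cases h4 : t = s
  · have : ((t : ℝ) - s) = 0 := by rw [h4, sub_self]
    rw [this, div_zero, mul_zero, zero_mul, add_zero]
    have := deg (qd N t s) (qd N a t0 * qd N a t1 * qd N t t1) (by rw [qd_self _ _ h4])
      (m (m q1 q2) q5)
    calc _ ≤ _ := this
      _ = _ := by ring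
  by_cases h5 : t = t1
  · have : ((t : ℝ) - t1) = 0 := by rw [h5, sub_self]
    rw [this, zero_div, mul_zero, zero_mul, add_zero]
    have := deg (qd N t t1) (qd N a t0 * qd N a t1 * qd N t s) (by rw [qd_self _ _ h5])
      (m (m q1 q2) q4)
    calc _ ≤ _ := this
      _ = _ := by ring
  have d2 := diff_ne a t1 h2
  have d4 := diff_ne t s h4
  have m1 := gam_mul t0 t1 a b h1
  have m2 := cc_mul t0 t1 a b s t h5
  have e0 : gam t0 t1 a b = cc t0 t1 a b s t * (((t : ℝ) - t1) / ((t : ℝ) - s)) := by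
    rw [← mul_div_assoc, m2, mul_div_assoc, div_self d4, mul_one]
  have e1 : (b : ℝ) = t0 + cc t0 t1 a b s t * (((t : ℝ) - t1) / ((t : ℝ) - s)) *
      (((a : ℝ) - t0) / ((a : ℝ) - t1)) := by
    rw [← e0, ← mul_div_assoc, m1, mul_div_assoc, div_self d2]
    ring
  have e2 : (b : ℝ) - (t0 + (rnd (cc t0 t1 a b s t) : ℝ) * (((t : ℝ) - t1) / ((t : ℝ) - s)) *
      (((a : ℝ) - t0) / ((a : ℝ) - t1))) =
      (-((rnd (cc t0 t1 a b s t) : ℝ) - cc t0 t1 a b s t)) * ((((t : ℝ) - t1) / ((t : ℝ) - s)) *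
      (((a : ℝ) - t0) / ((a : ℝ) - t1))) := by
    nth_rewrite 1 [e1]
    ring
  rw [e2, abs_mul, abs_neg, abs_mul, abs_div, abs_div]
  have e3 : |(t : ℝ) - t1| / |(t : ℝ) - s| ≤ 2 * qd N t s := by
    refine le_trans ?_ (inv_diff t s h4)
    exact div_le_div_of_nonneg_right (diff_le t t1) (abs_nonneg _)
  have e4 : |(a : ℝ) - t0| / |(a : ℝ) - t1| ≤ 2 * qd N a t1 := by
    refine le_trans ?_ (inv_diff a t1 h2)
    exact div_le_div_of_nonneg_right (diff_le a t0) (abs_nonneg _)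
  have e5 : |(rnd (cc t0 t1 a b s t) : ℝ) - cc t0 t1 a b s t| *
      (|(t : ℝ) - t1| / |(t : ℝ) - s| * (|(a : ℝ) - t0| / |(a : ℝ) - t1|)) ≤
      1 * ((2 * qd N t s) * (2 * qd N a t1)) :=
    mul_le_mul (rnd_sub _) (mul_le_mul e3 e4 (by (clear * - d2; (clear * - d2; positivity))) (by positivity)) (by (clear * - d2 d4; positivity))
      (by norm_num)
  have e6 : qd N t s * qd N a t1 ≤ (qd N a t0 * qd N t t1) * (qd N t s * qd N a t1) :=
    le_mul_of_one_le_left (by positivity) (m q1 q5)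
  linarith only [e5, e6]

end

end Vale.Agent.P127
end
end

section

section

namespace Vale.Agent.P127

open Finset Law

namespace LineFam

variable {m : ℕ} {B : ℝ} (F : LineFam m B)

/-- two points determine the slope -/
lemma V_of_cells (hB : 0 ≤ B) (l : F.Λ) (i j : Fin F.N) (c : Fin m) :
    |F.V l c - ((F.N : ℝ) / ((j : ℝ) - i)) * ((F.cell l j c : ℝ) - F.cell l i c)| ≤
      (B + 2) * qd F.N i j := by
  have hN := F.N_pos
  have hV := F.hV l c
  by_cases hij : i = j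
  · rw [hij, sub_self, div_zero, zero_mul, sub_zero, qd_self _ _ rfl]
    linarith only [hV]
  · have hij' : ((j : ℕ) : ℝ) - (i : ℕ) ≠ 0 := diff_ne j i (Ne.symm hij)
    have hV2 : F.V l c = ((F.N : ℝ) / (((j : ℕ) : ℝ) - (i : ℕ))) *
        (F.pos l j c - F.pos l i c) := by
      unfold LineFam.pos
      field_simp
      ring
    have h1 := Int.floor_le (F.pos l i c)
    have h2 := Int.lt_floor_add_one (F.pos l i c)
    have h3 := Int.floor_le (F.pos l j c)
    have h4 := Int.lt_floor_add_one (F.pos l j c)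
    have h5 : |(F.pos l j c - F.pos l i c) - ((F.cell l j c : ℝ) - F.cell l i c)| ≤ 1 := by
      unfold LineFam.cell
      rw [abs_le]
      constructor <;> linarith only [h2, h3, h1, h4]
    have h6 : F.V l c - ((F.N : ℝ) / (((j : ℕ) : ℝ) - (i : ℕ))) *
        ((F.cell l j c : ℝ) - F.cell l i c) =
        ((F.N : ℝ) / (((j : ℕ) : ℝ) - (i : ℕ))) *
          ((F.pos l j c - F.pos l i c) - ((F.cell l j c : ℝ) - F.cell l i c)) := by
      rw [hV2]; ring
    rw [h6, abs_mul]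
    have h7 : |(F.N : ℝ) / (((j : ℕ) : ℝ) - (i : ℕ))| ≤ 2 * qd F.N i j := by
      rw [abs_div, abs_of_pos hN, abs_sub_comm]
      exact inv_diff i j hij
    have h8 := one_le_qd i j
    calc |(F.N : ℝ) / (((j : ℕ) : ℝ) - (i : ℕ))| *
          |(F.pos l j c - F.pos l i c) - ((F.cell l j c : ℝ) - F.cell l i c)|
        ≤ (2 * qd F.N i j) * 1 := mul_le_mul h7 h5 (abs_nonneg _) (by positivity)
      _ ≤ (B + 2) * qd F.N i j := by
          have h9 : 0 ≤ B * qd F.N i j := mul_nonneg hB (by linarith only [h8])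
          linarith only [h9]

end LineFam

end Vale.Agent.P127
end
end

section

section

/-!
# P127: the base case, exponent `2`
-/

namespace Vale.Agent.P127

open Finset Law

theorem Law.H_pair_le {Ω : Type} [Fintype Ω] (P : Law Ω) {S T : Type*} (X : Ω → S) (Y : Ω → T) :
    P.H (fun ω => (X ω, Y ω)) ≤ P.H X + P.H Y := by
  have h := P.submod X Y (fun _ => ())
  have h1 : P.H (fun ω => (X ω, Y ω, ())) = P.H (fun ω => (X ω, Y ω)) :=
    P.H_congr fun ω ω' => by simp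
  have h2 : P.H (fun ω => (X ω, ())) = P.H X := P.H_congr fun ω ω' => by simp
  have h3 : P.H (fun ω => (Y ω, ())) = P.H Y := P.H_congr fun ω ω' => by simp
  have h4 := P.H_nonneg (fun _ => ())
  linarith

theorem sd_two (m : ℕ) (B : ℝ) (hB : 0 ≤ B) : ∃ C : ℝ, 0 ≤ C ∧ SD m B 2 C := by
  have hlogB : 0 ≤ Real.log (6 + B) := Real.log_nonneg (by linarith only [hB])
  have hlog4 : 0 ≤ Real.log 4 := Real.log_nonneg (by norm_num)
  refine ⟨2 + m * (Real.log 4 + 2 * (Real.log (6 + B) + 2 * (Real.log 4 + 1))), by (clear * - hlogB; positivity), ?_⟩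
  intro F Ω _ P L t
  have hN := F.N_pos
  set G := glue P P L L (fun _ => rfl) with hG
  -- the two heights
  set t1 : GT L L → Fin F.N := fun p => t p.fst with ht1
  set t2 : GT L L → Fin F.N := fun p => t p.snd with ht2
  set L' : GT L L → F.Λ := fun p => L p.fst with hL'
  have e1 : G.H (fun p => (t1 p, t2 p, L' p)) =
      P.H (fun ω => (t ω, L ω)) + P.H (fun ω => (t ω, L ω)) - P.H L := glue_indep _ t t
  have e2 : G.H (fun p => (F.cell (L' p) (t1 p), t1 p)) = P.H (fun ω => (F.cell (L ω) (t ω), t ω)) :=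
    glue_H _ (fun ω => (F.cell (L ω) (t ω), t ω))
  have e3 : G.H (fun p => (F.cell (L' p) (t2 p), t2 p)) =
      P.H (fun ω => (F.cell (L ω) (t ω), t ω)) := by
    rw [← glue_H' (P := P) (Q := P) (X₁ := L) (X₂ := L) (fun _ => rfl)
      (fun ω => (F.cell (L ω) (t ω), t ω))]
    refine G.H_congr fun p p' => ?_
    simp only [hL', p.eq, p'.eq, ht2]
  have e4 : G.H (fun p => (t2 p, L' p)) = P.H (fun ω => (t ω, L ω)) := by
    rw [← glue_H' (P := P) (Q := P) (X₁ := L) (X₂ := L) (fun _ => rfl)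
      (fun ω => (t ω, L ω))]
    refine G.H_congr fun p p' => ?_
    simp only [hL', p.eq, p'.eq, ht2]
  -- deficiency for the pair of heights
  have e5 : P.H (fun ω => (t ω, L ω)) - P.H L ≤ G.H (fun p => (t1 p, t2 p)) - G.H t2 := by
    have h1 := G.submod t1 L' t2
    have h2 : G.H (fun p => (t1 p, L' p, t2 p)) = G.H (fun p => (t1 p, t2 p, L' p)) :=
      G.H_congr fun p p' => by simp only [Prod.mk.injEq]; (clear * -; (clear * -; tauto))
    have h3 : G.H (fun p => (L' p, t2 p)) = G.H (fun p => (t2 p, L' p)) :=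
      G.H_congr fun p p' => by simp only [Prod.mk.injEq]; (clear * -; tauto)
    linarith only [e1, e4, h1, h2, h3]
  have e6 := G.ex_log_qd t1 t2
  -- determination of the line
  have e7 := H_line_det F G L'
    (fun p => ((F.cell (L' p) (t1 p), t1 p), (F.cell (L' p) (t2 p), t2 p)))
    (fun y c => ((F.N : ℝ) / ((y.2.2 : ℝ) - (y.1.2 : ℝ))) * ((y.2.1 c : ℝ) - y.1.1 c))
    (fun p => (B + 2) * qd F.N (t1 p) (t2 p))
    (fun p c => F.V_of_cells hB (L' p) (t1 p) (t2 p) c)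
  have e8 : G.ex (fun p => Real.log (3 + (B + 2) * qd F.N (t1 p) (t2 p))) ≤
      Real.log (6 + B) + G.ex (fun p => Real.log (qd F.N (t1 p) (t2 p))) := by
    have h1 : Real.log (6 + B) + G.ex (fun p => Real.log (qd F.N (t1 p) (t2 p))) =
        G.ex (fun p => Real.log (6 + B) + Real.log (qd F.N (t1 p) (t2 p))) := by
      rw [G.ex_add, G.ex_const]
    rw [h1]
    refine G.ex_mono fun p _ => ?_
    have h2 := one_le_qd (t1 p) (t2 p)
    have h3 : 0 < qd F.N (t1 p) (t2 p) := zero_lt_one.trans_le h2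
    have h4 : 0 < (B + 2) * qd F.N (t1 p) (t2 p) := mul_pos (by linarith only [hB]) h3
    rw [← Real.log_mul (by linarith only [hB]) h3.ne']
    refine Real.log_le_log (by linarith only [h4]) ?_
    linarith only [h2]
  -- assembly
  have e9 : G.H (fun p => (t1 p, t2 p, L' p)) ≤ G.H (fun p => (L' p,
      ((F.cell (L' p) (t1 p), t1 p), (F.cell (L' p) (t2 p), t2 p)))) :=
    G.H_mono fun p p' => by simp only [Prod.mk.injEq]; (clear * -; tauto)
  have e10 := G.H_pair_le (fun p => (F.cell (L' p) (t1 p), t1 p))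
    (fun p => (F.cell (L' p) (t2 p), t2 p))
  have e11 : P.H t ≤ Real.log F.N := by
    have := P.H_le_log_card t
    simpa only [ge_iff_le, Fintype.card_fin] using this
  set κ := Real.log F.N - (P.H (fun ω => (t ω, L ω)) - P.H L) with hκ
  have hκ0 : 0 ≤ κ := by
    have h1 := P.H_pair_le t L
    linarith only [e11, h1]
  have hm : (0 : ℝ) ≤ m := by (clear * -; positivity)
  have e12 : G.ex (fun p => Real.log (3 + (B + 2) * qd F.N (t1 p) (t2 p))) ≤
      Real.log (6 + B) + 2 * (Real.log 4 + κ) := by linarith only [e5, e6, e8]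
  have e13 : (m : ℝ) * (Real.log 4 + 2 * G.ex (fun p =>
      Real.log (3 + (B + 2) * qd F.N (t1 p) (t2 p)))) ≤
      m * (Real.log 4 + 2 * (Real.log (6 + B) + 2 * (Real.log 4 + κ))) := by
    refine mul_le_mul_of_nonneg_left ?_ hm
    linarith only [e5, e6, e8]
  have e14 : (m : ℝ) * (Real.log 4 + 2 * (Real.log (6 + B) + 2 * (Real.log 4 + κ))) ≤
      (m * (Real.log 4 + 2 * (Real.log (6 + B) + 2 * (Real.log 4 + 1)))) * (1 + κ) := by
    have : 0 ≤ m * κ * (Real.log 4 + 2 * (Real.log (6 + B) + 2 * Real.log 4)) := by (clear * - hlogB hκ0; positivity)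
    linarith only [this]
  linarith only [e1, e2, e3, e7, e9, e10, e11, e13, e14]
end Vale.Agent.P127
end
end

section

section

/-!
# P127: pointwise estimates for positions
-/

namespace Vale.Agent.P127

open Finset Law

namespace LineFam

variable {m : ℕ} {B : ℝ} (F : LineFam m B)

/-- `pos l i + (g/N) V l'` -/
noncomputable def vec (l l' : F.Λ) (i : Fin F.N) (g : ℤ) (c : Fin m) : ℝ :=
  F.pos l i c + ((g : ℝ) / F.N) * F.V l' c

/-- cell of `vec` -/
noncomputable def vcell (l l' : F.Λ) (i : Fin F.N) (g : ℤ) : Fin m → ℤ :=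
  fun c => ⌊F.vec l l' i g c⌋

lemma cell_sub (l : F.Λ) (i : Fin F.N) (c : Fin m) :
    |(F.cell l i c : ℝ) - F.pos l i c| ≤ 1 := by
  have h1 := Int.floor_le (F.pos l i c)
  have h2 := Int.lt_floor_add_one (F.pos l i c)
  unfold cell
  rw [abs_le]
  constructor <;> linarith

lemma vcell_sub (l l' : F.Λ) (i : Fin F.N) (g : ℤ) (c : Fin m) :
    |(F.vcell l l' i g c : ℝ) - F.vec l l' i g c| ≤ 1 := by
  have h1 := Int.floor_le (F.vec l l' i g c)
  have h2 := Int.lt_floor_add_one (F.vec l l' i g c)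
  unfold vcell
  rw [abs_le]
  constructor <;> linarith

lemma pos_abs (l : F.Λ) (i : Fin F.N) (c : Fin m) : |F.pos l i c| ≤ 2 * B * F.N := by
  have hN := F.N_pos
  have h1 := F.hX l c
  have h2 := F.hV l c
  have h3 : |((i : ℝ) / F.N) * F.V l c| ≤ B * F.N := by
    rw [abs_mul, abs_div, abs_of_pos hN, abs_of_nonneg (by positivity : (0 : ℝ) ≤ ((i : ℕ) : ℝ))]
    have h4 : ((i : ℕ) : ℝ) / F.N ≤ 1 := by
      rw [div_le_one hN]
      have := i.2
      exact_mod_cast this.le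
    calc ((i : ℕ) : ℝ) / F.N * |F.V l c| ≤ 1 * |F.V l c| :=
          mul_le_mul_of_nonneg_right h4 (abs_nonneg _)
      _ ≤ B * F.N := by linarith only [h2]
  unfold pos
  refine (abs_add_le _ _).trans ?_
  (clear * - h1 h3; linarith)

lemma vec_abs (l l' : F.Λ) (i : Fin F.N) (g : ℤ) (c : Fin m) :
    |F.vec l l' i g c| ≤ 2 * B * F.N + B * |(g : ℝ)| := by
  have hN := F.N_pos
  have h1 := F.pos_abs l i c
  have h2 := F.hV l' c
  unfold vec
  refine (abs_add_le _ _).trans ?_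
  have h3 : |((g : ℝ) / F.N) * F.V l' c| ≤ B * |(g : ℝ)| := by
    rw [abs_mul, abs_div, abs_of_pos hN, div_mul_eq_mul_div, div_le_iff₀ hN]
    calc |(g : ℝ)| * |F.V l' c| ≤ |(g : ℝ)| * (B * F.N) :=
          mul_le_mul_of_nonneg_left h2 (abs_nonneg _)
      _ = B * |(g : ℝ)| * F.N := by ring
  linarith only [h1, h3]

/-- a triangle inequality with five terms -/
lemma abs_add5 (a b c d e : ℝ) : |a + b + c + d + e| ≤ |a| + |b| + |c| + |d| + |e| := by
  have h1 := abs_add_le (a + b + c + d) e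
  have h2 := abs_add_le (a + b + c) d
  have h3 := abs_add_le (a + b) c
  have h4 := abs_add_le a b
  linarith only [h1, h2, h3, h4]

/-- recovering the slope of `l'` from `vec` and the line `l` -/
lemma V_of_vec (l l' : F.Λ) (i : Fin F.N) (g : ℤ) (hg : 1 ≤ |(g : ℝ)|) (c : Fin m) :
    |F.V l' c - ((F.N : ℝ) / g) * ((F.vcell l l' i g c : ℝ) - F.pos l i c)| ≤
      F.N / |(g : ℝ)| := by
  have hN := F.N_pos
  have hg0 : (g : ℝ) ≠ 0 := by
    intro h
    rw [h, abs_zero] at hg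
    linarith only [hg]
  have h1 : F.V l' c = ((F.N : ℝ) / g) * (F.vec l l' i g c - F.pos l i c) := by
    unfold vec
    field_simp
    ring
  have h2 : F.V l' c - ((F.N : ℝ) / g) * ((F.vcell l l' i g c : ℝ) - F.pos l i c) =
      -(((F.N : ℝ) / g) * ((F.vcell l l' i g c : ℝ) - F.vec l l' i g c)) := by
    rw [h1]; ring
  rw [h2, abs_neg, abs_mul, abs_div, abs_of_pos hN]
  have h3 := F.vcell_sub l l' i g c
  calc (F.N : ℝ) / |(g : ℝ)| * |(F.vcell l l' i g c : ℝ) - F.vec l l' i g c|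
      ≤ (F.N : ℝ) / |(g : ℝ)| * 1 := mul_le_mul_of_nonneg_left h3 (by (clear * - hN hg0; positivity))
    _ = F.N / |(g : ℝ)| := mul_one _

/-- recovering the slope of `l'` from `vec` and the cell of `l` -/
lemma V_of_vec' (l l' : F.Λ) (i : Fin F.N) (g : ℤ) (hg : 1 ≤ |(g : ℝ)|) (c : Fin m) :
    |F.V l' c - ((F.N : ℝ) / g) * ((F.vcell l l' i g c : ℝ) - F.cell l i c)| ≤
      F.N / |(g : ℝ)| := by
  have hN := F.N_pos
  have hg0 : (g : ℝ) ≠ 0 := by
    intro h
    rw [h, abs_zero] at hg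
    linarith only [hg]
  have h1 : F.V l' c = ((F.N : ℝ) / g) * (F.vec l l' i g c - F.pos l i c) := by
    unfold vec
    field_simp
    ring
  have h2 : F.V l' c - ((F.N : ℝ) / g) * ((F.vcell l l' i g c : ℝ) - F.cell l i c) =
      ((F.N : ℝ) / g) * ((F.vec l l' i g c - F.vcell l l' i g c) -
        (F.pos l i c - F.cell l i c)) := by
    rw [h1]; ring
  rw [h2, abs_mul, abs_div, abs_of_pos hN]
  have h3 : |(F.vec l l' i g c - F.vcell l l' i g c) - (F.pos l i c - F.cell l i c)| ≤ 1 := by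
    unfold vcell cell
    have h1 := Int.floor_le (F.pos l i c)
    have h2 := Int.lt_floor_add_one (F.pos l i c)
    have h3 := Int.floor_le (F.vec l l' i g c)
    have h4 := Int.lt_floor_add_one (F.vec l l' i g c)
    rw [abs_le]
    constructor <;> linarith only [h2, h3, h1, h4]
  calc (F.N : ℝ) / |(g : ℝ)| * |(F.vec l l' i g c - F.vcell l l' i g c) -
        (F.pos l i c - F.cell l i c)|
      ≤ (F.N : ℝ) / |(g : ℝ)| * 1 := mul_le_mul_of_nonneg_left h3 (by (clear * - hN hg0; positivity))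
    _ = F.N / |(g : ℝ)| := mul_one _

/-- the first pencil: `vec l1 l0 t1 γ` from the cells of `l1` at `a` and of `l0` at `b` -/
lemma r_of_cells (hB : 0 ≤ B) (l0 l1 : F.Λ) (t0 t1 a b : Fin F.N)
    (hp : F.cell l0 t0 = F.cell l1 t0) (c : Fin m) :
    |(F.vcell l1 l0 t1 (rnd (gam t0 t1 a b)) c : ℝ) -
      ((((t1 : ℝ) - t0) / ((a : ℝ) - t0)) * F.cell l1 a c +
        (1 - ((t1 : ℝ) - t0) / ((a : ℝ) - t0)) * F.cell l0 b c)| ≤
      (7 + 5 * B) * qd F.N a t0 := by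
  have hN := F.N_pos
  have hN1 := F.one_le_N
  have q1 := one_le_qd a t0
  set g := gam t0 t1 a b with hgdef
  set θ := ((t1 : ℝ) - t0) / ((a : ℝ) - t0) with hθ
  have hv := F.vcell_sub l1 l0 t1 (rnd g) c
  have hcb := F.cell_sub l0 b c
  have hca := F.cell_sub l1 a c
  by_cases h : a = t0
  · have h0 : ((a : ℝ) - t0) = 0 := by rw [h, sub_self]
    have hθ0 : θ = 0 := by rw [hθ, h0, div_zero]
    rw [hθ0, zero_mul, zero_add, sub_zero, one_mul]
    have hg0 : g = 0 := gam_self _ _ _ _ h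
    have h1 := F.vec_abs l1 l0 t1 (rnd g) c
    have h2 := F.pos_abs l0 b c
    have h3 := rnd_le g
    rw [hg0, abs_zero, zero_add] at h3
    rw [hg0] at h1 hv ⊢
    have h4 : B * |(rnd 0 : ℝ)| ≤ B * 1 := mul_le_mul_of_nonneg_left h3 hB
    have hq : qd F.N a t0 = F.N := qd_self _ _ h
    rw [hq]
    have h5 : |(F.vcell l1 l0 t1 (rnd 0) c : ℝ) - F.cell l0 b c| ≤
        |(F.vcell l1 l0 t1 (rnd 0) c : ℝ) - F.vec l1 l0 t1 (rnd 0) c| +
        |F.vec l1 l0 t1 (rnd 0) c| + (|F.pos l0 b c| + |(F.cell l0 b c : ℝ) - F.pos l0 b c|) := by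
      have e : (F.vcell l1 l0 t1 (rnd 0) c : ℝ) - F.cell l0 b c =
        ((F.vcell l1 l0 t1 (rnd 0) c : ℝ) - F.vec l1 l0 t1 (rnd 0) c) +
        F.vec l1 l0 t1 (rnd 0) c - (F.pos l0 b c + ((F.cell l0 b c : ℝ) - F.pos l0 b c)) := by
        ring
      rw [e]
      refine (abs_sub _ _).trans ?_
      exact add_le_add (abs_add_le _ _) (abs_add_le _ _)
    have h6 : B * 1 ≤ B * F.N := mul_le_mul_of_nonneg_left hN1 hB
    linarith only [h1, h2, h4, h5, h6, hv, hcb, hB, hN1]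
  · have d0 := diff_ne a t0 h
    have hθ1 : |θ| ≤ 2 * qd F.N a t0 := by
      rw [hθ, abs_div]
      refine le_trans ?_ (inv_diff a t0 h)
      exact div_le_div_of_nonneg_right (diff_le t1 t0) (abs_nonneg _)
    have h1θ : 1 - θ = ((a : ℝ) - t1) / ((a : ℝ) - t0) := by
      rw [hθ]; field_simp; ring
    have hθ2 : |1 - θ| ≤ 2 * qd F.N a t0 := by
      rw [h1θ, abs_div]
      refine le_trans ?_ (inv_diff a t0 h)
      exact div_le_div_of_nonneg_right (diff_le a t1) (abs_nonneg _)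
    have hg : g = (1 - θ) * ((b : ℝ) - t0) := by
      rw [h1θ, hgdef, gam]; ring
    have hpc : |F.pos l1 t0 c - F.pos l0 t0 c| ≤ 1 := by
      have e := congrFun hp c
      unfold cell at e
      have h1 := Int.floor_le (F.pos l0 t0 c)
      have h2 := Int.lt_floor_add_one (F.pos l0 t0 c)
      have h3 := Int.floor_le (F.pos l1 t0 c)
      have h4 := Int.lt_floor_add_one (F.pos l1 t0 c)
      rw [e] at h1 h2
      rw [abs_le]
      constructor <;> linarith only [h2, h3, h1, h4]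
    have key : F.vec l1 l0 t1 (rnd g) c = θ * F.pos l1 a c + (1 - θ) * F.pos l0 b c +
        (1 - θ) * (F.pos l1 t0 c - F.pos l0 t0 c) + (((rnd g : ℝ) - g) / F.N) * F.V l0 c := by
      have hθm : θ * ((a : ℝ) - t0) = (t1 : ℝ) - t0 := by
        rw [hθ, div_mul_cancel₀ _ d0]
      have e1 : F.pos l1 t1 c = θ * F.pos l1 a c + (1 - θ) * F.pos l1 t0 c := by
        unfold pos
        have : (t1 : ℝ) = t0 + θ * ((a : ℝ) - t0) := by linarith only [hθm]
        rw [this]; ring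
      unfold vec
      rw [e1, hg]
      unfold pos
      ring
    have hVb : |(((rnd g : ℝ) - g) / F.N) * F.V l0 c| ≤ B := by
      rw [abs_mul, abs_div, abs_of_pos hN, div_mul_eq_mul_div, div_le_iff₀ hN]
      calc |(rnd g : ℝ) - g| * |F.V l0 c| ≤ 1 * (B * F.N) :=
            mul_le_mul (rnd_sub g) (F.hV l0 c) (abs_nonneg _) (by norm_num)
        _ = B * F.N := one_mul _
    have e : (F.vcell l1 l0 t1 (rnd g) c : ℝ) - (θ * F.cell l1 a c + (1 - θ) * F.cell l0 b c) =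
        ((F.vcell l1 l0 t1 (rnd g) c : ℝ) - F.vec l1 l0 t1 (rnd g) c) +
        (-(θ * ((F.cell l1 a c : ℝ) - F.pos l1 a c))) +
        (-((1 - θ) * ((F.cell l0 b c : ℝ) - F.pos l0 b c))) +
        (1 - θ) * (F.pos l1 t0 c - F.pos l0 t0 c) + (((rnd g : ℝ) - g) / F.N) * F.V l0 c := by
      rw [key]; ring
    rw [e]
    have s1 : |θ * ((F.cell l1 a c : ℝ) - F.pos l1 a c)| ≤ 2 * qd F.N a t0 := by
      rw [abs_mul]
      calc _ ≤ (2 * qd F.N a t0) * 1 := mul_le_mul hθ1 hca (abs_nonneg _) (by positivity)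
        _ = _ := mul_one _
    have s2 : |(1 - θ) * ((F.cell l0 b c : ℝ) - F.pos l0 b c)| ≤ 2 * qd F.N a t0 := by
      rw [abs_mul]
      calc _ ≤ (2 * qd F.N a t0) * 1 := mul_le_mul hθ2 hcb (abs_nonneg _) (by positivity)
        _ = _ := mul_one _
    have s3 : |(1 - θ) * (F.pos l1 t0 c - F.pos l0 t0 c)| ≤ 2 * qd F.N a t0 := by
      rw [abs_mul]
      calc _ ≤ (2 * qd F.N a t0) * 1 := mul_le_mul hθ2 hpc (abs_nonneg _) (by positivity)
        _ = _ := mul_one _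
    refine (abs_add5 _ _ _ _ _).trans ?_
    rw [abs_neg, abs_neg]
    have hfin : 1 + 2 * qd F.N a t0 + 2 * qd F.N a t0 + 2 * qd F.N a t0 + B ≤
        (7 + 5 * B) * qd F.N a t0 := by
      have h9 : B * 1 ≤ B * qd F.N a t0 := mul_le_mul_of_nonneg_left q1 hB
      linarith only [h9, q1, hB]
    exact le_trans (add_le_add (add_le_add (add_le_add (add_le_add hv s1) s2) s3) hVb) hfin

/-- the second pencil: `vec l2 l0 s c` from the cell of `l2` at `t` and `vec l1 l0 t1 γ` -/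
lemma S_of_cells (hB : 0 ≤ B) (l0 l1 l2 : F.Λ) (t0 t1 a b s t : Fin F.N)
    (hq : F.cell l2 t1 = F.cell l1 t1) (c : Fin m) :
    |(F.vcell l2 l0 s (rnd (cc t0 t1 a b s t)) c : ℝ) -
      ((((s : ℝ) - t1) / ((t : ℝ) - t1)) * F.cell l2 t c +
        (1 - ((s : ℝ) - t1) / ((t : ℝ) - t1)) * F.vcell l1 l0 t1 (rnd (gam t0 t1 a b)) c)| ≤
      (7 + 8 * B) * qd F.N t t1 ^ 2 := by
  have hN := F.N_pos
  have hN1 := F.one_le_N
  have q5 := one_le_qd t t1
  set g := gam t0 t1 a b with hgdef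
  set k := cc t0 t1 a b s t with hkdef
  set θ := ((s : ℝ) - t1) / ((t : ℝ) - t1) with hθ
  have hvS := F.vcell_sub l2 l0 s (rnd k) c
  have hvr := F.vcell_sub l1 l0 t1 (rnd g) c
  have hct := F.cell_sub l2 t c
  by_cases h : t = t1
  · have h0 : ((t : ℝ) - t1) = 0 := by rw [h, sub_self]
    have hθ0 : θ = 0 := by rw [hθ, h0, div_zero]
    rw [hθ0, zero_mul, zero_add, sub_zero, one_mul]
    have hk0 : k = 0 := cc_self _ _ _ _ _ _ h
    have h1 := F.vec_abs l2 l0 s (rnd k) c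
    have h2 := F.vec_abs l1 l0 t1 (rnd g) c
    have h3 := rnd_le k
    have h3' := rnd_le g
    have h4' := gam_upper' t0 t1 a b
    rw [hk0, abs_zero, zero_add] at h3
    rw [hk0] at h1 hvS ⊢
    have h4 : B * |(rnd 0 : ℝ)| ≤ B * 1 := mul_le_mul_of_nonneg_left h3 hB
    have h5 : B * |(rnd g : ℝ)| ≤ B * ((F.N : ℝ) * F.N + 1) :=
      mul_le_mul_of_nonneg_left (by linarith only [h3', h4']) hB
    have hqq : qd F.N t t1 = F.N := qd_self _ _ h
    rw [hqq]
    have h6 : |(F.vcell l2 l0 s (rnd 0) c : ℝ) - F.vcell l1 l0 t1 (rnd g) c| ≤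
        |(F.vcell l2 l0 s (rnd 0) c : ℝ) - F.vec l2 l0 s (rnd 0) c| +
        |F.vec l2 l0 s (rnd 0) c| + (|F.vec l1 l0 t1 (rnd g) c| +
          |(F.vcell l1 l0 t1 (rnd g) c : ℝ) - F.vec l1 l0 t1 (rnd g) c|) := by
      have e : (F.vcell l2 l0 s (rnd 0) c : ℝ) - F.vcell l1 l0 t1 (rnd g) c =
        ((F.vcell l2 l0 s (rnd 0) c : ℝ) - F.vec l2 l0 s (rnd 0) c) +
        F.vec l2 l0 s (rnd 0) c - (F.vec l1 l0 t1 (rnd g) c +
          ((F.vcell l1 l0 t1 (rnd g) c : ℝ) - F.vec l1 l0 t1 (rnd g) c)) := by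
        ring
      rw [e]
      refine (abs_sub _ _).trans ?_
      exact add_le_add (abs_add_le _ _) (abs_add_le _ _)
    have h7 : (F.N : ℝ) ≤ (F.N : ℝ) ^ 2 := le_self_pow₀ hN1 two_ne_zero
    have h8 : (1 : ℝ) ≤ (F.N : ℝ) ^ 2 := one_le_pow₀ hN1
    have h9 := mul_le_mul_of_nonneg_left h7 hB
    have h10 := mul_le_mul_of_nonneg_left h8 hB
    linarith only [h6, h1, h2, h4, h5, hvS, hvr, h9, h10, h8, hB]
  · have d0 := diff_ne t t1 h
    have hθ1 : |θ| ≤ 2 * qd F.N t t1 := by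
      rw [hθ, abs_div]
      refine le_trans ?_ (inv_diff t t1 h)
      exact div_le_div_of_nonneg_right (diff_le s t1) (abs_nonneg _)
    have h1θ : 1 - θ = ((t : ℝ) - s) / ((t : ℝ) - t1) := by
      rw [hθ]; field_simp; ring
    have hθ2 : |1 - θ| ≤ 2 * qd F.N t t1 := by
      rw [h1θ, abs_div]
      refine le_trans ?_ (inv_diff t t1 h)
      exact div_le_div_of_nonneg_right (diff_le t s) (abs_nonneg _)
    have hk : k = (1 - θ) * g := by
      rw [h1θ, hkdef, cc]; ring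
    have hpc : |F.pos l2 t1 c - F.pos l1 t1 c| ≤ 1 := by
      have e := congrFun hq c
      unfold cell at e
      have h1 := Int.floor_le (F.pos l2 t1 c)
      have h2 := Int.lt_floor_add_one (F.pos l2 t1 c)
      have h3 := Int.floor_le (F.pos l1 t1 c)
      have h4 := Int.lt_floor_add_one (F.pos l1 t1 c)
      rw [e] at h1 h2
      rw [abs_le]
      constructor <;> linarith only [h1, h4, h2, h3]
    have key : F.vec l2 l0 s (rnd k) c = θ * F.pos l2 t c +
        (1 - θ) * F.vec l1 l0 t1 (rnd g) c +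
        (1 - θ) * (F.pos l2 t1 c - F.pos l1 t1 c) +
        ((((rnd k : ℝ) - k) - (1 - θ) * ((rnd g : ℝ) - g)) / F.N) * F.V l0 c := by
      have hθm : θ * ((t : ℝ) - t1) = (s : ℝ) - t1 := by
        rw [hθ, div_mul_cancel₀ _ d0]
      have e1 : F.pos l2 s c = θ * F.pos l2 t c + (1 - θ) * F.pos l2 t1 c := by
        unfold pos
        have : (s : ℝ) = t1 + θ * ((t : ℝ) - t1) := by linarith only [hθm]
        rw [this]; ring
      unfold vec
      rw [e1, hk]
      ring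
    have hVb : |((((rnd k : ℝ) - k) - (1 - θ) * ((rnd g : ℝ) - g)) / F.N) * F.V l0 c| ≤
        (1 + 2 * qd F.N t t1) * B := by
      rw [abs_mul, abs_div, abs_of_pos hN, div_mul_eq_mul_div, div_le_iff₀ hN]
      have e2 : |((rnd k : ℝ) - k) - (1 - θ) * ((rnd g : ℝ) - g)| ≤ 1 + 2 * qd F.N t t1 := by
        refine (abs_sub _ _).trans ?_
        rw [abs_mul]
        have := mul_le_mul hθ2 (rnd_sub g) (abs_nonneg _) (by positivity)
        have := rnd_sub k
        (clear hB l0 l1 l2 hq c hN hN1 hgdef hkdef hvS hvr hct hθ1 hk hpc key; linarith)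
      calc |((rnd k : ℝ) - k) - (1 - θ) * ((rnd g : ℝ) - g)| * |F.V l0 c| ≤
            (1 + 2 * qd F.N t t1) * (B * F.N) :=
            mul_le_mul e2 (F.hV l0 c) (abs_nonneg _) (by positivity)
        _ = (1 + 2 * qd F.N t t1) * B * F.N := by ring
    have e : (F.vcell l2 l0 s (rnd k) c : ℝ) -
        (θ * F.cell l2 t c + (1 - θ) * F.vcell l1 l0 t1 (rnd g) c) =
        ((F.vcell l2 l0 s (rnd k) c : ℝ) - F.vec l2 l0 s (rnd k) c) +
        (-(θ * ((F.cell l2 t c : ℝ) - F.pos l2 t c))) +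
        (-((1 - θ) * ((F.vcell l1 l0 t1 (rnd g) c : ℝ) - F.vec l1 l0 t1 (rnd g) c))) +
        (1 - θ) * (F.pos l2 t1 c - F.pos l1 t1 c) +
        ((((rnd k : ℝ) - k) - (1 - θ) * ((rnd g : ℝ) - g)) / F.N) * F.V l0 c := by
      rw [key]; ring
    rw [e]
    have s1 : |θ * ((F.cell l2 t c : ℝ) - F.pos l2 t c)| ≤ 2 * qd F.N t t1 := by
      rw [abs_mul]
      calc _ ≤ (2 * qd F.N t t1) * 1 := mul_le_mul hθ1 hct (abs_nonneg _) (by positivity)
        _ = _ := mul_one _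
    have s2 : |(1 - θ) * ((F.vcell l1 l0 t1 (rnd g) c : ℝ) - F.vec l1 l0 t1 (rnd g) c)| ≤
        2 * qd F.N t t1 := by
      rw [abs_mul]
      calc _ ≤ (2 * qd F.N t t1) * 1 := mul_le_mul hθ2 hvr (abs_nonneg _) (by positivity)
        _ = _ := mul_one _
    have s3 : |(1 - θ) * (F.pos l2 t1 c - F.pos l1 t1 c)| ≤ 2 * qd F.N t t1 := by
      rw [abs_mul]
      calc _ ≤ (2 * qd F.N t t1) * 1 := mul_le_mul hθ2 hpc (abs_nonneg _) (by positivity)
        _ = _ := mul_one _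
    refine (abs_add5 _ _ _ _ _).trans ?_
    rw [abs_neg, abs_neg]
    have hfin : 1 + 2 * qd F.N t t1 + 2 * qd F.N t t1 + 2 * qd F.N t t1 +
        (1 + 2 * qd F.N t t1) * B ≤ (7 + 8 * B) * qd F.N t t1 ^ 2 := by
      have h7 : qd F.N t t1 ≤ qd F.N t t1 ^ 2 := by
        rw [sq]; exact le_mul_of_one_le_left (by linarith only [q5]) q5
      have h8 : 1 ≤ qd F.N t t1 ^ 2 := q5.trans h7
      have h9 := mul_le_mul_of_nonneg_left h7 hB
      have h10 := mul_le_mul_of_nonneg_left h8 hB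
      linarith only [h7, h8, h9, h10, hB]
    exact le_trans (add_le_add (add_le_add (add_le_add (add_le_add hvS s1) s2) s3) hVb) hfin

end LineFam

end Vale.Agent.P127
end
end

section

section

/-!
# P127: one step of the recursion
-/

namespace Vale.Agent.P127

open Finset Law

/-- names of the random variables on a path -/
inductive Ix where
  | L0 | L1 | L2 | t0 | t1 | a | b | s | t | g | k | r | S | p | xa | xb | xs | xt
  deriving DecidableEq

/-- their types -/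
def Ty {m : ℕ} {B : ℝ} (F : LineFam m B) : Ix → Type
  | .L0 => F.Λ
  | .L1 => F.Λ
  | .L2 => F.Λ
  | .t0 => Fin F.N
  | .t1 => Fin F.N
  | .a => Fin F.N
  | .b => Fin F.N
  | .s => Fin F.N
  | .t => Fin F.N
  | .g => ℤ
  | .k => ℤ
  | .r => Fin m → ℤ
  | .S => Fin m → ℤ
  | .p => Fin m → ℤ
  | .xa => Fin m → ℤ
  | .xb => Fin m → ℤ
  | .xs => Fin m → ℤ
  | .xt => Fin m → ℤ

/-- product of the six distance factors -/
noncomputable def QQ {N : ℕ} (t0 t1 a b s t : Fin N) : ℝ :=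
  qd N a t0 * qd N a t1 * qd N b t0 * qd N t s * qd N t t1 * qd N t0 t1

section QQ

variable {N : ℕ} (t0 t1 a b s t : Fin N)

private lemma mul_one_le {x y : ℝ} (hx : 1 ≤ x) (hy : 1 ≤ y) : 1 ≤ x * y :=
  one_le_mul_of_one_le_of_one_le hx hy

lemma QQ_one : 1 ≤ QQ t0 t1 a b s t := by
  unfold QQ
  exact mul_one_le (mul_one_le (mul_one_le (mul_one_le (mul_one_le (one_le_qd _ _)
    (one_le_qd _ _)) (one_le_qd _ _)) (one_le_qd _ _)) (one_le_qd _ _)) (one_le_qd _ _)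

lemma QQ_sq : QQ t0 t1 a b s t ≤ QQ t0 t1 a b s t ^ 2 := by
  exact le_self_pow₀ (QQ_one t0 t1 a b s t) two_ne_zero

lemma QQ_split (x y : ℝ) (hx : 0 ≤ x) (hy : 1 ≤ y) (h : QQ t0 t1 a b s t = x * y) :
    x ≤ QQ t0 t1 a b s t := by
  rw [h]
  exact le_mul_of_one_le_right hx hy

lemma qd_nonneg (i j : Fin N) : 0 ≤ qd N i j := by (clear * -; linarith [one_le_qd i j])

lemma QQ_1 : qd N a t0 ≤ QQ t0 t1 a b s t :=
  QQ_split _ _ _ _ _ _ _ (qd N a t1 * qd N b t0 * qd N t s * qd N t t1 * qd N t0 t1)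
    (qd_nonneg _ _)
    (mul_one_le (mul_one_le (mul_one_le (mul_one_le (one_le_qd _ _)
    (one_le_qd _ _)) (one_le_qd _ _)) (one_le_qd _ _)) (one_le_qd _ _))
    (by unfold QQ; ring)

lemma QQ_5 : qd N t t1 ≤ QQ t0 t1 a b s t :=
  QQ_split _ _ _ _ _ _ _ (qd N a t0 * qd N a t1 * qd N b t0 * qd N t s * qd N t0 t1)
    (qd_nonneg _ _)
    (mul_one_le (mul_one_le (mul_one_le (mul_one_le (one_le_qd _ _)
    (one_le_qd _ _)) (one_le_qd _ _)) (one_le_qd _ _)) (one_le_qd _ _))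
    (by unfold QQ; ring)

lemma QQ_6 : qd N t0 t1 ≤ QQ t0 t1 a b s t :=
  QQ_split _ _ _ _ _ _ _ (qd N a t0 * qd N a t1 * qd N b t0 * qd N t s * qd N t t1)
    (qd_nonneg _ _)
    (mul_one_le (mul_one_le (mul_one_le (mul_one_le (one_le_qd _ _)
    (one_le_qd _ _)) (one_le_qd _ _)) (one_le_qd _ _)) (one_le_qd _ _))
    (by unfold QQ; ring)

lemma QQ_12 : qd N a t0 * qd N a t1 ≤ QQ t0 t1 a b s t :=
  QQ_split _ _ _ _ _ _ _ (qd N b t0 * qd N t s * qd N t t1 * qd N t0 t1)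
    (mul_nonneg (qd_nonneg _ _) (qd_nonneg _ _))
    (mul_one_le (mul_one_le (mul_one_le (one_le_qd _ _)
    (one_le_qd _ _)) (one_le_qd _ _)) (one_le_qd _ _))
    (by unfold QQ; ring)

lemma QQ_15 : qd N a t0 * qd N t t1 ≤ QQ t0 t1 a b s t :=
  QQ_split _ _ _ _ _ _ _ (qd N a t1 * qd N b t0 * qd N t s * qd N t0 t1)
    (mul_nonneg (qd_nonneg _ _) (qd_nonneg _ _))
    (mul_one_le (mul_one_le (mul_one_le (one_le_qd _ _)
    (one_le_qd _ _)) (one_le_qd _ _)) (one_le_qd _ _))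
    (by unfold QQ; ring)

lemma QQ_45 : qd N t s * qd N t t1 ≤ QQ t0 t1 a b s t :=
  QQ_split _ _ _ _ _ _ _ (qd N a t0 * qd N a t1 * qd N b t0 * qd N t0 t1)
    (mul_nonneg (qd_nonneg _ _) (qd_nonneg _ _))
    (mul_one_le (mul_one_le (mul_one_le (one_le_qd _ _)
    (one_le_qd _ _)) (one_le_qd _ _)) (one_le_qd _ _))
    (by unfold QQ; ring)

lemma QQ_123 : qd N a t0 * qd N a t1 * qd N b t0 ≤ QQ t0 t1 a b s t :=
  QQ_split _ _ _ _ _ _ _ (qd N t s * qd N t t1 * qd N t0 t1)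
    (mul_nonneg (mul_nonneg (qd_nonneg _ _) (qd_nonneg _ _)) (qd_nonneg _ _))
    (mul_one_le (mul_one_le (one_le_qd _ _) (one_le_qd _ _)) (one_le_qd _ _))
    (by unfold QQ; ring)

lemma QQ_1245 : qd N a t0 * qd N a t1 * qd N t s * qd N t t1 ≤ QQ t0 t1 a b s t :=
  QQ_split _ _ _ _ _ _ _ (qd N b t0 * qd N t0 t1)
    (mul_nonneg (mul_nonneg (mul_nonneg (qd_nonneg _ _) (qd_nonneg _ _)) (qd_nonneg _ _))
      (qd_nonneg _ _))
    (mul_one_le (one_le_qd _ _) (one_le_qd _ _))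
    (by unfold QQ; ring)

lemma QQ_12345 : qd N a t0 * qd N a t1 * qd N b t0 * qd N t s * qd N t t1 ≤
    QQ t0 t1 a b s t :=
  QQ_split _ _ _ _ _ _ _ (qd N t0 t1)
    (mul_nonneg (mul_nonneg (mul_nonneg (mul_nonneg (qd_nonneg _ _) (qd_nonneg _ _))
      (qd_nonneg _ _)) (qd_nonneg _ _)) (qd_nonneg _ _))
    (one_le_qd _ _)
    (by unfold QQ; ring)

end QQ

section Step

variable {m : ℕ} {B : ℝ} (F : LineFam m B) {Ω : Type} [Fintype Ω] (P : Law Ω)
    (L0 L1 L2 : Ω → F.Λ) (t0 t1 a b s t : Ω → Fin F.N)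

/-- the family of random variables -/
noncomputable def ZZ : ∀ i : Ix, Ω → Ty F i
  | .L0 => L0
  | .L1 => L1
  | .L2 => L2
  | .t0 => t0
  | .t1 => t1
  | .a => a
  | .b => b
  | .s => s
  | .t => t
  | .g => fun ω => (rnd (gam (t0 ω) (t1 ω) (a ω) (b ω)) : ℤ)
  | .k => fun ω => (rnd (cc (t0 ω) (t1 ω) (a ω) (b ω) (s ω) (t ω)) : ℤ)
  | .r => fun ω => F.vcell (L1 ω) (L0 ω) (t1 ω) (rnd (gam (t0 ω) (t1 ω) (a ω) (b ω)))
  | .S => fun ω => F.vcell (L2 ω) (L0 ω) (s ω)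
      (rnd (cc (t0 ω) (t1 ω) (a ω) (b ω) (s ω) (t ω)))
  | .p => fun ω => F.cell (L1 ω) (t0 ω)
  | .xa => fun ω => F.cell (L1 ω) (a ω)
  | .xb => fun ω => F.cell (L0 ω) (b ω)
  | .xs => fun ω => F.cell (L2 ω) (s ω)
  | .xt => fun ω => F.cell (L2 ω) (t ω)

/-- expected logarithm of the distance factors -/
noncomputable def EQ : ℝ :=
  P.ex (fun ω => Real.log (QQ (t0 ω) (t1 ω) (a ω) (b ω) (s ω) (t ω)))

/-- the error term -/
noncomputable def er : ℝ :=
  (m + 1) * (Real.log 4 + 2 * (Real.log (11 + 8 * B) + 2 * EQ F P t0 t1 a b s t))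

lemma EQ_nonneg : 0 ≤ EQ F P t0 t1 a b s t :=
  P.ex_nonneg fun _ _ => Real.log_nonneg (QQ_one _ _ _ _ _ _)

lemma ex_log_le (hB : 0 ≤ B) (R : Ω → ℝ) (hR0 : ∀ ω, 0 ≤ R ω)
    (hR : ∀ ω, R ω ≤ (8 + 8 * B) * QQ (t0 ω) (t1 ω) (a ω) (b ω) (s ω) (t ω) ^ 2) :
    P.ex (fun ω => Real.log (3 + R ω)) ≤
      Real.log (11 + 8 * B) + 2 * EQ F P t0 t1 a b s t := by
  have h1 : Real.log (11 + 8 * B) + 2 * EQ F P t0 t1 a b s t =
      P.ex (fun ω => Real.log (11 + 8 * B) +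
        2 * Real.log (QQ (t0 ω) (t1 ω) (a ω) (b ω) (s ω) (t ω))) := by
    rw [P.ex_add, P.ex_const, P.ex_const_mul]
    rfl
  rw [h1]
  refine P.ex_mono fun ω _ => ?_
  have hq := QQ_one (t0 ω) (t1 ω) (a ω) (b ω) (s ω) (t ω)
  have hq2 : 1 ≤ QQ (t0 ω) (t1 ω) (a ω) (b ω) (s ω) (t ω) ^ 2 := one_le_pow₀ hq
  have h2 : (2 : ℝ) * Real.log (QQ (t0 ω) (t1 ω) (a ω) (b ω) (s ω) (t ω)) =
      Real.log (QQ (t0 ω) (t1 ω) (a ω) (b ω) (s ω) (t ω) ^ 2) := by
    rw [Real.log_pow]; norm_num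
  rw [h2, ← Real.log_mul (by (clear * - hB; positivity)) (by positivity)]
  refine Real.log_le_log (by linarith only [hR0 ω, hR0]) ?_
  have := hR ω
  linarith only [this, hq2]

lemma er_vec (hB : 0 ≤ B) (R : Ω → ℝ) (hR0 : ∀ ω, 0 ≤ R ω)
    (hR : ∀ ω, R ω ≤ (8 + 8 * B) * QQ (t0 ω) (t1 ω) (a ω) (b ω) (s ω) (t ω) ^ 2) :
    m * (Real.log 4 + 2 * P.ex (fun ω => Real.log (3 + R ω))) ≤ er F P t0 t1 a b s t := by
  have h1 := ex_log_le F P t0 t1 a b s t hB R hR0 hR
  have h2 : 0 ≤ Real.log 4 := Real.log_nonneg (by norm_num)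
  have h3 : 0 ≤ Real.log (11 + 8 * B) := Real.log_nonneg (by linarith only [hB])
  have h4 := EQ_nonneg F P t0 t1 a b s t
  unfold er
  have h5 : (m : ℝ) * (Real.log 4 + 2 * P.ex (fun ω => Real.log (3 + R ω))) ≤
      m * (Real.log 4 + 2 * (Real.log (11 + 8 * B) + 2 * EQ F P t0 t1 a b s t)) :=
    mul_le_mul_of_nonneg_left (by linarith only [h1]) (by positivity)
  linarith

lemma er_nonneg (hB : 0 ≤ B) : 0 ≤ er F P t0 t1 a b s t := by
  have h2 : 0 ≤ Real.log 4 := Real.log_nonneg (by norm_num)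
  have h3 : 0 ≤ Real.log (11 + 8 * B) := Real.log_nonneg (by linarith only [hB])
  have h4 := EQ_nonneg F P t0 t1 a b s t
  unfold er
  (clear * - h3 h4; positivity)

lemma er_sc (hB : 0 ≤ B) (R : Ω → ℝ) (hR0 : ∀ ω, 0 ≤ R ω)
    (hR : ∀ ω, R ω ≤ (8 + 8 * B) * QQ (t0 ω) (t1 ω) (a ω) (b ω) (s ω) (t ω) ^ 2) :
    Real.log 4 + 2 * P.ex (fun ω => Real.log (3 + R ω)) ≤ er F P t0 t1 a b s t := by
  have h1 := ex_log_le F P t0 t1 a b s t hB R hR0 hR
  have h2 : 0 ≤ Real.log 4 := Real.log_nonneg (by norm_num)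
  have h3 : 0 ≤ Real.log (11 + 8 * B) := Real.log_nonneg (by linarith only [hB])
  have h4 := EQ_nonneg F P t0 t1 a b s t
  unfold er
  have : 0 ≤ (m : ℝ) * (Real.log 4 + 2 * (Real.log (11 + 8 * B) +
    2 * EQ F P t0 t1 a b s t)) := by (clear * - h3 h4; (clear * - h3 h4; positivity))
  linarith only [h1, this]

end Step

/-- scalar version of `H_det` -/
theorem Law.H_det1 {Ω : Type} [Fintype Ω] (P : Law Ω) {T : Type*} (Z : Ω → ℤ) (Y : Ω → T)
    (g : T → ℝ) (R : Ω → ℝ) (hR : ∀ ω, |(Z ω : ℝ) - g (Y ω)| ≤ R ω) :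
    P.H (fun ω => (Z ω, Y ω)) - P.H Y ≤
      Real.log 4 + 2 * P.ex (fun ω => Real.log (2 + R ω)) := by
  have h := P.H_det (m := 1) (fun ω _ => Z ω) Y (fun y _ => g y) R (fun ω _ => hR ω)
  have h1 : P.H (fun ω => ((fun _ : Fin 1 => Z ω), Y ω)) = P.H (fun ω => (Z ω, Y ω)) := by
    refine P.H_congr fun ω ω' => ?_
    simp only [Prod.mk.injEq, funext_iff]
    constructor
    · rintro ⟨h1, h2⟩
      exact ⟨h1 0, h2⟩
    · rintro ⟨h1, h2⟩
      exact ⟨fun _ => h1, h2⟩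
  rw [h1] at h
  simpa only [tsub_le_iff_right, ge_iff_le, Nat.cast_one, one_mul] using h

section Dets

variable {m : ℕ} {B : ℝ} (F : LineFam m B) {Ω : Type} [Fintype Ω] (P : Law Ω)
    (L0 L1 L2 : Ω → F.Λ) (t0 t1 a b s t : Ω → Fin F.N)

lemma det1 (hB : 0 ≤ B) :
    P.hl (ZZ F L0 L1 L2 t0 t1 a b s t) [.L0, .L1, .r, .g, .t0, .t1] -
      P.hl (ZZ F L0 L1 L2 t0 t1 a b s t) [.L1, .r, .g, .t0, .t1] ≤ er F P t0 t1 a b s t := by
  set g' : Ω → ℤ := fun ω => rnd (gam (t0 ω) (t1 ω) (a ω) (b ω)) with hg'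
  set r' : Ω → Fin m → ℤ := fun ω => F.vcell (L1 ω) (L0 ω) (t1 ω) (g' ω) with hr'
  have e1 : P.hl (ZZ F L0 L1 L2 t0 t1 a b s t) [.L0, .L1, .r, .g, .t0, .t1] =
      P.H (fun ω => (L0 ω, (L1 ω, r' ω, g' ω, t0 ω, t1 ω))) :=
    rfl
  have e2 : P.hl (ZZ F L0 L1 L2 t0 t1 a b s t) [.L1, .r, .g, .t0, .t1] =
      P.H (fun ω => (L1 ω, r' ω, g' ω, t0 ω, t1 ω)) :=
    rfl
  rw [e1, e2]
  have h := H_line_det F P L0 (fun ω => (L1 ω, r' ω, g' ω, t0 ω, t1 ω))
    (fun y c => ((F.N : ℝ) / y.2.2.1) * ((y.2.1 c : ℝ) - F.pos y.1 y.2.2.2.2 c))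
    (fun ω => F.N / |(g' ω : ℝ)|) (fun ω c => F.V_of_vec (L1 ω) (L0 ω) (t1 ω) (g' ω)
      (rnd_one _) c)
  refine h.trans (er_vec F P t0 t1 a b s t hB _ (fun ω => by (clear * -; (clear * -; positivity))) fun ω => ?_)
  have h1 := rnd_one (gam (t0 ω) (t1 ω) (a ω) (b ω))
  rw [div_le_iff₀ (by linarith only [h1])]
  refine (gam_lower (t0 ω) (t1 ω) (a ω) (b ω)).trans ?_
  refine mul_le_mul_of_nonneg_right ?_ (by (clear * - h1; positivity))
  have h2 := QQ_123 (t0 ω) (t1 ω) (a ω) (b ω) (s ω) (t ω)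
  have h3 := QQ_sq (t0 ω) (t1 ω) (a ω) (b ω) (s ω) (t ω)
  have h4 := QQ_one (t0 ω) (t1 ω) (a ω) (b ω) (s ω) (t ω)
  have h5 : 0 ≤ B * QQ (t0 ω) (t1 ω) (a ω) (b ω) (s ω) (t ω) ^ 2 := by (clear * - hB h4; positivity)
  linarith only [h2, h3, h4, h5]

lemma er_vec2 (hB : 0 ≤ B) (R : Ω → ℝ) (hR0 : ∀ ω, 0 ≤ R ω)
    (hR : ∀ ω, R ω ≤ (8 + 8 * B) * QQ (t0 ω) (t1 ω) (a ω) (b ω) (s ω) (t ω) ^ 2) :
    m * (Real.log 4 + 2 * P.ex (fun ω => Real.log (2 + R ω))) ≤ er F P t0 t1 a b s t := by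
  refine le_trans ?_ (er_vec F P t0 t1 a b s t hB R hR0 hR)
  have : P.ex (fun ω => Real.log (2 + R ω)) ≤ P.ex (fun ω => Real.log (3 + R ω)) :=
    P.ex_mono fun ω _ => Real.log_le_log (by linarith only [hR0 ω]) (by linarith)
  refine mul_le_mul_of_nonneg_left (by linarith) (by positivity)

lemma er_sc2 (hB : 0 ≤ B) (R : Ω → ℝ) (hR0 : ∀ ω, 0 ≤ R ω)
    (hR : ∀ ω, R ω ≤ (8 + 8 * B) * QQ (t0 ω) (t1 ω) (a ω) (b ω) (s ω) (t ω) ^ 2) :
    Real.log 4 + 2 * P.ex (fun ω => Real.log (2 + R ω)) ≤ er F P t0 t1 a b s t := by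
  refine le_trans ?_ (er_sc F P t0 t1 a b s t hB R hR0 hR)
  have : P.ex (fun ω => Real.log (2 + R ω)) ≤ P.ex (fun ω => Real.log (3 + R ω)) :=
    P.ex_mono fun ω _ => Real.log_le_log (by linarith only [hR0 ω]) (by linarith only [])
  linarith

lemma det2 (hB : 0 ≤ B) (hp : ∀ ω, F.cell (L0 ω) (t0 ω) = F.cell (L1 ω) (t0 ω)) :
    P.hl (ZZ F L0 L1 L2 t0 t1 a b s t) [.r, .xa, .xb, .a, .b, .g, .t0, .t1] -
      P.hl (ZZ F L0 L1 L2 t0 t1 a b s t) [.xa, .xb, .a, .b, .g, .t0, .t1] ≤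
      er F P t0 t1 a b s t := by
  set g' : Ω → ℤ := fun ω => rnd (gam (t0 ω) (t1 ω) (a ω) (b ω)) with hg'
  set r' : Ω → Fin m → ℤ := fun ω => F.vcell (L1 ω) (L0 ω) (t1 ω) (g' ω) with hr'
  set xa' : Ω → Fin m → ℤ := fun ω => F.cell (L1 ω) (a ω) with hxa'
  set xb' : Ω → Fin m → ℤ := fun ω => F.cell (L0 ω) (b ω) with hxb'
  have e1 : P.hl (ZZ F L0 L1 L2 t0 t1 a b s t) [.r, .xa, .xb, .a, .b, .g, .t0, .t1] =
      P.H (fun ω => (r' ω, (xa' ω, xb' ω, a ω, b ω, g' ω, t0 ω, t1 ω))) :=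
    rfl
  have e2 : P.hl (ZZ F L0 L1 L2 t0 t1 a b s t) [.xa, .xb, .a, .b, .g, .t0, .t1] =
      P.H (fun ω => (xa' ω, xb' ω, a ω, b ω, g' ω, t0 ω, t1 ω)) :=
    rfl
  rw [e1, e2]
  have h := P.H_det r' (fun ω => (xa' ω, xb' ω, a ω, b ω, g' ω, t0 ω, t1 ω))
    (fun y c => ((((y.2.2.2.2.2.2 : ℝ) - y.2.2.2.2.2.1) / ((y.2.2.1 : ℝ) - y.2.2.2.2.2.1)) *
      (y.1 c) + (1 - ((y.2.2.2.2.2.2 : ℝ) - y.2.2.2.2.2.1) /
        ((y.2.2.1 : ℝ) - y.2.2.2.2.2.1)) * (y.2.1 c)))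
    (fun ω => (7 + 5 * B) * qd F.N (a ω) (t0 ω))
    (fun ω c => F.r_of_cells hB (L0 ω) (L1 ω) (t0 ω) (t1 ω) (a ω) (b ω) (hp ω) c)
  refine h.trans (er_vec2 F P t0 t1 a b s t hB _ (fun ω => ?_) fun ω => ?_)
  · have := one_le_qd (a ω) (t0 ω)
    (clear * - hB this; (clear * - hB this; positivity))
  · have h2 := QQ_1 (t0 ω) (t1 ω) (a ω) (b ω) (s ω) (t ω)
    have h3 := QQ_sq (t0 ω) (t1 ω) (a ω) (b ω) (s ω) (t ω)
    have h4 := one_le_qd (a ω) (t0 ω)
    have h5 : qd F.N (a ω) (t0 ω) ≤ QQ (t0 ω) (t1 ω) (a ω) (b ω) (s ω) (t ω) ^ 2 := h2.trans h3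
    exact mul_le_mul (by linarith only [hB]) h5 (by linarith only [h4]) (by linarith only [hB])

lemma fin_congr {N : ℕ} (i j : Fin N) : ((i : ℕ) : ℤ) = ((j : ℕ) : ℤ) ↔ i = j := by
  rw [Nat.cast_inj, Fin.ext_iff]

lemma Law.H_fin_cast {Ω : Type} [Fintype Ω] (P : Law Ω) {N : ℕ} {S : Type*} (b : Ω → Fin N)
    (Y : Ω → S) : P.H (fun ω => (b ω, Y ω)) = P.H (fun ω => (((b ω : ℕ) : ℤ), Y ω)) := by
  refine P.H_congr fun ω ω' => ?_
  rw [Prod.mk.injEq, Prod.mk.injEq, fin_congr]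

lemma det3 (hB : 0 ≤ B) :
    P.hl (ZZ F L0 L1 L2 t0 t1 a b s t) [.b, .a, .g, .t0, .t1] -
      P.hl (ZZ F L0 L1 L2 t0 t1 a b s t) [.a, .g, .t0, .t1] ≤
      er F P t0 t1 a b s t := by
  set g' : Ω → ℤ := fun ω => rnd (gam (t0 ω) (t1 ω) (a ω) (b ω)) with hg'
  have e1 : P.hl (ZZ F L0 L1 L2 t0 t1 a b s t) [.b, .a, .g, .t0, .t1] =
      P.H (fun ω => ((((b ω : Fin F.N) : ℕ) : ℤ), (a ω, g' ω, t0 ω, t1 ω))) :=
    P.H_fin_cast _ _
  have e2 : P.hl (ZZ F L0 L1 L2 t0 t1 a b s t) [.a, .g, .t0, .t1] =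
      P.H (fun ω => (a ω, g' ω, t0 ω, t1 ω)) :=
    rfl
  rw [e1, e2]
  have h := P.H_det1 (fun ω => (((b ω : Fin F.N) : ℕ) : ℤ)) (fun ω => (a ω, g' ω, t0 ω, t1 ω))
    (fun y => (y.2.2.1 : ℝ) + (y.2.1 : ℝ) * ((y.1 : ℝ) - y.2.2.1) / ((y.1 : ℝ) - y.2.2.2))
    (fun ω => 2 * (qd F.N (a ω) (t0 ω) * qd F.N (a ω) (t1 ω)))
    (fun ω => by simpa only [Int.cast_natCast] using b_of_gam (t0 ω) (t1 ω) (a ω) (b ω))
  refine h.trans (er_sc2 F P t0 t1 a b s t hB _ (fun ω => ?_) fun ω => ?_)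
  · have := one_le_qd (a ω) (t0 ω)
    have := one_le_qd (a ω) (t1 ω)
    positivity
  · have h2 := QQ_12 (t0 ω) (t1 ω) (a ω) (b ω) (s ω) (t ω)
    have h3 := QQ_sq (t0 ω) (t1 ω) (a ω) (b ω) (s ω) (t ω)
    have h5 : 0 ≤ B * QQ (t0 ω) (t1 ω) (a ω) (b ω) (s ω) (t ω) ^ 2 := by (clear * - hB; positivity)
    have h6 : 0 ≤ QQ (t0 ω) (t1 ω) (a ω) (b ω) (s ω) (t ω) ^ 2 := by (clear * -; positivity)
    linarith only [h2, h3, h5, h6]

lemma det4 (hB : 0 ≤ B) :
    P.hl (ZZ F L0 L1 L2 t0 t1 a b s t) [.g, .t0, .t1] -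
      P.hl (ZZ F L0 L1 L2 t0 t1 a b s t) [.t0, .t1] ≤
      Real.log F.N + er F P t0 t1 a b s t := by
  set g' : Ω → ℤ := fun ω => rnd (gam (t0 ω) (t1 ω) (a ω) (b ω)) with hg'
  have e1 : P.hl (ZZ F L0 L1 L2 t0 t1 a b s t) [.g, .t0, .t1] =
      P.H (fun ω => (g' ω, (t0 ω, t1 ω))) :=
    rfl
  have e2 : P.hl (ZZ F L0 L1 L2 t0 t1 a b s t) [.t0, .t1] =
      P.H (fun ω => (t0 ω, t1 ω)) :=
    rfl
  rw [e1, e2]
  have h := P.H_scale g' (fun ω => (t0 ω, t1 ω)) F.N F.one_le_N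
  have hN := F.N_pos
  have hN1 := F.one_le_N
  have h1 : P.ex (fun ω => Real.log (1 + |(g' ω : ℝ)| / F.N)) ≤
      P.ex (fun ω => Real.log (3 + 2 * qd F.N (a ω) (t0 ω))) := by
    refine P.ex_mono fun ω _ => Real.log_le_log (by (clear * - hN; (clear * - hN; positivity))) ?_
    have e3 := rnd_le (gam (t0 ω) (t1 ω) (a ω) (b ω))
    have e4 := gam_upper (t0 ω) (t1 ω) (a ω) (b ω)
    have e5 : |(g' ω : ℝ)| / F.N ≤ 2 * qd F.N (a ω) (t0 ω) + 1 := by
      rw [div_le_iff₀ hN]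
      linarith only [e3, e4, hN1]
    linarith only [e5]
  have h2 := er_sc F P t0 t1 a b s t hB (fun ω => 2 * qd F.N (a ω) (t0 ω))
    (fun ω => by have := one_le_qd (a ω) (t0 ω); (clear * - this; positivity)) (fun ω => by
      have h2 := QQ_1 (t0 ω) (t1 ω) (a ω) (b ω) (s ω) (t ω)
      have h3 := QQ_sq (t0 ω) (t1 ω) (a ω) (b ω) (s ω) (t ω)
      have h5 : 0 ≤ B * QQ (t0 ω) (t1 ω) (a ω) (b ω) (s ω) (t ω) ^ 2 := by (clear * - hB; positivity)
      have h6 : 0 ≤ QQ (t0 ω) (t1 ω) (a ω) (b ω) (s ω) (t ω) ^ 2 := by (clear * -; positivity)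
      linarith only [h2, h3, h5, h6])
  linarith

lemma det5a (hB : 0 ≤ B) :
    P.hl (ZZ F L0 L1 L2 t0 t1 a b s t) [.L0, .L2, .S, .k, .t0, .t1, .s] -
      P.hl (ZZ F L0 L1 L2 t0 t1 a b s t) [.L2, .S, .k, .t0, .t1, .s] ≤
      er F P t0 t1 a b s t := by
  set k' : Ω → ℤ := fun ω => rnd (cc (t0 ω) (t1 ω) (a ω) (b ω) (s ω) (t ω)) with hk'
  set S' : Ω → Fin m → ℤ := fun ω => F.vcell (L2 ω) (L0 ω) (s ω) (k' ω) with hS'
  have e1 : P.hl (ZZ F L0 L1 L2 t0 t1 a b s t) [.L0, .L2, .S, .k, .t0, .t1, .s] =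
      P.H (fun ω => (L0 ω, (L2 ω, S' ω, k' ω, t0 ω, t1 ω, s ω))) :=
    rfl
  have e2 : P.hl (ZZ F L0 L1 L2 t0 t1 a b s t) [.L2, .S, .k, .t0, .t1, .s] =
      P.H (fun ω => (L2 ω, S' ω, k' ω, t0 ω, t1 ω, s ω)) :=
    rfl
  rw [e1, e2]
  have h := H_line_det F P L0 (fun ω => (L2 ω, S' ω, k' ω, t0 ω, t1 ω, s ω))
    (fun y c => ((F.N : ℝ) / y.2.2.1) * ((y.2.1 c : ℝ) - F.pos y.1 y.2.2.2.2.2 c))
    (fun ω => F.N / |(k' ω : ℝ)|) (fun ω c => F.V_of_vec (L2 ω) (L0 ω) (s ω) (k' ω)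
      (rnd_one _) c)
  refine h.trans (er_vec F P t0 t1 a b s t hB _ (fun ω => by (clear * -; (clear * -; positivity))) fun ω => ?_)
  have h1 := rnd_one (cc (t0 ω) (t1 ω) (a ω) (b ω) (s ω) (t ω))
  rw [div_le_iff₀ (by linarith only [h1])]
  refine (cc_lower (t0 ω) (t1 ω) (a ω) (b ω) (s ω) (t ω)).trans ?_
  refine mul_le_mul_of_nonneg_right ?_ (by (clear * - h1; positivity))
  have h2 := QQ_12345 (t0 ω) (t1 ω) (a ω) (b ω) (s ω) (t ω)
  have h3 := QQ_sq (t0 ω) (t1 ω) (a ω) (b ω) (s ω) (t ω)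
  have h5 : 0 ≤ B * QQ (t0 ω) (t1 ω) (a ω) (b ω) (s ω) (t ω) ^ 2 := by (clear * - hB; positivity)
  linarith only [h2, h3, h5]

lemma det5b (hB : 0 ≤ B) (hp : ∀ ω, F.cell (L0 ω) (t0 ω) = F.cell (L1 ω) (t0 ω))
    (hq : ∀ ω, F.cell (L2 ω) (t1 ω) = F.cell (L1 ω) (t1 ω)) :
    P.hl (ZZ F L0 L1 L2 t0 t1 a b s t) [.L1, .L0, .L2, .t0, .t1] -
      P.hl (ZZ F L0 L1 L2 t0 t1 a b s t) [.L0, .L2, .t0, .t1] ≤
      er F P t0 t1 a b s t := by
  have e1 : P.hl (ZZ F L0 L1 L2 t0 t1 a b s t) [.L1, .L0, .L2, .t0, .t1] =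
      P.H (fun ω => (L1 ω, (L0 ω, L2 ω, t0 ω, t1 ω))) :=
    rfl
  have e2 : P.hl (ZZ F L0 L1 L2 t0 t1 a b s t) [.L0, .L2, .t0, .t1] =
      P.H (fun ω => (L0 ω, L2 ω, t0 ω, t1 ω)) :=
    rfl
  rw [e1, e2]
  have h := H_line_det F P L1 (fun ω => (L0 ω, L2 ω, t0 ω, t1 ω))
    (fun y c => ((F.N : ℝ) / ((y.2.2.2 : ℝ) - y.2.2.1)) *
      ((F.cell y.2.1 y.2.2.2 c : ℝ) - F.cell y.1 y.2.2.1 c))
    (fun ω => (B + 2) * qd F.N (t0 ω) (t1 ω)) (fun ω c => by
      simp only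
      rw [hq ω, hp ω]
      exact F.V_of_cells hB (L1 ω) (t0 ω) (t1 ω) c)
  refine h.trans (er_vec F P t0 t1 a b s t hB _ (fun ω => ?_) fun ω => ?_)
  · have := one_le_qd (t0 ω) (t1 ω)
    (clear * - hB this; (clear * - hB this; positivity))
  · have h2 := QQ_6 (t0 ω) (t1 ω) (a ω) (b ω) (s ω) (t ω)
    have h3 := QQ_sq (t0 ω) (t1 ω) (a ω) (b ω) (s ω) (t ω)
    have h4 := one_le_qd (t0 ω) (t1 ω)
    exact mul_le_mul (by linarith only [hB]) (h2.trans h3) (by (clear * - h4; linarith)) (by (clear * - hB; linarith))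

lemma det6 (hB : 0 ≤ B) :
    P.hl (ZZ F L0 L1 L2 t0 t1 a b s t) [.g, .t, .k, .t0, .t1, .s] -
      P.hl (ZZ F L0 L1 L2 t0 t1 a b s t) [.t, .k, .t0, .t1, .s] ≤
      er F P t0 t1 a b s t := by
  set g' : Ω → ℤ := fun ω => rnd (gam (t0 ω) (t1 ω) (a ω) (b ω)) with hg'
  set k' : Ω → ℤ := fun ω => rnd (cc (t0 ω) (t1 ω) (a ω) (b ω) (s ω) (t ω)) with hk'
  have e1 : P.hl (ZZ F L0 L1 L2 t0 t1 a b s t) [.g, .t, .k, .t0, .t1, .s] =
      P.H (fun ω => (g' ω, (t ω, k' ω, t0 ω, t1 ω, s ω))) :=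
    rfl
  have e2 : P.hl (ZZ F L0 L1 L2 t0 t1 a b s t) [.t, .k, .t0, .t1, .s] =
      P.H (fun ω => (t ω, k' ω, t0 ω, t1 ω, s ω)) :=
    rfl
  rw [e1, e2]
  have h := P.H_det1 g' (fun ω => (t ω, k' ω, t0 ω, t1 ω, s ω))
    (fun y => (y.2.1 : ℝ) * ((y.1 : ℝ) - y.2.2.2.1) / ((y.1 : ℝ) - y.2.2.2.2))
    (fun ω => 3 * (qd F.N (t ω) (s ω) * qd F.N (t ω) (t1 ω)) ^ 2)
    (fun ω => gam_of_cc (t0 ω) (t1 ω) (a ω) (b ω) (s ω) (t ω))
  refine h.trans (er_sc2 F P t0 t1 a b s t hB _ (fun ω => by (clear * -; (clear * -; positivity))) fun ω => ?_)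
  have h2 := QQ_45 (t0 ω) (t1 ω) (a ω) (b ω) (s ω) (t ω)
  have h0 : 0 ≤ qd F.N (t ω) (s ω) * qd F.N (t ω) (t1 ω) :=
    mul_nonneg (qd_nonneg _ _) (qd_nonneg _ _)
  have h3 : (qd F.N (t ω) (s ω) * qd F.N (t ω) (t1 ω)) ^ 2 ≤
      QQ (t0 ω) (t1 ω) (a ω) (b ω) (s ω) (t ω) ^ 2 := pow_le_pow_left₀ h0 h2 2
  have h5 : 0 ≤ B * QQ (t0 ω) (t1 ω) (a ω) (b ω) (s ω) (t ω) ^ 2 := by (clear * - hB; positivity)
  have h6 : 0 ≤ QQ (t0 ω) (t1 ω) (a ω) (b ω) (s ω) (t ω) ^ 2 := by (clear * -; positivity)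
  linarith only [h3, h5, h6]

lemma det7 (hB : 0 ≤ B) (hq : ∀ ω, F.cell (L2 ω) (t1 ω) = F.cell (L1 ω) (t1 ω)) :
    P.hl (ZZ F L0 L1 L2 t0 t1 a b s t) [.S, .xt, .r, .t, .k, .g, .t0, .t1, .s] -
      P.hl (ZZ F L0 L1 L2 t0 t1 a b s t) [.xt, .r, .t, .k, .g, .t0, .t1, .s] ≤
      er F P t0 t1 a b s t := by
  set g' : Ω → ℤ := fun ω => rnd (gam (t0 ω) (t1 ω) (a ω) (b ω)) with hg'
  set k' : Ω → ℤ := fun ω => rnd (cc (t0 ω) (t1 ω) (a ω) (b ω) (s ω) (t ω)) with hk'
  set r' : Ω → Fin m → ℤ := fun ω => F.vcell (L1 ω) (L0 ω) (t1 ω) (g' ω) with hr'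
  set S' : Ω → Fin m → ℤ := fun ω => F.vcell (L2 ω) (L0 ω) (s ω) (k' ω) with hS'
  set xt' : Ω → Fin m → ℤ := fun ω => F.cell (L2 ω) (t ω) with hxt'
  have e1 : P.hl (ZZ F L0 L1 L2 t0 t1 a b s t) [.S, .xt, .r, .t, .k, .g, .t0, .t1, .s] =
      P.H (fun ω => (S' ω, (xt' ω, r' ω, t ω, k' ω, g' ω, t0 ω, t1 ω, s ω))) :=
    rfl
  have e2 : P.hl (ZZ F L0 L1 L2 t0 t1 a b s t) [.xt, .r, .t, .k, .g, .t0, .t1, .s] =
      P.H (fun ω => (xt' ω, r' ω, t ω, k' ω, g' ω, t0 ω, t1 ω, s ω)) :=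
    rfl
  rw [e1, e2]
  have h := P.H_det S' (fun ω => (xt' ω, r' ω, t ω, k' ω, g' ω, t0 ω, t1 ω, s ω))
    (fun y c => ((((y.2.2.2.2.2.2.2 : ℝ) - y.2.2.2.2.2.2.1) /
      ((y.2.2.1 : ℝ) - y.2.2.2.2.2.2.1)) * (y.1 c) +
      (1 - ((y.2.2.2.2.2.2.2 : ℝ) - y.2.2.2.2.2.2.1) /
      ((y.2.2.1 : ℝ) - y.2.2.2.2.2.2.1)) * (y.2.1 c)))
    (fun ω => (7 + 8 * B) * qd F.N (t ω) (t1 ω) ^ 2)
    (fun ω c => F.S_of_cells hB (L0 ω) (L1 ω) (L2 ω) (t0 ω) (t1 ω) (a ω) (b ω) (s ω) (t ω)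
      (hq ω) c)
  refine h.trans (er_vec2 F P t0 t1 a b s t hB _ (fun ω => by (clear * - hB; (clear * - hB; positivity))) fun ω => ?_)
  have h2 := QQ_5 (t0 ω) (t1 ω) (a ω) (b ω) (s ω) (t ω)
  have h4 := one_le_qd (t ω) (t1 ω)
  have h5 : qd F.N (t ω) (t1 ω) ^ 2 ≤ QQ (t0 ω) (t1 ω) (a ω) (b ω) (s ω) (t ω) ^ 2 :=
    pow_le_pow_left₀ (by linarith only [h4]) h2 2
  exact mul_le_mul (by linarith only []) h5 (by (clear * - h4; positivity)) (by linarith only [hB])

lemma det8 (hB : 0 ≤ B) :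
    P.hl (ZZ F L0 L1 L2 t0 t1 a b s t) [.L0, .S, .xs, .k, .t0, .t1, .s] -
      P.hl (ZZ F L0 L1 L2 t0 t1 a b s t) [.S, .xs, .k, .t0, .t1, .s] ≤
      er F P t0 t1 a b s t := by
  set k' : Ω → ℤ := fun ω => rnd (cc (t0 ω) (t1 ω) (a ω) (b ω) (s ω) (t ω)) with hk'
  set S' : Ω → Fin m → ℤ := fun ω => F.vcell (L2 ω) (L0 ω) (s ω) (k' ω) with hS'
  set xs' : Ω → Fin m → ℤ := fun ω => F.cell (L2 ω) (s ω) with hxs'
  have e1 : P.hl (ZZ F L0 L1 L2 t0 t1 a b s t) [.L0, .S, .xs, .k, .t0, .t1, .s] =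
      P.H (fun ω => (L0 ω, (S' ω, xs' ω, k' ω, t0 ω, t1 ω, s ω))) :=
    rfl
  have e2 : P.hl (ZZ F L0 L1 L2 t0 t1 a b s t) [.S, .xs, .k, .t0, .t1, .s] =
      P.H (fun ω => (S' ω, xs' ω, k' ω, t0 ω, t1 ω, s ω)) :=
    rfl
  rw [e1, e2]
  have h := H_line_det F P L0 (fun ω => (S' ω, xs' ω, k' ω, t0 ω, t1 ω, s ω))
    (fun y c => ((F.N : ℝ) / y.2.2.1) * ((y.1 c : ℝ) - y.2.1 c))
    (fun ω => F.N / |(k' ω : ℝ)|) (fun ω c => F.V_of_vec' (L2 ω) (L0 ω) (s ω) (k' ω)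
      (rnd_one _) c)
  refine h.trans (er_vec F P t0 t1 a b s t hB _ (fun ω => by (clear * -; (clear * -; positivity))) fun ω => ?_)
  have h1 := rnd_one (cc (t0 ω) (t1 ω) (a ω) (b ω) (s ω) (t ω))
  rw [div_le_iff₀ (by linarith only [h1])]
  refine (cc_lower (t0 ω) (t1 ω) (a ω) (b ω) (s ω) (t ω)).trans ?_
  refine mul_le_mul_of_nonneg_right ?_ (by (clear * - h1; positivity))
  have h2 := QQ_12345 (t0 ω) (t1 ω) (a ω) (b ω) (s ω) (t ω)
  have h3 := QQ_sq (t0 ω) (t1 ω) (a ω) (b ω) (s ω) (t ω)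
  have h5 : 0 ≤ B * QQ (t0 ω) (t1 ω) (a ω) (b ω) (s ω) (t ω) ^ 2 := by (clear * - hB; positivity)
  linarith only [h2, h3, h5]

lemma det9 (hB : 0 ≤ B) :
    P.hl (ZZ F L0 L1 L2 t0 t1 a b s t) [.b, .k, .t, .a, .t0, .t1, .s] -
      P.hl (ZZ F L0 L1 L2 t0 t1 a b s t) [.k, .t, .a, .t0, .t1, .s] ≤
      er F P t0 t1 a b s t := by
  set k' : Ω → ℤ := fun ω => rnd (cc (t0 ω) (t1 ω) (a ω) (b ω) (s ω) (t ω)) with hk'
  have e1 : P.hl (ZZ F L0 L1 L2 t0 t1 a b s t) [.b, .k, .t, .a, .t0, .t1, .s] =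
      P.H (fun ω => ((((b ω : Fin F.N) : ℕ) : ℤ), (k' ω, t ω, a ω, t0 ω, t1 ω, s ω))) :=
    P.H_fin_cast _ _
  have e2 : P.hl (ZZ F L0 L1 L2 t0 t1 a b s t) [.k, .t, .a, .t0, .t1, .s] =
      P.H (fun ω => (k' ω, t ω, a ω, t0 ω, t1 ω, s ω)) :=
    rfl
  rw [e1, e2]
  have h := P.H_det1 (fun ω => (((b ω : Fin F.N) : ℕ) : ℤ))
    (fun ω => (k' ω, t ω, a ω, t0 ω, t1 ω, s ω))
    (fun y => (y.2.2.2.1 : ℝ) + (y.1 : ℝ) * (((y.2.1 : ℝ) - y.2.2.2.2.1) /
      ((y.2.1 : ℝ) - y.2.2.2.2.2)) * (((y.2.2.1 : ℝ) - y.2.2.2.1) /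
      ((y.2.2.1 : ℝ) - y.2.2.2.2.1)))
    (fun ω => 4 * (qd F.N (a ω) (t0 ω) * qd F.N (a ω) (t1 ω) * qd F.N (t ω) (s ω) *
      qd F.N (t ω) (t1 ω)))
    (fun ω => by simpa only [Int.cast_natCast] using b_of_cc (t0 ω) (t1 ω) (a ω) (b ω) (s ω) (t ω))
  refine h.trans (er_sc2 F P t0 t1 a b s t hB _ (fun ω => ?_) fun ω => ?_)
  · have := one_le_qd (a ω) (t0 ω)
    have := one_le_qd (a ω) (t1 ω)
    have := one_le_qd (t ω) (s ω)
    have := one_le_qd (t ω) (t1 ω)
    positivity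
  · have h2 := QQ_1245 (t0 ω) (t1 ω) (a ω) (b ω) (s ω) (t ω)
    have h3 := QQ_sq (t0 ω) (t1 ω) (a ω) (b ω) (s ω) (t ω)
    have h5 : 0 ≤ B * QQ (t0 ω) (t1 ω) (a ω) (b ω) (s ω) (t ω) ^ 2 := by (clear * - hB; (clear * - hB; positivity))
    have h6 : 0 ≤ QQ (t0 ω) (t1 ω) (a ω) (b ω) (s ω) (t ω) ^ 2 := by (clear * -; positivity)
    linarith only [h2, h3, h5, h6]

lemma det10 (hB : 0 ≤ B) :
    P.hl (ZZ F L0 L1 L2 t0 t1 a b s t) [.k, .t0, .t1, .s] -
      P.hl (ZZ F L0 L1 L2 t0 t1 a b s t) [.t0, .t1, .s] ≤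
      Real.log F.N + er F P t0 t1 a b s t := by
  set k' : Ω → ℤ := fun ω => rnd (cc (t0 ω) (t1 ω) (a ω) (b ω) (s ω) (t ω)) with hk'
  have e1 : P.hl (ZZ F L0 L1 L2 t0 t1 a b s t) [.k, .t0, .t1, .s] =
      P.H (fun ω => (k' ω, (t0 ω, t1 ω, s ω))) :=
    rfl
  have e2 : P.hl (ZZ F L0 L1 L2 t0 t1 a b s t) [.t0, .t1, .s] =
      P.H (fun ω => (t0 ω, t1 ω, s ω)) :=
    rfl
  rw [e1, e2]
  have h := P.H_scale k' (fun ω => (t0 ω, t1 ω, s ω)) F.N F.one_le_N
  have hN := F.N_pos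
  have hN1 := F.one_le_N
  have h1 : P.ex (fun ω => Real.log (1 + |(k' ω : ℝ)| / F.N)) ≤
      P.ex (fun ω => Real.log (3 + 4 * (qd F.N (a ω) (t0 ω) * qd F.N (t ω) (t1 ω)))) := by
    refine P.ex_mono fun ω _ => Real.log_le_log (by (clear * - hN; (clear * - hN; positivity))) ?_
    have e3 := rnd_le (cc (t0 ω) (t1 ω) (a ω) (b ω) (s ω) (t ω))
    have e4 := cc_upper (t0 ω) (t1 ω) (a ω) (b ω) (s ω) (t ω)
    have e5 : |(k' ω : ℝ)| / F.N ≤
        4 * (qd F.N (a ω) (t0 ω) * qd F.N (t ω) (t1 ω)) + 1 := by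
      rw [div_le_iff₀ hN]
      linarith only [e3, e4, hN1]
    linarith only [e5]
  have h2 := er_sc F P t0 t1 a b s t hB
    (fun ω => 4 * (qd F.N (a ω) (t0 ω) * qd F.N (t ω) (t1 ω)))
    (fun ω => by
      have := one_le_qd (a ω) (t0 ω)
      have := one_le_qd (t ω) (t1 ω)
      positivity) (fun ω => by
      have h2 := QQ_15 (t0 ω) (t1 ω) (a ω) (b ω) (s ω) (t ω)
      have h3 := QQ_sq (t0 ω) (t1 ω) (a ω) (b ω) (s ω) (t ω)
      have h5 : 0 ≤ B * QQ (t0 ω) (t1 ω) (a ω) (b ω) (s ω) (t ω) ^ 2 := by (clear * - hB; positivity)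
      have h6 : 0 ≤ QQ (t0 ω) (t1 ω) (a ω) (b ω) (s ω) (t ω) ^ 2 := by positivity
      linarith only [h2, h3, h5, h6])
  linarith only [h, h1, h2]

end Dets

end Vale.Agent.P127

/-!
# P127: the recursion `β ↦ (3 β² + 2 β - 2) / (β² + 3 β - 2)`
-/

namespace Vale.Agent.P127

open Finset Law

/-- the four inequalities on a path, in terms of
`D = H(line)`, `M = H(cell | height)`, `κ` the deficiency of the heights and `e` the error -/
structure PathIneq (β C D M κ e ρ σ hb : ℝ) : Prop where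
  i1 : 2 * D - M - 5 * κ - 3 * e - ρ ≤ β * (hb - ρ + 2 * κ + 4 * e) + C * (1 + 2 * κ + 2 * e)
  i2 : 3 * D - 2 * M - 8 * κ - 4 * e - σ ≤
    β * (M + ρ - σ + 3 * κ + 4 * e) + C * (1 + 3 * κ + 2 * e)
  i3 : D - 2 * M + hb - 4 * κ - 3 * e ≤ σ
  i4 : hb ≤ 2 * M

variable {m : ℕ} {B : ℝ} (F : LineFam m B) {Ω : Type} [Fintype Ω] (P : Law Ω)
    (L0 L1 L2 : Ω → F.Λ) (t0 t1 a b s t : Ω → Fin F.N)

theorem path_EQ {D W K Ht : ℝ}
    (hP : IsPath F P L0 L1 L2 t0 t1 a b s t D W K Ht) :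
    EQ F P t0 t1 a b s t ≤ 12 * (Real.log 4 + (Real.log F.N - (W - D))) := by
  set Z := ZZ F L0 L1 L2 t0 t1 a b s t with hZ
  have a3 : P.hl Z [.L0, .L1, .L2, .t0, .t1, .s] = 5 * W - 2 * D - 2 * K := hP.a3
  have a4 : P.hl Z [.L0, .L1, .L2, .t0, .t1, .s, .t] = 6 * W - 3 * D - 2 * K := hP.a4
  have a5 : P.hl Z [.L0, .L1, .L2, .t0, .t1, .s, .t, .a] = 7 * W - 4 * D - 2 * K := hP.a5
  have a6 : P.hl Z [.L0, .L1, .L2, .t0, .t1, .s, .t, .a, .b] = 8 * W - 5 * D - 2 * K := hP.a6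
  have a9 : P.hl Z [.L1, .t0, .t1] = 2 * W - D := hP.a9
  have a9' : P.hl Z [.L1, .t1] = W := hP.a9'
  have q1 := P.ex_log_qd a t0
  have q2 := P.ex_log_qd a t1
  have q3 := P.ex_log_qd b t0
  have q4 := P.ex_log_qd t s
  have q5 := P.ex_log_qd t t1
  have q6 := P.ex_log_qd t0 t1
  have p1 : P.hl Z [.a, .t0] = P.H (fun ω => (a ω, t0 ω)) :=
    rfl
  have p2 : P.hl Z [.a, .t1] = P.H (fun ω => (a ω, t1 ω)) :=
    rfl
  have p3 : P.hl Z [.b, .t0] = P.H (fun ω => (b ω, t0 ω)) :=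
    rfl
  have p4 : P.hl Z [.t, .s] = P.H (fun ω => (t ω, s ω)) :=
    rfl
  have p5 : P.hl Z [.t, .t1] = P.H (fun ω => (t ω, t1 ω)) :=
    rfl
  have p6 : P.hl Z [.t0, .t1] = P.H (fun ω => (t0 ω, t1 ω)) :=
    rfl
  have s1 : P.hl Z [.t0] = P.H t0 := rfl
  have s2 : P.hl Z [.t1] = P.H t1 := rfl
  have s3 : P.hl Z [.s] = P.H s := rfl
  have u1 := P.hl_submod Z [.a, .t0] [.L0, .L1, .L2, .t0, .t1, .s, .t]
    [.L0, .L1, .L2, .t0, .t1, .s, .t, .a] [.t0] (by decide +kernel)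
  have u2 := P.hl_submod Z [.a, .t1] [.L0, .L1, .L2, .t0, .t1, .s, .t]
    [.L0, .L1, .L2, .t0, .t1, .s, .t, .a] [.t1] (by decide +kernel)
  have u3 := P.hl_submod Z [.b, .t0] [.L0, .L1, .L2, .t0, .t1, .s, .t, .a]
    [.L0, .L1, .L2, .t0, .t1, .s, .t, .a, .b] [.t0] (by decide +kernel)
  have u4 := P.hl_submod Z [.t, .s] [.L0, .L1, .L2, .t0, .t1, .s]
    [.L0, .L1, .L2, .t0, .t1, .s, .t] [.s] (by decide +kernel)
  have u5 := P.hl_submod Z [.t, .t1] [.L0, .L1, .L2, .t0, .t1, .s]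
    [.L0, .L1, .L2, .t0, .t1, .s, .t] [.t1] (by decide +kernel)
  have u6 := P.hl_submod Z [.t0, .t1] [.L1, .t1]
    [.L1, .t0, .t1] [.t1] (by decide +kernel)
  have hEQ : EQ F P t0 t1 a b s t = P.ex (fun ω => Real.log (qd F.N (a ω) (t0 ω))) +
      P.ex (fun ω => Real.log (qd F.N (a ω) (t1 ω))) +
      P.ex (fun ω => Real.log (qd F.N (b ω) (t0 ω))) +
      P.ex (fun ω => Real.log (qd F.N (t ω) (s ω))) +
      P.ex (fun ω => Real.log (qd F.N (t ω) (t1 ω))) +
      P.ex (fun ω => Real.log (qd F.N (t0 ω) (t1 ω))) := by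
    unfold EQ
    rw [← P.ex_add, ← P.ex_add, ← P.ex_add, ← P.ex_add, ← P.ex_add]
    refine P.ex_congr fun ω _ => ?_
    unfold QQ
    have h : ∀ i j : Fin F.N, qd F.N i j ≠ 0 := fun i j => by
      have := one_le_qd i j
      (clear * - this; positivity)
    rw [Real.log_mul (by simp only [ne_eq, mul_eq_zero, h, or_self, not_false_eq_true]) (h _ _), Real.log_mul (by simp only [ne_eq, mul_eq_zero, h, or_self, not_false_eq_true]) (h _ _),
      Real.log_mul (by simp [h]) (h _ _), Real.log_mul (by simp [h]) (h _ _),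
      Real.log_mul (h _ _) (h _ _)]
  linarith only [a3, a5, a6, a9, a9', q1, q2, q3, q4, q5, q6, p1, p2, p3, p4, p5, p6, s1, s2, s3, u1, u2, u3, u4, u5, u6, hEQ]

theorem path_ineq (hB : 0 ≤ B) {D W K Ht : ℝ}
    (hP : IsPath F P L0 L1 L2 t0 t1 a b s t D W K Ht) {β C : ℝ} (hβ : 0 ≤ β) (hC : 0 ≤ C)
    (hSD : SD m B β C) (hHt : Ht ≤ Real.log F.N) :
    ∃ ρ σ hb, PathIneq β C D (K - Ht) (Real.log F.N - (W - D)) (er F P t0 t1 a b s t) ρ σ hb := by
  set Z := ZZ F L0 L1 L2 t0 t1 a b s t with hZ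
  set e := er F P t0 t1 a b s t with he
  set lN := Real.log F.N with hlN
  set κ := lN - (W - D) with hκ
  have he0 : 0 ≤ e := er_nonneg F P t0 t1 a b s t hB
  -- structural facts
  have a1 : P.hl Z [.L0, .L1, .t0, .t1] = 3 * W - D - K := hP.a1
  have a2 : P.hl Z [.L1, .L2, .t0, .t1, .s] = 4 * W - 2 * D - K := hP.a2
  have a3 : P.hl Z [.L0, .L1, .L2, .t0, .t1, .s] = 5 * W - 2 * D - 2 * K := hP.a3
  have a4 : P.hl Z [.L0, .L1, .L2, .t0, .t1, .s, .t] = 6 * W - 3 * D - 2 * K := hP.a4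
  have a6 : P.hl Z [.L0, .L1, .L2, .t0, .t1, .s, .t, .a, .b] = 8 * W - 5 * D - 2 * K := hP.a6
  have ma : P.hl Z [.a] = Ht := hP.ma
  have mb : P.hl Z [.b] = Ht := hP.mb
  have mt : P.hl Z [.t] = Ht := hP.mt
  have ms : P.hl Z [.s] = Ht := hP.ms
  have mxa : P.hl Z [.xa, .a] = K := hP.mxa
  have mxb : P.hl Z [.xb, .b] = K := hP.mxb
  have mxt : P.hl Z [.xt, .t] = K := hP.mxt
  have mxs : P.hl Z [.xs, .s] = K := hP.mxs
  have a8 : P.hl Z [.xa, .xb, .a, .b, .t0] - P.hl Z [.a, .b, .t0] =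
      P.hl Z [.p, .xs, .t0, .s, .t1] - P.hl Z [.t0, .s, .t1] := hP.a8
  have st0 : P.hl Z [.t0] ≤ lN := by
    have h1 : P.hl Z [.t0] = P.H t0 := rfl
    have h2 := P.H_le_log_card t0
    rw [h1]; simpa only [ge_iff_le, Fintype.card_fin] using h2
  have st1 : P.hl Z [.t1] ≤ lN := by
    have h1 : P.hl Z [.t1] = P.H t1 := rfl
    have h2 := P.H_le_log_card t1
    rw [h1]; simpa only [ge_iff_le, Fintype.card_fin] using h2
  have h0 : 0 ≤ P.hl Z [] := P.H_nonneg _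
  -- determinations
  have d1 := det1 F P L0 L1 L2 t0 t1 a b s t hB
  have d2 := det2 F P L0 L1 L2 t0 t1 a b s t hB hP.cp
  have d3 := det3 F P L0 L1 L2 t0 t1 a b s t hB
  have d4 := det4 F P L0 L1 L2 t0 t1 a b s t hB
  have d5a := det5a F P L0 L1 L2 t0 t1 a b s t hB
  have d5b := det5b F P L0 L1 L2 t0 t1 a b s t hB hP.cp hP.cq
  have d6 := det6 F P L0 L1 L2 t0 t1 a b s t hB
  have d7 := det7 F P L0 L1 L2 t0 t1 a b s t hB hP.cq
  have d8 := det8 F P L0 L1 L2 t0 t1 a b s t hB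
  have d9 := det9 F P L0 L1 L2 t0 t1 a b s t hB
  have d10 := det10 F P L0 L1 L2 t0 t1 a b s t hB
  rw [← hZ, ← he] at d1 d2 d3 d4 d5a d5b d6 d7 d8 d9 d10
  rw [← hlN] at d4 d10
  -- exact functional dependences
  have x1 : P.hl Z [.L0, .L1, .r, .g, .t0, .t1] ≤ P.hl Z [.L0, .L1, .g, .t0, .t1] :=
    P.hl_det Z (by
      intro ω ω' h
      simp only [List.mem_cons, List.not_mem_nil, or_false, forall_eq_or_imp, forall_eq] at h ⊢
      obtain ⟨h1, h2, h3, h4, h5⟩ := h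
      refine ⟨h1, h2, ?_, h3, h4, h5⟩
      simp only [Ty, hZ, ZZ] at h1 h2 h3 h5 ⊢
      rw [h1, h2, h3, h5])
  have x2 : P.hl Z [.xa, .xb, .a, .b, .g, .t0, .t1] ≤ P.hl Z [.xa, .xb, .a, .b, .t0, .t1] :=
    P.hl_det Z (by
      intro ω ω' h
      simp only [List.mem_cons, List.not_mem_nil, or_false, forall_eq_or_imp, forall_eq] at h ⊢
      obtain ⟨h1, h2, h3, h4, h5, h6⟩ := h
      refine ⟨h1, h2, h3, h4, ?_, h5, h6⟩
      simp only [hZ, ZZ, Ty] at h3 h4 h5 h6 ⊢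
      rw [h3, h4, h5, h6])
  have x3 : P.hl Z [.L0, .L1, .L2, .S, .k, .t0, .t1, .s] ≤
      P.hl Z [.L0, .L1, .L2, .k, .t0, .t1, .s] :=
    P.hl_det Z (by
      intro ω ω' h
      simp only [List.mem_cons, List.not_mem_nil, or_false, forall_eq_or_imp, forall_eq] at h ⊢
      obtain ⟨h1, h2, h3, h4, h5, h6, h7⟩ := h
      refine ⟨h1, h2, h3, ?_, h4, h5, h6, h7⟩
      simp only [Ty, hZ, ZZ] at h1 h3 h4 h7 ⊢
      rw [h1, h3, h4, h7])
  have x4 : P.hl Z [.L0, .L1, .L2, .xs, .t0, .t1, .s] ≤ P.hl Z [.L0, .L1, .L2, .t0, .t1, .s] :=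
    P.hl_det Z (by
      intro ω ω' h
      simp only [List.mem_cons, List.not_mem_nil, or_false, forall_eq_or_imp, forall_eq] at h ⊢
      obtain ⟨h1, h2, h3, h4, h5, h6⟩ := h
      refine ⟨h1, h2, h3, ?_, h4, h5, h6⟩
      simp only [Ty, hZ, ZZ] at h3 h6 ⊢
      rw [h3, h6])
  have x5 : P.hl Z [.L1, .L2, .p, .xs, .t0, .t1, .s] ≤ P.hl Z [.L1, .L2, .t0, .t1, .s] :=
    P.hl_det Z (by
      intro ω ω' h
      simp only [List.mem_cons, List.not_mem_nil, or_false, forall_eq_or_imp, forall_eq] at h ⊢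
      obtain ⟨h1, h2, h3, h4, h5⟩ := h
      refine ⟨h1, h2, ?_, ?_, h3, h4, h5⟩
      · simp only [hZ, ZZ, Ty] at h1 h3 ⊢
        rw [h1, h3]
      · simp only [hZ, ZZ, Ty] at h2 h5 ⊢
        rw [h2, h5])
  have x6 : P.hl Z [.L0, .p, .xs, .t0, .t1, .s] ≤ P.hl Z [.L0, .xs, .t0, .t1, .s] :=
    P.hl_det Z (by
      intro ω ω' h
      simp only [List.mem_cons, List.not_mem_nil, or_false, forall_eq_or_imp, forall_eq] at h ⊢
      obtain ⟨h1, h2, h3, h4, h5⟩ := h
      refine ⟨h1, ?_, h2, h3, h4, h5⟩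
      simp only [hZ, ZZ, Ty] at h1 h3 ⊢
      rw [← hP.cp ω, ← hP.cp ω', h1, h3])
  -- the exponent hypothesis on the two derived lines
  have sdI : P.hl Z [.L1, .r, .g, .t0, .t1] - P.hl Z [.r, .g, .t0, .t1] ≤
      β * (P.hl Z [.xa, .a, .r, .g, .t0, .t1] - P.hl Z [.a, .r, .g, .t0, .t1]) +
      C * (1 + (lN - (P.hl Z [.a, .L1, .r, .g, .t0, .t1] - P.hl Z [.L1, .r, .g, .t0, .t1]))) := by
    set g' : Ω → ℤ := fun ω => rnd (gam (t0 ω) (t1 ω) (a ω) (b ω)) with hg'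
    set r' : Ω → Fin m → ℤ := fun ω => F.vcell (L1 ω) (L0 ω) (t1 ω) (g' ω) with hr'
    have h := hSD.cond F P L1 a (fun ω => (r' ω, g' ω, t0 ω, t1 ω))
    have e1 : P.hl Z [.L1, .r, .g, .t0, .t1] =
        P.H (fun ω => (L1 ω, (r' ω, g' ω, t0 ω, t1 ω))) :=
      rfl
    have e2 : P.hl Z [.r, .g, .t0, .t1] = P.H (fun ω => (r' ω, g' ω, t0 ω, t1 ω)) :=
      rfl
    have e3 : P.hl Z [.xa, .a, .r, .g, .t0, .t1] =
        P.H (fun ω => ((F.cell (L1 ω) (a ω), a ω), (r' ω, g' ω, t0 ω, t1 ω))) :=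
      P.hl_assoc _ _ _
    have e4 : P.hl Z [.a, .r, .g, .t0, .t1] =
        P.H (fun ω => (a ω, (r' ω, g' ω, t0 ω, t1 ω))) :=
      rfl
    have e5 : P.hl Z [.a, .L1, .r, .g, .t0, .t1] =
        P.H (fun ω => ((a ω, L1 ω), (r' ω, g' ω, t0 ω, t1 ω))) :=
      P.hl_assoc _ _ _
    rw [e1, e2, e3, e4, e5]
    exact h
  have sdII : P.hl Z [.L2, .S, .k, .t0, .t1, .s] - P.hl Z [.S, .k, .t0, .t1, .s] ≤
      β * (P.hl Z [.xt, .t, .S, .k, .t0, .t1, .s] - P.hl Z [.t, .S, .k, .t0, .t1, .s]) +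
      C * (1 + (lN - (P.hl Z [.t, .L2, .S, .k, .t0, .t1, .s] -
        P.hl Z [.L2, .S, .k, .t0, .t1, .s]))) := by
    set k' : Ω → ℤ := fun ω => rnd (cc (t0 ω) (t1 ω) (a ω) (b ω) (s ω) (t ω)) with hk'
    set S' : Ω → Fin m → ℤ := fun ω => F.vcell (L2 ω) (L0 ω) (s ω) (k' ω) with hS'
    have h := hSD.cond F P L2 t (fun ω => (S' ω, k' ω, t0 ω, t1 ω, s ω))
    have e1 : P.hl Z [.L2, .S, .k, .t0, .t1, .s] =
        P.H (fun ω => (L2 ω, (S' ω, k' ω, t0 ω, t1 ω, s ω))) :=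
      rfl
    have e2 : P.hl Z [.S, .k, .t0, .t1, .s] = P.H (fun ω => (S' ω, k' ω, t0 ω, t1 ω, s ω)) :=
      rfl
    have e3 : P.hl Z [.xt, .t, .S, .k, .t0, .t1, .s] =
        P.H (fun ω => ((F.cell (L2 ω) (t ω), t ω), (S' ω, k' ω, t0 ω, t1 ω, s ω))) :=
      P.hl_assoc _ _ _
    have e4 : P.hl Z [.t, .S, .k, .t0, .t1, .s] =
        P.H (fun ω => (t ω, (S' ω, k' ω, t0 ω, t1 ω, s ω))) :=
      rfl
    have e5 : P.hl Z [.t, .L2, .S, .k, .t0, .t1, .s] =
        P.H (fun ω => ((t ω, L2 ω), (S' ω, k' ω, t0 ω, t1 ω, s ω))) :=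
      P.hl_assoc _ _ _
    rw [e1, e2, e3, e4, e5]
    exact h
  have hperm : P.hl Z [.t0, .s, .t1] = P.hl Z [.t0, .t1, .s] :=
    le_antisymm (P.hl_mono Z (by (clear * -; decide +kernel))) (P.hl_mono Z (by decide +kernel))
  have hperm' : P.hl Z [.p, .xs, .t0, .s, .t1] = P.hl Z [.p, .xs, .t0, .t1, .s] :=
    le_antisymm (P.hl_mono Z (by decide +kernel)) (P.hl_mono Z (by decide +kernel))
  rw [hperm, hperm'] at a8
  -- first group
  have n1 : P.hl Z [.L0, .L1, .g, .t0, .t1] ≤ P.hl Z [.L0, .L1, .r, .g, .t0, .t1] :=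
    P.hl_mono Z (by decide +kernel)
  have n2 := P.hl_submod Z [.b, .a, .g, .t0, .t1] [.a, .L0, .L1, .g, .t0, .t1]
    [.b, .a, .L0, .L1, .g, .t0, .t1] [.a, .g, .t0, .t1] (by decide +kernel)
  have n3 := P.hl_submod Z [.a, .b, .L0, .L1, .t0, .t1] [.L0, .L1, .L2, .t0, .t1, .s, .t]
    [.L0, .L1, .L2, .t0, .t1, .s, .t, .a, .b] [.L0, .L1, .t0, .t1]
    (by decide +kernel)
  have n4 : P.hl Z [.a, .b, .L0, .L1, .t0, .t1] ≤ P.hl Z [.b, .a, .L0, .L1, .g, .t0, .t1] :=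
    P.hl_mono Z (by decide +kernel)
  have n5 := P.hl_submod Z [.a] [.L0, .L1, .g, .t0, .t1]
    [.a, .L0, .L1, .g, .t0, .t1] [] (by decide +kernel)
  have n6 := P.hl_submod Z [.g, .t0, .t1] [.L0, .L1, .t0, .t1]
    [.L0, .L1, .g, .t0, .t1] [.t0, .t1] (by decide +kernel)
  have n7 := P.hl_submod Z [.t0] [.t1] [.t0, .t1] [] (by decide +kernel)
  have n8 := P.hl_submod Z [.xa, .xb, .a, .b, .t0] [.a, .b, .t0, .t1]
    [.xa, .xb, .a, .b, .t0, .t1] [.a, .b, .t0] (by decide +kernel)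
  have n9 : P.hl Z [.a, .b, .t0, .t1] ≤ P.hl Z [.b, .a, .g, .t0, .t1] := P.hl_mono Z (by decide +kernel)
  have n10 : P.hl Z [.xa, .a, .r, .g, .t0, .t1] ≤ P.hl Z [.r, .xa, .xb, .a, .b, .g, .t0, .t1] :=
    P.hl_mono Z (by decide +kernel)
  have n11 := P.hl_submod Z [.a, .r, .g, .t0, .t1] [.L0, .L1, .r, .g, .t0, .t1]
    [.a, .L0, .L1, .r, .g, .t0, .t1] [.r, .g, .t0, .t1] (by decide +kernel)
  have n12 : P.hl Z [.a, .L0, .L1, .g, .t0, .t1] ≤ P.hl Z [.a, .L0, .L1, .r, .g, .t0, .t1] :=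
    P.hl_mono Z (by decide +kernel)
  have n13 := P.hl_submod Z [.a] [.g, .t0, .t1] [.a, .g, .t0, .t1] []
    (by decide +kernel)
  have n14 := P.hl_submod Z [.a, .L1, .r, .g, .t0, .t1] [.L0, .L1, .r, .g, .t0, .t1]
    [.a, .L0, .L1, .r, .g, .t0, .t1] [.L1, .r, .g, .t0, .t1] (by decide +kernel)
  -- consequences
  have I1 : 3 * W - D - K + 2 * (W - D) - e ≤ P.hl Z [.a, .L0, .L1, .g, .t0, .t1] := by
    linarith only [a1, a4, a6, n2, n3, n4, d3]
  have I2 : 3 * W - D - K + 2 * (W - D) - e - Ht ≤ P.hl Z [.L0, .L1, .g, .t0, .t1] := by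
    linarith only [I1, n5, ma, h0]
  have I3 : P.hl Z [.L0, .L1, .g, .t0, .t1] ≤ 3 * W - D - K + lN + e := by
    linarith only [n6, d4, a1]
  have I4 : 2 * (W - D) - lN - 2 * e ≤
      P.hl Z [.a, .L0, .L1, .r, .g, .t0, .t1] - P.hl Z [.L0, .L1, .r, .g, .t0, .t1] := by
    linarith only [n12, I1, x1, I3]
  have I5 : P.hl Z [.xa, .a, .r, .g, .t0, .t1] ≤
      (P.hl Z [.xa, .xb, .a, .b, .t0] - P.hl Z [.a, .b, .t0]) + P.hl Z [.a, .g, .t0, .t1] + 2 * e := by
    linarith only [n10, d2, x2, n8, n9, d3]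
  have I6 : P.hl Z [.xa, .a, .r, .g, .t0, .t1] - P.hl Z [.a, .r, .g, .t0, .t1] ≤
      (P.hl Z [.xa, .xb, .a, .b, .t0] - P.hl Z [.a, .b, .t0]) -
      (P.hl Z [.r, .g, .t0, .t1] - P.hl Z [.g, .t0, .t1]) + 2 * κ + 4 * e := by
    linarith only [I5, n11, I4, n13, ma, h0, hHt, hκ]
  have I7 : lN - (P.hl Z [.a, .L1, .r, .g, .t0, .t1] - P.hl Z [.L1, .r, .g, .t0, .t1]) ≤
      2 * κ + 2 * e := by linarith only [n14, I4, hκ]
  have I8 : 2 * D - (K - Ht) - 5 * κ - 3 * e - (P.hl Z [.r, .g, .t0, .t1] - P.hl Z [.g, .t0, .t1]) ≤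
      P.hl Z [.L1, .r, .g, .t0, .t1] - P.hl Z [.r, .g, .t0, .t1] := by
    linarith only [d1, n1, I2, d4, n7, st0, st1, h0, hHt, hκ]
  -- second group
  have m1 : P.hl Z [.L0, .L1, .L2, .k, .t0, .t1, .s] ≤
      P.hl Z [.L0, .L1, .L2, .S, .k, .t0, .t1, .s] := P.hl_mono Z (by decide +kernel)
  have m2 := P.hl_submod Z [.L1, .L0, .L2, .t0, .t1] [.L0, .L2, .S, .k, .t0, .t1, .s]
    [.L0, .L1, .L2, .S, .k, .t0, .t1, .s] [.L0, .L2, .t0, .t1]
    (by decide +kernel)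
  have m3 := P.hl_submod Z [.b, .k, .t, .a, .t0, .t1, .s] [.k, .t, .a, .L0, .L1, .L2, .t0, .t1, .s]
    [.b, .k, .t, .a, .L0, .L1, .L2, .t0, .t1, .s] [.k, .t, .a, .t0, .t1, .s]
    (by decide +kernel)
  have m4 : P.hl Z [.L0, .L1, .L2, .t0, .t1, .s, .t, .a, .b] ≤
      P.hl Z [.b, .k, .t, .a, .L0, .L1, .L2, .t0, .t1, .s] := P.hl_mono Z (by decide +kernel)
  have m5 := P.hl_submod Z [.a] [.k, .t, .L0, .L1, .L2, .t0, .t1, .s]
    [.k, .t, .a, .L0, .L1, .L2, .t0, .t1, .s] [] (by decide +kernel)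
  have m6 := P.hl_submod Z [.t] [.L0, .L1, .L2, .k, .t0, .t1, .s]
    [.k, .t, .L0, .L1, .L2, .t0, .t1, .s] [] (by decide +kernel)
  have m7 := P.hl_submod Z [.k, .t0, .t1, .s] [.L0, .L1, .L2, .t0, .t1, .s]
    [.L0, .L1, .L2, .k, .t0, .t1, .s] [.t0, .t1, .s] (by decide +kernel)
  have m8 := P.hl_submod Z [.t0, .t1] [.s] [.t0, .t1, .s] [] (by decide +kernel)
  have m9 := P.hl_submod Z [.xt, .t] [.r, .t, .k, .g, .t0, .t1, .s]
    [.xt, .r, .t, .k, .g, .t0, .t1, .s] [.t] (by decide +kernel)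
  have m10 := P.hl_submod Z [.r, .g, .t0, .t1] [.g, .t, .k, .t0, .t1, .s]
    [.r, .t, .k, .g, .t0, .t1, .s] [.g, .t0, .t1] (by decide +kernel)
  have m11 : P.hl Z [.xt, .t, .S, .k, .t0, .t1, .s] ≤
      P.hl Z [.S, .xt, .r, .t, .k, .g, .t0, .t1, .s] := P.hl_mono Z (by decide +kernel)
  have m12 := P.hl_submod Z [.t, .S, .k, .t0, .t1, .s] [.L0, .L1, .L2, .S, .k, .t0, .t1, .s]
    [.t, .L0, .L1, .L2, .S, .k, .t0, .t1, .s] [.S, .k, .t0, .t1, .s]
    (by decide +kernel)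
  have m13 : P.hl Z [.k, .t, .L0, .L1, .L2, .t0, .t1, .s] ≤
      P.hl Z [.t, .L0, .L1, .L2, .S, .k, .t0, .t1, .s] := P.hl_mono Z (by decide +kernel)
  have m14 := P.hl_submod Z [.t] [.k, .t0, .t1, .s] [.t, .k, .t0, .t1, .s] []
    (by decide +kernel)
  have m15 := P.hl_submod Z [.t, .L2, .S, .k, .t0, .t1, .s] [.L0, .L1, .L2, .S, .k, .t0, .t1, .s]
    [.t, .L0, .L1, .L2, .S, .k, .t0, .t1, .s] [.L2, .S, .k, .t0, .t1, .s]
    (by decide +kernel)
  have J1 : 8 * W - 5 * D - 2 * K - e ≤ P.hl Z [.k, .t, .a, .L0, .L1, .L2, .t0, .t1, .s] := by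
    linarith only [m3, m4, d9, a6]
  have J2 : 8 * W - 5 * D - 2 * K - e - lN ≤ P.hl Z [.k, .t, .L0, .L1, .L2, .t0, .t1, .s] := by
    linarith only [J1, m5, ma, h0, hHt]
  have J3 : 8 * W - 5 * D - 2 * K - e - 2 * lN ≤ P.hl Z [.L0, .L1, .L2, .k, .t0, .t1, .s] := by
    linarith only [J2, m6, mt, h0, hHt]
  have J4 : P.hl Z [.L0, .L1, .L2, .k, .t0, .t1, .s] ≤ 5 * W - 2 * D - 2 * K + lN + e := by
    linarith only [m7, d10, a3]
  have J5 : P.hl Z [.k, .t0, .t1, .s] ≤ 4 * lN + e := by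
    linarith only [d10, m8, n7, st0, st1, ms, h0, hHt]
  have J6 : 3 * (W - D) - 2 * lN - 2 * e ≤ P.hl Z [.t, .L0, .L1, .L2, .S, .k, .t0, .t1, .s] -
      P.hl Z [.L0, .L1, .L2, .S, .k, .t0, .t1, .s] := by linarith only [m13, J2, x3, J4]
  have J7 : P.hl Z [.xt, .t, .S, .k, .t0, .t1, .s] ≤ (K - Ht) +
      (P.hl Z [.r, .g, .t0, .t1] - P.hl Z [.g, .t0, .t1]) + P.hl Z [.t, .k, .t0, .t1, .s] + 2 * e := by
    linarith only [m11, d7, m9, mxt, mt, m10, d6]
  have J8 : P.hl Z [.xt, .t, .S, .k, .t0, .t1, .s] - P.hl Z [.t, .S, .k, .t0, .t1, .s] ≤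
      (K - Ht) + (P.hl Z [.r, .g, .t0, .t1] - P.hl Z [.g, .t0, .t1]) -
      (P.hl Z [.S, .k, .t0, .t1, .s] - P.hl Z [.k, .t0, .t1, .s]) + 3 * κ + 4 * e := by
    linarith only [J7, m12, J6, m14, mt, h0, hHt, hκ]
  have J9 : lN - (P.hl Z [.t, .L2, .S, .k, .t0, .t1, .s] - P.hl Z [.L2, .S, .k, .t0, .t1, .s]) ≤
      3 * κ + 2 * e := by linarith only [m15, J6, hκ]
  have J10 : 3 * D - 2 * (K - Ht) - 8 * κ - 4 * e -
      (P.hl Z [.S, .k, .t0, .t1, .s] - P.hl Z [.k, .t0, .t1, .s]) ≤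
      P.hl Z [.L2, .S, .k, .t0, .t1, .s] - P.hl Z [.S, .k, .t0, .t1, .s] := by
    linarith only [d5a, m2, d5b, m1, J3, J5, hκ, hHt]
  -- third group
  have l2 := P.hl_submod Z [.S, .k, .t0, .t1, .s] [.xs, .s] [.S, .xs, .k, .t0, .t1, .s] [.s]
    (by decide +kernel)
  have l3 := P.hl_submod Z [.L0, .xs, .k, .t0, .t1, .s] [.L0, .L1, .L2, .xs, .t0, .t1, .s]
    [.L0, .L1, .L2, .k, .t0, .t1, .s] [.L0, .xs, .t0, .t1, .s]
    (by decide +kernel)
  have l4 := P.hl_submod Z [.L0, .p, .xs, .t0, .t1, .s] [.L1, .L2, .p, .xs, .t0, .t1, .s]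
    [.L0, .L1, .L2, .t0, .t1, .s] [.p, .xs, .t0, .t1, .s]
    (by decide +kernel)
  have l5 : P.hl Z [.L0, .xs, .k, .t0, .t1, .s] ≤ P.hl Z [.L0, .S, .xs, .k, .t0, .t1, .s] :=
    P.hl_mono Z (by decide +kernel)
  have f1 := P.hl_submod Z [.xa, .a] [.xb, .a, .b, .t0] [.xa, .xb, .a, .b, .t0] [.a]
    (by decide +kernel)
  have f2 := P.hl_submod Z [.xb, .b] [.a, .b, .t0] [.xb, .a, .b, .t0] [.b]
    (by decide +kernel)
  refine ⟨P.hl Z [.r, .g, .t0, .t1] - P.hl Z [.g, .t0, .t1],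
    P.hl Z [.S, .k, .t0, .t1, .s] - P.hl Z [.k, .t0, .t1, .s],
    P.hl Z [.xa, .xb, .a, .b, .t0] - P.hl Z [.a, .b, .t0], ?_, ?_, ?_, ?_⟩
  · have h1 := mul_le_mul_of_nonneg_left I6 hβ
    have h2 := mul_le_mul_of_nonneg_left I7 hC
    linarith only [I8, sdI, h1, h2]
  · have h1 := mul_le_mul_of_nonneg_left J8 hβ
    have h2 := mul_le_mul_of_nonneg_left J9 hC
    linarith only [J10, sdII, h1, h2]
  · linarith only [l2, mxs, ms, d8, l5, l3, x4, a3, J3, l4, x5, x6, a2, a8, d10, hκ, hHt]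
  · linarith only [f1, f2, mxa, mxb, ma, mb]

end Vale.Agent.P127
end
end

section

section

/-!
# P127: interface between the finite (entropy) part and the Hausdorff dimension part

`KakeyaCore β m` is a purely finite statement about families of discretised lines with shadings
`E l` of density at least `lam`; `m + 1` is the dimension of the ambient space.
-/

namespace Vale.Agent.P127

/-- A Kakeya set: it contains a unit segment in every direction. -/
def IsKakeya (n : ℕ) (K : Set (EuclideanSpace ℝ (Fin n))) : Prop :=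
  ∀ e : EuclideanSpace ℝ (Fin n), ‖e‖ = 1 →
    ∃ a : EuclideanSpace ℝ (Fin n), ∀ t ∈ Set.Icc (0 : ℝ) 1, a + t • e ∈ K

/-- Finite core statement: if the lines `i ↦ X l + (i/N) V l` (in units of the scale, heights
`i < N`), with separated slopes, have shadings `E l` of density `≥ lam` and all their cells at
heights `i ∈ E l` lie in `S i`, then `card Λ ≤ C_lam * (average of card (S i) / lam) ^ β`. -/
def KakeyaCore (β : ℝ) (m : ℕ) : Prop :=
  ∀ B : ℝ, 1 ≤ B → ∃ C : ℝ, 0 ≤ C ∧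
    ∀ (N : ℕ), 1 ≤ N → ∀ (Λ : Type) [Fintype Λ] [Nonempty Λ] (X V : Λ → Fin m → ℝ),
      (∀ l c, |X l c| ≤ B * N) → (∀ l c, |V l c| ≤ B * N) →
      Function.Injective (fun l => fun c => ⌊V l c⌋) →
      ∀ (E : Λ → Finset ℕ), (∀ l, E l ⊆ Finset.range N) →
      ∀ (lam : ℝ), 0 < lam → lam ≤ 1 → (∀ l, lam * N ≤ ((E l).card : ℝ)) →
      ∀ (S : ℕ → Finset (Fin m → ℤ)),
      (∀ l, ∀ i ∈ E l, (fun c => ⌊X l c + ((i : ℝ) / N) * V l c⌋) ∈ S i) →
      Real.log (Fintype.card Λ) ≤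
        β * Real.log ((∑ i ∈ Finset.range N, ((S i).card : ℝ)) / (lam * N))
          + C * (1 + Real.log (1 / lam))

end Vale.Agent.P127
end
end

section

section

/-!
# P127: the entropic sums-differences inequality for every exponent above the root of
`α³ - 4 α + 2`
-/

namespace Vale.Agent.P127

open Finset Law

/-- one step of the recursion -/
noncomputable def nxt (β : ℝ) : ℝ := (3 * β ^ 2 + 2 * β - 2) / (β ^ 2 + 3 * β - 2)

theorem path_final {β C D M κ e ρ σ hb : ℝ} (hβ : 1 < β)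
    (h : PathIneq β C D M κ e ρ σ hb) :
    D * (β ^ 2 + 3 * β - 2) ≤ (3 * β ^ 2 + 2 * β - 2) * M +
      ((β - 1) ^ 2 * (4 * κ + 3 * e) +
        (β - 1) * (8 * κ + 4 * e + β * (3 * κ + 4 * e) + C * (1 + 3 * κ + 2 * e)) +
        β * (5 * κ + 3 * e + β * (2 * κ + 4 * e) + C * (1 + 2 * κ + 2 * e))) := by
  have k1 := mul_le_mul_of_nonneg_left h.i3 (sq_nonneg (β - 1))
  have k2 := mul_le_mul_of_nonneg_left h.i2 (by linarith only [hβ] : (0 : ℝ) ≤ β - 1)
  have k3 := mul_le_mul_of_nonneg_left h.i1 (by linarith only [hβ] : (0 : ℝ) ≤ β)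
  have k4 := mul_le_mul_of_nonneg_left h.i4 (by linarith only [hβ] : (0 : ℝ) ≤ 2 * β - 1)
  linarith only [k1, k2, k3, k4]

theorem sd_step (m : ℕ) (B β C : ℝ) (hB : 0 ≤ B) (hβ : 1 < β) (hC : 0 ≤ C) (h : SD m B β C) :
    ∃ C' : ℝ, 0 ≤ C' ∧ SD m B (nxt β) C' := by
  have hlog4 : 0 ≤ Real.log 4 := Real.log_nonneg (by norm_num)
  have hlogB : 0 ≤ Real.log (11 + 8 * B) := Real.log_nonneg (by linarith only [hB])
  set E0 : ℝ := (m + 1) * (Real.log 4 + 2 * (Real.log (11 + 8 * B) + 24 * (Real.log 4 + 1)))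
    with hE0
  have hE00 : 0 ≤ E0 := by (clear * - hlogB; positivity)
  have hA : 0 < β ^ 2 + 3 * β - 2 := by
    have h1 : 1 ≤ β ^ 2 := one_le_pow₀ hβ.le
    linarith only [h1, hβ]
  set G : ℝ := (β - 1) ^ 2 * (4 + 3 * E0) +
        (β - 1) * (8 + 4 * E0 + β * (3 + 4 * E0) + C * (1 + 3 + 2 * E0)) +
        β * (5 + 3 * E0 + β * (2 + 4 * E0) + C * (1 + 2 + 2 * E0)) with hG
  have hβ1 : 0 ≤ β - 1 := by linarith only [hβ]
  have hβ0 : 0 ≤ β := by linarith only [hβ]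
  have hG0 : 0 ≤ G := by (clear * - hβ hC hlogB; positivity)
  refine ⟨G / (β ^ 2 + 3 * β - 2), div_nonneg hG0 hA.le, ?_⟩
  intro F Ω _ P L t
  have hP := isPath F P L t
  set D := P.H L with hD
  set W := P.H (fun ω => (t ω, L ω)) with hW
  set K := P.H (fun ω => (F.cell (L ω) (t ω), t ω)) with hK
  have hHt : P.H t ≤ Real.log F.N := by
    have := P.H_le_log_card t
    simpa only [ge_iff_le, Fintype.card_fin] using this
  have hκ0 : 0 ≤ Real.log F.N - (W - D) := by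
    have h1 := P.H_pair_le t L
    linarith only [hHt, h1]
  obtain ⟨ρ, σ, hb, hI⟩ := path_ineq F (P3 F P L t) _ _ _ _ _ _ _ _ _ hB hP hβ0 hC h hHt
  have hEQ := path_EQ F (P3 F P L t) _ _ _ _ _ _ _ _ _ hP
  have hfin := path_final hβ hI
  set κ := Real.log F.N - (W - D) with hκ
  set e := er F (P3 F P L t) (fun x => t x.fst.fst.fst.fst) (fun x => t x.fst.snd.fst.fst)
    (fun x => t x.fst.fst.fst.snd) (fun x => t x.fst.fst.snd.snd)
    (fun x => t x.fst.snd.snd.snd) (fun x => t x.snd) with he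
  have he0 : 0 ≤ e := er_nonneg F _ _ _ _ _ _ _ hB
  have he1 : e ≤ E0 * (1 + κ) := by
    have h1 : e ≤ (m + 1) * (Real.log 4 + 2 * (Real.log (11 + 8 * B) +
        24 * (Real.log 4 + κ))) := by
      rw [he, er]
      refine mul_le_mul_of_nonneg_left ?_ (by (clear * -; positivity))
      linarith only [hEQ]
    refine h1.trans ?_
    rw [hE0, mul_assoc]
    refine mul_le_mul_of_nonneg_left ?_ (by (clear * -; positivity))
    have h2 : 0 ≤ κ * Real.log 4 := by (clear * - hκ0; positivity)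
    have h3 : 0 ≤ κ * Real.log (11 + 8 * B) := by (clear * - hlogB hκ0; positivity)
    linarith only [h2, h3]
  have hS : (β - 1) ^ 2 * (4 * κ + 3 * e) +
        (β - 1) * (8 * κ + 4 * e + β * (3 * κ + 4 * e) + C * (1 + 3 * κ + 2 * e)) +
        β * (5 * κ + 3 * e + β * (2 * κ + 4 * e) + C * (1 + 2 * κ + 2 * e)) ≤
      G * (1 + κ) := by
    have g : ∀ u v : ℝ, 0 ≤ u → 0 ≤ v → u * κ + v * e ≤ (u + v * E0) * (1 + κ) := by
      intro u v hu hv
      have := mul_le_mul_of_nonneg_left he1 hv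
      linarith only [this, hu, mul_nonneg hu hκ0]
    have g' : ∀ u v : ℝ, 0 ≤ u → 0 ≤ v → 1 + u * κ + v * e ≤ (1 + u + v * E0) * (1 + κ) := by
      intro u v hu hv
      have := mul_le_mul_of_nonneg_left he1 hv
      linarith only [this, hu, mul_nonneg hu hκ0, hκ0]
    have j1 := mul_le_mul_of_nonneg_left (g 4 3 (by norm_num) (by norm_num))
      (sq_nonneg (β - 1))
    have j2 := g 8 4 (by norm_num) (by norm_num)
    have j3 := mul_le_mul_of_nonneg_left (g 3 4 (by norm_num) (by norm_num)) hβ0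
    have j4 := mul_le_mul_of_nonneg_left (g' 3 2 (by norm_num) (by norm_num)) hC
    have j5 := g 5 3 (by norm_num) (by norm_num)
    have j6 := mul_le_mul_of_nonneg_left (g 2 4 (by norm_num) (by norm_num)) hβ0
    have j7 := mul_le_mul_of_nonneg_left (g' 2 2 (by norm_num) (by norm_num)) hC
    have j8 := mul_le_mul_of_nonneg_left (add_le_add (add_le_add j2 j3) j4) hβ1
    have j9 := mul_le_mul_of_nonneg_left (add_le_add (add_le_add j5 j6) j7) hβ0
    rw [hG]
    linarith only [j1, j8, j9]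
  have hD2 : D * (β ^ 2 + 3 * β - 2) ≤
      (3 * β ^ 2 + 2 * β - 2) * (K - P.H t) + G * (1 + κ) := hfin.trans (add_le_add le_rfl hS)
  have : D ≤ ((3 * β ^ 2 + 2 * β - 2) * (K - P.H t) + G * (1 + κ)) / (β ^ 2 + 3 * β - 2) := by
    rw [le_div_iff₀ hA]
    exact hD2
  refine this.trans (le_of_eq ?_)
  rw [nxt, add_div, mul_div_right_comm, mul_div_right_comm]

/-- the exponent `β` can be increased -/
theorem SD.mono {m : ℕ} {B β β' C : ℝ} (h : SD m B β C) (hβ : β ≤ β') : SD m B β' C := by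
  intro F Ω _ P L t
  refine (h F Ω P L t).trans ?_
  have h1 : 0 ≤ P.H (fun ω => (F.cell (L ω) (t ω), t ω)) - P.H t := by
    have := P.H_mono (X := fun ω => (F.cell (L ω) (t ω), t ω)) (Y := t) (by
      intro ω ω' h
      simp only [Prod.mk.injEq] at h
      exact h.2)
    linarith
  have := mul_le_mul_of_nonneg_right hβ h1
  linarith

lemma root_lt_two {α : ℝ} (hα1 : 1 < α) (hα : α ^ 3 - 4 * α + 2 = 0) : α < 2 := by
  by_contra h
  push Not at h
  have h2 := mul_nonneg (sub_nonneg.2 h) (sub_nonneg.2 h)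
  have h3 := mul_nonneg (sub_nonneg.2 h) (mul_nonneg (by linarith : 0 ≤ α) (by linarith only [hα1] : 0 ≤ α))
  linarith only [h2, h3, hα, h]

/-- contraction towards the root -/
lemma nxt_contract {α β : ℝ} (hα1 : 1 < α) (hα : α ^ 3 - 4 * α + 2 = 0) (hβ : α ≤ β)
    (hβ2 : β ≤ 2) : α ≤ nxt β ∧ nxt β - α ≤ (β - α) / 2 := by
  have hA : 0 < β ^ 2 + 3 * β - 2 := by
    have h1 : 1 ≤ β ^ 2 := one_le_pow₀ (hα1.le.trans hβ)
    linarith only [h1, hα1, hβ]
  have hα2 : α < 2 := root_lt_two hα1 hα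
  have key : nxt β - α = (β - α) * ((3 - α) * β + 2 - α ^ 2) / (β ^ 2 + 3 * β - 2) := by
    unfold nxt
    rw [div_sub' hA.ne', div_left_inj' hA.ne']
    linear_combination (-1) * hα
  have hs1 : 0 ≤ (3 - α) * (β - α) := mul_nonneg (by linarith only [hα2]) (by linarith only [hβ])
  have hs2 : 0 ≤ (2 - α) * (2 * α + 1) := mul_nonneg (by linarith only [hα2]) (by linarith only [hα1])
  have h1 : 0 ≤ (3 - α) * β + 2 - α ^ 2 := by linarith only [hs1, hs2]
  have h2 : (3 - α) * β + 2 - α ^ 2 ≤ (β ^ 2 + 3 * β - 2) / 2 := by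
    clear key
    nlinarith only [hα1, hα, hβ]
  have hβα : 0 ≤ β - α := by linarith only [hβ]
  constructor
  · have : 0 ≤ nxt β - α := by
      rw [key]
      (clear * - hβ hA h1; (clear * - hβ h1 hA; positivity))
    linarith only [this]
  · rw [key, div_le_iff₀ hA]
    have := mul_le_mul_of_nonneg_left h2 hβα
    linarith only [this]

theorem sd_all (m : ℕ) (B : ℝ) (hB : 0 ≤ B) {α : ℝ} (hα1 : 1 < α)
    (hα : α ^ 3 - 4 * α + 2 = 0) {β : ℝ} (hβ : α < β) : ∃ C : ℝ, 0 ≤ C ∧ SD m B β C := by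
  have hα2 : α < 2 := root_lt_two hα1 hα
  have key : ∀ n : ℕ, ∃ b C : ℝ, α ≤ b ∧ b ≤ 2 ∧ b - α ≤ (1 / 2) ^ n ∧ 0 ≤ C ∧ SD m B b C := by
    intro n
    induction n with
    | zero =>
      obtain ⟨C, hC, h⟩ := sd_two m B hB
      exact ⟨2, C, hα2.le, le_rfl, by norm_num; linarith only [hα1], hC, h⟩
    | succ n ih =>
      obtain ⟨b, C, h1, h2, h3, h4, h5⟩ := ih
      obtain ⟨C', hC', h'⟩ := sd_step m B b C hB (by linarith only [hα1, h1]) h4 h5
      obtain ⟨k1, k2⟩ := nxt_contract hα1 hα h1 h2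
      refine ⟨nxt b, C', k1, by linarith only [hα2, h2, k2], ?_, hC', h'⟩
      rw [pow_succ]
      linarith only [h3, k2]
  obtain ⟨n, hn⟩ := exists_pow_lt_of_lt_one (by linarith only [hβ] : 0 < β - α)
    (by norm_num : (1 / 2 : ℝ) < 1)
  obtain ⟨b, C, h1, h2, h3, h4, h5⟩ := key n
  exact ⟨C, h4, h5.mono (by linarith only [hn, h3])⟩

end Vale.Agent.P127
end
end

section

end

section

/-!
# P127 / Stk : definitions for the sticky Kakeya project

Natural logarithms everywhere, `Real.log 2` per binary digit.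
-/

namespace Vale.Agent.P127.Stk

open Finset Vale.Agent.P127

section basic

variable {Ω Ω' : Type} [Fintype Ω] [Fintype Ω'] {S T U : Type*}

/-- conditional entropy `H(X | Y)` -/
noncomputable def hc (P : Law Ω) (X : Ω → S) (Y : Ω → T) : ℝ :=
  P.H (fun ω => (X ω, Y ω)) - P.H Y

/-- conditional mutual information `I(X ; Y | Z)` -/
noncomputable def mi (P : Law Ω) (X : Ω → S) (Y : Ω → T) (Z : Ω → U) : ℝ :=
  hc P X Z - hc P X (fun ω => (Y ω, Z ω))

/-- the first `s` binary digits of a vector -/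
noncomputable def fl {ι : Type} (s : ℕ) (v : ι → ℝ) : ι → ℤ := fun i => ⌊(2 : ℝ) ^ s * v i⌋

/-- the first `s` binary digits of a number -/
noncomputable def fl1 (s : ℕ) (v : ℝ) : ℤ := ⌊(2 : ℝ) ^ s * v⌋

/-- the law of `π` under `Q` is at most `K` times `P` -/
def Dom (Q : Law Ω') (π : Ω' → Ω) (P : Law Ω) (K : ℝ) : Prop := ∀ ω, Q.pr π ω ≤ K * P.w ω

open Classical in
/-- `N` copies of `P`, conditionally independent given the common value of `W` -/
noncomputable def cw (P : Law Ω) (W : Ω → S) (N : ℕ) (w : Fin (N + 1) → Ω) : ℝ :=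
  if ∀ i, W (w i) = W (w 0) then (∏ i, P.w (w i)) / (P.pr W (W (w 0))) ^ N else 0

end basic

/-- a random line `x + t y` with a random time `t` and side information `A` -/
structure Cf (Ω : Type) (m : ℕ) where
  α : Type
  A : Ω → α
  x : Ω → Fin m → ℝ
  y : Ω → Fin m → ℝ
  t : Ω → ℝ

namespace Cf

variable {Ω Ω' : Type} {m : ℕ}

/-- pull back along a map -/
def comp (c : Cf Ω m) (π : Ω' → Ω) : Cf Ω' m where
  α := c.α
  A := c.A ∘ π
  x := c.x ∘ π
  y := c.y ∘ π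
  t := c.t ∘ π

/-- the point of the line at the time `t` -/
def pt (c : Cf Ω m) (ω : Ω) : Fin m → ℝ := fun i => c.x ω i + c.t ω * c.y ω i

/-- the part of the configuration below the scale `2^{-r}` -/
noncomputable def sub (c : Cf Ω m) (r : ℕ) : Cf Ω m where
  α := c.α × (Fin m → ℤ) × (Fin m → ℤ)
  A := fun ω => (c.A ω, fl r (c.x ω), fl r (c.y ω))
  x := fun ω i => Int.fract ((2 : ℝ) ^ r * c.x ω i)
  y := fun ω i => Int.fract ((2 : ℝ) ^ r * c.y ω i)
  t := c.t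

end Cf

/-- the class of configurations with `L` digits, error `e` and time deficit `C` -/
structure Good {Ω : Type} [Fintype Ω] {m : ℕ} (P : Law Ω) (c : Cf Ω m) (L : ℕ) (e C : ℝ) :
    Prop where
  x01 : ∀ ω i, 0 ≤ c.x ω i ∧ c.x ω i < 1
  y01 : ∀ ω i, 0 ≤ c.y ω i ∧ c.y ω i < 1
  t01 : ∀ ω, 0 ≤ c.t ω ∧ c.t ω < 1
  ind : mi P (fun ω => (c.x ω, c.y ω)) c.t c.A ≤ C
  dir : ∀ s ≤ L, (m * s : ℝ) * Real.log 2 - e ≤ hc P (fun ω => fl s (c.y ω)) c.A
  lin : ∀ s ≤ L, hc P (fun ω => (fl s (c.x ω), fl s (c.y ω))) c.A ≤ (m * s : ℝ) * Real.log 2 + e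
  tim : ∀ s ≤ L, (s : ℝ) * Real.log 2 - C ≤ hc P (fun ω => fl1 s (c.t ω)) c.A

/-- an object of type `κ`: a random linear projection killing a `κ`-dimensional subspace which is
a graph over the coordinates in `J`; `G` is the random data on which it depends -/
structure Ob (Ω : Type) (m κ : ℕ) where
  γ : Type
  G : Ω → γ
  J : Finset (Fin m)
  Γ : Ω → Fin m → Fin m → ℝ
  card : J.card = κ
  bd : ∀ ω i j, |Γ ω i j| ≤ 3 ^ κ
  fn : ∀ ω ω', G ω = G ω' → Γ ω = Γ ω'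

namespace Ob

variable {Ω Ω' : Type} {m κ : ℕ}

/-- pull back along a map -/
def comp (o : Ob Ω m κ) (π : Ω' → Ω) : Ob Ω' m κ where
  γ := o.γ
  G := o.G ∘ π
  J := o.J
  Γ := o.Γ ∘ π
  card := o.card
  bd := fun ω i j => o.bd (π ω) i j
  fn := fun ω ω' h => o.fn (π ω) (π ω') h

open Classical in
/-- the projection of a vector -/
noncomputable def app (o : Ob Ω m κ) (ω : Ω) (v : Fin m → ℝ) : Fin m → ℝ := fun i =>
  if i ∈ o.J then 0 else v i - ∑ j ∈ o.J, o.Γ ω i j * v j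

/-- the projected point of the line -/
noncomputable def F (c : Cf Ω m) (o : Ob Ω m κ) (ω : Ω) : Fin m → ℝ := o.app ω (c.pt ω)

end Ob

/-- Growth classes. `ok g n L e C` says that for the grade `g` and the level `n` the error `e` and
the time deficit `C` are admissible for configurations with `L` digits. Two instances matter:
(M) `G = ℝ`, `ok C₀ n L e C ↔ C ≤ C₀ ∧ n ≤ L ∧ e ≤ L / (n + 1)`, and
(H) `G = ℝ × ℝ`, errors `≤ K L^{1-c}` and time deficits `≤ K log log L`. -/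
structure Gr where
  G : Type
  ok : G → ℕ → ℕ → ℝ → ℝ → Prop
  anti : ∀ g n n' L e C, n ≤ n' → ok g n' L e C → ok g n L e C
  mono : ∀ g n L e C e' C', e' ≤ e → C' ≤ C → ok g n L e C → ok g n L e' C'
  dom : ∀ g (K : ℝ), 0 ≤ K → ∃ g', ∀ n', ∃ n, ∀ L e C, ok g n L e C →
    ok g' n' L (K * (e + 1)) (K * (C + 1))
  sub : ∀ g (η : ℝ), 0 < η → ∃ g', ∀ n', ∃ n, ∀ (L L' : ℕ) e C, ok g n L e C →
    η * L ≤ L' → L' ≤ L → ok g' n' L' e C
  small : ∀ g (ε : ℝ), 0 < ε → ∃ n, ∀ (L : ℕ) e C, ok g n L e C →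
    1 ≤ ε * L ∧ e ≤ ε * L ∧ C ≤ ε * L
  win : ∀ g (κ : ℕ) (εu : ℝ), 0 < εu → ∃ g', ∀ n', ∃ n, ∀ (L L' : ℕ) e C, ok g n L e C →
    (L : ℝ) ≤ (κ + 4 : ℝ) ^ (8 * (max C 0 + 1) / εu + 3) * L' → L' ≤ L → ok g' n' L' e C

/-- lower bound `h` for the entropy rate of `x + t y` -/
def LB (R : Gr) (m : ℕ) (h : ℝ) : Prop :=
  ∀ ι : ℝ, 0 < ι → ∀ g : R.G, ∃ n : ℕ, ∀ (L : ℕ) (e C : ℝ), R.ok g n L e C →
    ∀ (Ω : Type) [Fintype Ω] (P : Law Ω) (c : Cf Ω m), Good P c L e C →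
      (h - ι) * L * Real.log 2 ≤ hc P (fun ω => fl L (c.pt ω)) (fun ω => (c.t ω, c.A ω))

/-- there are objects of type `κ` with the extremal rate `h - κ` -/
def YK (R : Gr) (m : ℕ) (h : ℝ) (κ : ℕ) : Prop :=
  ∀ ι : ℝ, 0 < ι → ∃ g : R.G, ∀ n : ℕ, ∃ (L : ℕ) (e C : ℝ), R.ok g n L e C ∧
    ∃ (Ω : Type) (_ : Fintype Ω) (P : Law Ω) (c : Cf Ω m) (o : Ob Ω m κ),
      Good P c L e C ∧
      mi P (fun ω => (c.x ω, c.y ω)) o.G (fun ω => (c.t ω, c.A ω)) ≤ ι * L ∧
      hc P (fun ω => fl L (o.F c ω)) (fun ω => (c.t ω, o.G ω, c.A ω)) ≤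
        (h - κ + ι) * L * Real.log 2

/-- there are no objects of type `κ` with the extremal rate `h - κ` -/
def NK (R : Gr) (m : ℕ) (h : ℝ) (κ : ℕ) : Prop :=
  ∃ ι : ℝ, 0 < ι ∧ ∀ g : R.G, ∃ n : ℕ, ∀ (L : ℕ) (e C : ℝ), R.ok g n L e C →
    ∀ (Ω : Type) [Fintype Ω] (P : Law Ω) (c : Cf Ω m) (o : Ob Ω m κ),
      Good P c L e C →
      mi P (fun ω => (c.x ω, c.y ω)) o.G (fun ω => (c.t ω, c.A ω)) ≤ ι * L →
      (h - κ + ι) * L * Real.log 2 ≤
        hc P (fun ω => fl L (o.F c ω)) (fun ω => (c.t ω, o.G ω, c.A ω))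

/-- the standing hypotheses of the inductive steps; `L = (κ + 4) a` -/
structure Hyp {Ω : Type} [Fintype Ω] {m : ℕ} (h : ℝ) (κ a : ℕ) (ι εu e C : ℝ) (P : Law Ω)
    (c : Cf Ω m) (o : Ob Ω m κ) : Prop where
  good : Good P c ((κ + 4) * a) e C
  cost : mi P (fun ω => (c.x ω, c.y ω)) o.G (fun ω => (c.t ω, c.A ω)) ≤ ι * ((κ + 4) * a : ℕ)
  rate : hc P (fun ω => fl ((κ + 4) * a) (o.F c ω)) (fun ω => (c.t ω, o.G ω, c.A ω)) ≤
    (h - κ + ι) * ((κ + 4) * a : ℕ) * Real.log 2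
  unif : (((κ + 4) * a : ℕ) - (a : ℝ)) * Real.log 2 - εu ≤
    hc P (fun ω => fl1 ((κ + 4) * a) (c.t ω))
      (fun ω => (fl1 a (c.t ω), c.x ω, c.y ω, c.A ω))

end Vale.Agent.P127.Stk
end

section

/-!
# P127 / Stk : the statements of the parts
-/

namespace Vale.Agent.P127.Stk

open Finset Vale.Agent.P127

/-- the key on which copies of the time are conditionally independent: the line, the side
information and the first `a` digits of the time -/
noncomputable def key {Ω : Type} {m : ℕ} (c : Cf Ω m) (a : ℕ) (ω : Ω) :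
    (Fin m → ℝ) × (Fin m → ℝ) × c.α × ℤ := (c.x ω, c.y ω, c.A ω, fl1 a (c.t ω))

/-- for all small parameters: the quantifier pattern of all steps.
`E ε a P c o` is the conclusion with accuracy `ε`. -/
def Ev (R : Gr) (m : ℕ) (h : ℝ) (κ : ℕ)
    (E : ℝ → ℕ → (Ω : Type) → [Fintype Ω] → Law Ω → Cf Ω m → Ob Ω m κ → Prop) : Prop :=
  ∀ ε : ℝ, 0 < ε → ∃ ι : ℝ, 0 < ι ∧ ∃ εu : ℝ, 0 < εu ∧ ∀ g : R.G, ∃ n : ℕ,
    ∀ (a : ℕ) (e C : ℝ), R.ok g n ((κ + 4) * a) e C →
      ∀ (Ω : Type) [Fintype Ω] (P : Law Ω) (c : Cf Ω m) (o : Ob Ω m κ),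
        Hyp h κ a ι εu e C P c o → E ε a Ω P c o

/-- `R(k)` : the projected point at one time determines the projected point at another time with
the same first `a` digits, up to the precision `2^{-k a}` -/
def RK (R : Gr) (m : ℕ) (h : ℝ) (κ k : ℕ) : Prop :=
  Ev R m h κ fun ε a Ω _ P c o =>
    ∀ Q : Law (Fin 2 → Ω), (∀ w, Q.w w = cw P (key c a) 1 w) →
      ∀ s : ℕ, (s : ℝ) + ε * ((κ + 4) * a : ℕ) ≤ k * a →
        hc Q (fun w => fl s (o.F c (w 1)))
          (fun w => (fl s (o.F c (w 0)), (fun i => (c.t (w i), o.G (w i))), c.A (w 0))) ≤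
        ε * ((κ + 4) * a : ℕ)

/-- the Lagrange coefficient of the node `l` at the point `w (last)` -/
noncomputable def lag {Ω : Type} (t : Ω → ℝ) {k : ℕ} (w : Fin (k + 2) → Ω) (l : Fin (k + 1)) : ℝ :=
  ∏ l' ∈ (Finset.univ : Finset (Fin (k + 1))).erase l,
    (t (w (Fin.last (k + 1))) - t (w l'.castSucc)) / (t (w l.castSucc) - t (w l'.castSucc))

open Classical in
/-- `C(k)` : the matrix `Γ` is, as a function of the time in a dyadic interval of length `2^{-a}`,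
a polynomial of degree at most `k` up to an error `2^{-(k+1)a}` -/
def CK (R : Gr) (m : ℕ) (h : ℝ) (κ k : ℕ) : Prop :=
  Ev R m h κ fun ε a Ω _ P c o =>
    ∀ Q : Law (Fin (k + 2) → Ω), (∀ w, Q.w w = cw P (key c a) (k + 1) w) →
      ∑ w with (∃ i, i ∉ o.J ∧ ∃ j ∈ o.J,
          (2 : ℝ) ^ (-(((k + 1) * a : ℕ) : ℝ) + ε * ((κ + 4) * a : ℕ)) <
            |o.Γ (w (Fin.last (k + 1))) i j -
              ∑ l : Fin (k + 1), lag c.t w l * o.Γ (w l.castSucc) i j|), Q.w w ≤ ε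

/-- extremal objects with uniform times -/
def YU (R : Gr) (m : ℕ) (h : ℝ) (κ : ℕ) : Prop :=
  ∀ ι : ℝ, 0 < ι → ∀ εu : ℝ, 0 < εu → ∃ g : R.G, ∀ n : ℕ, ∃ (a : ℕ) (e C : ℝ),
    R.ok g n ((κ + 4) * a) e C ∧
    ∃ (Ω : Type) (_ : Fintype Ω) (P : Law Ω) (c : Cf Ω m) (o : Ob Ω m κ),
      Hyp h κ a ι εu e C P c o

/-- choice of the window (PROOF.md, section 5) -/
def PWindow (R : Gr) : Prop := ∀ (m : ℕ) (h : ℝ) (κ : ℕ), LB R m h → YK R m h κ → YU R m h κ

/-- the base case (section 6) -/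
def PBase (R : Gr) : Prop := ∀ (m : ℕ) (h : ℝ) (κ : ℕ), LB R m h → NK R m h (κ + 1) →
  CK R m h κ 0 ∧ RK R m h κ 1

/-- the step for `Γ` (section 8) -/
def PStepC (R : Gr) : Prop := ∀ (m : ℕ) (h : ℝ) (κ k : ℕ), 1 ≤ k → k ≤ κ + 1 → LB R m h → NK R m h (κ + 1) →
  CK R m h κ 0 → RK R m h κ k → CK R m h κ (k - 1) → CK R m h κ k

/-- the step for the determinism (section 9) -/
def PStepR (R : Gr) : Prop := ∀ (m : ℕ) (h : ℝ) (κ k : ℕ), 1 ≤ k → k ≤ κ + 1 → LB R m h → NK R m h (κ + 1) →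
  CK R m h κ 0 → RK R m h κ k → CK R m h κ k → RK R m h κ (k + 1)

/-- the end of the proof (section 10) -/
def PEnd (R : Gr) : Prop := ∀ (m : ℕ) (h : ℝ) (κ : ℕ), h < m → κ < m → LB R m h → YU R m h κ →
  RK R m h κ (κ + 2) → False

/-- the entropic core theorem -/
theorem core (R : Gr) (hW : PWindow R) (hB : PBase R) (hC : PStepC R) (hR : PStepR R)
    (hE : PEnd R)
    (m : ℕ) (h : ℝ) (κ : ℕ) (hm : h < m) (hκ : κ < m) (h1 : LB R m h) (h2 : YK R m h κ)
    (h3 : NK R m h (κ + 1)) : False := by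
  have key : ∀ k, k ≤ κ + 1 → CK R m h κ k ∧ RK R m h κ (k + 1) := by
    intro k
    induction k with
    | zero => intro _; exact hB m h κ h1 h3
    | succ k ih =>
      intro hk
      obtain ⟨c1, r1⟩ := ih (by omega)
      have c0 := (hB m h κ h1 h3).1
      have c2 : CK R m h κ (k + 1) := hC m h κ (k + 1) (by omega) hk h1 h3 c0 r1 (by simpa only [add_tsub_cancel_right] using c1)
      exact ⟨c2, hR m h κ (k + 1) (by omega) hk h1 h3 c0 r1 c2⟩
  exact hE m h κ hm hκ h1 (hW m h κ h1 h2) (key (κ + 1) le_rfl).2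

end Vale.Agent.P127.Stk
end

section

/-!
# P127 / Stk / Window, part A: elementary facts on conditional entropies
-/

namespace Vale.Agent.P127.Stk.Win

open Finset Vale.Agent.P127

variable {Ω : Type} [Fintype Ω] {S S' T T' U V : Type*}

lemma hc_nonneg (P : Law Ω) (X : Ω → S) (Y : Ω → T) : 0 ≤ hc P X Y := by
  have h := P.H_mono (X := fun ω => (X ω, Y ω)) (Y := Y) (fun ω ω' h => (Prod.mk.inj h).2)
  unfold hc
  linarith only [h]

/-- monotonicity in the first variable -/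
lemma hc_mono_left (P : Law Ω) {X : Ω → S} {X' : Ω → S'} {Y : Ω → T}
    (h : ∀ ω ω', X ω = X ω' → Y ω = Y ω' → X' ω = X' ω') : hc P X' Y ≤ hc P X Y := by
  have := P.H_mono (X := fun ω => (X ω, Y ω)) (Y := fun ω => (X' ω, Y ω)) (fun ω ω' h' => by
    obtain ⟨h1, h2⟩ := Prod.mk.inj h'
    rw [h ω ω' h1 h2, h2])
  unfold hc
  linarith

/-- conditioning on more decreases the entropy -/
lemma hc_mono_right (P : Law Ω) {X : Ω → S} {Y : Ω → T} {Y' : Ω → T'}
    (h : ∀ ω ω', Y' ω = Y' ω' → Y ω = Y ω') : hc P X Y' ≤ hc P X Y := by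
  have h1 := P.submod X Y' Y
  have h2 : P.H (fun ω => (X ω, Y' ω, Y ω)) = P.H (fun ω => (X ω, Y' ω)) :=
    P.H_congr fun ω ω' => by
      simp only [Prod.mk.injEq]
      exact ⟨fun h' => ⟨h'.1, h'.2.1⟩, fun h' => ⟨h'.1, h'.2, h ω ω' h'.2⟩⟩
  have h3 : P.H (fun ω => (Y' ω, Y ω)) = P.H Y' :=
    P.H_congr fun ω ω' => by
      simp only [Prod.mk.injEq]
      exact ⟨fun h' => h'.1, fun h' => ⟨h', h ω ω' h'⟩⟩
  unfold hc
  linarith

lemma hc_congr_left (P : Law Ω) {X : Ω → S} {X' : Ω → S'} {Y : Ω → T}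
    (h : ∀ ω ω', Y ω = Y ω' → (X ω = X ω' ↔ X' ω = X' ω')) : hc P X' Y = hc P X Y :=
  le_antisymm (hc_mono_left P fun ω ω' h1 h2 => (h ω ω' h2).1 h1)
    (hc_mono_left P fun ω ω' h1 h2 => (h ω ω' h2).2 h1)

lemma hc_congr_right (P : Law Ω) {X : Ω → S} {Y : Ω → T} {Y' : Ω → T'}
    (h : ∀ ω ω', Y' ω = Y' ω' ↔ Y ω = Y ω') : hc P X Y' = hc P X Y :=
  le_antisymm (hc_mono_right P fun ω ω' h1 => (h ω ω').1 h1)
    (hc_mono_right P fun ω ω' h1 => (h ω ω').2 h1)

/-- chain rule -/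
lemma hc_chain (P : Law Ω) (X : Ω → S) (Y : Ω → T) (Z : Ω → U) :
    hc P (fun ω => (X ω, Y ω)) Z = hc P X Z + hc P Y (fun ω => (X ω, Z ω)) := by
  have h1 : P.H (fun ω => ((X ω, Y ω), Z ω)) = P.H (fun ω => (Y ω, (X ω, Z ω))) :=
    P.H_congr fun ω ω' => by
      simp only [Prod.mk.injEq]
      tauto
  unfold hc
  linarith

/-- chain rule as an inequality -/
lemma hc_le_add (P : Law Ω) (X : Ω → S) (Y : Ω → T) (Z : Ω → U) :
    hc P Y Z ≤ hc P X Z + hc P Y (fun ω => (X ω, Z ω)) := by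
  rw [← hc_chain]
  exact hc_mono_left P fun ω ω' h _ => (Prod.mk.inj h).2

open Classical in
/-- a variable with at most `N` values given `Y` -/
lemma hc_card (P : Law Ω) (X : Ω → S) (Y : Ω → T) (N : ℝ) (hN : 0 < N)
    (h : ∀ y, (((univ.filter (fun ω => Y ω = y)).image X).card : ℝ) ≤ N) :
    hc P X Y ≤ Real.log N := by
  have h1 := P.gibbs_cond X Y (fun x y => if x ∈ (univ.filter (fun ω => Y ω = y)).image X then
      1 / N else 0) (fun x y => by split_ifs <;> positivity) (fun y F => by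
        rw [← Finset.sum_filter, Finset.sum_const, nsmul_eq_mul]
        have h2 : ((F.filter (fun x => x ∈ (univ.filter (fun ω => Y ω = y)).image X)).card : ℝ) ≤
            N := by
          refine le_trans ?_ (h y)
          exact_mod_cast Finset.card_le_card fun x hx => (Finset.mem_filter.1 hx).2
        rw [mul_one_div]
        exact div_le_one_of_le₀ h2 hN.le) (fun ω _ => by
        rw [if_pos]
        · positivity
        · exact Finset.mem_image_of_mem _ (by simp only [mem_filter, mem_univ, and_self]))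
  refine h1.trans (le_of_eq ?_)
  have h3 : ∀ ω, -Real.log (if X ω ∈ (univ.filter (fun ω' => Y ω' = Y ω)).image X then
      1 / N else 0) = Real.log N := by
    intro ω
    rw [if_pos (Finset.mem_image_of_mem _ (by simp only [mem_filter, mem_univ, and_self])), one_div, Real.log_inv, neg_neg]
  simp only [h3]
  rw [P.ex_const]

/-- an integer vector known up to `K` -/
lemma hc_box {ι : Type} [Fintype ι] (P : Law Ω) (X : Ω → ι → ℤ) (Y : Ω → T) (g : Ω → ι → ℝ)
    (hg : ∀ ω ω', Y ω = Y ω' → g ω = g ω') (K : ℝ) (hK0 : 0 ≤ K)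
    (hK : ∀ ω i, |(X ω i : ℝ) - g ω i| ≤ K) :
    hc P X Y ≤ Fintype.card ι * Real.log (2 * K + 1) := by
  classical
  have h0 : (0 : ℝ) < 2 * K + 1 := by linarith only [hK0]
  have h := hc_card P X Y ((2 * K + 1) ^ Fintype.card ι) (by (clear * - hK0; positivity)) ?_
  · rwa [Real.log_pow] at h
  intro y
  by_cases hy : ∃ ω, Y ω = y
  · obtain ⟨ω0, rfl⟩ := hy
    have hsub : ∀ ω, Y ω = Y ω0 → X ω ∈
        Fintype.piFinset (fun i => Finset.Icc ⌈g ω0 i - K⌉ ⌊g ω0 i + K⌋) := by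
      intro ω hω'
      rw [Fintype.mem_piFinset]
      intro i
      have h1 := abs_le.1 (hK ω i)
      rw [hg ω ω0 hω'] at h1
      rw [Finset.mem_Icc]
      refine ⟨Int.ceil_le.2 (by linarith only [h1]), Int.le_floor.2 (by linarith)⟩
    have hcard : ((Fintype.piFinset (fun i => Finset.Icc ⌈g ω0 i - K⌉ ⌊g ω0 i + K⌋)).card : ℝ) ≤
        (2 * K + 1) ^ Fintype.card ι := by
      rw [Fintype.card_piFinset, Nat.cast_prod]
      calc ∏ i, (((Finset.Icc ⌈g ω0 i - K⌉ ⌊g ω0 i + K⌋).card : ℕ) : ℝ)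
          ≤ ∏ _i : ι, (2 * K + 1) := by
            refine Finset.prod_le_prod (fun i _ => by (clear * -; positivity)) fun i _ => ?_
            rw [Int.card_Icc]
            have h2 : (((⌊g ω0 i + K⌋ + 1 - ⌈g ω0 i - K⌉).toNat : ℕ) : ℝ) =
                ((max (⌊g ω0 i + K⌋ + 1 - ⌈g ω0 i - K⌉) 0 : ℤ) : ℝ) := by
              rw [← Int.toNat_eq_max]
              push_cast
              rfl
            rw [h2]
            push_cast
            refine max_le ?_ h0.le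
            have h3 := Int.floor_le (g ω0 i + K)
            have h4 := Int.le_ceil (g ω0 i - K)
            linarith only [h3, h4]
        _ = (2 * K + 1) ^ Fintype.card ι := by
            rw [Finset.prod_const, Finset.card_univ]
    refine le_trans ?_ hcard
    rw [Nat.cast_le]
    refine Finset.card_le_card fun v hv => ?_
    simp only [Finset.mem_image, Finset.mem_filter, Finset.mem_univ, true_and] at hv
    obtain ⟨ω, hω, rfl⟩ := hv
    exact hsub ω hω
  · have : univ.filter (fun ω => Y ω = y) = ∅ := by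
      rw [Finset.filter_eq_empty_iff]
      intro ω _ hω
      exact hy ⟨ω, hω⟩
    rw [this]
    simp only [Finset.image_empty, Finset.card_empty, Nat.cast_zero]
    (clear * - hK0; positivity)

lemma mi_comm (P : Law Ω) (X : Ω → S) (Y : Ω → T) (Z : Ω → U) : mi P X Y Z = mi P Y X Z := by
  have h : P.H (fun ω => (X ω, (Y ω, Z ω))) = P.H (fun ω => (Y ω, (X ω, Z ω))) :=
    P.H_congr fun ω ω' => by
      simp only [Prod.mk.injEq]
      tauto
  unfold mi hc
  linarith only [h]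

lemma mi_nonneg (P : Law Ω) (X : Ω → S) (Y : Ω → T) (Z : Ω → U) : 0 ≤ mi P X Y Z := by
  have := hc_mono_right P (X := X) (Y := Z) (Y' := fun ω => (Y ω, Z ω))
    (fun ω ω' h => (Prod.mk.inj h).2)
  unfold mi
  linarith

/-- data processing -/
lemma mi_mono_left (P : Law Ω) {X : Ω → S} {X' : Ω → S'} {Y : Ω → T} {Z : Ω → U}
    (h : ∀ ω ω', X ω = X ω' → Z ω = Z ω' → X' ω = X' ω') : mi P X' Y Z ≤ mi P X Y Z := by
  rw [mi_comm P X', mi_comm P X]
  have := hc_mono_right P (X := Y) (Y := fun ω => (X' ω, Z ω)) (Y' := fun ω => (X ω, Z ω))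
    (fun ω ω' h' => by
      obtain ⟨h1, h2⟩ := Prod.mk.inj h'
      rw [h ω ω' h1 h2, h2])
  unfold mi
  linarith

lemma mi_mono_right (P : Law Ω) {X : Ω → S} {Y : Ω → T} {Y' : Ω → T'} {Z : Ω → U}
    (h : ∀ ω ω', Y ω = Y ω' → Z ω = Z ω' → Y' ω = Y' ω') : mi P X Y' Z ≤ mi P X Y Z := by
  rw [mi_comm P X, mi_comm P X]
  exact mi_mono_left P h

/-- chain rule for the mutual information -/
lemma mi_chain (P : Law Ω) (X : Ω → S) (X' : Ω → S') (Y : Ω → T) (Z : Ω → U) :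
    mi P (fun ω => (X ω, X' ω)) Y Z = mi P X Y Z + mi P X' Y (fun ω => (X ω, Z ω)) := by
  have h1 := hc_chain P X X' Z
  have h2 := hc_chain P X X' (fun ω => (Y ω, Z ω))
  have h3 : hc P X' (fun ω => (X ω, (Y ω, Z ω))) = hc P X' (fun ω => (Y ω, (X ω, Z ω))) :=
    hc_congr_right P fun ω ω' => by
      simp only [Prod.mk.injEq]
      (clear * -; tauto)
  unfold mi
  linarith only [h1, h2, h3]

lemma mi_congr_left (P : Law Ω) {X : Ω → S} {X' : Ω → S'} {Y : Ω → T} {Z : Ω → U}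
    (h : ∀ ω ω', Z ω = Z ω' → (X ω = X ω' ↔ X' ω = X' ω')) : mi P X' Y Z = mi P X Y Z :=
  le_antisymm (mi_mono_left P fun ω ω' h1 h2 => (h ω ω' h2).1 h1)
    (mi_mono_left P fun ω ω' h1 h2 => (h ω ω' h2).2 h1)

lemma mi_congr_cond (P : Law Ω) {X : Ω → S} {Y : Ω → T} {Z : Ω → U} {Z' : Ω → V}
    (h : ∀ ω ω', Z' ω = Z' ω' ↔ Z ω = Z ω') : mi P X Y Z' = mi P X Y Z := by
  have h1 := hc_congr_right P (X := X) h
  have h2 : hc P X (fun ω => (Y ω, Z' ω)) = hc P X (fun ω => (Y ω, Z ω)) :=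
    hc_congr_right P fun ω ω' => by
      simp only [Prod.mk.injEq, h ω ω']
  unfold mi
  linarith only [h1, h2]

/-- removing the condition costs at most the information -/
lemma hc_sub_le_mi (P : Law Ω) (X : Ω → S) (Y : Ω → T) (Z : Ω → U) :
    hc P X Z - hc P X (fun ω => (Y ω, Z ω)) = mi P X Y Z := rfl

end Vale.Agent.P127.Stk.Win
end

section

/-!
# P127 / Stk : entropy calculus, part 1

Everything is stated on the support of the law (`0 < P.w ω`).
-/

namespace Vale.Agent.P127.Stk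

open Finset Vale.Agent.P127

section ent

variable {Ω : Type} [Fintype Ω] {S S' T T' U V : Type*} (P : Law Ω)

/-- on the support of `P`, `X` is a function of `Y` -/
def Fn (P : Law Ω) (X : Ω → S) (Y : Ω → T) : Prop :=
  ∀ ω ω', 0 < P.w ω → 0 < P.w ω' → Y ω = Y ω' → X ω = X ω'

theorem H_mono' {X : Ω → S} {Y : Ω → T} (h : Fn P Y X) : P.H Y ≤ P.H X := by
  classical
  unfold Law.H
  refine P.ex_mono fun ω hω => ?_
  have h1 : P.pr X (X ω) ≤ P.pr Y (Y ω) := by
    unfold Law.pr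
    rw [Finset.sum_filter, Finset.sum_filter]
    refine Finset.sum_le_sum fun ω' _ => ?_
    rcases (P.nn ω').eq_or_lt with h0 | h0
    · rw [← h0]; simp
    · by_cases hx : X ω' = X ω
      · rw [if_pos hx, if_pos (h ω' ω h0 hω hx)]
      · rw [if_neg hx]
        split_ifs
        · exact h0.le
        · exact le_rfl
  have := Real.log_le_log (P.pr_pos X hω) h1
  linarith

theorem H_congr' {X : Ω → S} {Y : Ω → T} (h : Fn P Y X) (h' : Fn P X Y) : P.H X = P.H Y :=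
  le_antisymm (H_mono' P h') (H_mono' P h)

/-- submodularity in the form of partitions: `D` a function of `X` and of `Y`,
`(X,Y)` determines `Z` -/
theorem submod' {X : Ω → S} {Y : Ω → T} {Z : Ω → U} {D : Ω → V}
    (hX : Fn P D X) (hY : Fn P D Y) (hZ : Fn P Z (fun ω => (X ω, Y ω))) :
    P.H Z + P.H D ≤ P.H X + P.H Y := by
  have h := P.submod X Y D
  have h1 : P.H (fun ω => (X ω, D ω)) = P.H X :=
    H_congr' P (fun ω ω' _ _ e => congrArg Prod.fst e)
      (fun ω ω' p p' e => Prod.ext e (hX ω ω' p p' e))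
  have h2 : P.H (fun ω => (Y ω, D ω)) = P.H Y :=
    H_congr' P (fun ω ω' _ _ e => congrArg Prod.fst e)
      (fun ω ω' p p' e => Prod.ext e (hY ω ω' p p' e))
  have h3 : P.H Z ≤ P.H (fun ω => (X ω, Y ω, D ω)) := by
    refine H_mono' P fun ω ω' p p' e => hZ ω ω' p p' ?_
    simp only [Prod.mk.injEq] at e ⊢
    exact ⟨e.1, e.2.1⟩
  linarith

theorem hc_nonneg (X : Ω → S) (Y : Ω → T) : 0 ≤ hc P X Y := by
  unfold hc
  have := H_mono' P (X := fun ω => (X ω, Y ω)) (Y := Y) (by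
    intro ω ω' _ _
    simp only [Prod.mk.injEq]
    exact fun h => h.2)
  linarith

theorem hc_mono_left {X : Ω → S} {X' : Ω → S'} {Y : Ω → T}
    (h : Fn P X (fun ω => (X' ω, Y ω))) : hc P X Y ≤ hc P X' Y := by
  unfold hc
  have := H_mono' P (X := fun ω => (X' ω, Y ω)) (Y := fun ω => (X ω, Y ω)) (by
    intro ω ω' p p' e
    have e2 := (Prod.mk.injEq _ _ _ _ ▸ e).2
    exact Prod.ext (h ω ω' p p' e) e2)
  linarith

theorem hc_mono_right (X : Ω → S) {Y : Ω → T} {Y' : Ω → T'}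
    (h : Fn P Y Y') : hc P X Y' ≤ hc P X Y := by
  have h1 := submod' P (X := fun ω => (X ω, Y ω)) (Y := Y') (Z := fun ω => (X ω, Y' ω)) (D := Y)
    (fun ω ω' _ _ e => congrArg Prod.snd e) h (by
      intro ω ω' _ _
      simp only [Prod.mk.injEq]
      exact fun e => ⟨e.1.1, e.2⟩)
  unfold hc
  linarith

theorem hc_congr {X : Ω → S} {X' : Ω → S'} {Y : Ω → T} {Y' : Ω → T'}
    (h1 : Fn P X (fun ω => (X' ω, Y ω))) (h2 : Fn P X' (fun ω => (X ω, Y ω)))
    (h3 : Fn P Y Y') (h4 : Fn P Y' Y) : hc P X Y = hc P X' Y' := by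
  refine le_antisymm ?_ ?_
  · exact (hc_mono_left P h1).trans (hc_mono_right P X' h4)
  · refine (hc_mono_right P X' h3).trans (hc_mono_left P h2)

theorem hc_zero {X : Ω → S} {Y : Ω → T} (h : Fn P X Y) : hc P X Y = 0 := by
  unfold hc
  rw [H_congr' P (X := fun ω => (X ω, Y ω)) (Y := Y) (fun ω ω' _ _ e => congrArg Prod.snd e)
    (fun ω ω' p p' e => Prod.ext (h ω ω' p p' e) e)]
  ring

theorem hc_le_H (X : Ω → S) (Y : Ω → T) : hc P X Y ≤ P.H X := by
  have h1 : hc P X (fun _ => ()) = P.H X := by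
    unfold hc
    have h1 : P.H (fun _ : Ω => ()) = 0 := by
      have h2 : P.H (fun _ : Ω => ()) ≤ Real.log (Fintype.card Unit) := P.H_le_log_card _
      simp only [Fintype.card_unit, Nat.cast_one, Real.log_one] at h2
      exact le_antisymm h2 (P.H_nonneg _)
    rw [h1, sub_zero]
    refine P.H_congr fun ω ω' => ?_
    simp
  rw [← h1]
  exact hc_mono_right P X fun _ _ _ _ _ => rfl

/-- chain rule -/
theorem hc_pair (X : Ω → S) (Y : Ω → T) (Z : Ω → U) :
    hc P (fun ω => (X ω, Y ω)) Z = hc P X Z + hc P Y (fun ω => (X ω, Z ω)) := by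
  unfold hc
  have : P.H (fun ω => ((X ω, Y ω), Z ω)) = P.H (fun ω => (Y ω, X ω, Z ω)) := by
    refine P.H_congr fun ω ω' => ?_
    simp only [Prod.mk.injEq]
    tauto
  rw [this]
  ring

/-- `H(X|Z) ≤ H(X'|Z) + H(X|X',Z)` -/
theorem hc_le_add (X : Ω → S) (X' : Ω → S') (Z : Ω → U) :
    hc P X Z ≤ hc P X' Z + hc P X (fun ω => (X' ω, Z ω)) := by
  rw [← hc_pair]
  refine hc_mono_left P ?_
  intro ω ω' _ _
  simp only [Prod.mk.injEq]
  exact fun e => e.1.2

/-- `H(X|Z) ≤ H(X|Y,Z) + H(Y|Z)` -/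
theorem hc_le_add' (X : Ω → S) (Y : Ω → T) (Z : Ω → U) :
    hc P X Z ≤ hc P X (fun ω => (Y ω, Z ω)) + hc P Y Z := by
  have := hc_le_add P X Y Z
  linarith

/-- counting bound: given `Y` there are at most `N` values of `X` -/
theorem hc_le_log (X : Ω → S) (Y : Ω → T) (N : ℕ)
    (h : ∀ ω, 0 < P.w ω → ∃ F : Finset S, F.card ≤ N ∧
      ∀ ω', 0 < P.w ω' → Y ω' = Y ω → X ω' ∈ F) : hc P X Y ≤ Real.log N := by
  classical
  have h' : ∀ y : T, ∃ F : Finset S, F.card ≤ N ∧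
      ∀ ω', 0 < P.w ω' → Y ω' = y → X ω' ∈ F := by
    intro y
    by_cases hy : ∃ ω, 0 < P.w ω ∧ Y ω = y
    · obtain ⟨ω, hω, rfl⟩ := hy
      exact h ω hω
    · refine ⟨∅, by simp, fun ω' h1 h2 => ?_⟩
      exact absurd ⟨ω', h1, h2⟩ hy
  choose F hF1 hF2 using h'
  have hex : ∃ ω, 0 < P.w ω := by
    by_contra hcon
    push Not at hcon
    have : ∑ ω, P.w ω ≤ 0 := Finset.sum_nonpos fun ω _ => hcon ω
    rw [P.sum_one] at this
    linarith
  obtain ⟨ω0, hω0⟩ := hex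
  have hN : 0 < N := by
    have := hF2 (Y ω0) ω0 hω0 rfl
    exact lt_of_lt_of_le (Finset.card_pos.2 ⟨_, this⟩) (hF1 _)
  have hN' : (0 : ℝ) < N := by exact_mod_cast hN
  have hg := P.gibbs_cond X Y (fun x y => if x ∈ F y then 1 / (N : ℝ) else 0)
    (fun x y => by split_ifs <;> positivity) ?_ (fun ω hω => by
      rw [if_pos (hF2 _ ω hω rfl)]
      positivity)
  · have h2 : P.ex (fun ω => - Real.log ((fun x y => if x ∈ F y then 1 / (N : ℝ) else 0)
        (X ω) (Y ω))) = P.ex (fun _ => Real.log N) := by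
      refine P.ex_congr fun ω hω => ?_
      simp only
      rw [if_pos (hF2 _ ω hω rfl), one_div, Real.log_inv, neg_neg]
    rw [h2, P.ex_const] at hg
    exact hg
  · intro y G
    rw [← Finset.sum_filter, Finset.sum_const, nsmul_eq_mul, mul_one_div]
    refine div_le_one_of_le₀ ?_ hN'.le
    have : (G.filter (fun x => x ∈ F y)).card ≤ (F y).card :=
      Finset.card_le_card fun x hx => (Finset.mem_filter.1 hx).2
    exact_mod_cast this.trans (hF1 y)

/-- a difference with few values -/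
theorem hc_sub_le {ι : Type} [Fintype ι] (X X' : Ω → ι → ℤ) (Y : Ω → T) (N : ℕ)
    (h : ∀ ω, 0 < P.w ω → ∀ i, |X ω i - X' ω i| ≤ N) :
    hc P X Y ≤ hc P X' Y + Fintype.card ι * Real.log (2 * N + 1) := by
  classical
  refine (hc_le_add P X X' Y).trans ?_
  have h1 : hc P X (fun ω => (X' ω, Y ω)) ≤ Real.log (((2 * N + 1) ^ Fintype.card ι : ℕ) : ℝ) := by
    refine hc_le_log P X _ _ fun ω hω => ?_
    refine ⟨Fintype.piFinset fun i => Finset.Icc (X' ω i - N) (X' ω i + N), ?_, ?_⟩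
    · rw [Fintype.card_piFinset]
      have : ∀ i, (Finset.Icc (X' ω i - N) (X' ω i + N)).card = 2 * N + 1 := by
        intro i
        rw [Int.card_Icc]
        omega
      simp only [this, Finset.prod_const, Finset.card_univ]
      exact le_rfl
    · intro ω' hω' e
      simp only [Prod.mk.injEq] at e
      rw [Fintype.mem_piFinset]
      intro i
      have h2 := abs_le.1 (h ω' hω' i)
      rw [e.1] at h2
      rw [Finset.mem_Icc]
      constructor <;> linarith only [h2]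
  have h2 : Real.log (((2 * N + 1) ^ Fintype.card ι : ℕ) : ℝ) =
      Fintype.card ι * Real.log (2 * N + 1) := by
    push_cast
    rw [Real.log_pow]
  linarith only [h1, h2]

theorem mi_nonneg (X : Ω → S) (Y : Ω → T) (Z : Ω → U) : 0 ≤ mi P X Y Z := by
  have h1 := hc_mono_right P X (Y := Z) (Y' := fun ω => (Y ω, Z ω))
    (fun ω ω' _ _ e => congrArg Prod.snd e)
  unfold mi
  linarith

theorem mi_symm (X : Ω → S) (Y : Ω → T) (Z : Ω → U) : mi P X Y Z = mi P Y X Z := by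
  unfold mi hc
  have : P.H (fun ω => (X ω, Y ω, Z ω)) = P.H (fun ω => (Y ω, X ω, Z ω)) := by
    refine P.H_congr fun ω ω' => ?_
    simp only [Prod.mk.injEq]
    tauto
  linarith only [this]

/-- chain rule for the information -/
theorem mi_pair (X : Ω → S) (Y : Ω → T) (Y' : Ω → T') (Z : Ω → U) :
    mi P X (fun ω => (Y ω, Y' ω)) Z = mi P X Y Z + mi P X Y' (fun ω => (Y ω, Z ω)) := by
  unfold mi
  rw [hc_congr P (X := X) (X' := X) (Y := fun ω => ((Y ω, Y' ω), Z ω))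
    (Y' := fun ω => (Y' ω, Y ω, Z ω)) (fun ω ω' _ _ e => congrArg Prod.fst e)
    (fun ω ω' _ _ e => congrArg Prod.fst e) (by
      intro ω ω' _ _
      simp only [Prod.mk.injEq]
      tauto) (by
      intro ω ω' _ _
      simp only [Prod.mk.injEq]
      tauto)]
  ring

theorem mi_mono_right (X : Ω → S) {Y : Ω → T} {Y' : Ω → T'} {Z : Ω → U}
    (h : Fn P Y (fun ω => (Y' ω, Z ω))) : mi P X Y Z ≤ mi P X Y' Z := by
  unfold mi
  have := hc_mono_right P X (Y := fun ω => (Y ω, Z ω)) (Y' := fun ω => (Y' ω, Z ω)) (by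
    intro ω ω' p p' e
    exact Prod.ext (h ω ω' p p' e) (Prod.mk.injEq _ _ _ _ ▸ e).2)
  linarith

theorem mi_mono_left {X : Ω → S} {X' : Ω → S'} (Y : Ω → T) {Z : Ω → U}
    (h : Fn P X (fun ω => (X' ω, Z ω))) : mi P X Y Z ≤ mi P X' Y Z := by
  rw [mi_symm P X, mi_symm P X']
  exact mi_mono_right P Y h

theorem mi_congr_cond (X : Ω → S) (Y : Ω → T) {Z : Ω → U} {Z' : Ω → V}
    (h : Fn P Z Z') (h' : Fn P Z' Z) : mi P X Y Z = mi P X Y Z' := by
  unfold mi
  rw [hc_congr P (X := X) (X' := X) (Y := Z) (Y' := Z') (fun ω ω' _ _ e => congrArg Prod.fst e)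
      (fun ω ω' _ _ e => congrArg Prod.fst e) h h',
    hc_congr P (X := X) (X' := X) (Y := fun ω => (Y ω, Z ω)) (Y' := fun ω => (Y ω, Z' ω))
      (fun ω ω' _ _ e => congrArg Prod.fst e) (fun ω ω' _ _ e => congrArg Prod.fst e) ?_ ?_]
  · intro ω ω' p p' e
    simp only [Prod.mk.injEq] at e ⊢
    exact ⟨e.1, h ω ω' p p' e.2⟩
  · intro ω ω' p p' e
    simp only [Prod.mk.injEq] at e ⊢
    exact ⟨e.1, h' ω ω' p p' e.2⟩

theorem mi_le_hc (X : Ω → S) (Y : Ω → T) (Z : Ω → U) : mi P X Y Z ≤ hc P X Z := by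
  unfold mi
  have := hc_nonneg P X (fun ω => (Y ω, Z ω))
  linarith

theorem mi_le_hc' (X : Ω → S) (Y : Ω → T) (Z : Ω → U) : mi P X Y Z ≤ hc P Y Z := by
  rw [mi_symm]
  exact mi_le_hc P Y X Z

/-- moving a variable which is a function of `X` into the condition -/
theorem mi_cond_le {X : Ω → S} (Y : Ω → T) {W : Ω → V} (Z : Ω → U)
    (h : Fn P W (fun ω => (X ω, Z ω))) :
    mi P X Y (fun ω => (W ω, Z ω)) ≤ mi P X Y Z := by
  have h1 : mi P (fun ω => (W ω, X ω)) Y Z ≤ mi P X Y Z := by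
    refine mi_mono_left P Y ?_
    intro ω ω' p p' e
    exact Prod.ext (h ω ω' p p' e) (Prod.mk.injEq _ _ _ _ ▸ e).1
  rw [mi_symm P _ Y, mi_pair, mi_symm P Y X] at h1
  have h2 := mi_nonneg P Y W Z
  linarith

end ent

end Vale.Agent.P127.Stk
end

section

/-!
# P127 / Stk : entropy calculus, part 2 (domination, mixtures, events)
-/

namespace Vale.Agent.P127.Stk

open Finset Vale.Agent.P127

section dom

variable {Ω Ω' Ω'' : Type} [Fintype Ω] [Fintype Ω'] [Fintype Ω''] {S T U : Type*}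

theorem sum_pr_aux (Q : Law Ω') (π : Ω' → Ω) : ∑ ω, Q.pr π ω = 1 := by
  classical
  rw [← Q.sum_one]
  unfold Law.pr
  exact Finset.sum_fiberwise_of_maps_to (fun _ _ => Finset.mem_univ _) _

/-- the law of `π` under `Q` -/
noncomputable def push (Q : Law Ω') (π : Ω' → Ω) : Law Ω where
  w ω := Q.pr π ω
  nn ω := Q.pr_nonneg π ω
  sum_one := sum_pr_aux Q π

theorem push_w (Q : Law Ω') (π : Ω' → Ω) (ω : Ω) : (push Q π).w ω = Q.pr π ω := rfl

theorem push_pr (Q : Law Ω') (π : Ω' → Ω) (X : Ω → S) (x : S) :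
    (push Q π).pr X x = Q.pr (X ∘ π) x := by
  classical
  unfold Law.pr
  simp only [push_w]
  unfold Law.pr
  rw [Finset.sum_filter, Finset.sum_filter]
  have h1 : ∀ ω : Ω, (if X ω = x then ∑ ω' with π ω' = ω, Q.w ω' else 0) =
      ∑ ω' with π ω' = ω, (if (X ∘ π) ω' = x then Q.w ω' else 0) := by
    intro ω
    by_cases hx : X ω = x
    · rw [if_pos hx]
      refine Finset.sum_congr rfl fun ω' hω' => ?_
      have : π ω' = ω := by simpa only [mem_filter, mem_univ, true_and] using hω'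
      rw [if_pos (by simp only [Function.comp_apply, this, hx])]
    · rw [if_neg hx]
      refine (Finset.sum_eq_zero fun ω' hω' => ?_).symm
      have : π ω' = ω := by simpa only [mem_filter, mem_univ, true_and] using hω'
      rw [if_neg (by simpa only [Function.comp_apply, this] using hx)]
  rw [Finset.sum_congr rfl fun ω _ => h1 ω]
  exact Finset.sum_fiberwise_of_maps_to (fun _ _ => Finset.mem_univ _) _

theorem push_ex (Q : Law Ω') (π : Ω' → Ω) (f : Ω → ℝ) : (push Q π).ex f = Q.ex (f ∘ π) := by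
  classical
  unfold Law.ex
  simp only [push_w]
  unfold Law.pr
  rw [← Finset.sum_fiberwise_of_maps_to (g := π) (t := (univ : Finset Ω))
    (fun _ _ => Finset.mem_univ _)]
  refine Finset.sum_congr rfl fun ω _ => ?_
  rw [Finset.sum_mul]
  refine Finset.sum_congr rfl fun ω' hω' => ?_
  have : π ω' = ω := by simpa only [mem_filter, mem_univ, true_and] using hω'
  rw [Function.comp_apply, this]

theorem push_H (Q : Law Ω') (π : Ω' → Ω) (X : Ω → S) : (push Q π).H X = Q.H (X ∘ π) := by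
  unfold Law.H
  simp only [push_pr]
  exact push_ex Q π _

theorem push_hc (Q : Law Ω') (π : Ω' → Ω) (X : Ω → S) (Y : Ω → T) :
    hc (push Q π) X Y = hc Q (X ∘ π) (Y ∘ π) := by
  unfold hc
  rw [push_H, push_H]
  rfl

theorem law_ext {P P' : Law Ω} (h : ∀ ω, P.w ω = P'.w ω) : P = P' := by
  cases P
  cases P'
  simp only [Law.mk.injEq]
  exact funext h

theorem pr_id (P : Law Ω) (ω : Ω) : P.pr id ω = P.w ω := by
  classical
  unfold Law.pr
  rw [Finset.sum_eq_single ω]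
  · intro b hb hne
    have : id b = ω := by simpa only [id_eq, mem_filter, mem_univ, true_and] using hb
    exact absurd this hne
  · intro hn
    exact absurd (by simp only [id_eq, mem_filter, mem_univ, and_self]) hn

theorem Dom.one_le {Q : Law Ω'} {π : Ω' → Ω} {P : Law Ω} {K : ℝ} (h : Dom Q π P K) :
    1 ≤ K := by
  have h1 : ∑ ω, Q.pr π ω ≤ ∑ ω, K * P.w ω := Finset.sum_le_sum fun ω _ => h ω
  rw [sum_pr_aux, ← Finset.mul_sum, P.sum_one, mul_one] at h1
  exact h1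

theorem Dom.mono {Q : Law Ω'} {π : Ω' → Ω} {P : Law Ω} {K K' : ℝ} (h : Dom Q π P K)
    (hK : K ≤ K') : Dom Q π P K' := fun ω =>
  (h ω).trans (mul_le_mul_of_nonneg_right hK (P.nn ω))

theorem Dom.refl (P : Law Ω) : Dom P id P 1 := by
  intro ω
  rw [pr_id, one_mul]

theorem Dom.comp {R : Law Ω''} {Q : Law Ω'} {P : Law Ω} {π' : Ω'' → Ω'} {π : Ω' → Ω}
    {K K' : ℝ} (h' : Dom R π' Q K') (h : Dom Q π P K) : Dom R (π ∘ π') P (K' * K) := by
  intro ω
  have hK' : 0 ≤ K' := by linarith [h'.one_le]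
  have h1 : R.pr (π ∘ π') ω = (push R π').pr π ω := (push_pr R π' π ω).symm
  rw [h1]
  have h2 : (push R π').pr π ω ≤ K' * Q.pr π ω := by
    unfold Law.pr
    rw [Finset.mul_sum]
    exact Finset.sum_le_sum fun ω' _ => h' ω'
  calc (push R π').pr π ω ≤ K' * Q.pr π ω := h2
    _ ≤ K' * (K * P.w ω) := mul_le_mul_of_nonneg_left (h ω) hK'
    _ = K' * K * P.w ω := by ring

theorem Dom.pos {Q : Law Ω'} {π : Ω' → Ω} {P : Law Ω} {K : ℝ} (h : Dom Q π P K) {ω : Ω'}
    (hω : 0 < Q.w ω) : 0 < P.w (π ω) := by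
  have h1 : 0 < Q.pr π (π ω) := Q.pr_pos π hω
  have h2 := h (π ω)
  rcases (P.nn (π ω)).eq_or_lt with h0 | h0
  · rw [← h0, mul_zero] at h2
    linarith
  · exact h0

/-- the complementary law, general version -/
theorem Dom.split_aux {Q : Law Ω'} {π : Ω' → Ω} {P : Law Ω} {K : ℝ}
    (h : Dom Q π P K) : ∃ R : Law Ω, (2 ≤ K → Dom R id P 2) ∧
      ∀ ω, P.w ω = 1 / K * Q.pr π ω + (1 - 1 / K) * R.w ω := by
  have hK1 := h.one_le
  have hK0 : 0 < K := by linarith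
  rcases eq_or_lt_of_le hK1 with hK | hK
  · refine ⟨P, fun h2 => by linarith, ?_⟩
    subst hK
    have h1 : ∀ ω, Q.pr π ω ≤ P.w ω := fun ω => by simpa using h ω
    have h2 : ∑ ω, (P.w ω - Q.pr π ω) = 0 := by
      rw [Finset.sum_sub_distrib, P.sum_one, sum_pr_aux, sub_self]
    have h3 := (Finset.sum_eq_zero_iff_of_nonneg (fun ω _ => sub_nonneg.2 (h1 ω))).1 h2
    intro ω
    have := h3 ω (Finset.mem_univ _)
    rw [div_one, sub_self, zero_mul, one_mul, add_zero]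
    linarith only [this]
  · have hd : 0 < 1 - 1 / K := by
      rw [sub_pos, div_lt_one hK0]
      exact hK
    refine ⟨⟨fun ω => (P.w ω - 1 / K * Q.pr π ω) / (1 - 1 / K), fun ω => ?_, ?_⟩, ?_, ?_⟩
    · refine div_nonneg ?_ hd.le
      have := h ω
      rw [sub_nonneg, one_div, inv_mul_le_iff₀ hK0]
      exact this
    · rw [← Finset.sum_div, Finset.sum_sub_distrib, ← Finset.mul_sum, P.sum_one, sum_pr_aux,
        mul_one]
      exact div_self hd.ne'
    · intro h2 ω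
      rw [pr_id]
      simp only
      rw [div_le_iff₀ hd]
      have h3 : 0 ≤ 1 / K * Q.pr π ω := mul_nonneg (by positivity) (Q.pr_nonneg _ _)
      have h4 : 1 / K ≤ 1 / 2 := one_div_le_one_div_of_le (by norm_num) h2
      nlinarith only [h3, h4, P.nn ω]
    · intro ω
      simp only
      field_simp
      ring

/-- the complementary law -/
theorem Dom.split {Q : Law Ω'} {π : Ω' → Ω} {P : Law Ω} {K : ℝ} (hK : 2 ≤ K)
    (h : Dom Q π P K) : ∃ R : Law Ω, Dom R id P 2 ∧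
      ∀ ω, P.w ω = 1 / K * Q.pr π ω + (1 - 1 / K) * R.w ω := by
  obtain ⟨R, h1, h2⟩ := h.split_aux
  exact ⟨R, h1 hK, h2⟩

/-- the mixture as a law with a label -/
noncomputable def mixL (Q R : Law Ω) (a : ℝ) (h0 : 0 ≤ a) (h1 : a ≤ 1) : Law (Ω × Bool) where
  w p := if p.2 then a * Q.w p.1 else (1 - a) * R.w p.1
  nn p := by
    split_ifs
    · exact mul_nonneg h0 (Q.nn _)
    · exact mul_nonneg (by linarith) (R.nn _)
  sum_one := by
    rw [Fintype.sum_prod_type]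
    simp only [Fintype.sum_bool, if_true]
    rw [Finset.sum_add_distrib, ← Finset.mul_sum, Q.sum_one]
    have : ∑ x, (if false = true then a * Q.w x else (1 - a) * R.w x) = 1 - a := by
      simp only [Bool.false_eq_true, if_false]
      rw [← Finset.mul_sum, R.sum_one, mul_one]
    rw [this]
    ring

theorem mixL_ex (Q R : Law Ω) (a : ℝ) (h0 : 0 ≤ a) (h1 : a ≤ 1) (f : Ω × Bool → ℝ) :
    (mixL Q R a h0 h1).ex f =
      a * Q.ex (fun ω => f (ω, true)) + (1 - a) * R.ex (fun ω => f (ω, false)) := by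
  unfold Law.ex mixL
  rw [Fintype.sum_prod_type]
  simp only [Fintype.sum_bool, if_true, Bool.false_eq_true, if_false]
  rw [Finset.sum_add_distrib, Finset.mul_sum, Finset.mul_sum]
  congr 1
  · exact Finset.sum_congr rfl fun ω _ => by ring
  · exact Finset.sum_congr rfl fun ω _ => by ring

theorem mixL_pr (Q R : Law Ω) (a : ℝ) (h0 : 0 ≤ a) (h1 : a ≤ 1) (X : Ω × Bool → S) (x : S) :
    (mixL Q R a h0 h1).pr X x =
      a * Q.pr (fun ω => X (ω, true)) x + (1 - a) * R.pr (fun ω => X (ω, false)) x := by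
  rw [Law.pr_eq_ex, Law.pr_eq_ex, Law.pr_eq_ex]
  exact mixL_ex Q R a h0 h1 _

theorem mixL_H_lab (Q R : Law Ω) (a : ℝ) (h0 : 0 ≤ a) (h1 : a ≤ 1) (X : Ω → S) :
    (mixL Q R a h0 h1).H (fun p => (X p.1, p.2)) =
      a * Q.H X + (1 - a) * R.H X - a * Real.log a - (1 - a) * Real.log (1 - a) := by
  classical
  have e1 : ∀ x, (mixL Q R a h0 h1).pr (fun p => (X p.1, p.2)) (x, true) = a * Q.pr X x := by
    intro x
    rw [mixL_pr]
    have z : R.pr (fun ω => (X ω, false)) (x, true) = 0 := by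
      unfold Law.pr
      refine Finset.sum_eq_zero fun ω hω => ?_
      simp at hω
    have z' : Q.pr (fun ω => (X ω, true)) (x, true) = Q.pr X x := by
      unfold Law.pr
      exact Finset.sum_congr (by ext; simp only [Prod.mk.injEq, and_true, mem_filter, mem_univ, true_and]) fun _ _ => rfl
    simp only
    rw [z, z']
    ring
  have e2 : ∀ x, (mixL Q R a h0 h1).pr (fun p => (X p.1, p.2)) (x, false) =
      (1 - a) * R.pr X x := by
    intro x
    rw [mixL_pr]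
    have z : Q.pr (fun ω => (X ω, true)) (x, false) = 0 := by
      unfold Law.pr
      refine Finset.sum_eq_zero fun ω hω => ?_
      simp at hω
    have z' : R.pr (fun ω => (X ω, false)) (x, false) = R.pr X x := by
      unfold Law.pr
      exact Finset.sum_congr (by ext; simp only [Prod.mk.injEq, and_true, mem_filter, mem_univ, true_and]) fun _ _ => rfl
    simp only
    rw [z, z']
    ring
  have t1 : ∀ (L : Law Ω) (b : ℝ), 0 ≤ b →
      b * L.ex (fun ω => -Real.log (b * L.pr X (X ω))) = b * L.H X - b * Real.log b := by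
    intro L b hb
    rcases hb.eq_or_lt with hb0 | hb0
    · rw [← hb0]; simp
    · have : L.ex (fun ω => -Real.log (b * L.pr X (X ω))) = L.H X - Real.log b := by
        unfold Law.H
        rw [← L.ex_const (Real.log b), ← L.ex_sub]
        refine L.ex_congr fun ω hω => ?_
        rw [Real.log_mul hb0.ne' (L.pr_pos X hω).ne']
        ring
      rw [this]
      ring
  unfold Law.H
  rw [mixL_ex]
  simp only [e1, e2]
  rw [t1 Q a h0, t1 R (1 - a) (by linarith)]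
  unfold Law.H
  ring

/-- mixtures -/
theorem mix_hc {Q : Law Ω'} {π : Ω' → Ω} {P R : Law Ω} {a : ℝ} (h0 : 0 ≤ a) (h1 : a ≤ 1)
    (h : ∀ ω, P.w ω = a * Q.pr π ω + (1 - a) * R.w ω) (X : Ω → S) (Y : Ω → T) :
    a * hc Q (X ∘ π) (Y ∘ π) + (1 - a) * hc R X Y ≤ hc P X Y ∧
      hc P X Y ≤ a * hc Q (X ∘ π) (Y ∘ π) + (1 - a) * hc R X Y + Real.log 2 := by
  classical
  rw [← push_hc]
  set Q' := push Q π with hQ'
  set M := mixL Q' R a h0 h1 with hM
  have hP : P = push M Prod.fst := by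
    refine law_ext fun ω => ?_
    rw [push_w, hM, mixL_pr, h ω]
    have z1 : Q'.pr (fun ω => (ω, true).1) ω = Q.pr π ω := by
      have := pr_id Q' ω
      rw [hQ', push_w] at this
      exact this
    have z2 : R.pr (fun ω => (ω, false).1) ω = R.w ω := pr_id R ω
    rw [z1, z2]
  have hPhc : hc P X Y = hc M (fun p => X p.1) (fun p => Y p.1) := by
    rw [hP, push_hc]
    rfl
  have hlab : hc M (fun p => X p.1) (fun p => (Y p.1, p.2)) =
      a * hc Q' X Y + (1 - a) * hc R X Y := by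
    have e1 : hc M (fun p => X p.1) (fun p => (Y p.1, p.2)) =
        M.H (fun p => ((X p.1, Y p.1), p.2)) - M.H (fun p => (Y p.1, p.2)) := by
      unfold hc
      congr 1
      refine M.H_congr fun p p' => ?_
      simp only [Prod.mk.injEq]
      (clear * -; tauto)
    rw [e1, hM, mixL_H_lab Q' R a h0 h1 (fun ω => (X ω, Y ω)), mixL_H_lab Q' R a h0 h1 Y]
    unfold hc
    ring
  rw [hPhc, ← hlab]
  constructor
  · exact hc_mono_right M _ fun p p' _ _ e => congrArg Prod.fst e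
  · have s1 := hc_le_add' M (fun p => X p.1) (fun p => p.2) (fun p => Y p.1)
    have s2 : hc M (fun p : Ω × Bool => p.2) (fun p => Y p.1) ≤ Real.log 2 := by
      refine (hc_le_H M _ _).trans ?_
      have := M.H_le_log_card (fun p : Ω × Bool => p.2)
      simpa only [ge_iff_le, Fintype.card_bool, Nat.cast_ofNat] using this
    have s3 : hc M (fun p => X p.1) (fun p => (p.2, Y p.1)) =
        hc M (fun p => X p.1) (fun p => (Y p.1, p.2)) :=
      hc_congr M (fun p p' _ _ e => congrArg Prod.fst e) (fun p p' _ _ e => congrArg Prod.fst e)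
        (fun p p' _ _ e => by simp only [Prod.mk.injEq] at e ⊢; exact ⟨e.2, e.1⟩)
        (fun p p' _ _ e => by simp only [Prod.mk.injEq] at e ⊢; exact ⟨e.2, e.1⟩)
    linarith only [s1, s2, s3]

theorem Dom.hc_le {Q : Law Ω'} {π : Ω' → Ω} {P : Law Ω} {K : ℝ} (h : Dom Q π P K)
    (X : Ω → S) (Y : Ω → T) : hc Q (X ∘ π) (Y ∘ π) ≤ K * hc P X Y := by
  have hK1 := h.one_le
  have hK0 : 0 < K := by linarith
  obtain ⟨R, _, h2⟩ := h.split_aux
  have h3 : 1 / K ≤ 1 := (div_le_one hK0).2 hK1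
  have h4 := (mix_hc (by positivity) h3 h2 X Y).1
  have h5 : 0 ≤ (1 - 1 / K) * hc R X Y := mul_nonneg (by linarith only [h3]) (hc_nonneg R X Y)
  have h6 : 1 / K * hc Q (X ∘ π) (Y ∘ π) ≤ hc P X Y := by linarith only [h4, h5]
  rw [one_div, inv_mul_le_iff₀ hK0] at h6
  exact h6

/-- `R0` bounds the entropy of `X` given `Y` under every law (e.g. the logarithm of the number of
values) -/
theorem Dom.le_hc {Q : Law Ω'} {π : Ω' → Ω} {P : Law Ω} {K : ℝ} (h : Dom Q π P K)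
    (X : Ω → S) (Y : Ω → T) (R0 : ℝ) (hR : ∀ R : Law Ω, Dom R id P 2 → hc R X Y ≤ R0) :
    R0 - 2 * K * (R0 - hc P X Y + Real.log 2) ≤ hc Q (X ∘ π) (Y ∘ π) := by
  have hK1 := h.one_le
  have h2 : Dom Q π P (2 * K) := h.mono (by linarith only [hK1])
  obtain ⟨R, h3, h4⟩ := h2.split (by linarith)
  have hK0 : 0 < 2 * K := by linarith
  have h5 : 1 / (2 * K) ≤ 1 := (div_le_one hK0).2 (by linarith)
  have h6 := (mix_hc (by positivity) h5 h4 X Y).2
  have h7 : (1 - 1 / (2 * K)) * hc R X Y ≤ (1 - 1 / (2 * K)) * R0 :=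
    mul_le_mul_of_nonneg_left (hR R h3) (by linarith only [h5])
  have h8 : hc P X Y ≤ 1 / (2 * K) * hc Q (X ∘ π) (Y ∘ π) + (1 - 1 / (2 * K)) * R0 +
      Real.log 2 := by linarith only [h6, h7]
  have h9 : (2 * K) * hc P X Y ≤ (2 * K) * (1 / (2 * K) * hc Q (X ∘ π) (Y ∘ π) +
      (1 - 1 / (2 * K)) * R0 + Real.log 2) := mul_le_mul_of_nonneg_left h8 hK0.le
  have h10 : (2 * K) * (1 / (2 * K) * hc Q (X ∘ π) (Y ∘ π) +
      (1 - 1 / (2 * K)) * R0 + Real.log 2) = hc Q (X ∘ π) (Y ∘ π) + (2 * K - 1) * R0 +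
      2 * K * Real.log 2 := by
    (clear * - hK1; field_simp)
  rw [h10] at h9
  linarith only [h9]

theorem Dom.mi_le {Q : Law Ω'} {π : Ω' → Ω} {P : Law Ω} {K : ℝ} (h : Dom Q π P K)
    (X : Ω → S) (Y : Ω → T) (Z : Ω → U) :
    mi Q (X ∘ π) (Y ∘ π) (Z ∘ π) ≤ K * (mi P X Y Z + Real.log 2) := by
  have hK1 := h.one_le
  have hK0 : 0 < K := by linarith
  obtain ⟨R, _, h2⟩ := h.split_aux
  have h3 : 1 / K ≤ 1 := (div_le_one hK0).2 hK1
  have h4 := (mix_hc (by positivity) h3 h2 X Z).1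
  have h5 := (mix_hc (by positivity) h3 h2 X (fun ω => (Y ω, Z ω))).2
  have h6 : 0 ≤ (1 - 1 / K) * mi R X Y Z := mul_nonneg (by linarith only [h3]) (mi_nonneg R X Y Z)
  have e1 : mi Q (X ∘ π) (Y ∘ π) (Z ∘ π) =
      hc Q (X ∘ π) (Z ∘ π) - hc Q (X ∘ π) ((fun ω => (Y ω, Z ω)) ∘ π) := rfl
  have e2 : mi P X Y Z = hc P X Z - hc P X (fun ω => (Y ω, Z ω)) := rfl
  have e3 : mi R X Y Z = hc R X Z - hc R X (fun ω => (Y ω, Z ω)) := rfl
  rw [e3] at h6
  have h7 : 1 / K * mi Q (X ∘ π) (Y ∘ π) (Z ∘ π) ≤ mi P X Y Z + Real.log 2 := by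
    rw [e1, e2]
    linarith
  rw [one_div, inv_mul_le_iff₀ hK0] at h7
  exact h7

open Classical in
/-- probability of an event -/
noncomputable def prE (P : Law Ω) (E : Ω → Prop) : ℝ := ∑ ω with E ω, P.w ω

open Classical in
/-- the law conditioned on an event (junk if the event has probability zero) -/
noncomputable def on (P : Law Ω) (E : Ω → Prop) : Law Ω := P.cond (fun ω => E ω) True

theorem prE_eq_aux (P : Law Ω) (E : Ω → Prop) : P.pr (fun ω => E ω) True = prE P E := by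
  classical
  unfold Law.pr prE
  refine Finset.sum_congr ?_ fun _ _ => rfl
  ext ω
  simp only [eq_iff_iff, iff_true, mem_filter, mem_univ, true_and]

theorem prE_nonneg (P : Law Ω) (E : Ω → Prop) : 0 ≤ prE P E :=
  Finset.sum_nonneg fun ω _ => P.nn ω

theorem prE_le_one (P : Law Ω) (E : Ω → Prop) : prE P E ≤ 1 := by
  rw [← prE_eq_aux]
  exact P.pr_le_one _ _

theorem prE_not (P : Law Ω) (E : Ω → Prop) : prE P (fun ω => ¬ E ω) = 1 - prE P E := by
  classical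
  have h1 : prE P E + prE P (fun ω => ¬ E ω) = 1 := by
    unfold prE
    rw [← P.sum_one, Finset.sum_filter, Finset.sum_filter, ← Finset.sum_add_distrib]
    refine Finset.sum_congr rfl fun ω _ => ?_
    by_cases hE : E ω
    · simp [hE]
    · simp [hE]
  linarith only [h1]

open Classical in
theorem on_w {P : Law Ω} {E : Ω → Prop} (h : 0 < prE P E) (ω : Ω) :
    (on P E).w ω = if E ω then P.w ω / prE P E else 0 := by
  unfold on
  rw [P.cond_w _ _ (by rw [prE_eq_aux]; exact h), prE_eq_aux]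
  by_cases hE : E ω
  · rw [if_pos (by simpa using hE), if_pos hE]
  · rw [if_neg (by simpa using hE), if_neg hE]

theorem on_pos {P : Law Ω} {E : Ω → Prop} (h : 0 < prE P E) {ω : Ω} (hω : 0 < (on P E).w ω) :
    E ω ∧ 0 < P.w ω := by
  classical
  rw [on_w h] at hω
  by_cases hE : E ω
  · rw [if_pos hE] at hω
    refine ⟨hE, ?_⟩
    rcases (P.nn ω).eq_or_lt with h0 | h0
    · rw [← h0, zero_div] at hω
      exact absurd hω (lt_irrefl _)
    · exact h0
  · rw [if_neg hE] at hω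
    exact absurd hω (lt_irrefl _)

theorem Dom.on {P : Law Ω} {E : Ω → Prop} {p : ℝ} (hp : 0 < p) (h : p ≤ prE P E) :
    Dom (on P E) id P (1 / p) := by
  classical
  intro ω
  rw [pr_id, on_w (hp.trans_le h)]
  split_ifs
  · rw [div_eq_mul_one_div, mul_comm]
    exact mul_le_mul_of_nonneg_right (one_div_le_one_div_of_le hp h) (P.nn ω)
  · exact mul_nonneg (by positivity) (P.nn ω)

/-- conditional entropy split over an event -/
theorem hc_le_on (P : Law Ω) (E : Ω → Prop) (h : 0 < prE P E) (h' : prE P E < 1)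
    (X : Ω → S) (Y : Ω → T) :
    hc P X Y ≤ Real.log 2 + prE P E * hc (on P E) X Y +
      (1 - prE P E) * hc (on P fun ω => ¬ E ω) X Y := by
  classical
  have hn : 0 < prE P (fun ω => ¬ E ω) := by
    rw [prE_not]
    linarith only [h']
  have hw : ∀ ω, P.w ω = prE P E * (on P E).pr id ω +
      (1 - prE P E) * (on P fun ω => ¬ E ω).w ω := by
    intro ω
    rw [pr_id, on_w h, on_w hn, prE_not]
    have h1 : 1 - prE P E ≠ 0 := by linarith
    by_cases hE : E ω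
    · rw [if_pos hE, if_neg (by simpa using hE)]
      rw [mul_zero, add_zero, mul_div_cancel₀ _ h.ne']
    · rw [if_neg hE, if_pos hE, mul_zero, zero_add, mul_div_cancel₀ _ h1]
  have := (mix_hc h.le h'.le hw X Y).2
  simp only [Function.comp_id] at this
  linarith only [this]

/-- exceptional events: if `X` has at most `N` values and outside of the event `E` at most `N'`
values given `Y` -/
theorem hc_le_exc (P : Law Ω) (E : Ω → Prop) (X : Ω → S) (Y : Ω → T) (N N' : ℕ) (hN' : 1 ≤ N')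
    (h1 : ∃ F : Finset S, F.card ≤ N ∧ ∀ ω, 0 < P.w ω → X ω ∈ F)
    (h2 : ∀ ω, 0 < P.w ω → ¬ E ω → ∃ F : Finset S, F.card ≤ N' ∧
      ∀ ω', 0 < P.w ω' → ¬ E ω' → Y ω' = Y ω → X ω' ∈ F) :
    hc P X Y ≤ Real.log 2 + Real.log N' + prE P E * Real.log N := by
  classical
  obtain ⟨F, hF, hXF⟩ := h1
  have hl2 : 0 ≤ Real.log 2 := Real.log_nonneg (by norm_num)
  have hlN' : 0 ≤ Real.log N' := Real.log_nonneg (by exact_mod_cast hN')
  have hlN : 0 ≤ Real.log N := Real.log_natCast_nonneg N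
  have hp0 := prE_nonneg P E
  have hp1 := prE_le_one P E
  rcases hp0.eq_or_lt with h0 | h0
  · have hno : ∀ ω, 0 < P.w ω → ¬ E ω := by
      intro ω hω hE
      have : P.w ω ≤ prE P E := by
        unfold prE
        exact Finset.single_le_sum (f := P.w) (fun ω _ => P.nn ω) (by simpa only [mem_filter, mem_univ, true_and] using hE)
      linarith only [h0, hω, this]
    have := hc_le_log P X Y N' fun ω hω => by
      obtain ⟨G, hG, hG'⟩ := h2 ω hω (hno ω hω)
      exact ⟨G, hG, fun ω' hω' e => hG' ω' hω' (hno ω' hω') e⟩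
    rw [← h0]
    linarith only [hl2, this]
  · rcases hp1.eq_or_lt with h3 | h3
    · have := hc_le_log P X Y N fun ω _ => ⟨F, hF, fun ω' hω' _ => hXF ω' hω'⟩
      rw [h3]
      linarith only [hl2, hlN', this]
    · have hn : 0 < prE P (fun ω => ¬ E ω) := by
        rw [prE_not]
        linarith only [h3]
      have e1 := hc_le_on P E h0 h3 X Y
      have e2 : hc (Stk.on P E) X Y ≤ Real.log N :=
        hc_le_log _ X Y N fun ω _ => ⟨F, hF, fun ω' hω' _ => hXF ω' (on_pos h0 hω').2⟩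
      have e3 : hc (Stk.on P fun ω => ¬ E ω) X Y ≤ Real.log N' := by
        refine hc_le_log _ X Y N' fun ω hω => ?_
        obtain ⟨hE, hω⟩ := on_pos hn hω
        obtain ⟨G, hG, hG'⟩ := h2 ω hω hE
        refine ⟨G, hG, fun ω' hω' e => ?_⟩
        obtain ⟨hE', hω'⟩ := on_pos hn hω'
        exact hG' ω' hω' hE' e
      have e4 : prE P E * hc (Stk.on P E) X Y ≤ prE P E * Real.log N :=
        mul_le_mul_of_nonneg_left e2 h0.le
      have e5 : (1 - prE P E) * hc (Stk.on P fun ω => ¬ E ω) X Y ≤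
          (1 - prE P E) * Real.log N' := mul_le_mul_of_nonneg_left e3 (by linarith only [h3])
      have e6 : (1 - prE P E) * Real.log N' ≤ 1 * Real.log N' :=
        mul_le_mul_of_nonneg_right (by linarith only [h0]) hlN'
      linarith only [e1, e4, e5, e6]

end dom

end Vale.Agent.P127.Stk
end

section

/-!
# P127 / Stk : floors

Estimates for the binary digits of vectors and for their conditional entropies.
-/

namespace Vale.Agent.P127.Stk

open Finset Vale.Agent.P127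

section floors

variable {Ω : Type} [Fintype Ω] {ι : Type} [Fintype ι] {T : Type*}

theorem toNat_pow_aux (n : ℕ) : ((2 : ℤ) ^ n).toNat = 2 ^ n := by
  have h : ((2 : ℤ) ^ n) = ((2 ^ n : ℕ) : ℤ) := by push_cast; rfl
  rw [h, Int.toNat_natCast]

/-- dropping digits is a function of the digits -/
theorem floor_pow_aux {s s' : ℕ} (h : s ≤ s') (x : ℝ) :
    ⌊(2 : ℝ) ^ s * x⌋ = ⌊(2 : ℝ) ^ s' * x⌋ / ((2 ^ (s' - s) : ℕ) : ℤ) := by
  rw [← Int.floor_div_natCast]
  congr 1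
  have h2 : (2 : ℝ) ^ s' = (2 : ℝ) ^ s * (2 : ℝ) ^ (s' - s) := by
    rw [← pow_add, Nat.add_sub_cancel' h]
  rw [h2]
  push_cast
  field_simp

theorem fl_of_fl {s s' : ℕ} (h : s ≤ s') (v w : ι → ℝ) (hv : fl s' v = fl s' w) :
    fl s v = fl s w := by
  funext i
  have hi : ⌊(2 : ℝ) ^ s' * v i⌋ = ⌊(2 : ℝ) ^ s' * w i⌋ := congrFun hv i
  show ⌊(2 : ℝ) ^ s * v i⌋ = ⌊(2 : ℝ) ^ s * w i⌋
  rw [floor_pow_aux h, floor_pow_aux h (w i), hi]

theorem fl_fract (r s : ℕ) (v : ι → ℝ) (i : ι) :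
    fl s (fun i => Int.fract ((2 : ℝ) ^ r * v i)) i = fl (r + s) v i - 2 ^ s * fl r v i := by
  show ⌊(2 : ℝ) ^ s * Int.fract ((2 : ℝ) ^ r * v i)⌋ =
    ⌊(2 : ℝ) ^ (r + s) * v i⌋ - 2 ^ s * ⌊(2 : ℝ) ^ r * v i⌋
  have h1 : (2 : ℝ) ^ s * Int.fract ((2 : ℝ) ^ r * v i) =
      (2 : ℝ) ^ (r + s) * v i - ((2 ^ s * ⌊(2 : ℝ) ^ r * v i⌋ : ℤ) : ℝ) := by
    rw [Int.fract]
    push_cast
    rw [pow_add]
    ring
  rw [h1, Int.floor_sub_intCast]

theorem fl_lt {s : ℕ} {v : ι → ℝ} (h : ∀ i, 0 ≤ v i ∧ v i < 1) (i : ι) :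
    0 ≤ fl s v i ∧ fl s v i < 2 ^ s := by
  have h2 : (0 : ℝ) < 2 ^ s := by positivity
  constructor
  · exact Int.floor_nonneg.mpr (mul_nonneg h2.le (h i).1)
  · refine Int.floor_lt.mpr ?_
    push_cast
    nlinarith only [h2, (h i).2]

/-- floors of close numbers are close -/
theorem floor_close_aux {x y : ℝ} {N : ℕ} (h : |x - y| ≤ N) : |⌊x⌋ - ⌊y⌋| ≤ (N : ℤ) + 1 := by
  obtain ⟨h1, h2⟩ := abs_le.mp h
  have a1 := Int.floor_le x
  have a2 := Int.lt_floor_add_one x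
  have b1 := Int.floor_le y
  have b2 := Int.lt_floor_add_one y
  rw [abs_le]
  constructor
  · have : (-((N : ℤ) + 1) - 1 : ℝ) < ((⌊x⌋ - ⌊y⌋ : ℤ) : ℝ) := by
      push_cast
      linarith only [h1, a2, b1]
    have h3 : (-((N : ℤ) + 1) - 1 : ℤ) < ⌊x⌋ - ⌊y⌋ := by
      exact_mod_cast this
    omega
  · have : ((⌊x⌋ - ⌊y⌋ : ℤ) : ℝ) < ((N : ℤ) + 1 : ℝ) := by
      push_cast
      linarith only [h2, a1, b2]
    have h3 : ⌊x⌋ - ⌊y⌋ < (N : ℤ) + 1 := by
      exact_mod_cast this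
    omega

theorem fl_sub_le {s : ℕ} {v w : ι → ℝ} {N : ℕ} (h : ∀ i, |v i - w i| ≤ N * (1 / 2 : ℝ) ^ s)
    (i : ι) : |fl s v i - fl s w i| ≤ N + 1 := by
  show |⌊(2 : ℝ) ^ s * v i⌋ - ⌊(2 : ℝ) ^ s * w i⌋| ≤ (N : ℤ) + 1
  apply floor_close_aux
  have h2 : (0 : ℝ) < 2 ^ s := by positivity
  rw [← mul_sub, abs_mul, abs_of_pos h2]
  calc (2 : ℝ) ^ s * |v i - w i| ≤ 2 ^ s * (N * (1 / 2 : ℝ) ^ s) :=
        mul_le_mul_of_nonneg_left (h i) h2.le
    _ = N := by
        rw [one_div, inv_pow]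
        field_simp

theorem fl_digits {s s' : ℕ} (h : s ≤ s') {v w : ι → ℝ} (hv : fl s v = fl s w) (i : ι) :
    |fl s' v i - fl s' w i| ≤ 2 ^ (s' - s) := by
  have hi : ⌊(2 : ℝ) ^ s * v i⌋ = ⌊(2 : ℝ) ^ s * w i⌋ := congrFun hv i
  show |⌊(2 : ℝ) ^ s' * v i⌋ - ⌊(2 : ℝ) ^ s' * w i⌋| ≤ 2 ^ (s' - s)
  rw [floor_pow_aux h, floor_pow_aux h (w i)] at hi
  set a := ⌊(2 : ℝ) ^ s' * v i⌋
  set b := ⌊(2 : ℝ) ^ s' * w i⌋
  have hN : (0 : ℤ) < ((2 ^ (s' - s) : ℕ) : ℤ) := by positivity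
  have ea := Int.emod_add_mul_ediv a ((2 ^ (s' - s) : ℕ) : ℤ)
  have eb := Int.emod_add_mul_ediv b ((2 ^ (s' - s) : ℕ) : ℤ)
  rw [hi] at ea
  have a1 := Int.emod_nonneg a hN.ne'
  have a2 := Int.emod_lt_of_pos a hN
  have b1 := Int.emod_nonneg b hN.ne'
  have b2 := Int.emod_lt_of_pos b hN
  have h2 : ((2 ^ (s' - s) : ℕ) : ℤ) = 2 ^ (s' - s) := by push_cast; rfl
  rw [h2] at ea eb a1 a2 b1 b2
  rw [abs_le]
  constructor <;> linarith only [ea, eb, a1, b2, a2, b1]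

/-- close vectors have almost the same digits -/
theorem hc_fl_close (P : Law Ω) {s : ℕ} (N : ℕ) (v w : Ω → ι → ℝ) (Z : Ω → T)
    (h : ∀ ω, 0 < P.w ω → ∀ i, |v ω i - w ω i| ≤ N * (1 / 2 : ℝ) ^ s) :
    hc P (fun ω => fl s (v ω)) (fun ω => (fl s (w ω), Z ω)) ≤
      Fintype.card ι * Real.log (2 * N + 3) := by
  have h1 := hc_sub_le P (fun ω => fl s (v ω)) (fun ω => fl s (w ω))
    (fun ω => (fl s (w ω), Z ω)) (N + 1) (fun ω hω i => by
      have := fl_sub_le (h ω hω) i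
      push_cast
      exact this)
  have h2 : hc P (fun ω => fl s (w ω)) (fun ω => (fl s (w ω), Z ω)) = 0 := by
    apply hc_zero
    intro ω ω' _ _ he
    exact (Prod.ext_iff.mp he).1
  rw [h2, zero_add] at h1
  refine h1.trans (le_of_eq ?_)
  congr 2
  push_cast
  ring

open Classical in
theorem hc_fl_le (P : Law Ω) (s : ℕ) (v : Ω → ι → ℝ) (Z : Ω → T)
    (h : ∀ ω, 0 < P.w ω → ∀ i, 0 ≤ v ω i ∧ v ω i < 1) :
    hc P (fun ω => fl s (v ω)) Z ≤ Fintype.card ι * s * Real.log 2 := by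
  have h1 := hc_le_log P (fun ω => fl s (v ω)) Z ((2 ^ s) ^ Fintype.card ι) (fun ω _ => by
    refine ⟨Fintype.piFinset fun _ : ι => Finset.Ico (0 : ℤ) (2 ^ s), ?_, ?_⟩
    · rw [Fintype.card_piFinset]
      simp only [Int.card_Ico, sub_zero, toNat_pow_aux, prod_const, card_univ, Std.le_refl]
    · intro ω' hω' _
      rw [Fintype.mem_piFinset]
      intro i
      rw [Finset.mem_Ico]
      exact fl_lt (h ω' hω') i)
  refine h1.trans (le_of_eq ?_)
  push_cast
  rw [Real.log_pow, Real.log_pow]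
  ring

theorem hc_fl1_le (P : Law Ω) (s : ℕ) (v : Ω → ℝ) (Z : Ω → T)
    (h : ∀ ω, 0 < P.w ω → 0 ≤ v ω ∧ v ω < 1) :
    hc P (fun ω => fl1 s (v ω)) Z ≤ s * Real.log 2 := by
  have h1 := hc_le_log P (fun ω => fl1 s (v ω)) Z (2 ^ s) (fun ω _ => by
    refine ⟨Finset.Ico (0 : ℤ) (2 ^ s), by simp only [Int.card_Ico, sub_zero, Int.toNat_le, Nat.cast_pow, Nat.cast_ofNat, Std.le_refl], ?_⟩
    intro ω' hω' _
    rw [Finset.mem_Ico]
    exact fl_lt (ι := Unit) (v := fun _ => v ω') (s := s) (fun _ => h ω' hω') ())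
  refine h1.trans (le_of_eq ?_)
  push_cast
  rw [Real.log_pow]

/-- the values of the later digits, given the earlier ones -/
theorem floor_mem_aux {s s' : ℕ} (h : s ≤ s') {x y : ℝ}
    (hv : ⌊(2 : ℝ) ^ s * x⌋ = ⌊(2 : ℝ) ^ s * y⌋) :
    ⌊(2 : ℝ) ^ s' * x⌋ ∈ Finset.Ico (⌊(2 : ℝ) ^ s * y⌋ * 2 ^ (s' - s))
      (⌊(2 : ℝ) ^ s * y⌋ * 2 ^ (s' - s) + 2 ^ (s' - s)) := by
  rw [floor_pow_aux h x] at hv
  rw [← hv]
  set a := ⌊(2 : ℝ) ^ s' * x⌋
  have hN : (0 : ℤ) < ((2 ^ (s' - s) : ℕ) : ℤ) := by positivity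
  have ea := Int.emod_add_mul_ediv a ((2 ^ (s' - s) : ℕ) : ℤ)
  have a1 := Int.emod_nonneg a hN.ne'
  have a2 := Int.emod_lt_of_pos a hN
  have h2 : ((2 ^ (s' - s) : ℕ) : ℤ) = 2 ^ (s' - s) := by push_cast; rfl
  rw [h2] at ea a1 a2 ⊢
  rw [Finset.mem_Ico]
  constructor <;> linarith only [ea, a1, a2]

open Classical in
/-- digits `s..s'` -/
theorem hc_fl_digits_le (P : Law Ω) {s s' : ℕ} (h : s ≤ s') (v : Ω → ι → ℝ) (Z : Ω → T) :
    hc P (fun ω => fl s' (v ω)) (fun ω => (fl s (v ω), Z ω)) ≤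
      Fintype.card ι * ((s' - s : ℕ) : ℝ) * Real.log 2 := by
  have h1 := hc_le_log P (fun ω => fl s' (v ω)) (fun ω => (fl s (v ω), Z ω))
    ((2 ^ (s' - s)) ^ Fintype.card ι) (fun ω _ => by
    refine ⟨Fintype.piFinset fun i : ι => Finset.Ico (⌊(2 : ℝ) ^ s * v ω i⌋ * 2 ^ (s' - s))
      (⌊(2 : ℝ) ^ s * v ω i⌋ * 2 ^ (s' - s) + 2 ^ (s' - s)), ?_, ?_⟩
    · rw [Fintype.card_piFinset]
      simp only [Int.card_Ico, add_sub_cancel_left, toNat_pow_aux, prod_const, card_univ, Std.le_refl]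
    · intro ω' _ he
      rw [Fintype.mem_piFinset]
      intro i
      have hi : ⌊(2 : ℝ) ^ s * v ω' i⌋ = ⌊(2 : ℝ) ^ s * v ω i⌋ :=
        congrFun (Prod.ext_iff.mp he).1 i
      exact floor_mem_aux h hi)
  refine h1.trans (le_of_eq ?_)
  push_cast
  rw [Real.log_pow, Real.log_pow]
  ring

theorem hc_fl1_digits_le (P : Law Ω) {s s' : ℕ} (h : s ≤ s') (v : Ω → ℝ) (Z : Ω → T) :
    hc P (fun ω => fl1 s' (v ω)) (fun ω => (fl1 s (v ω), Z ω)) ≤
      ((s' - s : ℕ) : ℝ) * Real.log 2 := by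
  have h1 := hc_le_log P (fun ω => fl1 s' (v ω)) (fun ω => (fl1 s (v ω), Z ω))
    (2 ^ (s' - s)) (fun ω _ => by
    refine ⟨Finset.Ico (⌊(2 : ℝ) ^ s * v ω⌋ * 2 ^ (s' - s))
      (⌊(2 : ℝ) ^ s * v ω⌋ * 2 ^ (s' - s) + 2 ^ (s' - s)), by simp only [Int.card_Ico, add_sub_cancel_left, Int.toNat_le, Nat.cast_pow, Nat.cast_ofNat, Std.le_refl], ?_⟩
    intro ω' _ he
    have hi : ⌊(2 : ℝ) ^ s * v ω'⌋ = ⌊(2 : ℝ) ^ s * v ω⌋ := (Prod.ext_iff.mp he).1
    exact floor_mem_aux h hi)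
  refine h1.trans (le_of_eq ?_)
  push_cast
  rw [Real.log_pow]

end floors

section good

variable {Ω Ω' : Type} [Fintype Ω] [Fintype Ω'] {m : ℕ}

/-- G3 -/
theorem pt_sub (c : Cf Ω m) (r : ℕ) (ω : Ω) (i : Fin m) :
    (2 : ℝ) ^ r * c.pt ω i =
      (fl r (c.x ω) i + c.t ω * fl r (c.y ω) i) + (c.sub r).pt ω i := by
  show (2 : ℝ) ^ r * (c.x ω i + c.t ω * c.y ω i) =
    ((⌊(2 : ℝ) ^ r * c.x ω i⌋ : ℝ) + c.t ω * (⌊(2 : ℝ) ^ r * c.y ω i⌋ : ℝ)) +
      (Int.fract ((2 : ℝ) ^ r * c.x ω i) + c.t ω * Int.fract ((2 : ℝ) ^ r * c.y ω i))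
  rw [Int.fract, Int.fract]
  ring

end good

end Vale.Agent.P127.Stk
end

section

/-!
# P127 / Stk : closure properties of the class of good configurations
-/

namespace Vale.Agent.P127.Stk

open Finset Vale.Agent.P127

section good

variable {Ω Ω' : Type} [Fintype Ω] [Fintype Ω'] {m : ℕ}

theorem Good.C_nonneg {P : Law Ω} {c : Cf Ω m} {L : ℕ} {e C : ℝ} (h : Good P c L e C) :
    0 ≤ C := (mi_nonneg P _ _ _).trans h.ind

theorem Good.e_nonneg {P : Law Ω} {c : Cf Ω m} {L : ℕ} {e C : ℝ} (h : Good P c L e C) :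
    0 ≤ e := by
  have h1 := h.lin 0 (Nat.zero_le _)
  have h2 := hc_nonneg P (fun ω => (fl 0 (c.x ω), fl 0 (c.y ω))) c.A
  simp only [Nat.cast_zero, mul_zero, zero_mul, zero_add] at h1
  linarith only [h2, h1]

theorem Good.mono {P : Law Ω} {c : Cf Ω m} {L L' : ℕ} {e C e' C' : ℝ} (h : Good P c L e C)
    (h1 : L' ≤ L) (h2 : e ≤ e') (h3 : C ≤ C') : Good P c L' e' C' where
  x01 := h.x01
  y01 := h.y01
  t01 := h.t01
  ind := h.ind.trans h3
  dir s hs := by
    have := h.dir s (hs.trans h1)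
    linarith only [h2, this]
  lin s hs := by
    have := h.lin s (hs.trans h1)
    linarith only [h2, this]
  tim s hs := by
    have := h.tim s (hs.trans h1)
    linarith only [h3, this]

/-- G1 -/
theorem Good.comp {P : Law Ω} {c : Cf Ω m} {L : ℕ} {e C : ℝ} (h : Good P c L e C)
    {Q : Law Ω'} {π : Ω' → Ω} {K : ℝ} (hK : 2 ≤ K) (hQ : Dom Q π P K) :
    Good Q (c.comp π) L (4 * K * (e + 1)) (2 * K * (C + 1)) := by
  have hC := h.C_nonneg
  have he := h.e_nonneg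
  have hb0 : 0 < Real.log 2 := Real.log_pos (by norm_num)
  have hb1 : Real.log 2 ≤ 1 := by
    have := Real.log_two_lt_d9
    linarith only [this]
  have hK0 : 0 < K := by linarith
  refine ⟨fun ω i => h.x01 (π ω) i, fun ω i => h.y01 (π ω) i, fun ω => h.t01 (π ω), ?_, ?_, ?_,
    ?_⟩
  · have h1 : mi Q (fun ω => ((c.comp π).x ω, (c.comp π).y ω)) (c.comp π).t (c.comp π).A ≤
        K * (mi P (fun ω => (c.x ω, c.y ω)) c.t c.A + Real.log 2) :=
      hQ.mi_le (fun ω => (c.x ω, c.y ω)) c.t c.A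
    refine h1.trans ?_
    have h2 : mi P (fun ω => (c.x ω, c.y ω)) c.t c.A + Real.log 2 ≤ C + 1 := by
      have := h.ind
      linarith
    nlinarith only [hC, h2, hK0]
  · intro s hs
    have h1 : (m * s : ℝ) * Real.log 2 - 2 * K * ((m * s : ℝ) * Real.log 2 -
        hc P (fun ω => fl s (c.y ω)) c.A + Real.log 2) ≤
        hc Q (fun ω => fl s ((c.comp π).y ω)) (c.comp π).A := by
      refine hQ.le_hc (fun ω => fl s (c.y ω)) c.A _ fun R _ => ?_
      have := hc_fl_le R s c.y c.A fun ω _ => h.y01 ω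
      simpa only [ge_iff_le, Fintype.card_fin] using this
    refine le_trans ?_ h1
    have h2 := h.dir s hs
    nlinarith only [hK, he, hb1, h2]
  · intro s hs
    obtain ⟨R, hR, hw⟩ := hQ.split hK
    have ha : 1 / K ≤ 1 := (div_le_one hK0).2 (by linarith only [hK])
    have ha0 : 0 < 1 / K := by positivity
    have h1 := (mix_hc ha0.le ha hw (fun ω => (fl s (c.x ω), fl s (c.y ω))) c.A).1
    have h2 := (mix_hc ha0.le ha hw (fun ω => fl s (c.y ω)) c.A).2
    have h3 := h.lin s hs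
    have h4 := h.dir s hs
    have h5 : hc R (fun ω => fl s (c.y ω)) c.A ≤ hc R (fun ω => (fl s (c.x ω), fl s (c.y ω))) c.A := by
      refine hc_mono_left R ?_
      intro ω ω' _ _ e
      simp only [Prod.mk.injEq] at e
      exact e.1.2
    have h6 : hc Q ((fun ω => fl s (c.y ω)) ∘ π) (c.A ∘ π) ≤ (m * s : ℝ) * Real.log 2 := by
      have h61 := hc_fl_le Q s (c.y ∘ π) (c.A ∘ π) fun ω _ => h.y01 (π ω)
      rw [Fintype.card_fin] at h61
      exact h61
    have h7 := mul_le_mul_of_nonneg_left h5 (show 0 ≤ 1 - 1 / K by linarith only [ha])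
    have h8 := mul_le_mul_of_nonneg_left h6 ha0.le
    have h9 : 1 / K * hc Q ((fun ω => (fl s (c.x ω), fl s (c.y ω))) ∘ π) (c.A ∘ π) ≤
        1 / K * ((m * s : ℝ) * Real.log 2) + (2 * e + Real.log 2) := by linarith only [h1, h2, h3, h4, h7, h8]
    have h10 := mul_le_mul_of_nonneg_left h9 hK0.le
    have e1 : K * (1 / K * hc Q ((fun ω => (fl s (c.x ω), fl s (c.y ω))) ∘ π) (c.A ∘ π)) =
        hc Q ((fun ω => (fl s (c.x ω), fl s (c.y ω))) ∘ π) (c.A ∘ π) := by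
      field_simp
    have e2 : K * (1 / K * ((m * s : ℝ) * Real.log 2) + (2 * e + Real.log 2)) =
        (m * s : ℝ) * Real.log 2 + K * (2 * e + Real.log 2) := by
      (clear * - hK he; field_simp)
    rw [e1, e2] at h10
    have e3 : hc Q (fun ω => (fl s ((c.comp π).x ω), fl s ((c.comp π).y ω))) (c.comp π).A =
        hc Q ((fun ω => (fl s (c.x ω), fl s (c.y ω))) ∘ π) (c.A ∘ π) := rfl
    rw [e3]
    nlinarith only [hK, he, hb1, h10]
  · intro s hs
    have h1 : (s : ℝ) * Real.log 2 - 2 * K * ((s : ℝ) * Real.log 2 -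
        hc P (fun ω => fl1 s (c.t ω)) c.A + Real.log 2) ≤
        hc Q (fun ω => fl1 s ((c.comp π).t ω)) (c.comp π).A :=
      hQ.le_hc (fun ω => fl1 s (c.t ω)) c.A _ fun R _ => hc_fl1_le R s c.t c.A fun ω _ => h.t01 ω
    refine le_trans ?_ h1
    have h2 := h.tim s hs
    nlinarith only [hb1, h2, hK]

/-- G2 -/
theorem Good.sub {P : Law Ω} {c : Cf Ω m} {L : ℕ} {e C : ℝ} (h : Good P c L e C)
    (r L' : ℕ) (hr : r + L' ≤ L) : Good P (c.sub r) L' (2 * e) (2 * C) := by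
  have hC := h.C_nonneg
  have hA : ∀ {T : Type} (X : Ω → T), hc P X (c.sub r).A =
      hc P X (fun ω => ((fl r (c.x ω), fl r (c.y ω)), c.A ω)) := by
    intro T X
    refine hc_congr P (fun ω ω' _ _ e => congrArg Prod.fst e)
      (fun ω ω' _ _ e => congrArg Prod.fst e) ?_ ?_
    · intro ω ω' _ _ e
      simp only [Prod.mk.injEq] at e
      simp only [Cf.sub, Prod.mk.injEq]
      exact ⟨e.2, e.1.1, e.1.2⟩
    · intro ω ω' _ _ e
      simp only [Cf.sub, Prod.mk.injEq] at e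
      simp only [Prod.mk.injEq]
      exact ⟨⟨e.2.1, e.2.2⟩, e.1⟩
  have hW : ∀ s, r + s ≤ L → ∀ {T : Type} (X : Ω → T),
      hc P (fun ω => ((fl r (c.x ω), fl r (c.y ω)), X ω)) c.A =
        hc P (fun ω => (fl r (c.x ω), fl r (c.y ω))) c.A + hc P X (c.sub r).A := by
    intro s _ T X
    rw [hA, hc_pair]
  refine ⟨fun ω i => ⟨Int.fract_nonneg _, Int.fract_lt_one _⟩,
    fun ω i => ⟨Int.fract_nonneg _, Int.fract_lt_one _⟩, h.t01, ?_, ?_, ?_, ?_⟩
  · have h1 : mi P (fun ω => ((c.sub r).x ω, (c.sub r).y ω)) (c.sub r).t (c.sub r).A =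
        mi P (fun ω => ((c.sub r).x ω, (c.sub r).y ω)) c.t
          (fun ω => ((fl r (c.x ω), fl r (c.y ω)), c.A ω)) := by
      refine mi_congr_cond P _ _ ?_ ?_
      · intro ω ω' _ _ e
        simp only [Prod.mk.injEq] at e
        simp only [Cf.sub, Prod.mk.injEq]
        exact ⟨e.2, e.1.1, e.1.2⟩
      · intro ω ω' _ _ e
        simp only [Cf.sub, Prod.mk.injEq] at e
        simp only [Prod.mk.injEq]
        exact ⟨⟨e.2.1, e.2.2⟩, e.1⟩
    rw [h1]
    have h2 : mi P (fun ω => ((c.sub r).x ω, (c.sub r).y ω)) c.t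
        (fun ω => ((fl r (c.x ω), fl r (c.y ω)), c.A ω)) ≤
        mi P (fun ω => (c.x ω, c.y ω)) c.t
          (fun ω => ((fl r (c.x ω), fl r (c.y ω)), c.A ω)) := by
      refine mi_mono_left P _ ?_
      intro ω ω' _ _ e
      simp only [Prod.mk.injEq] at e
      simp only [Cf.sub, Prod.mk.injEq]
      rw [e.1.1, e.1.2]
      exact ⟨rfl, rfl⟩
    have h3 : mi P (fun ω => (c.x ω, c.y ω)) c.t
          (fun ω => ((fl r (c.x ω), fl r (c.y ω)), c.A ω)) ≤
        mi P (fun ω => (c.x ω, c.y ω)) c.t c.A := by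
      refine mi_cond_le P c.t c.A ?_
      intro ω ω' _ _ e
      simp only [Prod.mk.injEq] at e ⊢
      rw [e.1.1, e.1.2]
      exact ⟨rfl, rfl⟩
    have := h.ind
    linarith only [hC, h2, h3, this]
  · intro s hs
    have h1 : hc P (fun ω => fl (r + s) (c.y ω)) (c.sub r).A ≤
        hc P (fun ω => fl s ((c.sub r).y ω)) (c.sub r).A := by
      refine hc_mono_left P ?_
      intro ω ω' _ _ e
      simp only [Cf.sub, Prod.mk.injEq] at e
      funext i
      have e1 := congrFun e.1 i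
      rw [fl_fract, fl_fract, congrFun e.2.2.2 i] at e1
      linarith only [e1]
    have h2 := hW s (by omega) (fun ω => fl (r + s) (c.y ω))
    have h3 : hc P (fun ω => fl (r + s) (c.y ω)) c.A ≤
        hc P (fun ω => ((fl r (c.x ω), fl r (c.y ω)), fl (r + s) (c.y ω))) c.A := by
      refine hc_mono_left P ?_
      intro ω ω' _ _ e
      simp only [Prod.mk.injEq] at e
      exact e.1.2
    have h4 := h.dir (r + s) (by omega)
    have h5 := h.lin r (by omega)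
    push_cast at h4
    linarith
  · intro s hs
    have h1 : hc P (fun ω => (fl s ((c.sub r).x ω), fl s ((c.sub r).y ω))) (c.sub r).A ≤
        hc P (fun ω => (fl (r + s) (c.x ω), fl (r + s) (c.y ω))) (c.sub r).A := by
      refine hc_mono_left P ?_
      intro ω ω' _ _ e
      simp only [Cf.sub, Prod.mk.injEq] at e
      simp only [Cf.sub, Prod.mk.injEq]
      constructor
      · funext i
        rw [fl_fract, fl_fract, congrFun e.1.1 i, congrFun e.2.2.1 i]
      · funext i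
        rw [fl_fract, fl_fract, congrFun e.1.2 i, congrFun e.2.2.2 i]
    have h2 := hW s (by omega) (fun ω => (fl (r + s) (c.x ω), fl (r + s) (c.y ω)))
    have h3 : hc P (fun ω => ((fl r (c.x ω), fl r (c.y ω)),
        (fl (r + s) (c.x ω), fl (r + s) (c.y ω)))) c.A ≤
        hc P (fun ω => (fl (r + s) (c.x ω), fl (r + s) (c.y ω))) c.A := by
      refine hc_mono_left P ?_
      intro ω ω' _ _ e
      simp only [Prod.mk.injEq] at e
      simp only [Prod.mk.injEq]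
      exact ⟨⟨fl_of_fl (Nat.le_add_right r s) _ _ e.1.1, fl_of_fl (Nat.le_add_right r s) _ _ e.1.2⟩,
        e.1.1, e.1.2⟩
    have h4 : hc P (fun ω => fl r (c.y ω)) c.A ≤
        hc P (fun ω => (fl r (c.x ω), fl r (c.y ω))) c.A := by
      refine hc_mono_left P ?_
      intro ω ω' _ _ e
      simp only [Prod.mk.injEq] at e
      exact e.1.2
    have h5 := h.lin (r + s) (by omega)
    have h6 := h.dir r (by omega)
    push_cast at h5
    linarith
  · intro s hs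
    have h1 := h.tim s (by omega)
    have h2 : hc P (fun ω => fl1 s ((c.sub r).t ω)) (c.sub r).A =
        hc P (fun ω => fl1 s (c.t ω)) (fun ω => ((fl r (c.x ω), fl r (c.y ω)), c.A ω)) :=
      hA (fun ω => fl1 s (c.t ω))
    rw [h2]
    have h3 : mi P (fun ω => fl1 s (c.t ω)) (fun ω => (fl r (c.x ω), fl r (c.y ω))) c.A ≤ C := by
      refine le_trans ?_ h.ind
      rw [mi_symm P (fun ω => (c.x ω, c.y ω))]
      refine (mi_mono_left P _ ?_).trans (mi_mono_right P _ ?_)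
      · intro ω ω' _ _ e
        simp only [Prod.mk.injEq] at e
        simp only [e.1]
      · intro ω ω' _ _ e
        simp only [Prod.mk.injEq] at e ⊢
        rw [e.1.1, e.1.2]
        exact ⟨rfl, rfl⟩
    unfold mi at h3
    linarith only [h1, h3]

end good

end Vale.Agent.P127.Stk
end

section

/-!
# P127 / Stk : conditionally independent copies
-/

namespace Vale.Agent.P127.Stk

open Finset Vale.Agent.P127

section copies

variable {Ω : Type} [Fintype Ω] {S S' T U V : Type*}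

/-! ### entropies depend only on the law -/

lemma ex_law_aux {Ω₁ Ω₂ : Type} [Fintype Ω₁] [Fintype Ω₂] (P₁ : Law Ω₁) (P₂ : Law Ω₂)
    (π : Ω₁ → Ω₂) (h : ∀ ω, P₁.pr π ω = P₂.w ω) (f : Ω₂ → ℝ) :
    P₁.ex (fun ω => f (π ω)) = P₂.ex f := by
  classical
  rw [P₁.ex_comp π f]
  unfold Law.ex
  rw [← Finset.sum_subset (Finset.subset_univ (img π))]
  · exact Finset.sum_congr rfl fun x _ => by rw [h]
  · intro x _ hx
    have h1 : P₁.pr π x = 0 := by
      unfold Law.pr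
      refine Finset.sum_eq_zero fun ω hω => ?_
      exact absurd (mem_img.2 ⟨ω, (Finset.mem_filter.1 hω).2⟩) hx
    rw [← h x, h1, zero_mul]

lemma pr_law_aux {Ω₁ Ω₂ : Type} [Fintype Ω₁] [Fintype Ω₂] (P₁ : Law Ω₁) (P₂ : Law Ω₂)
    (π : Ω₁ → Ω₂) (h : ∀ ω, P₁.pr π ω = P₂.w ω) (X : Ω₂ → T) (x : T) :
    P₁.pr (X ∘ π) x = P₂.pr X x := by
  rw [Law.pr_eq_ex, Law.pr_eq_ex]
  exact ex_law_aux P₁ P₂ π h (fun ω => Law.ind (X ω = x))

lemma H_law_aux {Ω₁ Ω₂ : Type} [Fintype Ω₁] [Fintype Ω₂] (P₁ : Law Ω₁) (P₂ : Law Ω₂)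
    (π : Ω₁ → Ω₂) (h : ∀ ω, P₁.pr π ω = P₂.w ω) (X : Ω₂ → T) : P₁.H (X ∘ π) = P₂.H X := by
  unfold Law.H
  simp only [pr_law_aux P₁ P₂ π h]
  exact ex_law_aux P₁ P₂ π h (fun ω => -Real.log (P₂.pr X (X ω)))

/-- entropies depend only on the law -/
theorem hc_of_law {Ω₁ Ω₂ : Type} [Fintype Ω₁] [Fintype Ω₂] (P₁ : Law Ω₁) (P₂ : Law Ω₂)
    (π : Ω₁ → Ω₂) (h : ∀ ω, P₁.pr π ω = P₂.w ω) (X : Ω₂ → T) (Y : Ω₂ → U) :
    hc P₁ (X ∘ π) (Y ∘ π) = hc P₂ X Y := by
  unfold hc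
  rw [← H_law_aux P₁ P₂ π h Y, ← H_law_aux P₁ P₂ π h (fun ω => (X ω, Y ω))]
  rfl

/-! ### the weights -/

open Classical in
/-- the part of the weight over `s` -/
noncomputable def pw_aux (P : Law Ω) (W : Ω → S) (s : S) (ω : Ω) : ℝ :=
  if W ω = s then P.w ω else 0

lemma sum_pw_aux (P : Law Ω) (W : Ω → S) (s : S) : ∑ ω, pw_aux P W s ω = P.pr W s := by
  classical
  unfold pw_aux Law.pr
  rw [Finset.sum_filter]

lemma pw_le_aux (P : Law Ω) (W : Ω → S) (s : S) (ω : Ω) : pw_aux P W s ω ≤ P.pr W s := by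
  classical
  unfold pw_aux
  split_ifs with h
  · rw [← h]; exact P.w_le_pr W ω
  · exact P.pr_nonneg W s

lemma pw_nn_aux (P : Law Ω) (W : Ω → S) (s : S) (ω : Ω) : 0 ≤ pw_aux P W s ω := by
  classical
  unfold pw_aux
  split_ifs
  · exact P.nn ω
  · exact le_rfl

lemma cw_eq_aux (P : Law Ω) (W : Ω → S) (N : ℕ) (w : Fin (N + 1) → Ω) :
    cw P W N w = ∑ s ∈ img W, (∏ i, pw_aux P W s (w i)) / (P.pr W s) ^ N := by
  classical
  rw [Finset.sum_eq_single (W (w 0))]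
  · unfold cw
    split_ifs with h
    · congr 1
      refine Finset.prod_congr rfl fun i _ => ?_
      unfold pw_aux
      rw [if_pos (h i)]
    · push Not at h
      obtain ⟨i, hi⟩ := h
      rw [Finset.prod_eq_zero (Finset.mem_univ i), zero_div]
      unfold pw_aux
      rw [if_neg hi]
  · intro s _ hs
    rw [Finset.prod_eq_zero (Finset.mem_univ 0), zero_div]
    unfold pw_aux
    rw [if_neg (Ne.symm hs)]
  · intro h
    exact absurd (mem_img.2 ⟨w 0, rfl⟩) h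

lemma sum_prod_aux {N : ℕ} (g : Fin (N + 1) → Ω → ℝ) :
    ∑ w : Fin (N + 1) → Ω, ∏ i, g i (w i) = ∏ i, ∑ ω, g i ω := by
  classical
  rw [Finset.prod_univ_sum, Fintype.piFinset_univ]

lemma cw_nn_aux (P : Law Ω) (W : Ω → S) (N : ℕ) (w : Fin (N + 1) → Ω) : 0 ≤ cw P W N w := by
  rw [cw_eq_aux]
  refine Finset.sum_nonneg fun s _ => ?_
  exact div_nonneg (Finset.prod_nonneg fun i _ => pw_nn_aux P W s _)
    (pow_nonneg (P.pr_nonneg W s) N)

theorem cw_exists (P : Law Ω) (W : Ω → S) (N : ℕ) :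
    ∃ Q : Law (Fin (N + 1) → Ω), ∀ w, Q.w w = cw P W N w := by
  classical
  refine ⟨⟨fun w => cw P W N w, fun w => cw_nn_aux P W N w, ?_⟩, fun _ => rfl⟩
  simp only [cw_eq_aux]
  rw [Finset.sum_comm, ← P.sum_pr_image W]
  refine Finset.sum_congr rfl fun s _ => ?_
  rw [← Finset.sum_div, sum_prod_aux (fun _ ω => pw_aux P W s ω)]
  simp only [sum_pw_aux]
  rw [Finset.prod_const, Finset.card_univ, Fintype.card_fin]
  rcases (P.pr_nonneg W s).eq_or_lt with h0 | h0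
  · rw [← h0]; simp
  · rw [pow_succ, mul_comm, mul_div_assoc, div_self (pow_pos h0 N).ne', mul_one]

theorem cw_supp {P : Law Ω} {W : Ω → S} {N : ℕ} {Q : Law (Fin (N + 1) → Ω)}
    (hQ : ∀ w, Q.w w = cw P W N w) {w : Fin (N + 1) → Ω} (hw : 0 < Q.w w) :
    (∀ i, W (w i) = W (w 0)) ∧ ∀ i, 0 < P.w (w i) := by
  classical
  rw [hQ] at hw
  unfold cw at hw
  split_ifs at hw with h
  · refine ⟨h, fun i => ?_⟩
    rcases (P.nn (w i)).eq_or_lt with h0 | h0
    · rw [Finset.prod_eq_zero (Finset.mem_univ i) h0.symm, zero_div] at hw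
      exact absurd hw (lt_irrefl _)
    · exact h0
  · exact absurd hw (lt_irrefl _)

/-- sub-families of copies are copies (`e` injective) -/
theorem cw_sub {P : Law Ω} {W : Ω → S} {N M : ℕ} {Q : Law (Fin (N + 1) → Ω)}
    (hQ : ∀ w, Q.w w = cw P W N w) (e : Fin (M + 1) → Fin (N + 1)) (he : Function.Injective e)
    (v : Fin (M + 1) → Ω) : Q.pr (fun w => w ∘ e) v = cw P W M v := by
  classical
  -- the indicators
  set δ : Fin (N + 1) → Ω → ℝ := fun i ω => if ∃ j, e j = i ∧ v j ≠ ω then 0 else 1 with hδ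
  have h1 : ∀ w : Fin (N + 1) → Ω, (if w ∘ e = v then (1 : ℝ) else 0) = ∏ i, δ i (w i) := by
    intro w
    split_ifs with h
    · rw [Finset.prod_eq_one]
      intro i _
      simp only [hδ]
      rw [if_neg]
      rintro ⟨j, hj, hne⟩
      apply hne
      rw [← h, ← hj]
      rfl
    · obtain ⟨j, hj⟩ : ∃ j, (w ∘ e) j ≠ v j := by
        by_contra hcon
        push Not at hcon
        exact h (funext hcon)
      rw [Finset.prod_eq_zero (Finset.mem_univ (e j))]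
      simp only [hδ]
      rw [if_pos ⟨j, rfl, fun h => hj h.symm⟩]
  have h2 : Q.pr (fun w => w ∘ e) v = ∑ w : Fin (N + 1) → Ω, (∏ i, δ i (w i)) * cw P W N w := by
    unfold Law.pr
    rw [Finset.sum_filter]
    refine Finset.sum_congr rfl fun w _ => ?_
    rw [← h1 w, hQ w]
    split_ifs
    · rw [one_mul]
    · rw [zero_mul]
  rw [h2, cw_eq_aux P W M v]
  simp only [cw_eq_aux P W N, Finset.mul_sum]
  rw [Finset.sum_comm]
  refine Finset.sum_congr rfl fun s _ => ?_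
  have h3 : ∀ w : Fin (N + 1) → Ω, (∏ i, δ i (w i)) * ((∏ i, pw_aux P W s (w i)) / P.pr W s ^ N) =
      (∏ i, (δ i (w i) * pw_aux P W s (w i))) / P.pr W s ^ N := by
    intro w
    rw [Finset.prod_mul_distrib, mul_div_assoc]
  simp only [h3]
  rw [← Finset.sum_div, sum_prod_aux (fun i ω => δ i ω * pw_aux P W s ω)]
  -- the coordinates
  have h4 : ∀ j, ∑ ω, δ (e j) ω * pw_aux P W s ω = pw_aux P W s (v j) := by
    intro j
    rw [Finset.sum_eq_single (v j)]
    · have : δ (e j) (v j) = 1 := by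
        simp only [hδ]
        rw [if_neg]
        rintro ⟨j', hj', hne⟩
        rw [he hj'] at hne
        exact hne rfl
      rw [this, one_mul]
    · intro ω _ hω
      have : δ (e j) ω = 0 := by
        simp only [hδ]
        rw [if_pos ⟨j, rfl, fun h => hω h.symm⟩]
      rw [this, zero_mul]
    · intro h; exact absurd (Finset.mem_univ _) h
  have h5 : ∀ i, i ∉ univ.image e → ∑ ω, δ i ω * pw_aux P W s ω = P.pr W s := by
    intro i hi
    rw [← sum_pw_aux]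
    refine Finset.sum_congr rfl fun ω _ => ?_
    have : δ i ω = 1 := by
      simp only [hδ]
      rw [if_neg]
      rintro ⟨j, hj, _⟩
      exact hi (Finset.mem_image.2 ⟨j, Finset.mem_univ j, hj⟩)
    rw [this, one_mul]
  have h6 : ∏ i, ∑ ω, δ i ω * pw_aux P W s ω =
      (∏ j, pw_aux P W s (v j)) * P.pr W s ^ (N - M) := by
    rw [← Finset.prod_mul_prod_compl (univ.image e)]
    congr 1
    · rw [Finset.prod_image fun a _ b _ h => he h]
      exact Finset.prod_congr rfl fun j _ => h4 j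
    · rw [Finset.prod_congr rfl fun i hi => h5 i (Finset.mem_compl.1 hi), Finset.prod_const,
        Finset.card_compl, Finset.card_image_of_injective _ he, Finset.card_univ,
        Fintype.card_fin, Fintype.card_fin]
      congr 1
      omega
  rw [h6]
  have hMN : M ≤ N := by
    have := Fintype.card_le_of_injective e he
    simp only [Fintype.card_fin] at this
    omega
  rcases (P.pr_nonneg W s).eq_or_lt with h0 | h0
  · have h7 : ∏ j, pw_aux P W s (v j) = 0 := by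
      rw [Finset.prod_eq_zero (Finset.mem_univ 0)]
      exact le_antisymm ((pw_le_aux P W s (v 0)).trans h0.symm.le) (pw_nn_aux P W s _)
    rw [h7, zero_mul, zero_div, zero_div]
  · rw [div_eq_div_iff (pow_pos h0 N).ne' (pow_pos h0 M).ne', mul_assoc, ← pow_add,
      Nat.sub_add_cancel hMN]

theorem cw_marg {P : Law Ω} {W : Ω → S} {N : ℕ} {Q : Law (Fin (N + 1) → Ω)}
    (hQ : ∀ w, Q.w w = cw P W N w) (i : Fin (N + 1)) (ω : Ω) :
    Q.pr (fun w => w i) ω = P.w ω := by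
  classical
  have h1 := cw_sub hQ (M := 0) (fun _ => i) (fun a b _ => Fin.ext (by omega)) (fun _ => ω)
  have h2 : Q.pr (fun w => w i) ω = Q.pr (fun w => w ∘ fun _ : Fin 1 => i) (fun _ => ω) := by
    unfold Law.pr
    refine Finset.sum_congr ?_ fun _ _ => rfl
    ext w
    simp only [Finset.mem_filter, Finset.mem_univ, true_and]
    constructor
    · intro h
      funext j
      exact h
    · intro h
      exact congrFun h 0
  rw [h2, h1]
  unfold cw
  simp

theorem cw_hc {P : Law Ω} {W : Ω → S} {N : ℕ} {Q : Law (Fin (N + 1) → Ω)}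
    (hQ : ∀ w, Q.w w = cw P W N w) (i : Fin (N + 1)) (X : Ω → T) (Y : Ω → U) :
    hc Q (fun w => X (w i)) (fun w => Y (w i)) = hc P X Y :=
  hc_of_law Q P (fun w => w i) (cw_marg hQ i) X Y

/-! ### conditional independence -/

lemma pr_key_aux {Ω' : Type} [Fintype Ω'] (P : Law Ω) (Q : Law Ω') (π : Ω' → Ω) (W : Ω → S)
    (Y : Ω' → U) (K : S → U → ℝ)
    (h : ∀ ω y, Q.pr (fun a => (π a, Y a)) (ω, y) = P.w ω * K (W ω) y) {R : Type*}
    (f : Ω → R) (r : R) (y : U) (s : S) (hs : ∀ ω, f ω = r → W ω = s) :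
    Q.pr (fun a => (f (π a), Y a)) (r, y) = P.pr f r * K s y := by
  classical
  rw [Law.pr_eq_ex Q, Law.pr_eq_ex P]
  unfold Law.ex
  have h1 : ∀ a, Law.ind ((f (π a), Y a) = (r, y)) =
      ∑ ω, Law.ind (f ω = r) * Law.ind ((π a, Y a) = (ω, y)) := by
    intro a
    rw [Finset.sum_eq_single (π a)]
    · by_cases h2 : f (π a) = r
      · by_cases h3 : Y a = y
        · rw [Law.ind_of (by rw [h2, h3]), Law.ind_of h2, Law.ind_of (by rw [h3]), mul_one]
        · rw [Law.ind_not (fun h4 => h3 (Prod.mk.inj h4).2),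
            Law.ind_not (p := (π a, Y a) = (π a, y)) (fun h4 => h3 (Prod.mk.inj h4).2), mul_zero]
      · rw [Law.ind_not (fun h4 => h2 (Prod.mk.inj h4).1), Law.ind_not h2, zero_mul]
    · intro ω _ hω
      rw [Law.ind_not (p := (π a, Y a) = (ω, y)) (fun h4 => hω (Prod.mk.inj h4).1.symm), mul_zero]
    · intro h; exact absurd (Finset.mem_univ _) h
  simp only [h1, Finset.mul_sum]
  rw [Finset.sum_comm, Finset.sum_mul]
  refine Finset.sum_congr rfl fun ω _ => ?_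
  have h2 : ∑ a, Q.w a * (Law.ind (f ω = r) * Law.ind ((π a, Y a) = (ω, y))) =
      Law.ind (f ω = r) * Q.pr (fun a => (π a, Y a)) (ω, y) := by
    rw [Law.pr_eq_ex Q]
    unfold Law.ex
    rw [Finset.mul_sum]
    exact Finset.sum_congr rfl fun a _ => by ring
  rw [h2, h]
  by_cases h3 : f ω = r
  · rw [hs ω h3]; ring
  · rw [Law.ind_not h3]; ring

lemma indep_aux {Ω' : Type} [Fintype Ω'] (P : Law Ω) (Q : Law Ω') (π : Ω' → Ω) (W : Ω → S)
    (Y : Ω' → U) (K : S → U → ℝ) (hπ : ∀ ω, Q.pr π ω = P.w ω)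
    (h : ∀ ω y, Q.pr (fun a => (π a, Y a)) (ω, y) = P.w ω * K (W ω) y) (X : Ω → T) :
    hc Q (fun a => X (π a)) (fun a => (Y a, W (π a))) = hc P X W := by
  classical
  have e1 : ∀ a, Q.pr (fun a => (X (π a), (Y a, W (π a)))) (X (π a), (Y a, W (π a))) =
      P.pr (fun ω => (X ω, W ω)) (X (π a), W (π a)) * K (W (π a)) (Y a) := by
    intro a
    rw [← pr_key_aux P Q π W Y K h (fun ω => (X ω, W ω)) (X (π a), W (π a)) (Y a) (W (π a))
      (fun ω hω => (Prod.mk.inj hω).2)]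
    unfold Law.pr
    refine Finset.sum_congr ?_ fun _ _ => rfl
    ext b
    simp only [Finset.mem_filter, Finset.mem_univ, true_and, Prod.mk.injEq]
    tauto
  have e2 : ∀ a, Q.pr (fun a => (Y a, W (π a))) (Y a, W (π a)) =
      P.pr W (W (π a)) * K (W (π a)) (Y a) := by
    intro a
    rw [← pr_key_aux P Q π W Y K h W (W (π a)) (Y a) (W (π a)) (fun ω hω => hω)]
    unfold Law.pr
    refine Finset.sum_congr ?_ fun _ _ => rfl
    ext b
    simp only [Prod.mk.injEq, mem_filter, mem_univ, true_and]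
    (clear * -; tauto)
  unfold hc
  have m1 := ex_law_aux Q P π hπ
    (fun ω => -Real.log (P.pr (fun ω => (X ω, W ω)) (X ω, W ω)))
  have m2 := ex_law_aux Q P π hπ (fun ω => -Real.log (P.pr W (W ω)))
  have g1 : P.H (fun ω => (X ω, W ω)) - P.H W =
      Q.ex (fun a => -Real.log (P.pr (fun ω => (X ω, W ω)) (X (π a), W (π a))) -
        -Real.log (P.pr W (W (π a)))) := by
    rw [Law.ex_sub]
    unfold Law.H
    rw [← m1, ← m2]
  rw [g1]
  unfold Law.H
  rw [← Law.ex_sub]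
  refine Law.ex_congr _ fun a ha => ?_
  have p1 := Q.pr_pos (fun a => (X (π a), (Y a, W (π a)))) ha
  have p2 := Q.pr_pos (fun a => (Y a, W (π a))) ha
  simp only [e1, e2]
  rw [e1] at p1
  rw [e2] at p2
  have q1 : P.pr (fun ω => (X ω, W ω)) (X (π a), W (π a)) ≠ 0 := fun h0 => by
    rw [h0, zero_mul] at p1
    exact lt_irrefl _ p1
  have q2 : P.pr W (W (π a)) ≠ 0 := fun h0 => by
    rw [h0, zero_mul] at p2
    exact lt_irrefl _ p2
  have q3 : K (W (π a)) (Y a) ≠ 0 := fun h0 => by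
    rw [h0, mul_zero] at p2
    exact lt_irrefl _ p2
  rw [Real.log_mul q1 q3, Real.log_mul q2 q3]
  ring

open Classical in
/-- the kernel of the other copies -/
noncomputable def ck_aux (P : Law Ω) (W : Ω → S) (N : ℕ) (s : S) (v : Fin N → Ω) : ℝ :=
  if ∀ j, W (v j) = s then (∏ j, P.w (v j)) / (P.pr W s) ^ N else 0

lemma cw_insert_aux (P : Law Ω) (W : Ω → S) (N : ℕ) (i : Fin (N + 1)) (ω : Ω) (v : Fin N → Ω) :
    cw P W N (i.insertNth ω v : Fin (N + 1) → Ω) = P.w ω * ck_aux P W N (W ω) v := by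
  classical
  set w : Fin (N + 1) → Ω := i.insertNth ω v with hw
  have hi : w i = ω := by rw [hw]; exact Fin.insertNth_apply_same (α := fun _ => Ω) i ω v
  have hj : ∀ j, w (i.succAbove j) = v j := fun j => by
    rw [hw]; exact Fin.insertNth_apply_succAbove (α := fun _ => Ω) i ω v j
  have h1 : (∀ k, W (w k) = W (w 0)) ↔ ∀ j, W (v j) = W ω := by
    constructor
    · intro h j
      rw [← hj j, ← hi, h (i.succAbove j), h i]
    · intro h
      have h2 : ∀ k, W (w k) = W ω := by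
        intro k
        rcases Fin.eq_self_or_eq_succAbove i k with hk | ⟨j, hk⟩
        · rw [hk, hi]
        · rw [hk, hj, h j]
      intro k
      rw [h2 k, h2 0]
  unfold cw ck_aux
  by_cases h : ∀ j, W (v j) = W ω
  · rw [if_pos (h1.2 h), if_pos h, Fin.prod_univ_succAbove _ i, hi]
    simp only [hj]
    have h3 : W (w 0) = W ω := by
      have := (h1.2 h) i
      rw [hi] at this
      exact this.symm
    rw [h3, mul_div_assoc]
  · rw [if_neg (fun hh => h (h1.1 hh)), if_neg h, mul_zero]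

/-- conditional independence -/
theorem cw_indep {P : Law Ω} {W : Ω → S} {N : ℕ} {Q : Law (Fin (N + 1) → Ω)}
    (hQ : ∀ w, Q.w w = cw P W N w) (i : Fin (N + 1)) (X : Ω → T) (Y : (Fin (N + 1) → Ω) → U)
    (hY : ∀ w w', (∀ j, j ≠ i → w j = w' j) → Y w = Y w') :
    hc Q (fun w => X (w i)) (fun w => (Y w, W (w i))) = hc P X W := by
  classical
  have hne : Nonempty Ω := by
    by_contra hcon
    rw [not_nonempty_iff] at hcon
    have := P.sum_one
    simp at this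
  obtain ⟨ω₀⟩ := hne
  set K : S → U → ℝ := fun s y => ∑ v : Fin N → Ω,
    ck_aux P W N s v * Law.ind (Y (i.insertNth ω₀ v : Fin (N + 1) → Ω) = y) with hK
  refine indep_aux P Q (fun w => w i) W Y K (cw_marg hQ i) (fun ω y => ?_) X
  rw [Law.pr_eq_ex]
  unfold Law.ex
  rw [← Fintype.sum_equiv (Fin.insertNthEquiv (fun _ => Ω) i)
    (fun p : Ω × (Fin N → Ω) => Q.w (i.insertNth p.1 p.2 : Fin (N + 1) → Ω) *
      Law.ind (((i.insertNth p.1 p.2 : Fin (N + 1) → Ω) i,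
        Y (i.insertNth p.1 p.2 : Fin (N + 1) → Ω)) = (ω, y))) _ (fun p => rfl)]
  rw [Fintype.sum_prod_type, Finset.sum_eq_single ω]
  · simp only [hK]
    rw [Finset.mul_sum]
    refine Finset.sum_congr rfl fun v _ => ?_
    rw [hQ, cw_insert_aux, mul_assoc]
    congr 2
    have hY' : Y (i.insertNth ω v : Fin (N + 1) → Ω) = Y (i.insertNth ω₀ v : Fin (N + 1) → Ω) := by
      refine hY _ _ fun k hk => ?_
      rcases Fin.eq_self_or_eq_succAbove i k with h1 | ⟨j, h1⟩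
      · exact absurd h1 hk
      · rw [h1, Fin.insertNth_apply_succAbove, Fin.insertNth_apply_succAbove]
    rw [hY', Fin.insertNth_apply_same]
    by_cases h2 : Y (i.insertNth ω₀ v : Fin (N + 1) → Ω) = y
    · rw [Law.ind_of h2, Law.ind_of (by rw [h2])]
    · rw [Law.ind_not h2, Law.ind_not (fun h3 => h2 (Prod.mk.inj h3).2)]
  · intro ω' _ hω'
    refine Finset.sum_eq_zero fun v _ => ?_
    rw [Law.ind_not, mul_zero]
    intro h3
    have h4 := (Prod.mk.inj h3).1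
    rw [Fin.insertNth_apply_same] at h4
    exact hω' h4
  · intro h; exact absurd (Finset.mem_univ _) h

/-! ### the cost of copies -/

/-- the first `k` variables -/
def tk_aux {N : ℕ} (B : Ω → V) (k : ℕ) (w : Fin (N + 1) → Ω) : Fin (N + 1) → Option V :=
  fun j => if (j : ℕ) < k then some (B (w j)) else none

lemma tk_succ_aux {N : ℕ} (Q : Law (Fin (N + 1) → Ω)) (B : Ω → V) (k : ℕ) (hk : k < N + 1)
    (Z : (Fin (N + 1) → Ω) → U) :
    hc Q (tk_aux B (k + 1)) Z = hc Q (tk_aux B k) Z +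
      hc Q (fun w => B (w ⟨k, hk⟩)) (fun w => (tk_aux B k w, Z w)) := by
  rw [← hc_pair Q (tk_aux B k) (fun w => B (w ⟨k, hk⟩)) Z]
  refine hc_congr Q ?_ ?_ (fun _ _ _ _ h => h) (fun _ _ _ _ h => h)
  · intro w w' _ _ h
    simp only [Prod.mk.injEq] at h
    obtain ⟨⟨h1, h2⟩, -⟩ := h
    funext j
    have h3 := congrFun h1 j
    simp only [tk_aux] at h3 ⊢
    by_cases hj : (j : ℕ) < k
    · rw [if_pos hj, if_pos hj] at h3
      rw [if_pos (by omega), if_pos (by omega)]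
      exact h3
    · by_cases hj' : (j : ℕ) = k
      · have : j = ⟨k, hk⟩ := Fin.ext hj'
        rw [if_pos (by omega), if_pos (by omega), this, h2]
      · rw [if_neg (by omega), if_neg (by omega)]
  · intro w w' _ _ h
    simp only [Prod.mk.injEq] at h
    obtain ⟨h1, -⟩ := h
    refine Prod.ext ?_ ?_
    · funext j
      have h3 := congrFun h1 j
      simp only [tk_aux] at h3 ⊢
      by_cases hj : (j : ℕ) < k
      · rw [if_pos (by omega), if_pos (by omega)] at h3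
        rw [if_pos hj, if_pos hj]
        exact h3
      · rw [if_neg hj, if_neg hj]
    · have h3 := congrFun h1 ⟨k, hk⟩
      simp only [tk_aux] at h3
      rw [if_pos (Nat.lt_succ_self k), if_pos (Nat.lt_succ_self k)] at h3
      exact Option.some.inj h3

lemma tk_zero_aux {N : ℕ} (Q : Law (Fin (N + 1) → Ω)) (B : Ω → V) (Z : (Fin (N + 1) → Ω) → U) :
    hc Q (tk_aux B 0) Z = 0 :=
  hc_zero Q (fun w w' _ _ _ => by funext j; simp [tk_aux])

lemma tk_last_aux {N : ℕ} (Q : Law (Fin (N + 1) → Ω)) (B : Ω → V) (Z : (Fin (N + 1) → Ω) → U) :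
    hc Q (tk_aux B (N + 1)) Z = hc Q (fun w j => B (w j)) Z := by
  refine hc_congr Q ?_ ?_ (fun _ _ _ _ h => h) (fun _ _ _ _ h => h)
  · intro w w' _ _ h
    have h1 := (Prod.mk.inj h).1
    funext j
    simp only [tk_aux]
    rw [congrFun h1 j]
  · intro w w' _ _ h
    have h1 := (Prod.mk.inj h).1
    funext j
    have h3 := congrFun h1 j
    simp only [tk_aux] at h3
    rw [if_pos j.2, if_pos j.2] at h3
    exact Option.some.inj h3

/-- the cost of copies over the key `(l, A, I)`, where `I` is a function of `B` -/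
theorem cw_cost {P : Law Ω} {W : Ω → S} {N : ℕ} {Q : Law (Fin (N + 1) → Ω)}
    (hQ : ∀ w, Q.w w = cw P W N w) (l : Ω → T) (A : Ω → U) (B : Ω → V) (I : Ω → S')
    (hI : Fn P I B) (hW : Fn P W (fun ω => (l ω, A ω, I ω)))
    (hW' : Fn P (fun ω => (l ω, A ω, I ω)) W) (i : Fin (N + 1)) :
    mi Q (fun w => l (w i)) (fun w j => B (w j)) (fun w => A (w i)) ≤
      (N + 2) * mi P l B A := by
  -- the key is common on the support
  have hsupp : ∀ w, 0 < Q.w w → (∀ j, W (w j) = W (w i)) ∧ ∀ j, 0 < P.w (w j) := fun w hw => by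
    obtain ⟨h1, h2⟩ := cw_supp hQ hw
    exact ⟨fun j => by rw [h1 j, h1 i], h2⟩
  have hkey : ∀ w, 0 < Q.w w → ∀ j, (l (w j), A (w j), I (w j)) = (l (w i), A (w i), I (w i)) :=
    fun w hw j => hW' _ _ ((hsupp w hw).2 j) ((hsupp w hw).2 i) ((hsupp w hw).1 j)
  -- the variables given the full key
  have hA : ∀ k, k ≤ N + 1 → hc Q (tk_aux B k) (fun w => W (w i)) = k * hc P B W := by
    intro k
    induction k with
    | zero => intro _; rw [tk_zero_aux]; simp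
    | succ k ih =>
      intro hk
      rw [tk_succ_aux Q B k (by omega), ih (by omega)]
      have h1 : hc Q (fun w => B (w ⟨k, by omega⟩))
          (fun w => (tk_aux B k w, W (w i))) =
          hc Q (fun w => B (w ⟨k, by omega⟩))
          (fun w => (tk_aux B k w, W (w ⟨k, by omega⟩))) := by
        refine hc_congr Q (fun _ _ _ _ h => (Prod.mk.inj h).1) (fun _ _ _ _ h => (Prod.mk.inj h).1)
          ?_ ?_
        · intro w w' hw hw' h
          simp only [Prod.mk.injEq] at h ⊢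
          refine ⟨h.1, ?_⟩
          rw [← (hsupp w hw).1 ⟨k, by omega⟩, ← (hsupp w' hw').1 ⟨k, by omega⟩, h.2]
        · intro w w' hw hw' h
          simp only [Prod.mk.injEq] at h ⊢
          refine ⟨h.1, ?_⟩
          rw [(hsupp w hw).1 ⟨k, by omega⟩, (hsupp w' hw').1 ⟨k, by omega⟩, h.2]
      rw [h1, cw_indep hQ ⟨k, by omega⟩ B (tk_aux B k) (fun w w' h => by
        funext j
        simp only [tk_aux]
        by_cases hj : (j : ℕ) < k
        · rw [if_pos hj, if_pos hj, h j (fun hh => by rw [hh] at hj; exact lt_irrefl _ hj)]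
        · rw [if_neg hj, if_neg hj])]
      push_cast
      ring
  have hB : ∀ k, k ≤ N + 1 → hc Q (tk_aux B k) (fun w => (I (w i), A (w i))) ≤
      k * hc P B (fun ω => (I ω, A ω)) := by
    intro k
    induction k with
    | zero => intro _; rw [tk_zero_aux]; simp
    | succ k ih =>
      intro hk
      rw [tk_succ_aux Q B k (by omega)]
      have h1 : hc Q (fun w => B (w ⟨k, by omega⟩))
          (fun w => (tk_aux B k w, (I (w i), A (w i)))) ≤
          hc Q (fun w => B (w ⟨k, by omega⟩))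
          (fun w => (I (w ⟨k, by omega⟩), A (w ⟨k, by omega⟩))) := by
        refine hc_mono_right Q _ ?_
        intro w w' hw hw' h
        simp only [Prod.mk.injEq] at h ⊢
        have e1 := hkey w hw ⟨k, by omega⟩
        have e2 := hkey w' hw' ⟨k, by omega⟩
        simp only [Prod.mk.injEq] at e1 e2
        exact ⟨by rw [e1.2.2, e2.2.2, h.2.1], by rw [e1.2.1, e2.2.1, h.2.2]⟩
      rw [cw_hc hQ ⟨k, by omega⟩ B (fun ω => (I ω, A ω))] at h1
      have h2 := ih (by omega)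
      push_cast
      linarith only [h1, h2]
  have hA' := hA (N + 1) le_rfl
  have hB' := hB (N + 1) le_rfl
  rw [tk_last_aux] at hA' hB'
  -- the information given `I`
  have h1 : mi Q (fun w => l (w i)) (fun w j => B (w j)) (fun w => (I (w i), A (w i))) ≤
      (N + 1) * mi P l B (fun ω => (I ω, A ω)) := by
    rw [mi_symm Q, mi_symm P]
    unfold mi
    have e1 : hc Q (fun w j => B (w j)) (fun w => (l (w i), (I (w i), A (w i)))) =
        hc Q (fun w j => B (w j)) (fun w => W (w i)) := by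
      refine hc_congr Q (fun _ _ _ _ h => (Prod.mk.inj h).1) (fun _ _ _ _ h => (Prod.mk.inj h).1)
        ?_ ?_
      · intro w w' hw hw' h
        have := hW' _ _ ((hsupp w hw).2 i) ((hsupp w' hw').2 i) h
        simp only [Prod.mk.injEq] at this ⊢
        (clear * - this; tauto)
      · intro w w' hw hw' h
        refine hW _ _ ((hsupp w hw).2 i) ((hsupp w' hw').2 i) ?_
        simp only [Prod.mk.injEq] at h ⊢
        (clear * - h; tauto)
    have e2 : hc P B (fun ω => (l ω, (I ω, A ω))) = hc P B W := by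
      refine hc_congr P (fun _ _ _ _ h => (Prod.mk.inj h).1) (fun _ _ _ _ h => (Prod.mk.inj h).1)
        ?_ ?_
      · intro w w' hw hw' h
        have := hW' _ _ hw hw' h
        simp only [Prod.mk.injEq] at this ⊢
        (clear * - this; tauto)
      · intro w w' hw hw' h
        refine hW _ _ hw hw' ?_
        simp only [Prod.mk.injEq] at h ⊢
        (clear * - h; tauto)
    rw [e1, e2, hA']
    push_cast at hB' ⊢
    linarith only [hB']
  -- adding `I`
  have hFI : Fn Q (fun w => I (w i)) (fun w j => B (w j)) := fun w w' hw hw' h =>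
    hI _ _ ((hsupp w hw).2 i) ((hsupp w' hw').2 i) (congrFun h i)
  have h2 : mi Q (fun w => l (w i)) (fun w j => B (w j)) (fun w => A (w i)) ≤
      mi Q (fun w => l (w i)) (fun w => I (w i)) (fun w => A (w i)) +
      mi Q (fun w => l (w i)) (fun w j => B (w j)) (fun w => (I (w i), A (w i))) := by
    rw [← mi_pair]
    exact mi_mono_right Q _ (fun _ _ _ _ h => (Prod.mk.inj (Prod.mk.inj h).1).2)
  have h3 : mi Q (fun w => l (w i)) (fun w => I (w i)) (fun w => A (w i)) = mi P l I A := by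
    unfold mi
    rw [cw_hc hQ i l A, cw_hc hQ i l (fun ω => (I ω, A ω))]
  have h4 : mi P l I A + mi P l B (fun ω => (I ω, A ω)) ≤ mi P l B A := by
    rw [← mi_pair]
    exact mi_mono_right P _ (fun ω ω' hω hω' h => by
      have := (Prod.mk.inj h).1
      exact Prod.ext (hI ω ω' hω hω' this) this)
  have h5 := mi_nonneg P l I A
  have h6 := mi_nonneg P l B (fun ω => (I ω, A ω))
  have h7 : mi P l I A ≤ mi P l B A := by linarith only [h4, h6]
  have h8 : mi P l B (fun ω => (I ω, A ω)) ≤ mi P l B A := by linarith only [h4, h5]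
  have h9 : ((N : ℝ) + 1) * mi P l B (fun ω => (I ω, A ω)) ≤ (N + 1) * mi P l B A :=
    mul_le_mul_of_nonneg_left h8 (by (clear * -; positivity))
  linarith

/-! ### gluing -/

end copies

end Vale.Agent.P127.Stk
end

section

/-!
# P127 / Stk : entropy calculus

All sections are proved: `ent` (LibEnt), `dom` (LibDom), `floors` (LibFloors), `good` (LibGood),
`copies` (LibCopies).
-/
end

section

/-!
# P127 / Stk : section 6, preparations
-/

namespace Vale.Agent.P127.Stk.Bs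

open Finset Vale.Agent.P127 Vale.Agent.P127.Stk

section ap

variable {m : ℕ}

open Classical in
/-- the projection along the graph of `g` over the coordinates in `J` -/
noncomputable def ap (J : Finset (Fin m)) (g : Fin m → Fin m → ℝ) (v : Fin m → ℝ) :
    Fin m → ℝ :=
  fun i => if i ∈ J then 0 else v i - ∑ j ∈ J, g i j * v j

theorem ap_mem {J : Finset (Fin m)} (g : Fin m → Fin m → ℝ) (v : Fin m → ℝ) {i : Fin m}
    (h : i ∈ J) : ap J g v i = 0 := by
  simp [ap, h]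

theorem ap_nmem {J : Finset (Fin m)} (g : Fin m → Fin m → ℝ) (v : Fin m → ℝ) {i : Fin m}
    (h : i ∉ J) : ap J g v i = v i - ∑ j ∈ J, g i j * v j := by
  simp [ap, h]

theorem ap_add (J : Finset (Fin m)) (g : Fin m → Fin m → ℝ) (v w : Fin m → ℝ) (i : Fin m) :
    ap J g (fun i => v i + w i) i = ap J g v i + ap J g w i := by
  by_cases h : i ∈ J
  · simp [ap_mem _ _ h]
  · simp only [ap_nmem _ _ h, mul_add, Finset.sum_add_distrib]
    ring

theorem ap_smul (J : Finset (Fin m)) (g : Fin m → Fin m → ℝ) (r : ℝ) (v : Fin m → ℝ)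
    (i : Fin m) : ap J g (fun i => r * v i) i = r * ap J g v i := by
  by_cases h : i ∈ J
  · simp [ap_mem _ _ h]
  · simp only [ap_nmem _ _ h, mul_sub, Finset.mul_sum]
    congr 1
    exact Finset.sum_congr rfl fun j _ => by ring

theorem ap_sub (J : Finset (Fin m)) (g : Fin m → Fin m → ℝ) (v w : Fin m → ℝ) (i : Fin m) :
    ap J g (fun i => v i - w i) i = ap J g v i - ap J g w i := by
  by_cases h : i ∈ J
  · simp [ap_mem _ _ h]
  · simp only [ap_nmem _ _ h, mul_sub, Finset.sum_sub_distrib]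
    ring

theorem ap_le {J : Finset (Fin m)} {g : Fin m → Fin m → ℝ} {v : Fin m → ℝ} {G M : ℝ}
    (hG : 0 ≤ G) (hM : 0 ≤ M) (hg : ∀ i j, |g i j| ≤ G) (hv : ∀ i, |v i| ≤ M) (i : Fin m) :
    |ap J g v i| ≤ (1 + J.card * G) * M := by
  by_cases h : i ∈ J
  · rw [ap_mem _ _ h, abs_zero]
    (clear * - hG hM; positivity)
  · rw [ap_nmem _ _ h]
    have h1 : |∑ j ∈ J, g i j * v j| ≤ J.card * (G * M) := by
      refine (Finset.abs_sum_le_sum_abs _ _).trans ?_
      rw [← nsmul_eq_mul]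
      refine Finset.sum_le_card_nsmul _ _ _ fun j _ => ?_
      rw [abs_mul]
      exact mul_le_mul (hg i j) (hv j) (abs_nonneg _) hG
    have h2 := abs_sub (v i) (∑ j ∈ J, g i j * v j)
    have h3 := hv i
    linarith

end ap

section diam

variable {Ω : Type} [Fintype Ω] {ι : Type} [Fintype ι] {T : Type*}

theorem fl_close {s : ℕ} {v w : ι → ℝ} (h : fl s v = fl s w) (i : ι) :
    |v i - w i| ≤ (1 / 2 : ℝ) ^ s := by
  have h1 : ⌊(2 : ℝ) ^ s * v i⌋ = ⌊(2 : ℝ) ^ s * w i⌋ := congrFun h i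
  have h2 := Int.abs_sub_lt_one_of_floor_eq_floor h1
  rw [← mul_sub, abs_mul, abs_of_pos (by positivity : (0 : ℝ) < 2 ^ s)] at h2
  rw [one_div, inv_pow, ← one_div, le_div_iff₀ (by positivity)]
  linarith only [h2]

theorem fl1_close {s : ℕ} {v w : ℝ} (h : fl1 s v = fl1 s w) :
    |v - w| ≤ (1 / 2 : ℝ) ^ s := by
  have h2 := Int.abs_sub_lt_one_of_floor_eq_floor (h : ⌊(2 : ℝ) ^ s * v⌋ = ⌊(2 : ℝ) ^ s * w⌋)
  rw [← mul_sub, abs_mul, abs_of_pos (by positivity : (0 : ℝ) < 2 ^ s)] at h2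
  rw [one_div, inv_pow, ← one_div, le_div_iff₀ (by positivity)]
  linarith

/-- if the diameter of the values of `v` given `Y` is at most `N 2^{-s}`, then the first `s` digits
of `v` have bounded entropy given `Y` -/
theorem hc_fl_diam (P : Law Ω) (s N : ℕ) (v : Ω → ι → ℝ) (Y : Ω → T)
    (h : ∀ ω ω', 0 < P.w ω → 0 < P.w ω' → Y ω = Y ω' → ∀ i,
      |v ω i - v ω' i| ≤ N * (1 / 2 : ℝ) ^ s) :
    hc P (fun ω => fl s (v ω)) Y ≤ Fintype.card ι * Real.log (2 * N + 3) := by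
  classical
  have h1 := hc_le_log P (fun ω => fl s (v ω)) Y ((2 * N + 3) ^ Fintype.card ι) ?_
  · rw [Nat.cast_pow, Real.log_pow] at h1
    push_cast at h1
    exact h1
  · intro ω hω
    refine ⟨Fintype.piFinset fun i => Finset.Icc (fl s (v ω) i - (N + 1))
      (fl s (v ω) i + (N + 1)), ?_, ?_⟩
    · rw [Fintype.card_piFinset]
      have : ∀ i, (Finset.Icc (fl s (v ω) i - (N + 1)) (fl s (v ω) i + (N + 1))).card =
          2 * N + 3 := by
        intro i
        rw [Int.card_Icc]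
        omega
      simp only [this, Finset.prod_const, Finset.card_univ]
      exact le_rfl
    · intro ω' hω' hY
      rw [Fintype.mem_piFinset]
      intro i
      have h2 := fl_sub_le (s := s) (v := v ω') (w := v ω) (N := N)
        (fun i => h ω' ω hω' hω hY i) i
      rw [abs_le] at h2
      rw [Finset.mem_Icc]
      omega

end diam

section unif

variable {Ω : Type} [Fintype Ω] {S T U : Type*}

/-- the product of a law with the uniform law on `Fin M` -/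
noncomputable def pu (Q : Law Ω) (M : ℕ) (hM : 0 < M) : Law (Ω × Fin M) where
  w p := Q.w p.1 / M
  nn p := div_nonneg (Q.nn _) (Nat.cast_nonneg _)
  sum_one := by
    rw [Fintype.sum_prod_type]
    simp only [Finset.sum_const, Finset.card_univ, Fintype.card_fin, nsmul_eq_mul]
    have : ∀ x, (M : ℝ) * (Q.w x / M) = Q.w x := fun x => by
      have : (M : ℝ) ≠ 0 := by positivity
      field_simp
    simp only [this, Q.sum_one]

variable (Q : Law Ω) (M : ℕ) (hM : 0 < M)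

theorem pu_pos {p : Ω × Fin M} : 0 < (pu Q M hM).w p ↔ 0 < Q.w p.1 := by
  have : (0 : ℝ) < M := by exact_mod_cast hM
  simp only [pu]
  constructor
  · intro h
    by_contra hcon
    have := (Q.nn p.1).antisymm' (not_lt.1 hcon)
    rw [this, zero_div] at h
    exact lt_irrefl _ h
  · intro h
    (clear * - h hM; positivity)

theorem pu_ex_fst (f : Ω → ℝ) : (pu Q M hM).ex (fun p => f p.1) = Q.ex f := by
  have hM' : (M : ℝ) ≠ 0 := by positivity
  simp only [Law.ex, pu]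
  rw [Fintype.sum_prod_type]
  refine Finset.sum_congr rfl fun x _ => ?_
  simp only [Finset.sum_const, Finset.card_univ, Fintype.card_fin, nsmul_eq_mul]
  (clear * - hM'; field_simp)

theorem pu_pr_fst (X : Ω → S) (x : S) : (pu Q M hM).pr (fun p => X p.1) x = Q.pr X x := by
  rw [Law.pr_eq_ex, Law.pr_eq_ex]
  exact pu_ex_fst Q M hM fun ω => Law.ind (X ω = x)

theorem pu_H_fst (X : Ω → S) : (pu Q M hM).H (fun p => X p.1) = Q.H X := by
  unfold Law.H
  simp only [pu_pr_fst]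
  exact pu_ex_fst Q M hM fun ω => -Real.log (Q.pr X (X ω))

theorem pu_hc_fst (X : Ω → S) (Y : Ω → T) :
    hc (pu Q M hM) (fun p => X p.1) (fun p => Y p.1) = hc Q X Y := by
  unfold hc
  rw [pu_H_fst Q M hM Y, pu_H_fst Q M hM (fun ω => (X ω, Y ω))]

theorem pu_pr_pair (X : Ω → S) (k : Fin M) (x : S) :
    (pu Q M hM).pr (fun p => (p.2, X p.1)) (k, x) = Q.pr X x / M := by
  classical
  rw [Law.pr_eq_ex, Law.pr_eq_ex]
  simp only [Law.ex, pu]
  rw [Fintype.sum_prod_type, Finset.sum_div]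
  refine Finset.sum_congr rfl fun ω _ => ?_
  rw [Finset.sum_eq_single k]
  · by_cases h : X ω = x
    · rw [Law.ind_of (by rw [h]), Law.ind_of h]
      ring
    · rw [Law.ind_not (by simp [h]), Law.ind_not h]
      ring
  · intro k' _ hk'
    rw [Law.ind_not (by simp [hk']), mul_zero]
  · simp only [mem_univ, not_true_eq_false, Prod.mk.injEq, true_and, mul_eq_zero, div_eq_zero_iff, Nat.cast_eq_zero, IsEmpty.forall_iff]

theorem pu_H_pair (X : Ω → S) :
    (pu Q M hM).H (fun p => (p.2, X p.1)) = Real.log M + Q.H X := by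
  have hM' : (0 : ℝ) < M := by exact_mod_cast hM
  unfold Law.H
  simp only [pu_pr_pair]
  rw [← pu_ex_fst Q M hM fun ω => -Real.log (Q.pr X (X ω)),
    ← (pu Q M hM).ex_const (Real.log M), ← Law.ex_add]
  refine Law.ex_congr _ fun p hp => ?_
  have h1 := Q.pr_pos X ((pu_pos Q M hM).1 hp)
  rw [Real.log_div h1.ne' hM'.ne']
  ring

/-- the uniform variable is independent of everything else -/
theorem pu_hc_snd (Y : Ω → T) :
    hc (pu Q M hM) (fun p => p.2) (fun p => Y p.1) = Real.log M := by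
  unfold hc
  rw [pu_H_pair, pu_H_fst]
  ring

theorem pu_hc_cond (X : Ω → S) (Y : Ω → T) :
    hc (pu Q M hM) (fun p => X p.1) (fun p => (p.2, Y p.1)) = hc Q X Y := by
  unfold hc
  rw [pu_H_pair]
  have : (pu Q M hM).H (fun p => (X p.1, p.2, Y p.1)) =
      (pu Q M hM).H (fun p => (p.2, X p.1, Y p.1)) := by
    refine Law.H_congr _ fun p p' => ?_
    simp only [Prod.mk.injEq]
    tauto
  rw [this, pu_H_pair Q M hM (fun ω => (X ω, Y ω))]
  ring

end unif

end Vale.Agent.P127.Stk.Bs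
end

section

/-!
# P127 / Stk : the law of arithmetic progressions of times, the statement `A(k)`

Section 7 and section 8 of PROOF.md meet here. `AK R m h κ k` (to be proved in section 8) says that the
alternating sums with binomial weights of `Γ` along random arithmetic progressions of `k + 2`
times are small; section 7 proves `AK → CK` (`PInterp`).
-/

namespace Vale.Agent.P127.Stk

open Finset Vale.Agent.P127

section ap

variable {Ω : Type} [Fintype Ω] {S : Type*}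

open Classical in
/-- `1 / (M ρ(U))`, where `ρ` is the law of `U` given `W`, at the points where `ρ(U) ≥ 1/(2M)`;
zero at the other points -/
noncomputable def idn (P : Law Ω) (W : Ω → S) (U : Ω → ℤ) (M : ℕ) (ω : Ω) : ℝ :=
  if P.pr W (W ω) ≤ 2 * M * P.pr (fun ω => (W ω, U ω)) (W ω, U ω) then
    P.pr W (W ω) / (M * P.pr (fun ω => (W ω, U ω)) (W ω, U ω)) else 0

open Classical in
/-- unnormalised weights of the law of arithmetic progressions of length `p + 1`: the key `W`,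
a uniform progression `x, x + μ, ..., x + p μ` in `[0, M)` all of whose terms are good for the key,
and independent samples with these values of `U` -/
noncomputable def apw (P : Law Ω) (W : Ω → S) (U : Ω → ℤ) (M p : ℕ) (w : Fin (p + 1) → Ω) : ℝ :=
  if ∃ μ : ℤ, ∀ j : Fin (p + 1), U (w j) = U (w 0) + (j : ℕ) * μ then
    cw P W p w * ∏ j, idn P W U M (w j) else 0

/-- the digits of the time after the first `a` -/
noncomputable def low {m : ℕ} (c : Cf Ω m) (a L : ℕ) (ω : Ω) : ℤ :=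
  fl1 L (c.t ω) - 2 ^ (L - a) * fl1 a (c.t ω)

end ap

open Classical in
/-- `A(k)` : the differences of order `k + 1` of `Γ` along typical arithmetic progressions of times
in a dyadic interval of length `2^{-a}` are at most `2^{-(k+1)a}` -/
def AK (R : Gr) (m : ℕ) (h : ℝ) (κ k : ℕ) : Prop :=
  Ev R m h κ fun ε a Ω _ P c o =>
    ∀ Q : Law (Fin (k + 2) → Ω), (∃ Z : ℝ, 0 < Z ∧ ∀ w, Q.w w =
        apw P (key c a) (low c a ((κ + 4) * a)) (2 ^ ((κ + 3) * a)) (k + 1) w / Z) →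
      ∑ w with (∃ i, i ∉ o.J ∧ ∃ j ∈ o.J,
          (2 : ℝ) ^ (-(((k + 1) * a : ℕ) : ℝ) + ε * ((κ + 4) * a : ℕ)) <
            |∑ l : Fin (k + 2), (-1 : ℝ) ^ (l : ℕ) * ((k + 1).choose l : ℝ) * o.Γ (w l) i j|),
        Q.w w ≤ ε

/-- the polynomial interpolation theorem (section 7) -/
def PInterp (R : Gr) : Prop := ∀ (m : ℕ) (h : ℝ) (κ k : ℕ), k ≤ κ + 1 → AK R m h κ k → CK R m h κ k

end Vale.Agent.P127.Stk
end

section

/-!
# P127 / Stk : the absorption lemma (PROOF.md, section 4), final statement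

`B` = conditioning data, `q` = coarse information, `X i` the variables, `X i = X 0 + φ i (B, q)` up to
a bounded error. The sample `π` with the extra information `Z` is the given law, `π1, π2` are two
samples with the same `X 0`, conditionally independent given `(X 0, B, Z)`. All costs are bounded in
terms of the WHOLE sample: `I(π ; Z | B) ≤ ε' θ`.
-/

namespace Vale.Agent.P127.Stk

open Finset Vale.Agent.P127

/-- the hypotheses of the absorption lemma, with error `e` (an absolute number) -/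
structure AbsHyp {Ω : Type} [Fintype Ω] {β κ : Type} {d J : ℕ} (N0 θ : ℕ) (ρ e : ℝ) (P : Law Ω)
    (B : Ω → β) (q : Ω → κ) (X : Fin (J + 1) → Ω → Fin d → ℤ)
    (φ : Fin (J + 1) → β → κ → Fin d → ℤ) : Prop where
  err : ∀ i ω c, |X i ω c - X 0 ω c - φ i (B ω) (q ω) c| ≤ N0
  rng : ∀ i ω ω', B ω = B ω' → ∀ c, |X i ω c - X i ω' c| ≤ 2 ^ θ
  upp : ∀ i, hc P (X i) B ≤ ρ + e
  low : ρ - e ≤ hc P (X 0) (fun ω => (q ω, B ω))

/-- the conclusion of the absorption lemma, with error `e'` (an absolute number) -/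
structure AbsCon {Ω : Type} [Fintype Ω] {β κ : Type} {d J : ℕ} (ρ e' : ℝ) (P : Law Ω)
    (B : Ω → β) (q : Ω → κ) (X : Fin (J + 1) → Ω → Fin d → ℤ)
    (φ : Fin (J + 1) → β → κ → Fin d → ℤ) (σ : Fin (J + 1) → ℤ)
    {Ω' : Type} [Fintype Ω'] (P' : Law Ω') {ζ : Type} (Z : Ω' → ζ) (π π1 π2 : Ω' → Ω) : Prop where
  smp : ∀ ω, P'.pr π ω = P.w ω
  B1 : ∀ w, B (π1 w) = B (π w)
  B2 : ∀ w, B (π2 w) = B (π w)
  X12 : ∀ w, X 0 (π1 w) = X 0 (π2 w)
  law1 : ∀ z ω, P'.pr (fun w => (Z w, π1 w)) (z, ω) = P'.pr (fun w => (Z w, π w)) (z, ω)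
  law2 : ∀ z ω, P'.pr (fun w => (Z w, π2 w)) (z, ω) = P'.pr (fun w => (Z w, π w)) (z, ω)
  ci12 : mi P' π1 π2 (fun w => (X 0 (π1 w), B (π w), Z w)) = 0
  ci0 : mi P' (fun w => (π1 w, π2 w)) π (fun w => (B (π w), Z w)) = 0
  cost : mi P' π Z (fun w => B (π w)) ≤ e'
  main : hc P' (fun w c => X 0 (π w) c +
      ∑ i, σ i * (φ i (B (π w)) (q (π2 w)) c - φ i (B (π w)) (q (π1 w)) c))
      (fun w => (q (π w), B (π w), Z w)) ≤ ρ + e'

/-- the absorption lemma -/
def PAbs : Prop := ∀ (d J N0 : ℕ) (ε' : ℝ), 0 < ε' → ∃ ε : ℝ, 0 < ε ∧ ∃ θ0 : ℕ, ∀ θ : ℕ, θ0 ≤ θ →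
  ∀ (Ω : Type) [Fintype Ω] (P : Law Ω) (β κ : Type) (B : Ω → β) (q : Ω → κ)
    (X : Fin (J + 1) → Ω → Fin d → ℤ) (φ : Fin (J + 1) → β → κ → Fin d → ℤ) (ρ : ℝ)
    (σ : Fin (J + 1) → ℤ), (∀ i, σ i = 1 ∨ σ i = -1) →
    AbsHyp N0 θ ρ (ε * θ) P B q X φ →
    ∃ (Ω' : Type) (_ : Fintype Ω') (P' : Law Ω') (ζ : Type) (Z : Ω' → ζ) (π π1 π2 : Ω' → Ω),
      AbsCon ρ (ε' * θ) P B q X φ σ P' Z π π1 π2

end Vale.Agent.P127.Stk
end

section

/-!
# P127 / Stk : the absorption lemma in the form used by StepC, from AbsStmt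
-/

namespace Vale.Agent.P127.Stk.AbsB

open Finset Vale.Agent.P127

/-- Section 4, absorption lemma, the form used in section 8 -/
def PAbsV : Prop := ∀ (d N0 : ℕ) (V : Type) [Fintype V] (v0 : V) (ε' : ℝ), 0 < ε' →
  ∃ ε : ℝ, 0 < ε ∧ ∃ θ0 : ℕ, ∀ θ : ℕ, θ0 ≤ θ →
  ∀ (Ω β γ : Type) [Fintype Ω] (P : Law Ω) (B : Ω → β) (q : Ω → γ) (X : V → Ω → Fin d → ℤ)
    (φ : V → β → γ → Fin d → ℤ) (b : V → ℤ) (ρ : ℝ), (∀ v, b v = 1 ∨ b v = -1) →
    (∀ v ω, 0 < P.w ω → ∀ i, |X v ω i - X v0 ω i - φ v (B ω) (q ω) i| ≤ N0) →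
    (∀ v ω ω', 0 < P.w ω → 0 < P.w ω' → B ω = B ω' → ∀ i, |X v ω i - X v ω' i| ≤ 2 ^ θ) →
    (∀ v, hc P (X v) B ≤ ρ + ε * θ) →
    ρ - ε * θ ≤ hc P (X v0) (fun ω => (q ω, B ω)) →
    ∃ (Ω' ζ : Type) (_ : Fintype Ω') (P' : Law Ω') (Z : Ω' → ζ) (π π1 π2 : Ω' → Ω),
      (∀ ω, P'.pr π ω = P.w ω) ∧
      (∀ ω, 0 < P'.w ω → B (π1 ω) = B (π ω) ∧ B (π2 ω) = B (π ω) ∧
        X v0 (π1 ω) = X v0 (π2 ω)) ∧
      (∀ z ω, P'.pr (fun ω' => (Z ω', π1 ω')) (z, ω) = P'.pr (fun ω' => (Z ω', π ω')) (z, ω)) ∧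
      (∀ z ω, P'.pr (fun ω' => (Z ω', π2 ω')) (z, ω) = P'.pr (fun ω' => (Z ω', π ω')) (z, ω)) ∧
      mi P' π1 π2 (fun ω => (X v0 (π1 ω), B (π ω), Z ω)) = 0 ∧
      mi P' π (fun ω => (π1 ω, π2 ω)) (fun ω => (B (π ω), Z ω)) = 0 ∧
      mi P' (fun ω => (q (π ω), X v0 (π ω))) Z (fun ω => B (π ω)) ≤ ε' * θ ∧
      hc P' (fun ω i => X v0 (π ω) i +
          ∑ v, b v * (φ v (B (π ω)) (q (π2 ω)) i - φ v (B (π ω)) (q (π1 ω)) i))
        (fun ω => (q (π ω), B (π ω), Z ω)) ≤ ρ + ε' * θ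

variable {Ω : Type} [Fintype Ω]

/-- the support of a law -/
structure Sp (P : Law Ω) : Type where
  /-- the point -/
  v : Ω
  pos : 0 < P.w v

theorem Sp.ext' {P : Law Ω} {a b : Sp P} (h : a.1 = b.1) : a = b := by
  cases a
  cases b
  cases h
  rfl

noncomputable instance (P : Law Ω) : Fintype (Sp P) := by
  classical
  exact Fintype.ofInjective (fun ω : Sp P => ω.1) fun _ _ h => Sp.ext' h

/-- the law on its support -/
noncomputable def sp (P : Law Ω) : Law (Sp P) where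
  w ω := P.w ω.1
  nn ω := P.nn ω.1
  sum_one := by
    classical
    rw [← P.sum_one]
    have h1 : ∑ ω : Sp P, P.w ω.1 = ∑ ω ∈ univ.filter (fun ω => 0 < P.w ω), P.w ω := by
      refine Finset.sum_bij (fun ω _ => ω.1) (fun ω _ => by simp [ω.2])
        (fun a _ b _ h => Sp.ext' h) (fun b hb => ?_) (fun _ _ => rfl)
      exact ⟨⟨b, (Finset.mem_filter.mp hb).2⟩, Finset.mem_univ _, rfl⟩
    rw [h1]
    refine Finset.sum_subset (Finset.filter_subset _ _) fun ω _ hω => ?_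
    have : ¬ 0 < P.w ω := fun h => hω (Finset.mem_filter.mpr ⟨Finset.mem_univ _, h⟩)
    exact le_antisymm (not_lt.mp this) (P.nn ω)

theorem sp_pr (P : Law Ω) (ω : Ω) : (sp P).pr (fun ω => ω.1) ω = P.w ω := by
  classical
  unfold Law.pr
  by_cases h : 0 < P.w ω
  · rw [Finset.sum_eq_single (⟨ω, h⟩ : Sp P)]
    · rfl
    · intro b hb hne
      simp only [Finset.mem_filter] at hb
      exact absurd (Sp.ext' hb.2) hne
    · intro hn
      simp only [mem_filter, mem_univ, and_self, not_true_eq_false] at hn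
  · have h0 : P.w ω = 0 := le_antisymm (not_lt.mp h) (P.nn ω)
    rw [h0]
    refine Finset.sum_eq_zero fun b hb => ?_
    simp only [Finset.mem_filter] at hb
    exact absurd (hb.2 ▸ b.2) h

theorem sp_push (P : Law Ω) : push (sp P) (fun ω => ω.1) = P :=
  law_ext (sp_pr P)

theorem sp_hc {S T : Type*} (P : Law Ω) (X : Ω → S) (Y : Ω → T) :
    hc (sp P) (fun ω => X ω.1) (fun ω => Y ω.1) = hc P X Y := by
  conv_rhs => rw [← sp_push P]
  rw [push_hc]
  rfl

theorem pr_val {Ω' : Type} [Fintype Ω'] {ζ : Type} (P : Law Ω) (P' : Law Ω') (Z : Ω' → ζ)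
    (π π1 : Ω' → Sp P)
    (h : ∀ z ω, P'.pr (fun w => (Z w, π1 w)) (z, ω) = P'.pr (fun w => (Z w, π w)) (z, ω))
    (z : ζ) (ω : Ω) :
    P'.pr (fun w => (Z w, (π1 w).1)) (z, ω) = P'.pr (fun w => (Z w, (π w).1)) (z, ω) := by
  classical
  have key : ∀ ρ : Ω' → Sp P, ∀ hω : 0 < P.w ω,
      P'.pr (fun w => (Z w, (ρ w).1)) (z, ω) = P'.pr (fun w => (Z w, ρ w)) (z, ⟨ω, hω⟩) := by
    intro ρ hω
    unfold Law.pr
    refine Finset.sum_congr ?_ fun _ _ => rfl
    ext w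
    simp only [Prod.mk.injEq, mem_filter, mem_univ, true_and]
    constructor
    · rintro ⟨h1, h2⟩
      exact ⟨h1, Sp.ext' h2⟩
    · rintro ⟨h1, h2⟩
      exact ⟨h1, congrArg Sp.v h2⟩
  have key0 : ∀ ρ : Ω' → Sp P, ¬ 0 < P.w ω →
      P'.pr (fun w => (Z w, (ρ w).1)) (z, ω) = 0 := by
    intro ρ hω
    unfold Law.pr
    refine Finset.sum_eq_zero fun b hb => ?_
    simp only [Finset.mem_filter, Prod.mk.injEq] at hb
    exact absurd (hb.2.2 ▸ (ρ b).2) hω
  by_cases hω : 0 < P.w ω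
  · rw [key π1 hω, key π hω, h]
  · rw [key0 π1 hω, key0 π hω]

/-- the support version with arbitrary index type -/
theorem pAbsV (hA : PAbs) : PAbsV := by
  classical
  intro d N0 V _ v0 ε' hε'
  obtain ⟨J, hJ⟩ : ∃ J, Fintype.card V = J + 1 :=
    ⟨Fintype.card V - 1, (Nat.succ_pred_eq_of_pos (Fintype.card_pos_iff.mpr ⟨v0⟩)).symm⟩
  obtain ⟨eV, hV0⟩ : ∃ eV : Fin (J + 1) ≃ V, eV 0 = v0 := by
    have e0 : Fin (J + 1) ≃ V := (Fintype.equivFinOfCardEq hJ).symm
    exact ⟨(Equiv.swap 0 (e0.symm v0)).trans e0, by simp⟩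
  obtain ⟨ε, hε, θ0, hθ0⟩ := hA d J N0 ε' hε'
  refine ⟨ε, hε, θ0, fun θ hθ => ?_⟩
  intro Ω β γ _ P B q X φ b ρ hb herr hrng hupp hlow
  have hyp : AbsHyp N0 θ ρ (ε * θ) (sp P) (fun ω => B ω.1) (fun ω => q ω.1)
      (fun i ω => X (eV i) ω.1) (fun i => φ (eV i)) := by
    refine ⟨?_, ?_, ?_, ?_⟩
    · intro i ω c
      rw [hV0]
      exact herr (eV i) ω.1 ω.2 c
    · intro i ω ω' h c
      exact hrng (eV i) ω.1 ω'.1 ω.2 ω'.2 h c
    · intro i
      rw [sp_hc P (X (eV i)) B]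
      exact hupp (eV i)
    · rw [hV0, sp_hc P (X v0) (fun ω => (q ω, B ω))]
      exact hlow
  obtain ⟨Ω', iF, P', ζ, Z, π, π1, π2, H⟩ := hθ0 θ hθ (Sp P) (sp P) β γ (fun ω => B ω.1)
    (fun ω => q ω.1) (fun i ω => X (eV i) ω.1) (fun i => φ (eV i)) ρ (fun i => b (eV i))
    (fun i => hb (eV i)) hyp
  have hX12 := H.X12
  have hci12 := H.ci12
  have hmain := H.main
  simp only [hV0] at hX12 hci12 hmain
  refine ⟨Ω', ζ, iF, P', Z, fun w => (π w).1, fun w => (π1 w).1, fun w => (π2 w).1,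
    ?_, ?_, ?_, ?_, ?_, ?_, ?_, ?_⟩
  · intro ω
    have h1 : push P' (fun w => (π w).1) = push (push P' π) (fun ω => ω.1) := by
      refine law_ext fun ω => ?_
      rw [push_w, push_w, push_pr]
      rfl
    have h2 : push P' π = sp P := law_ext H.smp
    rw [← push_w, h1, h2, sp_push]
  · intro ω _
    exact ⟨H.B1 ω, H.B2 ω, hX12 ω⟩
  · exact pr_val P P' Z π π1 H.law1
  · exact pr_val P P' Z π π2 H.law2
  · refine Eq.trans ?_ hci12
    have e1 : hc P' (fun w => (π1 w).1) (fun ω => (X v0 (π1 ω).1, B (π ω).1, Z ω)) =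
        hc P' π1 (fun w => (X v0 (π1 w).1, B (π w).1, Z w)) :=
      hc_congr P' (fun w w' _ _ e => congrArg Sp.v (Prod.mk.injEq _ _ _ _ ▸ e).1)
        (fun w w' _ _ e => Sp.ext' (Prod.mk.injEq _ _ _ _ ▸ e).1)
        (fun w w' _ _ e => e) (fun w w' _ _ e => e)
    have e2 : hc P' (fun w => (π1 w).1)
        (fun ω => ((π2 ω).1, X v0 (π1 ω).1, B (π ω).1, Z ω)) =
        hc P' π1 (fun w => (π2 w, X v0 (π1 w).1, B (π w).1, Z w)) :=
      hc_congr P' (fun w w' _ _ e => congrArg Sp.v (Prod.mk.injEq _ _ _ _ ▸ e).1)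
        (fun w w' _ _ e => Sp.ext' (Prod.mk.injEq _ _ _ _ ▸ e).1)
        (fun w w' _ _ e => by
          simp only [Prod.mk.injEq] at e ⊢
          exact ⟨congrArg Sp.v e.1, e.2⟩)
        (fun w w' _ _ e => by
          simp only [Prod.mk.injEq] at e ⊢
          exact ⟨Sp.ext' e.1, e.2⟩)
    exact congrArg₂ (fun a b : ℝ => a - b) e1 e2
  · have h1 := H.ci0
    rw [mi_symm] at h1
    refine Eq.trans ?_ h1
    have e1 : hc P' (fun w => (π w).1) (fun ω => (B (π ω).1, Z ω)) =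
        hc P' π (fun w => (B (π w).1, Z w)) :=
      hc_congr P' (fun w w' _ _ e => congrArg Sp.v (Prod.mk.injEq _ _ _ _ ▸ e).1)
        (fun w w' _ _ e => Sp.ext' (Prod.mk.injEq _ _ _ _ ▸ e).1)
        (fun w w' _ _ e => e) (fun w w' _ _ e => e)
    have e2 : hc P' (fun w => (π w).1)
        (fun ω => (((π1 ω).1, (π2 ω).1), B (π ω).1, Z ω)) =
        hc P' π (fun w => ((π1 w, π2 w), B (π w).1, Z w)) :=
      hc_congr P' (fun w w' _ _ e => congrArg Sp.v (Prod.mk.injEq _ _ _ _ ▸ e).1)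
        (fun w w' _ _ e => Sp.ext' (Prod.mk.injEq _ _ _ _ ▸ e).1)
        (fun w w' _ _ e => by
          simp only [Prod.mk.injEq] at e ⊢
          exact ⟨⟨congrArg Sp.v e.1.1, congrArg Sp.v e.1.2⟩, e.2⟩)
        (fun w w' _ _ e => by
          simp only [Prod.mk.injEq] at e ⊢
          exact ⟨⟨Sp.ext' e.1.1, Sp.ext' e.1.2⟩, e.2⟩)
    exact congrArg₂ (fun a b : ℝ => a - b) e1 e2
  · refine (mi_mono_left P' Z ?_).trans H.cost
    intro w w' _ _ e
    have e1 := (Prod.mk.injEq _ _ _ _ ▸ e).1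
    show (q (π w).1, X v0 (π w).1) = (q (π w').1, X v0 (π w').1)
    rw [e1]
  · refine le_trans (le_of_eq ?_) hmain
    congr 1
    funext w i
    congr 1
    exact (Equiv.sum_comp eV (fun v => b v *
      (φ v (B (π w).1) (q (π2 w).1) i - φ v (B (π w).1) (q (π1 w).1) i))).symm

end Vale.Agent.P127.Stk.AbsB
end

section

/-!
# P127 / Stk : from entropy to near-uniformity
-/

namespace Vale.Agent.P127.Stk

open Finset Vale.Agent.P127

/-- distance of the law of `U` given `W = s` from the uniform law on `[0, M)` -/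
noncomputable def l1 {Ω : Type} [Fintype Ω] {S : Type*} (P : Law Ω) (W : Ω → S) (U : Ω → ℤ)
    (M : ℕ) (s : S) : ℝ :=
  ∑ u ∈ Ico (0 : ℤ) M, |P.pr (fun ω => (W ω, U ω)) (s, u) / P.pr W s - 1 / M|

section unif

variable {Ω : Type} [Fintype Ω] {S : Type*}

theorem un_swap {T : Type*} (P : Law Ω) (W : Ω → S) (U : Ω → T) (s : S) (u : T) :
    P.pr (fun ω => (W ω, U ω)) (s, u) = P.pr (fun ω => (U ω, W ω)) (u, s) := by
  classical
  unfold Law.pr
  refine Finset.sum_congr ?_ fun _ _ => rfl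
  ext ω
  simp only [Prod.mk.injEq, mem_filter, mem_univ, true_and, and_comm]

/-- `∑_u P(s,u) ≤ P(s)` -/
theorem un_sum_le {T : Type*} (P : Law Ω) (W : Ω → S) (U : Ω → T) (s : S) (F : Finset T) :
    ∑ u ∈ F, P.pr (fun ω => (W ω, U ω)) (s, u) ≤ P.pr W s := by
  have h := P.sum_pr_pair_le U W s F
  simpa only [un_swap P W U] using h

/-- lower bound for the affinity in terms of the entropy -/
theorem un_aff {T : Type*} (P : Law Ω) (W : Ω → S) (U : Ω → T) (M : ℕ) (hM : 1 ≤ M) :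
    2 - 2 * P.ex (fun ω => (Real.sqrt (M * (P.pr (fun ω => (W ω, U ω)) (W ω, U ω) /
      P.pr W (W ω))))⁻¹) ≤ Real.log M - hc P U W := by
  have hM0 : (0 : ℝ) < M := by exact_mod_cast hM
  have h1 : P.ex (fun ω => 2 - 2 * (Real.sqrt (M * (P.pr (fun ω => (W ω, U ω)) (W ω, U ω) /
      P.pr W (W ω))))⁻¹) ≤ P.ex (fun ω => Real.log M - (-Real.log (P.pr (fun ω => (U ω, W ω))
        (U ω, W ω)) - (-Real.log (P.pr W (W ω))))) := by
    refine P.ex_mono fun ω hω => ?_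
    have hW : 0 < P.pr W (W ω) := P.pr_pos W hω
    have hWU : 0 < P.pr (fun ω => (W ω, U ω)) (W ω, U ω) := P.pr_pos (fun ω => (W ω, U ω)) hω
    set x : ℝ := M * (P.pr (fun ω => (W ω, U ω)) (W ω, U ω) / P.pr W (W ω)) with hx
    have hx0 : 0 < x := by (clear * - hM hWU hW; positivity)
    have hs : 0 < Real.sqrt x := Real.sqrt_pos.2 hx0
    have h2 := Real.log_le_sub_one_of_pos (inv_pos.2 hs)
    rw [Real.log_inv, Real.log_sqrt hx0.le] at h2
    have h3 : Real.log x = Real.log M + (Real.log (P.pr (fun ω => (W ω, U ω)) (W ω, U ω)) -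
        Real.log (P.pr W (W ω))) := by
      rw [hx, Real.log_mul hM0.ne' (div_pos hWU hW).ne', Real.log_div hWU.ne' hW.ne']
    have h4 := un_swap P W U (W ω) (U ω)
    rw [← h4]
    linarith only [h2, h3]
  rw [P.ex_sub, P.ex_const, P.ex_const_mul, P.ex_sub, P.ex_const, P.ex_sub] at h1
  exact h1

/-- Pinsker's inequality on average -/
theorem unif_l1 (P : Law Ω) (W : Ω → S) (U : Ω → ℤ) (M : ℕ)
    (hM : 1 ≤ M) (hU : ∀ ω, 0 < P.w ω → 0 ≤ U ω ∧ U ω < M) (e : ℝ) (he : 0 ≤ e)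
    (h : Real.log M - e ≤ hc P U W) : P.ex (fun ω => l1 P W U M (W ω)) ≤ 2 * Real.sqrt e := by
  classical
  have hM0 : (0 : ℝ) < M := by exact_mod_cast hM
  -- conditional probabilities
  set ρ : S → ℤ → ℝ := fun s u => P.pr (fun ω => (W ω, U ω)) (s, u) / P.pr W s with hρ
  have hρ0 : ∀ s u, 0 ≤ ρ s u := fun s u => div_nonneg (P.pr_nonneg _ _) (P.pr_nonneg _ _)
  have hPρ : ∀ s u, P.pr W s * ρ s u ≤ P.pr (fun ω => (W ω, U ω)) (s, u) := by
    intro s u
    rcases (P.pr_nonneg W s).eq_or_lt with h0 | h0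
    · rw [← h0, zero_mul]
      exact P.pr_nonneg _ _
    · rw [hρ]
      simp only
      rw [mul_div_cancel₀ _ h0.ne']
  have hsum : ∀ s, P.pr W s * ∑ u ∈ Ico (0 : ℤ) M, ρ s u ≤ P.pr W s := by
    intro s
    rw [Finset.mul_sum]
    exact (Finset.sum_le_sum fun u _ => hPρ s u).trans (un_sum_le P W U s _)
  have hcard : ∑ _u ∈ Ico (0 : ℤ) M, (1 / M : ℝ) = 1 := by
    rw [Finset.sum_const, Int.card_Ico, sub_zero, Int.toNat_natCast, nsmul_eq_mul]
    field_simp
  have h1 : P.ex (fun ω => l1 P W U M (W ω)) =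
      ∑ s ∈ img W, ∑ u ∈ Ico (0 : ℤ) M, P.pr W s * |ρ s u - 1 / M| := by
    rw [P.ex_comp W (fun s => l1 P W U M s)]
    refine Finset.sum_congr rfl fun s _ => ?_
    unfold l1
    rw [Finset.mul_sum]
  -- the affinity
  have haff := un_aff P W U M hM
  have h2 : P.ex (fun ω => (Real.sqrt (M * (P.pr (fun ω => (W ω, U ω)) (W ω, U ω) /
      P.pr W (W ω))))⁻¹) ≤
      ∑ s ∈ img W, ∑ u ∈ Ico (0 : ℤ) M, P.pr W s * (Real.sqrt (ρ s u) * Real.sqrt (1 / M)) := by
    rw [P.ex_comp (fun ω => (W ω, U ω)) (fun z => (Real.sqrt (M * (P.pr (fun ω => (W ω, U ω)) z /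
      P.pr W z.1)))⁻¹)]
    have h3 : ∀ z ∈ img (fun ω => (W ω, U ω)), P.pr (fun ω => (W ω, U ω)) z *
        (Real.sqrt (M * (P.pr (fun ω => (W ω, U ω)) z / P.pr W z.1)))⁻¹ =
        P.pr W z.1 * (Real.sqrt (ρ z.1 z.2) * Real.sqrt (1 / M)) := by
      rintro ⟨s, u⟩ _
      have hle : P.pr (fun ω => (W ω, U ω)) (s, u) ≤ P.pr W s := by
        have := un_sum_le P W U s {u}
        simpa only [ge_iff_le, sum_singleton] using this
      rcases (P.pr_nonneg (fun ω => (W ω, U ω)) (s, u)).eq_or_lt with h0 | h0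
      · simp only [← h0, zero_div, mul_zero, Real.sqrt_zero, inv_zero, hρ, one_div, Real.sqrt_inv, zero_mul]
      · have hs : 0 < P.pr W s := h0.trans_le hle
        have hρs : 0 < ρ s u := div_pos h0 hs
        have e1 : P.pr (fun ω => (W ω, U ω)) (s, u) = P.pr W s * ρ s u := by
          rw [hρ]
          simp only
          rw [mul_div_cancel₀ _ hs.ne']
        have e2 : P.pr (fun ω => (W ω, U ω)) (s, u) / P.pr W s = ρ s u := rfl
        simp only
        rw [e2, e1]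
        have e3 : Real.sqrt (M * ρ s u) = Real.sqrt M * Real.sqrt (ρ s u) :=
          Real.sqrt_mul hM0.le _
        have e4 : Real.sqrt (1 / M : ℝ) = (Real.sqrt M)⁻¹ := by
          rw [one_div, Real.sqrt_inv]
        have e5 : Real.sqrt (ρ s u) * Real.sqrt (ρ s u) = ρ s u := Real.mul_self_sqrt hρs.le
        have e6 : 0 < Real.sqrt (ρ s u) := Real.sqrt_pos.2 hρs
        have e7 : 0 < Real.sqrt (M : ℝ) := Real.sqrt_pos.2 hM0
        rw [e3, e4]
        field_simp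
        nlinarith only [e5]
    rw [Finset.sum_congr rfl h3]
    -- restrict to the support
    have h4 : ∑ z ∈ img (fun ω => (W ω, U ω)),
        P.pr W z.1 * (Real.sqrt (ρ z.1 z.2) * Real.sqrt (1 / M)) =
        ∑ z ∈ (img (fun ω => (W ω, U ω))).filter (fun z => 0 < P.pr (fun ω => (W ω, U ω)) z),
          P.pr W z.1 * (Real.sqrt (ρ z.1 z.2) * Real.sqrt (1 / M)) := by
      symm
      refine Finset.sum_subset (Finset.filter_subset _ _) ?_
      rintro ⟨s, u⟩ hz hz'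
      simp only [Finset.mem_filter, hz, true_and, not_lt] at hz'
      have h0 : P.pr (fun ω => (W ω, U ω)) (s, u) = 0 := le_antisymm hz' (P.pr_nonneg _ _)
      simp [hρ, h0]
    rw [h4, ← Finset.sum_product']
    refine Finset.sum_le_sum_of_subset_of_nonneg ?_ ?_
    · rintro ⟨s, u⟩ hz
      simp only [Finset.mem_filter] at hz
      obtain ⟨ω, hω, hws⟩ : ∃ ω, 0 < P.w ω ∧ (W ω, U ω) = (s, u) := by
        by_contra hcon
        push Not at hcon
        have h0 : P.pr (fun ω => (W ω, U ω)) (s, u) = 0 := by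
          unfold Law.pr
          refine Finset.sum_eq_zero fun ω hω => ?_
          have hω' : (W ω, U ω) = (s, u) := by simpa only [Prod.mk.injEq, mem_filter, mem_univ, true_and] using hω
          by_contra hne
          exact hcon ω (lt_of_le_of_ne (P.nn ω) (Ne.symm hne)) hω'
        linarith only [hz, h0]
      simp only [Prod.mk.injEq] at hws
      rw [Finset.mem_product, Finset.mem_Ico]
      refine ⟨?_, ?_⟩
      · rw [mem_img]
        exact ⟨ω, hws.1⟩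
      · have := hU ω hω
        rw [hws.2] at this
        exact this
    · rintro ⟨s, u⟩ _ _
      exact mul_nonneg (P.pr_nonneg _ _) (mul_nonneg (Real.sqrt_nonneg _) (Real.sqrt_nonneg _))
  -- total masses
  have hone : ∑ s ∈ img W, P.pr W s = 1 := P.sum_pr_image W
  set A : ℝ := ∑ s ∈ img W, ∑ u ∈ Ico (0 : ℤ) M,
    P.pr W s * (Real.sqrt (ρ s u) * Real.sqrt (1 / M)) with hA
  have hA2 : 2 - 2 * A ≤ e := by linarith only [h, haff, h2]
  have hmass : ∑ s ∈ img W, ∑ u ∈ Ico (0 : ℤ) M, P.pr W s * (ρ s u + 1 / M) ≤ 2 := by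
    calc ∑ s ∈ img W, ∑ u ∈ Ico (0 : ℤ) M, P.pr W s * (ρ s u + 1 / M)
        = ∑ s ∈ img W, (P.pr W s * ∑ u ∈ Ico (0 : ℤ) M, ρ s u + P.pr W s) := by
          refine Finset.sum_congr rfl fun s _ => ?_
          rw [← Finset.mul_sum, Finset.sum_add_distrib, hcard]
          ring
      _ ≤ ∑ s ∈ img W, (P.pr W s + P.pr W s) :=
          Finset.sum_le_sum fun s _ => add_le_add (hsum s) le_rfl
      _ = 2 := by
          rw [Finset.sum_add_distrib, hone]
          norm_num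
  -- Cauchy-Schwarz
  set a : S × ℤ → ℝ := fun z =>
    Real.sqrt (P.pr W z.1) * |Real.sqrt (ρ z.1 z.2) - Real.sqrt (1 / M)| with ha
  set b : S × ℤ → ℝ := fun z =>
    Real.sqrt (P.pr W z.1) * (Real.sqrt (ρ z.1 z.2) + Real.sqrt (1 / M)) with hb
  have hinv : (0 : ℝ) ≤ 1 / M := by positivity
  have hsq : ∀ s u, Real.sqrt (ρ s u) ^ 2 = ρ s u := fun s u => Real.sq_sqrt (hρ0 s u)
  have hsqM : Real.sqrt (1 / M : ℝ) ^ 2 = 1 / M := Real.sq_sqrt hinv
  have hsqP : ∀ s, Real.sqrt (P.pr W s) ^ 2 = P.pr W s := fun s => Real.sq_sqrt (P.pr_nonneg _ _)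
  have h5 : ∑ s ∈ img W, ∑ u ∈ Ico (0 : ℤ) M, P.pr W s * |ρ s u - 1 / M| =
      ∑ z ∈ (img W) ×ˢ (Ico (0 : ℤ) M), a z * b z := by
    rw [← Finset.sum_product']
    refine Finset.sum_congr rfl ?_
    rintro ⟨s, u⟩ _
    simp only [ha, hb]
    have e1 : ρ s u - 1 / M = (Real.sqrt (ρ s u) - Real.sqrt (1 / M)) *
        (Real.sqrt (ρ s u) + Real.sqrt (1 / M)) := by
      nlinarith only [hsq s u, hsqM]
    rw [e1, abs_mul, abs_of_nonneg (add_nonneg (Real.sqrt_nonneg (ρ s u))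
      (Real.sqrt_nonneg (1 / M : ℝ)))]
    have e2 := hsqP s
    calc P.pr W s * (|Real.sqrt (ρ s u) - Real.sqrt (1 / M)| *
          (Real.sqrt (ρ s u) + Real.sqrt (1 / M)))
        = Real.sqrt (P.pr W s) ^ 2 * (|Real.sqrt (ρ s u) - Real.sqrt (1 / M)| *
          (Real.sqrt (ρ s u) + Real.sqrt (1 / M))) := by rw [e2]
      _ = _ := by ring
  have h6 : ∑ z ∈ (img W) ×ˢ (Ico (0 : ℤ) M), a z ^ 2 ≤ e := by
    have e1 : ∑ z ∈ (img W) ×ˢ (Ico (0 : ℤ) M), a z ^ 2 =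
        ∑ s ∈ img W, ∑ u ∈ Ico (0 : ℤ) M, P.pr W s * (ρ s u + 1 / M) - 2 * A := by
      rw [hA, Finset.mul_sum, ← Finset.sum_sub_distrib, Finset.sum_product]
      refine Finset.sum_congr rfl fun s _ => ?_
      rw [Finset.mul_sum, ← Finset.sum_sub_distrib]
      refine Finset.sum_congr rfl fun u _ => ?_
      simp only [ha]
      rw [mul_pow, sq_abs, hsqP s]
      have := hsq s u
      have h7 : (Real.sqrt (ρ s u) - Real.sqrt (1 / M)) ^ 2 = ρ s u + 1 / M -
          2 * (Real.sqrt (ρ s u) * Real.sqrt (1 / M)) := by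
        rw [sub_sq, hsq, hsqM]
        ring
      rw [h7]
      ring
    rw [e1]
    linarith only [h, haff, h2, hmass]
  have h7 : ∑ z ∈ (img W) ×ˢ (Ico (0 : ℤ) M), b z ^ 2 ≤ 4 := by
    have e1 : ∑ z ∈ (img W) ×ˢ (Ico (0 : ℤ) M), b z ^ 2 ≤
        2 * ∑ s ∈ img W, ∑ u ∈ Ico (0 : ℤ) M, P.pr W s * (ρ s u + 1 / M) := by
      rw [Finset.mul_sum, Finset.sum_product]
      refine Finset.sum_le_sum fun s _ => ?_
      rw [Finset.mul_sum]
      refine Finset.sum_le_sum fun u _ => ?_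
      simp only [hb]
      rw [mul_pow, hsqP s]
      have h8 : (Real.sqrt (ρ s u) + Real.sqrt (1 / M)) ^ 2 ≤ 2 * (ρ s u + 1 / M) := by
        nlinarith only [hsq s u, hsqM, sq_nonneg (Real.sqrt (ρ s u) - Real.sqrt (1 / M))]
      have h9 := mul_le_mul_of_nonneg_left h8 (P.pr_nonneg W s)
      linarith only [h9]
    linarith only [hmass, e1]
  rw [h1, h5]
  have h8 := Finset.sum_mul_sq_le_sq_mul_sq ((img W) ×ˢ (Ico (0 : ℤ) M)) a b
  have h9 : (∑ z ∈ (img W) ×ˢ (Ico (0 : ℤ) M), a z * b z) ^ 2 ≤ e * 4 :=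
    h8.trans (mul_le_mul h6 h7 (Finset.sum_nonneg fun _ _ => sq_nonneg _) he)
  have h10 : e * 4 = (2 * Real.sqrt e) ^ 2 := by
    rw [mul_pow, Real.sq_sqrt he]
    ring
  rw [h10] at h9
  exact abs_le_of_sq_le_sq' h9 (by (clear * -; positivity)) |>.2

end unif

end Vale.Agent.P127.Stk
end

section

/-!
# P127 / Stk / Abs : definitions and exact statements of the parts of the absorption lemma
-/

namespace Vale.Agent.P127.Stk.Abs

open Finset Vale.Agent.P127 Vale.Agent.P127.Stk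

variable {Ω Ω' Ξ Λ : Type} [Fintype Ω] [Fintype Ω'] [Fintype Ξ] [Fintype Λ] {β κ γ : Type} {d : ℕ}

/-- `p` is a sample of `P` under `T` -/
def Smp (T : Law Ω') (p : Ω' → Ω) (P : Law Ω) : Prop := ∀ ω, T.pr p ω = P.w ω

/-- the law of two samples with the same value of `c`, conditionally independent given it -/
noncomputable def pairL (P : Law Ω) (c : Ω → γ) : Law (Law.GT c c) :=
  Law.glue P P c c (fun _ => rfl)

/-- the variable `x` of `P` absorbs the independent variable `Pi` of `R`: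
`H(x + Pi | q, b) ≤ r` for samples of `P` and `R` conditionally independent given `b` -/
def Abs1 (P : Law Ω) (b : Ω → β) (q : Ω → κ) (x : Ω → Fin d → ℤ)
    (R : Law Ξ) (bR : Ξ → β) (Pi : Ξ → Fin d → ℤ) (r : ℝ) : Prop :=
  ∀ (Ω' : Type) [Fintype Ω'] (T : Law Ω') (w : Ω' → Ω) (ξ : Ω' → Ξ), Smp T w P → Smp T ξ R →
    (∀ ω, b (w ω) = bR (ξ ω)) → mi T w ξ (fun ω => b (w ω)) = 0 →
    hc T (fun ω => x (w ω) + Pi (ξ ω)) (fun ω => (q (w ω), b (w ω))) ≤ r

/-- the variable `Pi` of `R` absorbs the independent variable `D` of `L`, with loss `e` -/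
def Abs2 (L : Law Λ) (bL : Λ → β) (D : Λ → Fin d → ℤ)
    (R : Law Ξ) (bR : Ξ → β) (Pi : Ξ → Fin d → ℤ) (e : ℝ) : Prop :=
  ∀ (Ω' : Type) [Fintype Ω'] (T : Law Ω') (l : Ω' → Λ) (ξ : Ω' → Ξ), Smp T l L → Smp T ξ R →
    (∀ ω, bL (l ω) = bR (ξ ω)) → mi T l ξ (fun ω => bL (l ω)) = 0 →
    hc T (fun ω => Pi (ξ ω) + D (l ω)) (fun ω => bL (l ω)) ≤ hc R Pi bR + e

/-- output of the chain argument: `Z` is nearly independent of the sample `s` and of `D`, and
`Pi` (a copy of which, conditionally independent given `(b, Z)`, is absorbed by `x0`) absorbs `D` -/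
structure Chain (P : Law Ω) (b : Ω → β) (q : Ω → κ) (x0 : Ω → Fin d → ℤ)
    (L : Law Λ) (bL : Λ → β) (D : Λ → Fin d → ℤ) (ρ g : ℝ) : Type 1 where
  Ωm : Type
  fin : Fintype Ωm
  M : Law Ωm
  s : Ωm → Ω
  l : Ωm → Λ
  Z : Ωm → Fin d → ℤ
  Pi : Ωm → Fin d → ℤ
  smp_s : Smp M s P
  smp_l : Smp M l L
  hb : ∀ m, b (s m) = bL (l m)
  cost : mi M s Z (fun m => b (s m)) ≤ g
  costD : mi M (fun m => D (l m)) Z (fun m => b (s m)) ≤ g
  abs1 : Abs1 M (fun m => (b (s m), Z m)) (fun m => q (s m)) (fun m => x0 (s m))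
    M (fun m => (b (s m), Z m)) Pi (ρ + g)
  abs2 : Abs2 M (fun m => (b (s m), Z m)) (fun m => D (l m)) M (fun m => (b (s m), Z m)) Pi g

attribute [instance] Chain.fin

/-- a state of the iteration: an extension `(Ps, b)` of `(P, B)` and a variable `Pi` absorbed
by `x0` -/
structure State (P : Law Ω) (B : Ω → β) (q : Ω → κ) (x0 : Ω → Fin d → ℤ) (ρ η : ℝ) : Type 1 where
  Ωs : Type
  finS : Fintype Ωs
  Ps : Law Ωs
  π : Ωs → Ω
  βs : Type
  b : Ωs → βs
  Ξ : Type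
  finX : Fintype Ξ
  R : Law Ξ
  bR : Ξ → βs
  Pi : Ξ → Fin d → ℤ
  smp : Smp Ps π P
  det : ∀ w w', b w = b w' → B (π w) = B (π w')
  cost : mi Ps π b (fun w => B (π w)) ≤ η
  same : ∀ y, Ps.pr b y = R.pr bR y
  abs : Abs1 Ps b (fun w => q (π w)) (fun w => x0 (π w)) R bR Pi (ρ + η)

attribute [instance] State.finS State.finX

/-- the law of the pairs with the same `x0` and `b` of a state -/
noncomputable abbrev State.L {P : Law Ω} {B : Ω → β} {q : Ω → κ} {x0 : Ω → Fin d → ℤ} {ρ η : ℝ}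
    (S : State P B q x0 ρ η) : Law (Law.GT (fun w : S.Ωs => (x0 (S.π w), S.b w))
      (fun w : S.Ωs => (x0 (S.π w), S.b w))) :=
  pairL S.Ps (fun w => (x0 (S.π w), S.b w))

/-- the chains of a state for the difference `D` of a function `f` on the two samples -/
abbrev State.Ch {P : Law Ω} {B : Ω → β} {q : Ω → κ} {x0 : Ω → Fin d → ℤ} {ρ η : ℝ}
    (S : State P B q x0 ρ η) (f : Ω → Fin d → ℤ) (g : ℝ) : Type 1 :=
  Chain S.Ps S.b (fun w => q (S.π w)) (fun w => x0 (S.π w)) S.L (fun l => S.b l.fst)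
    (fun l => f (S.π l.snd) - f (S.π l.fst)) ρ g

/-! ### The parts -/

/-- A1. existence of conditionally independent extensions -/
def PExt : Prop := ∀ (Ω₁ Ω₂ : Type) [Fintype Ω₁] [Fintype Ω₂] (γ : Type) (P₁ : Law Ω₁) (P₂ : Law Ω₂)
  (c₁ : Ω₁ → γ) (c₂ : Ω₂ → γ), (∀ x, P₁.pr c₁ x = P₂.pr c₂ x) →
  ∃ (Ω : Type) (_ : Fintype Ω) (T : Law Ω) (p₁ : Ω → Ω₁) (p₂ : Ω → Ω₂),
    Smp T p₁ P₁ ∧ Smp T p₂ P₂ ∧ (∀ ω, c₁ (p₁ ω) = c₂ (p₂ ω)) ∧ mi T p₁ p₂ (fun ω => c₁ (p₁ ω)) = 0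

/-- A8. the chain argument (parameters) -/
def PChain : Prop := ∀ (d N0 : ℕ) (g : ℝ), 0 < g → ∃ ε : ℝ, 0 < ε ∧ ∃ θ0 : ℕ, ∀ θ : ℕ, θ0 ≤ θ →
  ∀ (Ω : Type) [Fintype Ω] (P : Law Ω) (β κ : Type) (b : Ω → β) (q : Ω → κ)
    (x0 x φ : Ω → Fin d → ℤ) (ρ : ℝ),
    (∀ ω ω', b ω = b ω' → q ω = q ω' → φ ω = φ ω') →
    (∀ ω c, |x ω c - x0 ω c - φ ω c| ≤ N0) →
    (∀ ω ω', b ω = b ω' → ∀ c, |x ω c - x ω' c| ≤ 2 ^ θ) →
    hc P x0 b ≤ ρ + ε * θ → hc P x b ≤ ρ + ε * θ → ρ - ε * θ ≤ hc P x0 (fun ω => (q ω, b ω)) →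
    Nonempty (Chain P b q x0 (pairL P (fun ω => (x0 ω, b ω))) (fun l => b l.fst)
      (fun l => φ l.snd - φ l.fst) ρ (g * θ))

/-- A9. new states -/
def PNew : Prop := ∀ {Ω : Type} [Fintype Ω] {β κ : Type} {d : ℕ} (P : Law Ω) (B : Ω → β)
  (q : Ω → κ) (x0 : Ω → Fin d → ℤ) (ρ η g e : ℝ) (f : Ω → Fin d → ℤ)
  (S : State P B q x0 ρ η) (C : S.Ch f g), 0 ≤ e → ρ - e ≤ hc P x0 (fun ω => (q ω, B ω)) →
  ∀ (Ω' : Type) [Fintype Ω'] (T : Law Ω') (ξ : Ω' → S.Ξ) (m : Ω' → C.Ωm), Smp T ξ S.R →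
    Smp T m C.M → (∀ w, S.bR (ξ w) = S.b (C.s (m w))) →
    mi T ξ m (fun w => S.b (C.s (m w))) = 0 →
    ∃ S' : State P B q x0 ρ (2 * η + 2 * g + e), hc S'.R S'.Pi S'.bR =
      hc T (fun w => S.Pi (ξ w) + C.Pi (m w)) (fun w => (S.b (C.s (m w)), C.Z (m w)))

/-- A10. if no new state gains more than `γ0`, then `Pi` absorbs `D` -/
def PGain : Prop := ∀ {Ω : Type} [Fintype Ω] {β κ : Type} {d : ℕ} (P : Law Ω) (B : Ω → β)
  (q : Ω → κ) (x0 : Ω → Fin d → ℤ) (ρ η g γ0 : ℝ) (f : Ω → Fin d → ℤ)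
  (S : State P B q x0 ρ η) (C : S.Ch f g),
  (∀ (Ω' : Type) [Fintype Ω'] (T : Law Ω') (ξ : Ω' → S.Ξ) (m : Ω' → C.Ωm), Smp T ξ S.R →
    Smp T m C.M → (∀ w, S.bR (ξ w) = S.b (C.s (m w))) →
    mi T ξ m (fun w => S.b (C.s (m w))) = 0 →
    hc T (fun w => S.Pi (ξ w) + C.Pi (m w)) (fun w => (S.b (C.s (m w)), C.Z (m w))) ≤
      hc S.R S.Pi S.bR + γ0) →
  Abs2 S.L (fun l => S.b l.fst) (fun l => f (S.π l.snd) - f (S.π l.fst)) S.R S.bR S.Pi (γ0 + 2 * g)

/-- A11. the potential is bounded -/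
def PBound : Prop := ∀ {Ω : Type} [Fintype Ω] {β κ : Type} {d : ℕ} (P : Law Ω) (B : Ω → β)
  (q : Ω → κ) (x0 : Ω → Fin d → ℤ) (ρ η : ℝ) (S : State P B q x0 ρ η), hc S.R S.Pi S.bR ≤ ρ + η

/-- A12. the initial state -/
def PInit : Prop := ∀ {Ω : Type} [Fintype Ω] {β κ : Type} {d : ℕ} (P : Law Ω) (B : Ω → β)
  (q : Ω → κ) (x0 : Ω → Fin d → ℤ) (ρ e : ℝ), 0 ≤ e → hc P x0 B ≤ ρ + e →
  ∃ S : State P B q x0 ρ e, 0 ≤ hc S.R S.Pi S.bR

/-- A13. the end of the proof -/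
def PFinish : Prop := ∀ {Ω : Type} [Fintype Ω] {β κ : Type} {d J : ℕ} (N0 θ : ℕ) (ρ η e e2 : ℝ)
  (P : Law Ω) (B : Ω → β) (q : Ω → κ) (X : Fin (J + 1) → Ω → Fin d → ℤ)
  (φ : Fin (J + 1) → β → κ → Fin d → ℤ) (σ : Fin (J + 1) → ℤ), (∀ i, σ i = 1 ∨ σ i = -1) →
  AbsHyp N0 θ ρ e P B q X φ → 0 ≤ e2 → ∀ (S : State P B q (X 0) ρ η),
  (∀ i, Abs2 S.L (fun l => S.b l.fst)
    (fun l => φ i (B (S.π l.snd)) (q (S.π l.snd)) - φ i (B (S.π l.fst)) (q (S.π l.fst)))
    S.R S.bR S.Pi e2) →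
  ∃ (Ω' : Type) (_ : Fintype Ω') (P' : Law Ω') (ζ : Type) (Z : Ω' → ζ) (π π1 π2 : Ω' → Ω),
    AbsCon ρ ((J + 1) * (2 * η + e + e2)) P B q X φ σ P' Z π π1 π2

end Vale.Agent.P127.Stk.Abs
end

section

/-!
# P127 / Stk : the growth class for the full Hausdorff version

The admissible error rate is exponentially small in the time deficit: `e ≤ exp (- n D) L` and
`exp (n D) ≤ L` for some `D ≥ max 1 C`.
-/

namespace Vale.Agent.P127.Stk

open Finset Filter Vale.Agent.P127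

/-- admissible errors for the Hausdorff dimension of sticky sets -/
def okP (_ : Unit) (n L : ℕ) (e C : ℝ) : Prop :=
  ∃ D : ℝ, 1 ≤ D ∧ C ≤ D ∧ e ≤ Real.exp (-(n * D)) * L ∧ Real.exp (n * D) ≤ L

theorem okP_anti (g : Unit) (n n' L : ℕ) (e C : ℝ) (hn : n ≤ n') (h : okP g n' L e C) :
    okP g n L e C := by
  obtain ⟨D, h1, h2, h3, h4⟩ := h
  have hnn : (n : ℝ) ≤ n' := by exact_mod_cast hn
  have h5 : (n : ℝ) * D ≤ n' * D := mul_le_mul_of_nonneg_right hnn (by linarith only [h1])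
  refine ⟨D, h1, h2, h3.trans ?_, (Real.exp_le_exp.2 h5).trans h4⟩
  exact mul_le_mul_of_nonneg_right (Real.exp_le_exp.2 (by linarith only [h5])) (Nat.cast_nonneg _)

theorem okP_mono (g : Unit) (n L : ℕ) (e C e' C' : ℝ) (he : e' ≤ e) (hC : C' ≤ C)
    (h : okP g n L e C) : okP g n L e' C' := by
  obtain ⟨D, h1, h2, h3, h4⟩ := h
  exact ⟨D, h1, hC.trans h2, he.trans h3, h4⟩

/-- shrinking the number of digits by a factor `exp (B D)` -/
theorem okP_shrink {n n' L L' : ℕ} {e D B : ℝ} (h1 : 1 ≤ D)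
    (h3 : e ≤ Real.exp (-(n * D)) * L) (h4 : Real.exp (n * D) ≤ L) (hB : n' + B ≤ n)
    (hL : (L : ℝ) ≤ Real.exp (B * D) * L') :
    e ≤ Real.exp (-(n' * D)) * L' ∧ Real.exp (n' * D) ≤ L' := by
  have h5 : (n' : ℝ) * D + B * D ≤ n * D := by nlinarith only [hB, h1]
  constructor
  · refine h3.trans ?_
    calc Real.exp (-(n * D)) * L ≤ Real.exp (-(n * D)) * (Real.exp (B * D) * L') :=
          mul_le_mul_of_nonneg_left hL (Real.exp_pos _).le
      _ = Real.exp (-(n * D) + B * D) * L' := by rw [Real.exp_add]; ring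
      _ ≤ Real.exp (-(n' * D)) * L' :=
          mul_le_mul_of_nonneg_right (Real.exp_le_exp.2 (by linarith)) (Nat.cast_nonneg _)
  · have h6 : Real.exp (n' * D) * Real.exp (B * D) ≤ Real.exp (B * D) * L' := by
      rw [← Real.exp_add]
      exact ((Real.exp_le_exp.2 h5).trans h4).trans hL
    have h7 : 0 < Real.exp (B * D) := Real.exp_pos _
    nlinarith only [h6, h7]

theorem mul_exp_neg_le_one (x : ℝ) : x * Real.exp (-x) ≤ 1 := by
  rw [Real.exp_neg, ← div_eq_mul_inv, div_le_one (Real.exp_pos _)]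
  linarith only [Real.add_one_le_exp x]

theorem okP_dom (g : Unit) (K : ℝ) (hK : 0 ≤ K) : ∃ g' : Unit, ∀ n' : ℕ, ∃ n : ℕ,
    ∀ (L : ℕ) (e C : ℝ), okP g n L e C → okP g' n' L (K * (e + 1)) (K * (C + 1)) := by
  refine ⟨(), fun n' => ?_⟩
  set K' : ℝ := max K 1 with hK'
  have hK1 : 1 ≤ K' := le_max_right _ _
  have hKK : K ≤ K' := le_max_left _ _
  obtain ⟨n, hn⟩ := exists_nat_ge (2 * n' * K' + 2 * K)
  refine ⟨n, ?_⟩
  rintro L e C ⟨D, h1, h2, h3, h4⟩
  have hn0 : (0 : ℝ) ≤ n' := Nat.cast_nonneg n'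
  have hnD : (n' : ℝ) * (K' * (D + 1)) + 2 * K ≤ n * D := by
    have a1 : (2 * n' * K' + 2 * K) * D ≤ n * D := mul_le_mul_of_nonneg_right hn (by linarith only [h1])
    have a2 : 2 * K ≤ 2 * K * D := by nlinarith only [hK, h1]
    have a3 : (n' : ℝ) * K' * (D + 1) ≤ n' * K' * (2 * D) :=
      mul_le_mul_of_nonneg_left (by linarith only [h1]) (by (clear * -; positivity))
    linarith
  refine ⟨K' * (D + 1), by nlinarith only [hK1, h1], ?_, ?_, ?_⟩
  · calc K * (C + 1) ≤ K * (D + 1) := mul_le_mul_of_nonneg_left (by linarith) hK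
      _ ≤ K' * (D + 1) := mul_le_mul_of_nonneg_right hKK (by linarith only [h1])
  · have b1 : (1 : ℝ) ≤ Real.exp (-(n * D)) * L := by
      rw [Real.exp_neg, ← div_eq_inv_mul, le_div_iff₀ (Real.exp_pos _)]
      linarith only [h4]
    have b2 : K * (e + 1) ≤ 2 * K * Real.exp (-(n * D)) * L := by nlinarith only [hK, h3, b1]
    refine b2.trans (mul_le_mul_of_nonneg_right ?_ (Nat.cast_nonneg _))
    calc 2 * K * Real.exp (-(n * D))
        ≤ 2 * K * (Real.exp (-(2 * K)) * Real.exp (-(n' * (K' * (D + 1))))) := by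
          refine mul_le_mul_of_nonneg_left ?_ (by linarith only [hK])
          rw [← Real.exp_add]
          exact Real.exp_le_exp.2 (by linarith only [hnD])
      _ = (2 * K * Real.exp (-(2 * K))) * Real.exp (-(n' * (K' * (D + 1)))) := by ring
      _ ≤ 1 * Real.exp (-(n' * (K' * (D + 1)))) :=
          mul_le_mul_of_nonneg_right (mul_exp_neg_le_one _) (Real.exp_pos _).le
      _ = _ := one_mul _
  · exact (Real.exp_le_exp.2 (by linarith)).trans h4

theorem okP_sub (g : Unit) (η : ℝ) (hη : 0 < η) : ∃ g' : Unit, ∀ n' : ℕ, ∃ n : ℕ,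
    ∀ (L L' : ℕ) (e C : ℝ), okP g n L e C → η * L ≤ L' → L' ≤ L → okP g' n' L' e C := by
  refine ⟨(), fun n' => ?_⟩
  obtain ⟨n0, hn0⟩ := exists_nat_ge (1 / η)
  refine ⟨n' + n0, ?_⟩
  rintro L L' e C ⟨D, h1, h2, h3, h4⟩ h5 _
  have hB : (n' : ℝ) + 1 / η ≤ ((n' + n0 : ℕ) : ℝ) := by push_cast; linarith only [hn0]
  have hL : (L : ℝ) ≤ Real.exp (1 / η * D) * L' := by
    have c1 : (L : ℝ) ≤ 1 / η * L' := by
      rw [one_div, inv_mul_eq_div, le_div_iff₀ hη]
      linarith only [h5]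
    refine c1.trans (mul_le_mul_of_nonneg_right ?_ (Nat.cast_nonneg _))
    have c2 : 0 < 1 / η := by positivity
    have c3 : 1 / η ≤ 1 / η * D := by nlinarith only [h1, c2]
    linarith only [c3, Real.add_one_le_exp (1 / η * D)]
  obtain ⟨a, b⟩ := okP_shrink h1 h3 h4 hB hL
  exact ⟨D, h1, h2, a, b⟩

theorem okP_small (g : Unit) (ε : ℝ) (hε : 0 < ε) : ∃ n : ℕ, ∀ (L : ℕ) (e C : ℝ),
    okP g n L e C → 1 ≤ ε * L ∧ e ≤ ε * L ∧ C ≤ ε * L := by
  obtain ⟨n, hn⟩ := exists_nat_ge (1 / ε)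
  refine ⟨n, ?_⟩
  rintro L e C ⟨D, h1, h2, h3, h4⟩
  have hn' : 1 ≤ ε * n := by
    rw [div_le_iff₀ hε] at hn
    linarith only [hn]
  have hn0 : (0 : ℝ) ≤ n := Nat.cast_nonneg n
  have hD : D ≤ ε * (n * D) := by nlinarith only [hn', h1]
  have h5 : (n : ℝ) * D + 1 ≤ Real.exp (n * D) := Real.add_one_le_exp _
  have h6 : D ≤ ε * L := by nlinarith only [h4, h5, hn']
  refine ⟨by linarith only [h1, h6], ?_, by linarith only [h2, h6]⟩
  refine h3.trans (mul_le_mul_of_nonneg_right ?_ (Nat.cast_nonneg _))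
  rw [Real.exp_neg, inv_le_comm₀ (Real.exp_pos _) hε]
  rw [← one_div]
  have : (n : ℝ) ≤ n * D := by nlinarith only [h1]
  linarith

theorem okP_win (g : Unit) (κ : ℕ) (εu : ℝ) (hεu : 0 < εu) : ∃ g' : Unit, ∀ n' : ℕ, ∃ n : ℕ,
    ∀ (L L' : ℕ) (e C : ℝ), okP g n L e C →
    (L : ℝ) ≤ (κ + 4 : ℝ) ^ (8 * (max C 0 + 1) / εu + 3) * L' → L' ≤ L → okP g' n' L' e C := by
  refine ⟨(), fun n' => ?_⟩
  have hA : (1 : ℝ) ≤ (κ + 4 : ℝ) := by
    have : (0 : ℝ) ≤ κ := Nat.cast_nonneg κ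
    linarith only []
  set B : ℝ := Real.log (κ + 4) * (16 / εu + 3) with hB0
  obtain ⟨n0, hn0⟩ := exists_nat_ge B
  refine ⟨n' + n0, ?_⟩
  rintro L L' e C ⟨D, h1, h2, h3, h4⟩ h5 _
  have hB : (n' : ℝ) + B ≤ ((n' + n0 : ℕ) : ℝ) := by push_cast; linarith only [hn0]
  have hL : (L : ℝ) ≤ Real.exp (B * D) * L' := by
    refine h5.trans (mul_le_mul_of_nonneg_right ?_ (Nat.cast_nonneg _))
    rw [Real.rpow_def_of_pos (by linarith only [])]
    refine Real.exp_le_exp.2 ?_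
    rw [hB0, mul_assoc]
    refine mul_le_mul_of_nonneg_left ?_ (Real.log_nonneg hA)
    have c1 : max C 0 ≤ D := max_le h2 (by linarith only [h1])
    have c2 : 8 * (max C 0 + 1) / εu ≤ 16 / εu * D := by
      rw [div_mul_eq_mul_div]
      exact div_le_div_of_nonneg_right (by linarith only [h1, c1]) hεu.le
    linarith only [h1, c2]
  obtain ⟨a, b⟩ := okP_shrink h1 h3 h4 hB hL
  exact ⟨D, h1, h2, a, b⟩

/-- the growth class for the Hausdorff dimension of sticky sets -/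
def GrP : Gr where
  G := Unit
  ok := okP
  anti := okP_anti
  mono := okP_mono
  dom := okP_dom
  sub := okP_sub
  small := okP_small
  win := okP_win

end Vale.Agent.P127.Stk
end
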