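import Mathlib
attribute [-instance] ProperSMul.toContinuousSMul IsTopologicalTorsor.toContinuousSMul IdemSemiring.toCanonicallyOrderedAdd IdemSemiring.toMulLeftMono IdemSemiring.toMulRightMono AddQuantale.instAddLeftMono AddQuantale.instAddRightMono Quantale.instMulLeftMono Quantale.instMulRightMono FiniteDimensional.rclike_to_real IsScalarTower.complexToReal FiniteDimensional.complexToReal

set_option linter.all false

section

set_option linter.all false

/-!
# P127 / Stk / END, part B : vectors close to `κ`-dimensional graphs at `κ + 2` times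
-/

namespace Vale.Agent.P127.Stk.EndP

open Finset

theorem prod_lip {ι : Type*} [DecidableEq ι] (s : Finset ι) (a b : ι → ℝ) (R ρ : ℝ) (hR : 1 ≤ R)
    (ha : ∀ i, |a i| ≤ R) (hb : ∀ i, |b i| ≤ R) (h : ∀ i, |a i - b i| ≤ ρ) (hρ : 0 ≤ ρ) :
    |∏ i ∈ s, a i - ∏ i ∈ s, b i| ≤ s.card * R ^ s.card * ρ := by
  have hR0 : (0 : ℝ) ≤ R := by (clear * - hR; linarith)
  have hpb : ∀ s : Finset ι, |∏ i ∈ s, b i| ≤ R ^ s.card := by
    intro s
    rw [Finset.abs_prod]
    calc ∏ i ∈ s, |b i| ≤ ∏ i ∈ s, R := Finset.prod_le_prod (fun _ _ => abs_nonneg _)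
          (fun i _ => hb i)
      _ = R ^ s.card := by simp
  induction s using Finset.induction_on with
  | empty => simp
  | insert i s hi ih =>
    rw [Finset.prod_insert hi, Finset.prod_insert hi, Finset.card_insert_of_notMem hi]
    have e : a i * ∏ i ∈ s, a i - b i * ∏ i ∈ s, b i =
        a i * (∏ i ∈ s, a i - ∏ i ∈ s, b i) + (a i - b i) * ∏ i ∈ s, b i := by ring
    rw [e]
    refine (abs_add_le _ _).trans ?_
    rw [abs_mul, abs_mul]
    have h1 : |a i| * |∏ i ∈ s, a i - ∏ i ∈ s, b i| ≤ R * (s.card * R ^ s.card * ρ) :=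
      mul_le_mul (ha i) ih (abs_nonneg _) hR0
    have h2 : |a i - b i| * |∏ i ∈ s, b i| ≤ ρ * R ^ s.card :=
      mul_le_mul (h i) (hpb s) (abs_nonneg _) hρ
    have h3 : ρ * R ^ s.card ≤ ρ * R ^ (s.card + 1) :=
      mul_le_mul_of_nonneg_left (pow_le_pow_right₀ hR (Nat.le_succ _)) hρ
    push_cast
    calc _ ≤ R * (s.card * R ^ s.card * ρ) + ρ * R ^ (s.card + 1) := by linarith only [h1, h2, h3]
      _ = (s.card + 1) * R ^ (s.card + 1) * ρ := by ring

theorem det_lip {k : ℕ} (A B : Matrix (Fin k) (Fin k) ℝ) (R ρ : ℝ) (hR : 1 ≤ R)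
    (ha : ∀ i j, |A i j| ≤ R) (hb : ∀ i j, |B i j| ≤ R) (h : ∀ i j, |A i j - B i j| ≤ ρ)
    (hρ : 0 ≤ ρ) :
    |A.det - B.det| ≤ (k.factorial : ℝ) * (k * R ^ k * ρ) := by
  rw [Matrix.det_apply', Matrix.det_apply', ← Finset.sum_sub_distrib]
  refine (Finset.abs_sum_le_sum_abs _ _).trans ?_
  calc ∑ σ : Equiv.Perm (Fin k), |((Equiv.Perm.sign σ : ℤ) : ℝ) * ∏ i, A (σ i) i -
        ((Equiv.Perm.sign σ : ℤ) : ℝ) * ∏ i, B (σ i) i| ≤
      ∑ σ : Equiv.Perm (Fin k), (k * R ^ k * ρ) := by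
        refine Finset.sum_le_sum fun σ _ => ?_
        rw [← mul_sub, abs_mul]
        have h1 : |((Equiv.Perm.sign σ : ℤ) : ℝ)| = 1 := by
          rcases Int.units_eq_one_or (Equiv.Perm.sign σ) with h | h <;> rw [h] <;> simp only [Units.val_neg, Units.val_one, Int.reduceNeg, Int.cast_neg, Int.cast_one, abs_neg, abs_one]
        rw [h1, one_mul]
        have := prod_lip (Finset.univ : Finset (Fin k)) (fun i => A (σ i) i) (fun i => B (σ i) i)
          R ρ hR (fun i => ha _ _) (fun i => hb _ _) (fun i => h _ _) hρ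
        simpa only [ge_iff_le, card_univ, Fintype.card_fin] using this
    _ = (k.factorial : ℝ) * (k * R ^ k * ρ) := by
        simp only [sum_const, card_univ, Fintype.card_perm, Fintype.card_fin, nsmul_eq_mul]

theorem det_rank {k : ℕ} {τ : Type*} [Fintype τ] [DecidableEq τ] (V : Matrix (Fin k) τ ℝ)
    (G : Matrix τ (Fin k) ℝ) (h : Fintype.card τ < k) : (V * G).det = 0 := by
  by_contra h0
  have h1 : IsUnit (V * G) := (Matrix.isUnit_iff_isUnit_det _).mpr (isUnit_iff_ne_zero.mpr h0)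
  have h2 := Matrix.rank_of_isUnit _ h1
  have h3 := Matrix.rank_mul_le_left V G
  have h4 := Matrix.rank_le_card_width V
  rw [Fintype.card_fin] at h2
  omega

/-- the determinant of vectors close to a `κ`-dimensional graph -/
theorem det_graph {κ m : ℕ} (v : Fin (κ + 1) → Fin m → ℝ) (J : Finset (Fin m))
    (Γ : Fin m → Fin m → ℝ) (ρ : ℝ) (hv : ∀ j i, |v j i| ≤ 2) (hJ : J.card = κ)
    (hΓ : ∀ i j, |Γ i j| ≤ 3 ^ κ) (hρ : 0 ≤ ρ)
    (h : ∀ j i, i ∉ J → |v j i - ∑ j' ∈ J, Γ i j' * v j j'| ≤ ρ) (I : Fin (κ + 1) → Fin m) :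
    |(Matrix.of fun a b => v a (I b)).det| ≤
      ((κ + 1).factorial : ℝ) * ((κ + 1 : ℕ) * (2 + 2 * κ * 3 ^ κ) ^ (κ + 1) * ρ) := by
  classical
  set R : ℝ := 2 + 2 * κ * 3 ^ κ with hR
  have hk : (0 : ℝ) ≤ 2 * κ * 3 ^ κ := by (clear * -; positivity)
  have hR1 : 1 ≤ R := by linarith only [hk]
  let V : Matrix (Fin (κ + 1)) J ℝ := Matrix.of fun j j' => v j j'
  let G : Matrix J (Fin (κ + 1)) ℝ := Matrix.of fun j' b =>
    if I b ∈ J then (if (j' : Fin m) = I b then 1 else 0) else Γ (I b) j'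
  have hG0 : (V * G).det = 0 := by
    refine det_rank V G ?_
    rw [Fintype.card_coe, hJ]; omega
  have hin : ∀ a b, I b ∈ J → (V * G) a b = v a (I b) := by
    intro a b hb
    rw [Matrix.mul_apply]
    rw [Finset.sum_eq_single ⟨I b, hb⟩]
    · simp [V, G, hb]
    · intro j' _ hj'
      have : (j' : Fin m) ≠ I b := fun h => hj' (Subtype.ext h)
      simp only [Matrix.of_apply, hb, ↓reduceIte, this, mul_zero, V, G]
    · simp only [univ_eq_attach, mem_attach, not_true_eq_false, mul_eq_zero, IsEmpty.forall_iff]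
  have hout : ∀ a b, I b ∉ J → (V * G) a b = ∑ j' ∈ J, Γ (I b) j' * v a j' := by
    intro a b hb
    rw [Matrix.mul_apply, ← Finset.sum_coe_sort J]
    refine Finset.sum_congr rfl fun j' _ => ?_
    simp [V, G, hb, mul_comm]
  have hB : ∀ a b, |(V * G) a b| ≤ R := by
    intro a b
    by_cases hb : I b ∈ J
    · rw [hin a b hb]; exact (hv _ _).trans (by linarith only [hk])
    · rw [hout a b hb]
      refine (Finset.abs_sum_le_sum_abs _ _).trans ?_
      calc ∑ j' ∈ J, |Γ (I b) j' * v a j'| ≤ ∑ j' ∈ J, (3 ^ κ * 2 : ℝ) := by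
            refine Finset.sum_le_sum fun j' _ => ?_
            rw [abs_mul]
            exact mul_le_mul (hΓ _ _) (hv _ _) (abs_nonneg _) (by positivity)
        _ = 2 * κ * 3 ^ κ := by
            rw [Finset.sum_const, hJ, nsmul_eq_mul]; ring
        _ ≤ R := by linarith only []
  have := det_lip (Matrix.of fun a b => v a (I b)) (V * G) R ρ hR1
    (fun i j => by rw [Matrix.of_apply]; exact (hv _ _).trans (by linarith only [hk])) hB
    (fun a b => by
      rw [Matrix.of_apply]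
      by_cases hb : I b ∈ J
      · rw [hin a b hb, sub_self, abs_zero]; exact hρ
      · rw [hout a b hb]; exact h a (I b) hb) hρ
  rw [hG0, sub_zero] at this
  exact this

/-- vectors close to `κ`-dimensional graphs at `κ + 2` separated times -/
theorem det_small (m κ : ℕ) : ∃ C0 : ℝ, 0 ≤ C0 ∧ ∀ (X Y : Fin (κ + 1) → Fin m → ℝ)
    (t : Fin (κ + 2) → ℝ) (J : Finset (Fin m)) (Γ : Fin (κ + 2) → Fin m → Fin m → ℝ) (ρ δ : ℝ),
    (∀ j i, |X j i| ≤ 1) → (∀ j i, |Y j i| ≤ 1) → (∀ i, |t i| ≤ 1) → J.card = κ →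
    (∀ l i j, |Γ l i j| ≤ 3 ^ κ) → 0 ≤ ρ → 0 < δ → (∀ i l, i ≠ l → δ ≤ |t i - t l|) →
    (∀ l j i, i ∉ J → |(X j i + t l * Y j i) - ∑ j' ∈ J, Γ l i j' * (X j j' + t l * Y j j')| ≤ ρ) →
    ∀ I : Fin (κ + 1) → Fin m,
      |(Matrix.of fun a b => Y a (I b)).det| ≤ C0 * ρ / δ ^ (κ + 1) := by
  classical
  set D : ℝ := ((κ + 1).factorial : ℝ) * ((κ + 1 : ℕ) * (2 + 2 * κ * 3 ^ κ) ^ (κ + 1)) with hD
  have hD0 : 0 ≤ D := by positivity
  refine ⟨(κ + 2 : ℕ) * D, by positivity, ?_⟩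
  intro X Y t J Γ ρ δ hX hY ht hJ hΓ hρ hδ hsep h I
  let A : Matrix (Fin (κ + 1)) (Fin (κ + 1)) ℝ := Matrix.of fun a b => Y a (I b)
  let B : Matrix (Fin (κ + 1)) (Fin (κ + 1)) ℝ := Matrix.of fun a b => X a (I b)
  let P : Polynomial ℝ := Matrix.det ((Polynomial.X : Polynomial ℝ) • A.map Polynomial.C +
    B.map Polynomial.C)
  have hPev : ∀ τ, P.eval τ = (Matrix.of fun a b => X a (I b) + τ * Y a (I b)).det := by
    intro τ
    have e := (Polynomial.evalRingHom τ).map_det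
      ((Polynomial.X : Polynomial ℝ) • A.map Polynomial.C + B.map Polynomial.C)
    rw [Polynomial.coe_evalRingHom] at e
    show P.eval τ = _
    rw [show P.eval τ = _ from e]
    congr 1
    ext a b
    simp only [RingHom.mapMatrix_apply, Polynomial.coe_evalRingHom, Matrix.map_apply, Matrix.add_apply, Matrix.smul_apply, Matrix.of_apply, smul_eq_mul, Polynomial.X_mul_C, Polynomial.eval_add, Polynomial.eval_mul, Polynomial.eval_C, Polynomial.eval_X, A, B]
    ring
  have hPdeg : P.natDegree ≤ κ + 1 := by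
    have := Polynomial.natDegree_det_X_add_C_le A B
    rwa [Fintype.card_fin] at this
  have hPc : P.coeff (κ + 1) = A.det := by
    have := Polynomial.coeff_det_X_add_C_card A B
    rwa [Fintype.card_fin] at this
  have hinj : Set.InjOn t (Finset.univ : Finset (Fin (κ + 2))) := by
    intro i _ l _ hil
    by_contra hne
    have := hsep i l hne
    rw [hil, sub_self, abs_zero] at this
    linarith only [hδ, this]
  have hdeg : P.degree < ((Finset.univ : Finset (Fin (κ + 2))).card : WithBot ℕ) := by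
    rw [Finset.card_univ, Fintype.card_fin]
    refine lt_of_le_of_lt Polynomial.degree_le_natDegree ?_
    exact_mod_cast Nat.lt_succ_of_le hPdeg
  have hL := Lagrange.coeff_eq_sum hinj hdeg
  have hcard : (Finset.univ : Finset (Fin (κ + 2))).card - 1 = κ + 1 := by simp only [card_univ, Fintype.card_fin, Nat.add_one_sub_one, Nat.add_left_cancel_iff]
  rw [hcard, hPc] at hL
  show |A.det| ≤ _
  rw [hL]
  refine (Finset.abs_sum_le_sum_abs _ _).trans ?_
  have hterm : ∀ l : Fin (κ + 2),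
      |P.eval (t l) / ∏ j ∈ (Finset.univ : Finset (Fin (κ + 2))).erase l, (t l - t j)| ≤
        D * ρ / δ ^ (κ + 1) := by
    intro l
    rw [abs_div]
    have h1 : |P.eval (t l)| ≤ D * ρ := by
      rw [hPev]
      have := det_graph (fun j i => X j i + t l * Y j i) J (Γ l) ρ (fun j i => by
          refine (abs_add_le _ _).trans ?_
          rw [abs_mul]
          have := mul_le_one₀ (ht l) (abs_nonneg _) (hY j i)
          linarith only [this, hX j i]) hJ (hΓ l) hρ (h l) I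
      calc _ ≤ _ := this
        _ = D * ρ := by rw [hD]; ring
    have h2 : δ ^ (κ + 1) ≤ |∏ j ∈ (Finset.univ : Finset (Fin (κ + 2))).erase l, (t l - t j)| := by
      rw [Finset.abs_prod]
      calc δ ^ (κ + 1) = ∏ j ∈ (Finset.univ : Finset (Fin (κ + 2))).erase l, δ := by
            rw [Finset.prod_const, Finset.card_erase_of_mem (Finset.mem_univ _)]
            simp only [card_univ, Fintype.card_fin, Nat.add_one_sub_one]
        _ ≤ _ := Finset.prod_le_prod (fun _ _ => hδ.le) (fun j hj => by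
            exact hsep l j (Finset.ne_of_mem_erase hj).symm)
    exact div_le_div₀ (by (clear * - hρ; positivity)) h1 (by positivity) h2
  calc ∑ l, |P.eval (t l) / ∏ j ∈ (Finset.univ : Finset (Fin (κ + 2))).erase l, (t l - t j)| ≤
      ∑ l : Fin (κ + 2), D * ρ / δ ^ (κ + 1) := Finset.sum_le_sum fun l _ => hterm l
    _ = (κ + 2 : ℕ) * D * ρ / δ ^ (κ + 1) := by
      rw [Finset.sum_const, Finset.card_univ, Fintype.card_fin, nsmul_eq_mul]; ring

end Vale.Agent.P127.Stk.EndP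
end

section

/-!
# P127 / Stk / StepR : facts on polynomials (normalised by the `ℓ¹` norm of the coefficients)
-/

namespace Vale.Agent.P127.Stk.R

open Finset Polynomial

/-- sum of the absolute values of the coefficients -/
noncomputable def pn (P : ℝ[X]) : ℝ := P.sum fun _ a => |a|

theorem pn_eq_range (P : ℝ[X]) (n : ℕ) (h : P.natDegree < n) :
    pn P = ∑ i ∈ range n, |P.coeff i| := by
  unfold pn
  exact P.sum_over_range' (fun i => by simp) n h

theorem pn_nonneg (P : ℝ[X]) : 0 ≤ pn P := by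
  rw [pn_eq_range P _ (Nat.lt_succ_self _)]
  exact Finset.sum_nonneg fun i _ => abs_nonneg _

theorem pn_zero : pn 0 = 0 := by
  rw [pn_eq_range 0 1 (by simp)]; simp

theorem pn_add_le (P Q : ℝ[X]) : pn (P + Q) ≤ pn P + pn Q := by
  have h1 : (P + Q).natDegree ≤ max P.natDegree Q.natDegree := natDegree_add_le P Q
  rw [pn_eq_range (P + Q) (max P.natDegree Q.natDegree + 1) (by omega),
    pn_eq_range P (max P.natDegree Q.natDegree + 1) (by omega),
    pn_eq_range Q (max P.natDegree Q.natDegree + 1) (by omega), ← Finset.sum_add_distrib]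
  refine Finset.sum_le_sum fun i _ => ?_
  rw [coeff_add]
  exact abs_add_le _ _

theorem pn_C_mul (a : ℝ) (P : ℝ[X]) : pn (C a * P) = |a| * pn P := by
  have h1 : (C a * P).natDegree ≤ P.natDegree := natDegree_C_mul_le a P
  rw [pn_eq_range (C a * P) (P.natDegree + 1) (by omega),
    pn_eq_range P (P.natDegree + 1) (by omega), Finset.mul_sum]
  refine Finset.sum_congr rfl fun i _ => ?_
  rw [coeff_C_mul, abs_mul]

theorem pn_X_mul (P : ℝ[X]) : pn (X * P) = pn P := by
  have h1 : (X * P).natDegree ≤ P.natDegree + 1 := by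
    have := natDegree_mul_le (p := (X : ℝ[X])) (q := P)
    have h2 := natDegree_X_le (R := ℝ)
    omega
  rw [pn_eq_range (X * P) (P.natDegree + 1 + 1) (by omega),
    pn_eq_range P (P.natDegree + 1) (by omega), Finset.sum_range_succ']
  simp [coeff_X_mul]

theorem pn_sum_le {ι : Type*} (s : Finset ι) (f : ι → ℝ[X]) :
    pn (∑ i ∈ s, f i) ≤ ∑ i ∈ s, pn (f i) := by
  classical
  induction s using Finset.induction_on with
  | empty => simp [pn_zero]
  | insert a s ha ih =>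
    rw [Finset.sum_insert ha, Finset.sum_insert ha]
    exact (pn_add_le _ _).trans (by linarith)

theorem pn_X_sub_C_mul_le (u : ℝ) (P : ℝ[X]) : pn ((X - C u) * P) ≤ (1 + |u|) * pn P := by
  have h : (X - C u) * P = X * P + C (-u) * P := by
    rw [C_neg]; ring
  rw [h]
  refine (pn_add_le _ _).trans ?_
  rw [pn_X_mul, pn_C_mul, abs_neg]
  linarith

theorem pn_prod_le {ι : Type*} (s : Finset ι) (u : ι → ℝ) (hu : ∀ i ∈ s, |u i| ≤ 1) :
    pn (∏ i ∈ s, (X - C (u i))) ≤ 2 ^ s.card := by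
  classical
  induction s using Finset.induction_on with
  | empty =>
    have : pn (1 : ℝ[X]) = 1 := by
      rw [pn_eq_range 1 1 (by simp only [natDegree_one, Order.lt_one_iff])]; simp only [range_one, sum_singleton, coeff_one_zero, abs_one]
    simp [this]
  | insert a s ha ih =>
    rw [Finset.prod_insert ha, Finset.card_insert_of_notMem ha, pow_succ]
    refine (pn_X_sub_C_mul_le _ _).trans ?_
    have h1 := ih fun i hi => hu i (Finset.mem_insert_of_mem hi)
    have h2 := hu a (Finset.mem_insert_self a s)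
    have h3 := pn_nonneg (∏ i ∈ s, (X - C (u i)))
    have h4 := abs_nonneg (u a)
    nlinarith

theorem abs_eval_le_pn (P : ℝ[X]) {u : ℝ} (h0 : 0 ≤ u) (h1 : u ≤ 1) : |P.eval u| ≤ pn P := by
  rw [eval_eq_sum_range, pn_eq_range P (P.natDegree + 1) (by omega)]
  refine (Finset.abs_sum_le_sum_abs _ _).trans (Finset.sum_le_sum fun i _ => ?_)
  rw [abs_mul, abs_pow, abs_of_nonneg h0]
  exact mul_le_of_le_one_right (abs_nonneg _) (pow_le_one₀ h0 h1)

/-- Lagrange: small values at `D + 1` separated points bound the coefficients -/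
theorem pn_le_of_points (D : ℕ) (P : ℝ[X]) (hP : P.natDegree ≤ D) (ρ : ℝ) (h0 : 0 < ρ)
    (_h1 : ρ ≤ 1) (u : Fin (D + 1) → ℝ) (hu : ∀ i, 0 ≤ u i ∧ u i ≤ 1)
    (hs : ∀ i j, i ≠ j → ρ ≤ |u i - u j|) (μ : ℝ) (hμ : ∀ i, |P.eval (u i)| ≤ μ) :
    pn P ≤ (D + 1) * (2 / ρ) ^ D * μ := by
  classical
  have hinj : Set.InjOn u (Finset.univ : Finset (Fin (D + 1))) := by
    intro i _ j _ hij
    by_contra hne
    have := hs i j hne
    rw [hij, sub_self, abs_zero] at this
    linarith only [h0, this]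
  have hdeg : P.degree < (Finset.univ : Finset (Fin (D + 1))).card := by
    rw [Finset.card_univ, Fintype.card_fin]
    refine lt_of_le_of_lt degree_le_natDegree ?_
    exact_mod_cast Nat.lt_succ_of_le hP
  have hP' : P = ∑ i, C (P.eval (u i)) * Lagrange.basis Finset.univ u i := by
    have := Lagrange.eq_interpolate hinj hdeg
    conv_lhs => rw [this]
    rw [Lagrange.interpolate_apply]
  have hb : ∀ i, pn (Lagrange.basis Finset.univ u i) ≤ (2 / ρ) ^ D := by
    intro i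
    have e1 : Lagrange.basis Finset.univ u i =
        C (∏ j ∈ Finset.univ.erase i, (u i - u j)⁻¹) * ∏ j ∈ Finset.univ.erase i, (X - C (u j)) := by
      unfold Lagrange.basis Lagrange.basisDivisor
      rw [Finset.prod_mul_distrib, ← map_prod]
    rw [e1, pn_C_mul, Finset.abs_prod]
    have hcard : (Finset.univ.erase i : Finset (Fin (D + 1))).card = D := by
      rw [Finset.card_erase_of_mem (Finset.mem_univ _), Finset.card_univ, Fintype.card_fin]; rfl
    have h2 : pn (∏ j ∈ Finset.univ.erase i, (X - C (u j))) ≤ 2 ^ D := by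
      have := pn_prod_le (Finset.univ.erase i) u fun j _ => by
        rw [abs_of_nonneg (hu j).1]; exact (hu j).2
      rwa [hcard] at this
    have h3 : ∏ j ∈ Finset.univ.erase i, |(u i - u j)⁻¹| ≤ (1 / ρ) ^ D := by
      have : ∏ j ∈ Finset.univ.erase i, |(u i - u j)⁻¹| ≤ ∏ _j ∈ Finset.univ.erase i, (1 / ρ) := by
        refine Finset.prod_le_prod (fun _ _ => abs_nonneg _) fun j hj => ?_
        have hne : i ≠ j := (Finset.ne_of_mem_erase hj).symm
        rw [abs_inv, one_div]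
        exact inv_anti₀ h0 (hs i j hne)
      rwa [Finset.prod_const, hcard] at this
    calc (∏ j ∈ Finset.univ.erase i, |(u i - u j)⁻¹|) * pn (∏ j ∈ Finset.univ.erase i, (X - C (u j)))
        ≤ (1 / ρ) ^ D * 2 ^ D := mul_le_mul h3 h2 (pn_nonneg _) (by positivity)
      _ = (2 / ρ) ^ D := by rw [← mul_pow]; congr 1; ring
  have hμ0 : 0 ≤ μ := (abs_nonneg _).trans (hμ 0)
  calc pn P = pn (∑ i, C (P.eval (u i)) * Lagrange.basis Finset.univ u i) := by rw [← hP']
    _ ≤ ∑ i, pn (C (P.eval (u i)) * Lagrange.basis Finset.univ u i) := pn_sum_le _ _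
    _ ≤ ∑ _i : Fin (D + 1), μ * (2 / ρ) ^ D := by
      refine Finset.sum_le_sum fun i _ => ?_
      rw [pn_C_mul]
      exact mul_le_mul (hμ i) (hb i) (pn_nonneg _) hμ0
    _ = (D + 1) * (2 / ρ) ^ D * μ := by
      rw [Finset.sum_const, Finset.card_univ, Fintype.card_fin, nsmul_eq_mul]
      push_cast; ring

/-- the points of `[0,1)` where `|P|` is much smaller than `pn P` lie in few dyadic cells -/
theorem cells_card (D j : ℕ) (P : ℝ[X]) (hP : P.natDegree ≤ D) :
    ∃ F : Finset ℤ, F.card ≤ 2 * D ∧ ∀ u : ℝ, 0 ≤ u → u < 1 →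
      |P.eval u| * ((D + 1) * 2 ^ ((j + 1) * D)) < pn P → ⌊(2 : ℝ) ^ j * u⌋ ∈ F := by
  classical
  let bad : ℝ → Prop := fun u => 0 ≤ u ∧ u < 1 ∧ |P.eval u| * ((D + 1) * 2 ^ ((j + 1) * D)) < pn P
  let F : Finset ℤ := (Finset.Ico (0 : ℤ) (2 ^ j)).filter
    fun k => ∃ u, bad u ∧ ⌊(2 : ℝ) ^ j * u⌋ = k
  have hpow : (0 : ℝ) < 2 ^ j := by positivity
  refine ⟨F, ?_, ?_⟩
  · by_contra hcon
    push Not at hcon
    obtain ⟨G, hGF, hG⟩ := Finset.exists_subset_card_eq (Nat.succ_le_of_lt hcon)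
    let s := G.orderEmbOfFin hG
    let idx : Fin (D + 1) → Fin (2 * D).succ := fun i => ⟨2 * i.1, by have := i.2; (clear * - this; omega)⟩
    have hmem : ∀ i : Fin (D + 1), ∃ u, bad u ∧ ⌊(2 : ℝ) ^ j * u⌋ = s (idx i) := by
      intro i
      have : s (idx i) ∈ G := Finset.orderEmbOfFin_mem G hG (idx i)
      exact (Finset.mem_filter.1 (hGF this)).2
    choose u hub hus using hmem
    have hgap : ∀ i k : Fin (D + 1), i < k → s (idx i) + 2 ≤ s (idx k) := by
      intro i k hik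
      have h1 : idx i < (⟨2 * i.1 + 1, by have := k.2; have : i.1 < k.1 := hik; (clear * - hik; omega)⟩ :
          Fin (2 * D).succ) := by
        show 2 * i.1 < 2 * i.1 + 1
        omega
      have h2 : (⟨2 * i.1 + 1, by have := k.2; have : i.1 < k.1 := hik; omega⟩ :
          Fin (2 * D).succ) < idx k := by
        show 2 * i.1 + 1 < 2 * k.1
        have : i.1 < k.1 := hik
        (clear * - hik; omega)
      have h3 := s.strictMono h1
      have h4 := s.strictMono h2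
      omega
    have hdist : ∀ i k : Fin (D + 1), i < k → 1 / 2 ^ j ≤ |u i - u k| := by
      intro i k hik
      have h1 := hgap i k hik
      rw [← hus i, ← hus k] at h1
      have h2 : (2 : ℝ) ^ j * u i < ⌊(2 : ℝ) ^ j * u i⌋ + 1 := Int.lt_floor_add_one _
      have h3 : (⌊(2 : ℝ) ^ j * u k⌋ : ℝ) ≤ (2 : ℝ) ^ j * u k := Int.floor_le _
      have h4 : (⌊(2 : ℝ) ^ j * u i⌋ : ℝ) + 2 ≤ ⌊(2 : ℝ) ^ j * u k⌋ := by exact_mod_cast h1
      have h5 : 1 ≤ (2 : ℝ) ^ j * (u k - u i) := by (clear * - h2 h3 h4; nlinarith)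
      have h6 : 1 / (2 : ℝ) ^ j ≤ u k - u i := by
        rw [div_le_iff₀ hpow]; linarith only [h2, h3, h4]
      calc 1 / (2 : ℝ) ^ j ≤ u k - u i := h6
        _ ≤ |u k - u i| := le_abs_self _
        _ = |u i - u k| := abs_sub_comm _ _
    have hs : ∀ i k : Fin (D + 1), i ≠ k → 1 / 2 ^ j ≤ |u i - u k| := by
      intro i k hik
      rcases lt_or_gt_of_ne hik with h | h
      · exact hdist i k h
      · rw [abs_sub_comm]; exact hdist k i h
    obtain ⟨i0, -, hi0⟩ := Finset.exists_max_image (Finset.univ : Finset (Fin (D + 1)))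
      (fun i => |P.eval (u i)|) ⟨0, Finset.mem_univ _⟩
    have hle := pn_le_of_points D P hP (1 / 2 ^ j) (by positivity)
      (by rw [div_le_one hpow]; exact one_le_pow₀ (by norm_num)) u
      (fun i => ⟨(hub i).1, (hub i).2.1.le⟩) hs (|P.eval (u i0)|) (fun i => hi0 i (Finset.mem_univ _))
    have hlt := (hub i0).2.2
    have e : ((D : ℝ) + 1) * (2 / (1 / 2 ^ j)) ^ D * |P.eval (u i0)| =
        |P.eval (u i0)| * ((D + 1) * 2 ^ ((j + 1) * D)) := by
      have : (2 : ℝ) / (1 / 2 ^ j) = 2 ^ (j + 1) := by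
        rw [pow_succ]; field_simp
      rw [this, ← pow_mul]; ring
    rw [e] at hle
    linarith only [hle, hlt]
  · intro u hu0 hu1 hlt
    refine Finset.mem_filter.2 ⟨Finset.mem_Ico.2 ⟨Int.floor_nonneg.2 (by positivity), ?_⟩, u,
      ⟨hu0, hu1, hlt⟩, rfl⟩
    rw [Int.floor_lt]
    push_cast
    nlinarith only [hpow, hu1]

theorem taylor_mono (i : ℕ) {u v : ℝ} (hu : 0 ≤ u) (hu' : u ≤ 1)
    (hv : 0 ≤ v) (hv' : v ≤ 1) :
    |v ^ i - u ^ i - (v - u) * (i * u ^ (i - 1))| ≤ i ^ 2 * (v - u) ^ 2 := by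
  induction i with
  | zero => simp
  | succ i ih =>
    have e : v ^ (i + 1) - u ^ (i + 1) - (v - u) * ((i + 1 : ℕ) * u ^ (i + 1 - 1)) =
        v * (v ^ i - u ^ i - (v - u) * (i * u ^ (i - 1))) + i * (v - u) ^ 2 * u ^ (i - 1) := by
      rcases i with _ | i
      · simp only [zero_add, pow_one, Nat.cast_one, tsub_self, pow_zero, mul_one, sub_self, CharP.cast_eq_zero, zero_tsub, mul_zero, zero_mul, add_zero]
      · simp only [Nat.add_sub_cancel]
        push_cast
        ring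
    rw [e]
    refine (abs_add_le _ _).trans ?_
    rw [abs_mul, abs_of_nonneg hv, abs_mul, abs_mul, Nat.abs_cast, abs_pow, abs_pow,
      abs_of_nonneg hu, sq_abs]
    have h1 : v * |v ^ i - u ^ i - (v - u) * (i * u ^ (i - 1))| ≤ i ^ 2 * (v - u) ^ 2 :=
      (mul_le_of_le_one_left (abs_nonneg _) hv').trans ih
    have h2 : (i : ℝ) * (v - u) ^ 2 * u ^ (i - 1) ≤ i * (v - u) ^ 2 :=
      mul_le_of_le_one_right (by (clear * -; positivity)) (pow_le_one₀ hu hu')
    have h3 : (0 : ℝ) ≤ i := Nat.cast_nonneg i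
    have h4 : 0 ≤ (v - u) ^ 2 := sq_nonneg _
    push_cast
    nlinarith only [h1, h2]

/-- Taylor expansion of order two -/
theorem taylor_two (D : ℕ) (P : ℝ[X]) (hP : P.natDegree ≤ D) {u v : ℝ} (hu : 0 ≤ u) (hu' : u ≤ 1)
    (hv : 0 ≤ v) (hv' : v ≤ 1) :
    |P.eval v - P.eval u - (v - u) * P.derivative.eval u| ≤ D ^ 2 * pn P * (v - u) ^ 2 := by
  have e1 : ∀ w : ℝ, P.eval w = ∑ i ∈ range (D + 1), P.coeff i * w ^ i := fun w =>
    eval_eq_sum_range' (by omega) w
  have e2 : P.derivative.eval u = ∑ i ∈ range (D + 1), P.coeff i * (i * u ^ (i - 1)) := by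
    rw [derivative_eval, P.sum_over_range' (fun i => by simp only [zero_mul]) (D + 1) (by omega)]
    exact Finset.sum_congr rfl fun i _ => by ring
  rw [e1 v, e1 u, e2, ← Finset.sum_sub_distrib, Finset.mul_sum, ← Finset.sum_sub_distrib,
    pn_eq_range P (D + 1) (by omega), Finset.mul_sum, Finset.sum_mul]
  refine (Finset.abs_sum_le_sum_abs _ _).trans (Finset.sum_le_sum fun i hi => ?_)
  have h1 : P.coeff i * v ^ i - P.coeff i * u ^ i - (v - u) * (P.coeff i * (i * u ^ (i - 1))) =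
      P.coeff i * (v ^ i - u ^ i - (v - u) * (i * u ^ (i - 1))) := by ring
  rw [h1, abs_mul]
  have h2 := taylor_mono i hu hu' hv hv'
  have h3 : (i : ℝ) ^ 2 ≤ (D : ℝ) ^ 2 := by
    have : i ≤ D := Nat.lt_succ_iff.1 (Finset.mem_range.1 hi)
    have : (i : ℝ) ≤ D := by exact_mod_cast this
    exact pow_le_pow_left₀ (Nat.cast_nonneg i) this 2
  have h4 : 0 ≤ (v - u) ^ 2 := sq_nonneg _
  calc |P.coeff i| * |v ^ i - u ^ i - (v - u) * (i * u ^ (i - 1))|
      ≤ |P.coeff i| * ((D : ℝ) ^ 2 * (v - u) ^ 2) :=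
        mul_le_mul_of_nonneg_left (h2.trans (mul_le_mul_of_nonneg_right h3 h4)) (abs_nonneg _)
    _ = D ^ 2 * |P.coeff i| * (v - u) ^ 2 := by ring

theorem pn_derivative_le (D : ℕ) (P : ℝ[X]) (hP : P.natDegree ≤ D) :
    pn P.derivative ≤ D * pn P := by
  have h1 : P.derivative.natDegree ≤ D := (natDegree_derivative_le P).trans (by omega)
  have hP' : pn P = ∑ i ∈ range (D + 1), |P.coeff (i + 1)| + |P.coeff 0| := by
    rw [pn_eq_range P (D + 1 + 1) (by omega), Finset.sum_range_succ']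
  rw [hP', pn_eq_range P.derivative (D + 1) (by omega), mul_add, Finset.mul_sum]
  have h2 : ∑ i ∈ range (D + 1), |P.derivative.coeff i| ≤
      ∑ i ∈ range (D + 1), (D : ℝ) * |P.coeff (i + 1)| := by
    refine Finset.sum_le_sum fun i hi => ?_
    rw [coeff_derivative, abs_mul]
    by_cases hiD : i + 1 ≤ D
    · have h3 : |(i : ℝ) + 1| ≤ D := by
        rw [abs_of_nonneg (by positivity)]; exact_mod_cast hiD
      rw [mul_comm]
      exact mul_le_mul_of_nonneg_right h3 (abs_nonneg _)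
    · have h4 : P.coeff (i + 1) = 0 := coeff_eq_zero_of_natDegree_lt (by omega)
      rw [h4]; simp only [abs_zero, zero_mul, mul_zero, Std.le_refl]
  have h5 : 0 ≤ (D : ℝ) * |P.coeff 0| := by (clear * -; positivity)
  linarith only [h2, h5]

/-- a polynomial with a root in `[0,1]` is controlled by its derivative -/
theorem pn_le_derivative (P : ℝ[X]) {u : ℝ} (hu : 0 ≤ u) (hu' : u ≤ 1) (h : P.eval u = 0) :
    pn P ≤ 2 * pn P.derivative := by
  have h1 : P.derivative.natDegree ≤ P.natDegree := (natDegree_derivative_le P).trans (by omega)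
  have hd : pn P.derivative = ∑ i ∈ range (P.natDegree + 1), |P.derivative.coeff i| :=
    pn_eq_range _ _ (by omega)
  have h2 : ∑ i ∈ range (P.natDegree + 1), |P.coeff (i + 1)| ≤ pn P.derivative := by
    rw [hd]
    refine Finset.sum_le_sum fun i _ => ?_
    rw [coeff_derivative, abs_mul]
    refine le_mul_of_one_le_right (abs_nonneg _) ?_
    rw [abs_of_nonneg (by (clear * -; positivity))]
    have : (0 : ℝ) ≤ i := Nat.cast_nonneg i
    linarith only []
  have h3 : P.eval u = ∑ i ∈ range (P.natDegree + 1), P.coeff (i + 1) * u ^ (i + 1) + P.coeff 0 := by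
    rw [eval_eq_sum_range' (n := P.natDegree + 1 + 1) (by omega) u, Finset.sum_range_succ']
    simp only [pow_zero, mul_one]
  have h4 : |P.coeff 0| ≤ ∑ i ∈ range (P.natDegree + 1), |P.coeff (i + 1)| := by
    have e : P.coeff 0 = -∑ i ∈ range (P.natDegree + 1), P.coeff (i + 1) * u ^ (i + 1) := by
      rw [h] at h3; linarith only [h3]
    rw [e, abs_neg]
    refine (Finset.abs_sum_le_sum_abs _ _).trans (Finset.sum_le_sum fun i _ => ?_)
    rw [abs_mul, abs_pow, abs_of_nonneg hu]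
    exact mul_le_of_le_one_right (abs_nonneg _) (pow_le_one₀ hu hu')
  rw [pn_eq_range P (P.natDegree + 1 + 1) (by omega), Finset.sum_range_succ']
  linarith only [h2, h4]

end Vale.Agent.P127.Stk.R
end

section

/-!
# P127 / Stk : finite differences (PROOF.md, section 7)
-/

namespace Vale.Agent.P127.Stk

open Finset Polynomial

/-- the difference of order `k + 1` along the progression `x, x + μ, ...` -/
noncomputable def apd (k : ℕ) (f : ℤ → ℝ) (x μ : ℤ) : ℝ :=
  ∑ l ∈ range (k + 2), (-1 : ℝ) ^ l * ((k + 1).choose l : ℝ) * f (x + l * μ)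

end Vale.Agent.P127.Stk
end

section

/-!
# P127 / Stk / WhitB : dyadic refinement (Whitney's theorem along dyadic steps)

A function on an integer interval whose differences of order `p` with steps `1, 2, 4, ..., 2^J`
are at most `F` is close to a polynomial of degree `< p`, up to a factor `C (J + 1)`.
-/

namespace Vale.Agent.P127.Stk

open Finset

/-- the shift by `h` -/
noncomputable def sh (h : ℤ) : Module.End ℝ (ℤ → ℝ) :=
  LinearMap.funLeft ℝ ℝ (fun x : ℤ => x + h)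

/-- the difference with step `h` -/
noncomputable def DD (h : ℤ) : Module.End ℝ (ℤ → ℝ) := sh h - 1

theorem sh_apply (h : ℤ) (f : ℤ → ℝ) (x : ℤ) : sh h f x = f (x + h) := rfl

theorem DD_apply (h : ℤ) (f : ℤ → ℝ) (x : ℤ) : DD h f x = f (x + h) - f x := rfl

theorem sh_add (a b : ℤ) : sh (a + b) = sh a * sh b := by
  ext f x
  simp only [Module.End.mul_apply, sh_apply]
  congr 1
  ring

theorem sh_pow (h : ℤ) (n : ℕ) (f : ℤ → ℝ) (x : ℤ) : ((sh h) ^ n) f x = f (x + n * h) := by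
  induction n generalizing x with
  | zero => simp
  | succ n ih =>
    rw [pow_succ', Module.End.mul_apply, sh_apply, ih]
    congr 1
    push_cast
    ring

theorem DD_two (h : ℤ) : DD (2 * h) = DD h * (DD h + 2) := by
  have e : DD (2 * h) = sh h * sh h - 1 := by
    rw [DD, two_mul, sh_add]
  have h2 : (2 : Module.End ℝ (ℤ → ℝ)) = 1 + 1 := by norm_num
  rw [e, DD, h2]
  generalize sh h = a
  have e1 : a - 1 + (1 + 1) = a + 1 := by abel
  rw [e1, sub_mul, mul_add, mul_one, one_mul]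
  abel

/-- expansion of the differences -/
theorem DD_pow_apply (h : ℤ) (n : ℕ) (f : ℤ → ℝ) (x : ℤ) :
    ((DD h) ^ n) f x = ∑ m ∈ range (n + 1), (-1 : ℝ) ^ (n - m) * (n.choose m : ℝ) * f (x + m * h) := by
  set c : Module.End ℝ (ℤ → ℝ) := algebraMap ℝ (Module.End ℝ (ℤ → ℝ)) (-1) with hcdef
  have hc : Commute (sh h) c := Algebra.commute_algebraMap_right _ _
  have e0 : DD h = sh h + c := by
    ext g y
    rw [DD_apply, LinearMap.add_apply, Pi.add_apply, sh_apply, hcdef, Module.algebraMap_end_apply,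
      Pi.smul_apply, smul_eq_mul]
    ring
  have e : (DD h) ^ n = ∑ m ∈ range (n + 1),
      (sh h) ^ m * c ^ (n - m) * (n.choose m : Module.End ℝ (ℤ → ℝ)) := by
    rw [e0, hc.add_pow]
  rw [e, LinearMap.sum_apply, Finset.sum_apply]
  refine Finset.sum_congr rfl fun m _ => ?_
  have h1 : ((n.choose m : Module.End ℝ (ℤ → ℝ))) f = (n.choose m : ℝ) • f := by
    rw [Module.End.natCast_apply, Nat.cast_smul_eq_nsmul]
  have h2 : ∀ g : ℤ → ℝ, (c ^ (n - m)) g = ((-1 : ℝ) ^ (n - m)) • g := by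
    intro g
    rw [hcdef, ← map_pow, Module.algebraMap_end_apply]
  rw [Module.End.mul_apply, Module.End.mul_apply, h1, h2, sh_pow]
  simp only [Pi.smul_apply, smul_eq_mul]
  ring

/-- a difference of higher order is bounded by differences of order `p` -/
theorem DD_higher (h : ℤ) (p r : ℕ) (f : ℤ → ℝ) (x : ℤ) (F : ℝ)
    (hF : ∀ m : ℕ, m ≤ r → |((DD h) ^ p) f (x + m * h)| ≤ F) :
    |((DD h) ^ (p + r)) f x| ≤ 2 ^ r * F := by
  have e : ((DD h) ^ (p + r)) f x = ((DD h) ^ r) (((DD h) ^ p) f) x := by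
    rw [add_comm, pow_add, Module.End.mul_apply]
  rw [e, DD_pow_apply]
  refine (abs_sum_le_sum_abs _ _).trans ?_
  have h2 : ∑ m ∈ range (r + 1), ((r.choose m : ℕ) : ℝ) * F = 2 ^ r * F := by
    rw [← Finset.sum_mul]
    congr 1
    have := Nat.sum_range_choose r
    exact_mod_cast this
  rw [← h2]
  refine Finset.sum_le_sum fun m hm => ?_
  rw [abs_mul, abs_mul, abs_pow, abs_neg, abs_one, one_pow, one_mul, Nat.abs_cast]
  exact mul_le_mul_of_nonneg_left (hF m (by simpa [Nat.lt_succ_iff] using hm)) (Nat.cast_nonneg _)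

/-- doubling the step -/
theorem DD_two_pow (h : ℤ) (i : ℕ) (f : ℤ → ℝ) (x : ℤ) :
    ((DD (2 * h)) ^ i) f x =
      ∑ m ∈ range (i + 1), (2 : ℝ) ^ (i - m) * (i.choose m : ℝ) * ((DD h) ^ (i + m)) f x := by
  have hc1 : Commute (DD h) (DD h + 2) :=
    (Commute.refl _).add_right (Commute.ofNat_right _ 2)
  have hc2 : Commute (DD h) (2 : Module.End ℝ (ℤ → ℝ)) := Commute.ofNat_right _ 2
  have e : (DD (2 * h)) ^ i = ∑ m ∈ range (i + 1),
      (DD h) ^ (i + m) * (2 : Module.End ℝ (ℤ → ℝ)) ^ (i - m) *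
        (i.choose m : Module.End ℝ (ℤ → ℝ)) := by
    rw [DD_two, hc1.mul_pow, hc2.add_pow, Finset.mul_sum]
    refine Finset.sum_congr rfl fun m _ => ?_
    rw [pow_add]
    noncomm_ring
  rw [e, LinearMap.sum_apply, Finset.sum_apply]
  refine Finset.sum_congr rfl fun m _ => ?_
  have h1 : ((i.choose m : Module.End ℝ (ℤ → ℝ))) f = (i.choose m : ℝ) • f := by
    rw [Module.End.natCast_apply, Nat.cast_smul_eq_nsmul]
  have h2 : ∀ (n : ℕ) (g : ℤ → ℝ), ((2 : Module.End ℝ (ℤ → ℝ)) ^ n) g = ((2 : ℝ) ^ n) • g := by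
    intro n g
    have : ((2 : Module.End ℝ (ℤ → ℝ)) ^ n) = ((2 ^ n : ℕ) : Module.End ℝ (ℤ → ℝ)) := by
      push_cast; rfl
    rw [this, Module.End.natCast_apply, ← Nat.cast_smul_eq_nsmul ℝ]
    push_cast
    rfl
  rw [Module.End.mul_apply, Module.End.mul_apply, h1, h2, map_smul, map_smul]
  simp only [Pi.smul_apply, smul_eq_mul]
  ring

/-- the hypotheses of the dyadic refinement -/
structure Dya (p : ℕ) (f : ℤ → ℝ) (J : ℕ) (b : ℤ) (F : ℝ) : Prop where
  F0 : 0 ≤ F
  dif : ∀ j ≤ J, ∀ x : ℤ, 0 ≤ x → x + p * 2 ^ j ≤ b + 2 * p * 2 ^ J →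
    |((DD (2 ^ j)) ^ p) f x| ≤ F
  val : ∀ l : ℕ, (l : ℤ) * 2 ^ J ≤ b + p * 2 ^ J → |f (l * 2 ^ J)| ≤ F

theorem dya_top {p : ℕ} {f : ℤ → ℝ} {J : ℕ} {b : ℤ} {F : ℝ} (D : Dya p f J b F) {i : ℕ}
    (hi : i ≤ p) (l : ℕ) (hl : (l : ℤ) * 2 ^ J ≤ b) :
    |((DD (2 ^ J)) ^ i) f (l * 2 ^ J)| ≤ 2 ^ i * F := by
  have h := DD_higher (2 ^ J) 0 i f (l * 2 ^ J) F (fun m hm => by
    rw [pow_zero, Module.End.one_apply]
    have e : (l : ℤ) * 2 ^ J + m * 2 ^ J = ((l + m : ℕ) : ℤ) * 2 ^ J := by push_cast; ring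
    rw [e]
    refine D.val _ ?_
    have h1 : ((m : ℕ) : ℤ) ≤ p := by exact_mod_cast hm.trans hi
    have h2 : (0 : ℤ) ≤ 2 ^ J := by positivity
    have h3 := mul_le_mul_of_nonneg_right h1 h2
    push_cast
    linarith only [hl, h3])
  rwa [zero_add] at h

theorem dya_high {p : ℕ} {f : ℤ → ℝ} {J : ℕ} {b : ℤ} {F : ℝ} (D : Dya p f J b F) {i : ℕ}
    (hi : p ≤ i) (hi2 : i ≤ 2 * p) {j : ℕ} (hj : j ≤ J) (x : ℤ) (hx : 0 ≤ x) (hxb : x ≤ b) :
    |((DD (2 ^ j)) ^ i) f x| ≤ 2 ^ (i - p) * F := by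
  obtain ⟨r, rfl⟩ := Nat.exists_eq_add_of_le hi
  rw [Nat.add_sub_cancel_left]
  refine DD_higher _ _ _ _ _ _ fun m hm => D.dif j hj _ ?_ ?_
  · positivity
  · have h1 : ((m : ℕ) : ℤ) ≤ p := by
      have : m ≤ p := by omega
      exact_mod_cast this
    have h2 : (0 : ℤ) ≤ 2 ^ j := by positivity
    have h3 := mul_le_mul_of_nonneg_right h1 h2
    have h4 : (2 : ℤ) ^ j ≤ 2 ^ J := pow_le_pow_right₀ (by norm_num) hj
    have h5 : (0 : ℤ) ≤ p := by positivity
    have h6 := mul_le_mul_of_nonneg_left h4 h5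
    linarith only [hxb, h3, h6]

/-- one order `i`, given all higher orders -/
theorem dya_step {p : ℕ} {κ : ℝ} (hκ : 0 ≤ κ) {i : ℕ} (hi1 : 1 ≤ i) (hip : i < p)
    {f : ℤ → ℝ} {J : ℕ} {b : ℤ} {F : ℝ} (D : Dya p f J b F)
    (hb : ∀ i', i < i' → i' ≤ 2 * p → ∀ j ≤ J, ∀ l : ℕ, (l : ℤ) * 2 ^ j ≤ b →
      |((DD (2 ^ j)) ^ i') f (l * 2 ^ j)| ≤ κ * F) :
    ∀ k ≤ J, ∀ l : ℕ, (l : ℤ) * 2 ^ (J - k) ≤ b →
      |((DD (2 ^ (J - k))) ^ i) f (l * 2 ^ (J - k))| ≤ (2 * (3 ^ i + 1) * κ + 2 ^ i) * F := by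
  set κ' := 2 * (3 ^ i + 1) * κ + 2 ^ i with hκ'
  have hF := D.F0
  have h3i : (0 : ℝ) ≤ 3 ^ i := by positivity
  have h2i : (0 : ℝ) ≤ 2 ^ i := by positivity
  have h3κ : 0 ≤ 3 ^ i * κ := mul_nonneg h3i hκ
  intro k
  induction k with
  | zero =>
    intro _ l hl
    rw [Nat.sub_zero] at hl ⊢
    refine (dya_top D hip.le l hl).trans (mul_le_mul_of_nonneg_right ?_ hF)
    rw [hκ']
    nlinarith only [hκ, h3κ]
  | succ k ih =>
    intro hk l hl
    have hk' : k ≤ J := by omega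
    set j := J - (k + 1) with hj
    have hjk : J - k = j + 1 := by omega
    have hjJ : j ≤ J := by omega
    have ih' : ∀ l : ℕ, (l : ℤ) * 2 ^ (j + 1) ≤ b →
        |((DD (2 ^ (j + 1))) ^ i) f (l * 2 ^ (j + 1))| ≤ κ' * F := by
      intro l hl
      have := ih hk' l
      rw [hjk] at this
      exact this hl
    -- even points
    have even : ∀ l' : ℕ, ((2 * l' : ℕ) : ℤ) * 2 ^ j ≤ b →
        |((DD (2 ^ j)) ^ i) f ((2 * l' : ℕ) * 2 ^ j)| ≤ (κ' / 2 + 3 ^ i * κ) * F := by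
      intro l' hl'
      have e1 : (((2 * l' : ℕ) : ℤ)) * 2 ^ j = (l' : ℤ) * 2 ^ (j + 1) := by
        push_cast; ring
      have h1 := ih' l' (by rw [← e1]; exact hl')
      rw [← e1] at h1
      have e2 : (2 : ℤ) ^ (j + 1) = 2 * 2 ^ j := by ring
      rw [e2, DD_two_pow, Finset.sum_range_succ'] at h1
      simp only [Nat.sub_zero, Nat.choose_zero_right, Nat.cast_one, mul_one, add_zero] at h1
      set X := ((DD (2 ^ j)) ^ i) f ((2 * l' : ℕ) * 2 ^ j) with hX
      set R := ∑ m ∈ range i, (2 : ℝ) ^ (i - (m + 1)) * (i.choose (m + 1) : ℝ) *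
        ((DD (2 ^ j)) ^ (i + (m + 1))) f ((2 * l' : ℕ) * 2 ^ j) with hR
      have hR1 : |R| ≤ 3 ^ i * κ * F := by
        rw [hR]
        refine (abs_sum_le_sum_abs _ _).trans ?_
        have h3 : ∑ m ∈ range (i + 1), (2 : ℝ) ^ (i - m) * (i.choose m : ℝ) = 3 ^ i := by
          have := add_pow (1 : ℝ) 2 i
          norm_num at this
          rw [this]
        have h4 : ∑ m ∈ range i, (2 : ℝ) ^ (i - (m + 1)) * (i.choose (m + 1) : ℝ) ≤ 3 ^ i := by
          rw [← h3, Finset.sum_range_succ']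
          simp only [Nat.sub_zero, Nat.choose_zero_right, Nat.cast_one, mul_one]
          linarith only [h2i]
        calc ∑ m ∈ range i, |(2 : ℝ) ^ (i - (m + 1)) * (i.choose (m + 1) : ℝ) *
              ((DD (2 ^ j)) ^ (i + (m + 1))) f ((2 * l' : ℕ) * 2 ^ j)|
            ≤ ∑ m ∈ range i, (2 : ℝ) ^ (i - (m + 1)) * (i.choose (m + 1) : ℝ) * (κ * F) := by
              refine Finset.sum_le_sum fun m hm => ?_
              rw [abs_mul, abs_of_nonneg (by (clear * -; positivity) :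
                (0 : ℝ) ≤ (2 : ℝ) ^ (i - (m + 1)) * (i.choose (m + 1) : ℝ))]
              refine mul_le_mul_of_nonneg_left ?_ (by (clear * -; positivity))
              have hm' : m < i := Finset.mem_range.mp hm
              exact hb (i + (m + 1)) (by omega) (by (clear * - hip hm'; omega)) j hjJ (2 * l') hl'
          _ = (∑ m ∈ range i, (2 : ℝ) ^ (i - (m + 1)) * (i.choose (m + 1) : ℝ)) * (κ * F) := by
              rw [Finset.sum_mul]
          _ ≤ 3 ^ i * (κ * F) := mul_le_mul_of_nonneg_right h4 (mul_nonneg hκ hF)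
          _ = 3 ^ i * κ * F := by ring
      have h5 : |(2 : ℝ) ^ i * X| ≤ κ' * F + 3 ^ i * κ * F := by
        have e3 : (2 : ℝ) ^ i * X = (R + 2 ^ i * X) - R := by ring
        rw [e3]
        exact (abs_sub _ _).trans (add_le_add h1 hR1)
      rw [abs_mul, abs_of_nonneg h2i] at h5
      have h6 : (2 : ℝ) ≤ 2 ^ i := by
        calc (2 : ℝ) = 2 ^ 1 := by norm_num
          _ ≤ 2 ^ i := pow_le_pow_right₀ (by norm_num) hi1
      have h7 : 2 * |X| ≤ 2 ^ i * |X| := mul_le_mul_of_nonneg_right h6 (abs_nonneg _)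
      have h8 : 0 ≤ 3 ^ i * κ * F := mul_nonneg h3κ hF
      have h9 : (κ' / 2 + 3 ^ i * κ) * F = (κ' * F + 2 * (3 ^ i * κ * F)) / 2 := by ring
      rw [h9]
      linarith only [h5, h7, h8]
    have hkk : κ' / 2 + 3 ^ i * κ + κ ≤ κ' := by rw [hκ']; linarith only [h2i]
    rcases Nat.even_or_odd' l with ⟨l', rfl | rfl⟩
    · refine (even l' hl).trans (mul_le_mul_of_nonneg_right (by linarith only [hκ, h2i]) hF)
    · have h2j : (0 : ℤ) < 2 ^ j := by positivity
      have hl2 : ((2 * l' : ℕ) : ℤ) * 2 ^ j ≤ b := by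
        refine le_trans ?_ hl
        push_cast
        nlinarith only [h2j]
      have e4 : (((2 * l' + 1 : ℕ) : ℤ)) * 2 ^ j = ((2 * l' : ℕ) : ℤ) * 2 ^ j + 2 ^ j := by
        push_cast; ring
      have e5 : ((DD (2 ^ j)) ^ i) f (((2 * l' : ℕ) : ℤ) * 2 ^ j + 2 ^ j) =
          ((DD (2 ^ j)) ^ i) f (((2 * l' : ℕ) : ℤ) * 2 ^ j) +
          ((DD (2 ^ j)) ^ (i + 1)) f (((2 * l' : ℕ) : ℤ) * 2 ^ j) := by
        rw [pow_succ', Module.End.mul_apply, DD_apply]
        ring
      rw [e4, e5]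
      refine (abs_add_le _ _).trans ?_
      have h1 := even l' hl2
      have h2 := hb (i + 1) (by omega) (by (clear * - hip; omega)) j hjJ (2 * l') hl2
      calc _ ≤ (κ' / 2 + 3 ^ i * κ) * F + κ * F := add_le_add h1 h2
        _ = (κ' / 2 + 3 ^ i * κ + κ) * F := by ring
        _ ≤ κ' * F := mul_le_mul_of_nonneg_right hkk hF

/-- all orders between `1` and `2 p` at once -/
theorem dya_all (p : ℕ) (hp : 1 ≤ p) : ∀ n : ℕ, n < 2 * p → ∃ κ : ℝ, 0 ≤ κ ∧
    ∀ (f : ℤ → ℝ) (J : ℕ) (b : ℤ) (F : ℝ), Dya p f J b F →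
      ∀ i, 2 * p ≤ i + n → i ≤ 2 * p → ∀ j ≤ J, ∀ l : ℕ, (l : ℤ) * 2 ^ j ≤ b →
        |((DD (2 ^ j)) ^ i) f (l * 2 ^ j)| ≤ κ * F := by
  intro n
  induction n with
  | zero =>
    intro _
    refine ⟨2 ^ p, by positivity, fun f J b F D i h1 h2 j hj l hl => ?_⟩
    have hi : i = 2 * p := by omega
    refine (dya_high D (by omega) h2 hj _ (by (clear * -; positivity)) hl).trans ?_
    have : i - p = p := by omega
    rw [this]
  | succ n ih =>
    intro hn
    obtain ⟨κ, hκ, hb⟩ := ih (by omega)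
    set i0 := 2 * p - (n + 1) with hi0
    have hi01 : 1 ≤ i0 := by omega
    have hk3 : (0 : ℝ) ≤ 2 * (3 ^ i0 + 1) * κ := by positivity
    refine ⟨2 * (3 ^ i0 + 1) * κ + 2 ^ i0 + κ, by positivity,
      fun f J b F D i h1 h2 j hj l hl => ?_⟩
    have hF := D.F0
    rcases Nat.lt_or_ge i0 i with hlt | hge
    · refine (hb f J b F D i (by omega) h2 j hj l hl).trans
        (mul_le_mul_of_nonneg_right ?_ hF)
      have : (0 : ℝ) ≤ 2 ^ i0 := by positivity
      linarith only [hk3, this]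
    · have hii : i = i0 := by omega
      rw [hii]
      rcases Nat.lt_or_ge i0 p with hip | hip
      · have h3 := dya_step hκ hi01 hip D
          (fun i' h3 h4 j hj l hl => hb f J b F D i' (by omega) h4 j hj l hl) (J - j) (by omega) l
        have e : J - (J - j) = j := by (clear * - hj; omega)
        rw [e] at h3
        refine (h3 hl).trans (mul_le_mul_of_nonneg_right (by linarith only [hκ]) hF)
      · refine (dya_high D hip (by omega) hj _ (by (clear * -; positivity)) hl).trans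
          (mul_le_mul_of_nonneg_right ?_ hF)
        have : (2 : ℝ) ^ (i0 - p) ≤ 2 ^ i0 := pow_le_pow_right₀ (by norm_num) (by omega)
        linarith only [hκ, hk3, this]

/-- **dyadic refinement**: the values are bounded up to a factor `J + 1` -/
theorem dya_val (p : ℕ) (hp : 1 ≤ p) : ∃ κ : ℝ, 1 ≤ κ ∧
    ∀ (f : ℤ → ℝ) (J : ℕ) (b : ℤ) (F : ℝ), Dya p f J b F →
      ∀ x : ℤ, 0 ≤ x → x ≤ b → |f x| ≤ κ * (J + 1) * F := by
  obtain ⟨κ, hκ, hb⟩ := dya_all p hp (2 * p - 1) (by omega)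
  refine ⟨κ + 1, by linarith only [hκ], fun f J b F D x hx hxb => ?_⟩
  have hF := D.F0
  have key : ∀ k ≤ J, ∀ l : ℕ, (l : ℤ) * 2 ^ (J - k) ≤ b →
      |f (l * 2 ^ (J - k))| ≤ (1 + κ * k) * F := by
    intro k
    induction k with
    | zero =>
      intro _ l hl
      rw [Nat.sub_zero] at hl ⊢
      have h1 : (0 : ℤ) ≤ p * 2 ^ J := by positivity
      have := D.val l (by linarith only [hl, h1])
      simpa using this
    | succ k ih =>
      intro hk l hl
      set j := J - (k + 1) with hj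
      have hjk : J - k = j + 1 := by omega
      have hjJ : j ≤ J := by omega
      have ih' : ∀ l : ℕ, (l : ℤ) * 2 ^ (j + 1) ≤ b → |f (l * 2 ^ (j + 1))| ≤ (1 + κ * k) * F := by
        intro l hl
        have := ih (by omega) l
        rw [hjk] at this
        exact this hl
      have hmon : (1 + κ * k) * F + κ * F = (1 + κ * ((k + 1 : ℕ) : ℝ)) * F := by push_cast; ring
      have hκF : 0 ≤ κ * F := mul_nonneg hκ hF
      rcases Nat.even_or_odd' l with ⟨l', rfl | rfl⟩
      · have e1 : (((2 * l' : ℕ) : ℤ)) * 2 ^ j = (l' : ℤ) * 2 ^ (j + 1) := by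
          push_cast; ring
        rw [e1] at hl ⊢
        have := ih' l' hl
        linarith only [hmon, hκF, this]
      · have h2j : (0 : ℤ) < 2 ^ j := by positivity
        have hl2 : ((2 * l' : ℕ) : ℤ) * 2 ^ j ≤ b := by
          refine le_trans ?_ hl
          push_cast
          nlinarith only [h2j]
        have e1 : (((2 * l' : ℕ) : ℤ)) * 2 ^ j = (l' : ℤ) * 2 ^ (j + 1) := by
          push_cast; ring
        have e4 : (((2 * l' + 1 : ℕ) : ℤ)) * 2 ^ j = ((2 * l' : ℕ) : ℤ) * 2 ^ j + 2 ^ j := by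
          push_cast; ring
        have h1 := ih' l' (by rw [← e1]; exact hl2)
        rw [← e1] at h1
        have h2 := hb f J b F D 1 (by omega) (by (clear * - hp; omega)) j hjJ (2 * l') hl2
        rw [pow_one, DD_apply] at h2
        rw [e4]
        have h3 : f (((2 * l' : ℕ) : ℤ) * 2 ^ j + 2 ^ j) = f (((2 * l' : ℕ) : ℤ) * 2 ^ j) +
          (f (((2 * l' : ℕ) : ℤ) * 2 ^ j + 2 ^ j) - f (((2 * l' : ℕ) : ℤ) * 2 ^ j)) := by ring
        rw [h3]
        refine (abs_add_le _ _).trans ?_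
        linarith only [hmon, h1, h2]
  have h1 := key J le_rfl x.toNat
  rw [Nat.sub_self, pow_zero, mul_one, Int.toNat_of_nonneg hx] at h1
  refine (h1 hxb).trans (mul_le_mul_of_nonneg_right ?_ hF)
  have : (0 : ℝ) ≤ J := Nat.cast_nonneg _
  linarith

/-- the differences of order `n` of a polynomial of degree `< n` vanish -/
theorem DD_poly (P : Polynomial ℝ) (n : ℕ) (hn : 1 ≤ n) (hP : P.degree < n) (h x : ℤ) :
    ((DD h) ^ n) (fun z : ℤ => P.eval (z : ℝ)) x = 0 := by
  rw [DD_pow_apply]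
  set Q : Polynomial ℝ := P.comp (Polynomial.C (x : ℝ) + Polynomial.C (h : ℝ) * Polynomial.X)
    with hQ
  have hPn : P.natDegree < n := by
    by_cases hP0 : P = 0
    · rw [hP0, Polynomial.natDegree_zero]; omega
    · exact (Polynomial.natDegree_lt_iff_degree_lt hP0).mpr hP
  have hQn : Q.natDegree < n := by
    have h1 : (Polynomial.C (x : ℝ) + Polynomial.C (h : ℝ) * Polynomial.X).natDegree ≤ 1 := by
      refine (Polynomial.natDegree_add_le _ _).trans (max_le ?_ ?_)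
      · rw [Polynomial.natDegree_C]; omega
      · exact (Polynomial.natDegree_C_mul_le _ _).trans Polynomial.natDegree_X_le
    have h2 := Polynomial.natDegree_comp_le (p := P)
      (q := Polynomial.C (x : ℝ) + Polynomial.C (h : ℝ) * Polynomial.X)
    have h3 : P.natDegree * (Polynomial.C (x : ℝ) +
      Polynomial.C (h : ℝ) * Polynomial.X).natDegree ≤ P.natDegree * 1 :=
      Nat.mul_le_mul_left _ h1
    rw [hQ]
    omega
  have h0 := congrFun (fwdDiff_iter_sum_mul_pow_eq_zero (n := n) (fun k => Q.coeff k)) (0 : ℝ)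
  have e : (fun r : ℝ => ∑ k ∈ range n, Q.coeff k * r ^ k) = fun r => Q.eval r := by
    funext r
    rw [Polynomial.eval_eq_sum_range' hQn]
  rw [e, fwdDiff_iter_eq_sum_shift] at h0
  rw [Pi.zero_apply] at h0
  rw [← h0]
  refine Finset.sum_congr rfl fun m _ => ?_
  rw [hQ, Polynomial.eval_comp]
  simp only [Polynomial.eval_add, Polynomial.eval_C, Polynomial.eval_mul, Polynomial.eval_X,
    zsmul_eq_mul, nsmul_eq_mul, mul_one, zero_add]
  push_cast
  have e2 : (x : ℝ) + (m : ℝ) * (h : ℝ) = (x : ℝ) + (h : ℝ) * (m : ℝ) := by ring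
  rw [e2]

/-- extension of a bound along the coarse grid -/
theorem ext_grid {p : ℕ} {f : ℤ → ℝ} {H : ℤ} {F : ℝ} (hF : 0 ≤ F) (K : ℕ)
    (hd : ∀ l : ℕ, l + p ≤ K → |((DD H) ^ p) f (l * H)| ≤ F)
    (h0 : ∀ l : ℕ, l < p → f (l * H) = 0) :
    ∀ l : ℕ, l ≤ K → |f (l * H)| ≤ (2 ^ p + 1) ^ l * F := by
  intro l
  induction l using Nat.strong_induction_on with
  | _ l ih =>
    intro hl
    rcases Nat.lt_or_ge l p with hlp | hlp
    · rw [h0 l hlp, abs_zero]
      positivity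
    · rcases Nat.eq_zero_or_pos l with rfl | hl0
      · have hp0 : p = 0 := by omega
        subst hp0
        have := hd 0 (by omega)
        simpa using this
      obtain ⟨y, rfl⟩ := Nat.exists_eq_add_of_le hlp
      have h1 := hd y (by omega)
      rw [DD_pow_apply, Finset.sum_range_succ, Nat.sub_self, pow_zero, Nat.choose_self,
        Nat.cast_one, one_mul, one_mul] at h1
      have e1 : (y : ℤ) * H + (p : ℤ) * H = ((p + y : ℕ) : ℤ) * H := by push_cast; ring
      rw [e1] at h1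
      set R := ∑ m ∈ range p, (-1 : ℝ) ^ (p - m) * (p.choose m : ℝ) * f ((y : ℤ) * H + m * H)
        with hR
      set B : ℝ := (2 ^ p + 1) ^ (p + y - 1) * F with hB
      have h2p : (0 : ℝ) ≤ 2 ^ p := by positivity
      have hB0 : F ≤ B := by
        rw [hB]
        have : (1 : ℝ) ≤ (2 ^ p + 1) ^ (p + y - 1) := one_le_pow₀ (by linarith only [h2p])
        nlinarith only [hF, this]
      have hB1 : 0 ≤ B := hF.trans hB0
      have hR1 : |R| ≤ 2 ^ p * B := by
        rw [hR]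
        refine (abs_sum_le_sum_abs _ _).trans ?_
        have h3 : ∑ m ∈ range (p + 1), ((p.choose m : ℕ) : ℝ) = 2 ^ p := by
          exact_mod_cast Nat.sum_range_choose p
        have h4 : ∑ m ∈ range p, ((p.choose m : ℕ) : ℝ) ≤ 2 ^ p := by
          rw [← h3, Finset.sum_range_succ]
          have : (0 : ℝ) ≤ ((p.choose p : ℕ) : ℝ) := Nat.cast_nonneg _
          linarith only []
        calc ∑ m ∈ range p, |(-1 : ℝ) ^ (p - m) * (p.choose m : ℝ) * f ((y : ℤ) * H + m * H)|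
            ≤ ∑ m ∈ range p, ((p.choose m : ℕ) : ℝ) * B := by
              refine Finset.sum_le_sum fun m hm => ?_
              have hm' : m < p := Finset.mem_range.mp hm
              rw [abs_mul, abs_mul, abs_pow, abs_neg, abs_one, one_pow, one_mul, Nat.abs_cast]
              refine mul_le_mul_of_nonneg_left ?_ (Nat.cast_nonneg _)
              have e2 : (y : ℤ) * H + (m : ℤ) * H = ((m + y : ℕ) : ℤ) * H := by push_cast; ring
              rw [e2]
              refine (ih (m + y) (by omega) (by omega)).trans ?_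
              rw [hB]
              exact mul_le_mul_of_nonneg_right
                (pow_le_pow_right₀ (by linarith only [h2p]) (by omega)) hF
          _ = (∑ m ∈ range p, ((p.choose m : ℕ) : ℝ)) * B := by rw [Finset.sum_mul]
          _ ≤ 2 ^ p * B := mul_le_mul_of_nonneg_right h4 hB1
      have h5 : |f (((p + y : ℕ) : ℤ) * H)| ≤ F + 2 ^ p * B := by
        have e3 : f (((p + y : ℕ) : ℤ) * H) = (R + f (((p + y : ℕ) : ℤ) * H)) - R := by ring
        rw [e3]
        exact (abs_sub _ _).trans (add_le_add h1 hR1)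
      refine h5.trans ?_
      have e4 : (2 ^ p + 1 : ℝ) ^ (p + y) * F = (2 ^ p + 1) * B := by
        rw [hB, ← mul_assoc, ← pow_succ']
        congr 2
        omega
      rw [e4]
      linarith only [hB0]

/-- **Whitney's theorem along dyadic steps** -/
theorem whitney (p K : ℕ) (hp : 1 ≤ p) : ∃ C : ℝ, 0 ≤ C ∧
    ∀ (g : ℤ → ℝ) (J : ℕ) (F : ℝ), 0 ≤ F →
      (∀ j ≤ J, ∀ x : ℤ, 0 ≤ x → x + p * 2 ^ j ≤ K * 2 ^ J → |((DD (2 ^ j)) ^ p) g x| ≤ F) →
      ∃ P : Polynomial ℝ, P.degree < p ∧ ∀ x : ℤ, 0 ≤ x → x ≤ ((K : ℤ) - 2 * p) * 2 ^ J →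
        |g x - P.eval (x : ℝ)| ≤ C * (J + 1) * F := by
  obtain ⟨κ, hκ, hval⟩ := dya_val p hp
  refine ⟨κ * (2 ^ p + 1) ^ K, by positivity, fun g J F hF hd => ?_⟩
  set v : ℕ → ℝ := fun l => (((l : ℤ) * 2 ^ J : ℤ) : ℝ) with hv
  have hinj : Set.InjOn v (range p : Finset ℕ) := by
    intro a _ b _ hab
    have h1 : ((a : ℤ) * 2 ^ J : ℤ) = (b : ℤ) * 2 ^ J := by
      have hab' : (((a : ℤ) * 2 ^ J : ℤ) : ℝ) = (((b : ℤ) * 2 ^ J : ℤ) : ℝ) := hab
      exact Int.cast_injective hab'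
    have h2 : (2 : ℤ) ^ J ≠ 0 := by positivity
    exact_mod_cast mul_right_cancel₀ h2 h1
  set P : Polynomial ℝ := Lagrange.interpolate (range p) v (fun l => g ((l : ℤ) * 2 ^ J)) with hP
  have hdeg : P.degree < p := by
    have := Lagrange.degree_interpolate_lt (fun l : ℕ => g ((l : ℤ) * 2 ^ J)) hinj
    rwa [Finset.card_range] at this
  refine ⟨P, hdeg, ?_⟩
  set f : ℤ → ℝ := fun x => g x - P.eval (x : ℝ) with hf
  have hff : f = g - fun x : ℤ => P.eval (x : ℝ) := rfl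
  have hdf : ∀ (h x : ℤ), ((DD h) ^ p) f x = ((DD h) ^ p) g x := by
    intro h x
    rw [hff, map_sub, Pi.sub_apply, DD_poly P p hp hdeg, sub_zero]
  have hgrid := ext_grid (p := p) (f := f) (H := 2 ^ J) hF K (fun l hl => by
      rw [hdf]
      refine hd J le_rfl _ (by (clear * -; positivity)) ?_
      have h1 : ((l : ℤ) + p) ≤ K := by exact_mod_cast hl
      have h2 : (0 : ℤ) ≤ 2 ^ J := by positivity
      have h3 := mul_le_mul_of_nonneg_right h1 h2
      linarith only [h3])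
    (fun l hl => by
      have h1 := Lagrange.eval_interpolate_at_node (fun l : ℕ => g ((l : ℤ) * 2 ^ J)) hinj
        (Finset.mem_range.mpr hl)
      simp only [hf]
      rw [hP]
      have h2 : v l = (((l : ℤ) * 2 ^ J : ℤ) : ℝ) := rfl
      rw [← h2, h1, sub_self])
  have h2p : (0 : ℝ) ≤ 2 ^ p := by positivity
  have hFF : F ≤ (2 ^ p + 1) ^ K * F := by
    have : (1 : ℝ) ≤ (2 ^ p + 1) ^ K := one_le_pow₀ (by linarith only [h2p])
    nlinarith only [hF, this]
  have hD : Dya p f J (((K : ℤ) - 2 * p) * 2 ^ J) ((2 ^ p + 1) ^ K * F) := by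
    refine ⟨hF.trans hFF, fun j hj x hx hxb => ?_, fun l hl => ?_⟩
    · rw [hdf]
      refine (hd j hj x hx ?_).trans hFF
      refine hxb.trans (le_of_eq ?_)
      ring
    · have h2 : (0 : ℤ) < 2 ^ J := by positivity
      have h3 : (l : ℤ) * 2 ^ J ≤ K * 2 ^ J := by
        have h4 : (0 : ℤ) ≤ p * 2 ^ J := by positivity
        linarith [sub_mul (K : ℤ) (2 * p) (2 ^ J)]
      have h5 : (l : ℤ) ≤ K := le_of_mul_le_mul_right h3 h2
      have h6 : l ≤ K := by exact_mod_cast h5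
      refine (hgrid l h6).trans (mul_le_mul_of_nonneg_right ?_ hF)
      exact pow_le_pow_right₀ (by linarith only [h2p]) h6
  intro x hx hxb
  have := hval f J _ _ hD x hx hxb
  refine this.trans (le_of_eq ?_)
  ring

end Vale.Agent.P127.Stk
end

section

/-!
# P127 / Stk / Whit : functions whose differences along most arithmetic progressions are small

`wap_core`: if the alternating sum with binomial weights of `f` along all but a small proportion of
the arithmetic progressions of length `p + 1` in `[0, 2^n)` is at most `E`, then `f` is close to a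
polynomial of degree `< p` at most points, up to a factor `C (n + 1)`.
-/

namespace Vale.Agent.P127.Stk

open Finset

/-- the alternating sum with binomial weights of `f` along the progression `x, x+μ, ..., x+pμ` -/
noncomputable def wapd (p : ℕ) (f : ℤ → ℝ) (x μ : ℤ) : ℝ :=
  ∑ j ∈ range (p + 1), (-1 : ℝ) ^ j * (p.choose j : ℝ) * f (x + j * μ)

/-- the prediction of `f x` from the other points of the progression -/
noncomputable def waps (p : ℕ) (f : ℤ → ℝ) (x μ : ℤ) : ℝ :=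
  ∑ j ∈ range p, (-1 : ℝ) ^ j * (p.choose (j + 1) : ℝ) * f (x + ((j + 1 : ℕ) : ℤ) * μ)

theorem wapd_eq (p : ℕ) (f : ℤ → ℝ) (x μ : ℤ) : wapd p f x μ = f x - waps p f x μ := by
  rw [wapd, waps, Finset.sum_range_succ']
  simp only [pow_zero, Nat.choose_zero_right, Nat.cast_one, one_mul, Nat.cast_zero, zero_mul,
    add_zero]
  have e : ∑ k ∈ range p, (-1 : ℝ) ^ (k + 1) * (p.choose (k + 1) : ℝ) *
      f (x + ((k + 1 : ℕ) : ℤ) * μ) = - ∑ j ∈ range p, (-1 : ℝ) ^ j * (p.choose (j + 1) : ℝ) *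
        f (x + ((j + 1 : ℕ) : ℤ) * μ) := by
    rw [← Finset.sum_neg_distrib]
    refine Finset.sum_congr rfl fun j _ => ?_
    rw [pow_succ]
    ring
  rw [e]
  ring

theorem DD_wapd (p : ℕ) (f : ℤ → ℝ) (x μ : ℤ) : |((DD μ) ^ p) f x| = |wapd p f x μ| := by
  have e : ((DD μ) ^ p) f x = (-1) ^ p * wapd p f x μ := by
    rw [DD_pow_apply, wapd, Finset.mul_sum]
    refine Finset.sum_congr rfl fun m hm => ?_
    have hm' : m ≤ p := by simpa [Nat.lt_succ_iff] using hm
    have e1 : (-1 : ℝ) ^ (p - m) = (-1) ^ p * (-1) ^ m := by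
      obtain ⟨r, rfl⟩ := Nat.exists_eq_add_of_le hm'
      rw [Nat.add_sub_cancel_left, pow_add]
      have : (-1 : ℝ) ^ m * (-1) ^ m = 1 := by rw [← mul_pow]; norm_num
      calc (-1 : ℝ) ^ r = ((-1 : ℝ) ^ m * (-1) ^ m) * (-1) ^ r := by rw [this, one_mul]
        _ = (-1) ^ m * (-1) ^ r * (-1) ^ m := by ring
    rw [e1]
    ring
  rw [e, abs_mul, abs_pow, abs_neg, abs_one, one_pow, one_mul]

theorem wsum_choose (p : ℕ) : ∑ j ∈ range p, ((p.choose (j + 1) : ℕ) : ℝ) ≤ 2 ^ p := by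
  have h3 : ∑ m ∈ range (p + 1), ((p.choose m : ℕ) : ℝ) = 2 ^ p := by
    exact_mod_cast Nat.sum_range_choose p
  rw [← h3, Finset.sum_range_succ']
  have : (0 : ℝ) ≤ ((p.choose 0 : ℕ) : ℝ) := Nat.cast_nonneg _
  linarith

/-- consistency of two predictions -/
theorem waps_consistent {p : ℕ} {f : ℤ → ℝ} {x a b : ℤ} {E : ℝ} (hE : 0 ≤ E)
    (h1 : ∀ i : ℕ, i < p → |wapd p f (x + ((i + 1 : ℕ) : ℤ) * a) b| ≤ E)
    (h2 : ∀ i : ℕ, i < p → |wapd p f (x + ((i + 1 : ℕ) : ℤ) * b) a| ≤ E) :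
    |waps p f x a - waps p f x b| ≤ 2 * 2 ^ p * E := by
  have key : ∀ a b : ℤ, waps p f x a =
      (∑ i ∈ range p, (-1 : ℝ) ^ i * (p.choose (i + 1) : ℝ) *
        wapd p f (x + ((i + 1 : ℕ) : ℤ) * a) b) +
      ∑ i ∈ range p, ∑ j ∈ range p, ((-1 : ℝ) ^ i * (p.choose (i + 1) : ℝ)) *
        ((-1 : ℝ) ^ j * (p.choose (j + 1) : ℝ)) *
          f (x + ((i + 1 : ℕ) : ℤ) * a + ((j + 1 : ℕ) : ℤ) * b) := by
    intro a b
    rw [← Finset.sum_add_distrib]
    conv_lhs => rw [waps]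
    refine Finset.sum_congr rfl fun i _ => ?_
    have e1 : ∑ j ∈ range p, ((-1 : ℝ) ^ i * (p.choose (i + 1) : ℝ)) *
        ((-1 : ℝ) ^ j * (p.choose (j + 1) : ℝ)) *
          f (x + ((i + 1 : ℕ) : ℤ) * a + ((j + 1 : ℕ) : ℤ) * b) =
        (-1 : ℝ) ^ i * (p.choose (i + 1) : ℝ) * waps p f (x + ((i + 1 : ℕ) : ℤ) * a) b := by
      rw [waps, Finset.mul_sum]
      exact Finset.sum_congr rfl fun j _ => by ring
    rw [e1, wapd_eq]
    ring
  have hbd : ∀ a b : ℤ, (∀ i : ℕ, i < p → |wapd p f (x + ((i + 1 : ℕ) : ℤ) * a) b| ≤ E) →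
      |∑ i ∈ range p, (-1 : ℝ) ^ i * (p.choose (i + 1) : ℝ) *
        wapd p f (x + ((i + 1 : ℕ) : ℤ) * a) b| ≤ 2 ^ p * E := by
    intro a b h
    refine (abs_sum_le_sum_abs _ _).trans ?_
    calc _ ≤ ∑ i ∈ range p, ((p.choose (i + 1) : ℕ) : ℝ) * E := by
          refine Finset.sum_le_sum fun i hi => ?_
          rw [abs_mul, abs_mul, abs_pow, abs_neg, abs_one, one_pow, one_mul, Nat.abs_cast]
          exact mul_le_mul_of_nonneg_left (h i (Finset.mem_range.mp hi)) (Nat.cast_nonneg _)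
      _ = (∑ i ∈ range p, ((p.choose (i + 1) : ℕ) : ℝ)) * E := by rw [Finset.sum_mul]
      _ ≤ 2 ^ p * E := mul_le_mul_of_nonneg_right (wsum_choose p) hE
  have hsw : ∑ i ∈ range p, ∑ j ∈ range p, ((-1 : ℝ) ^ i * (p.choose (i + 1) : ℝ)) *
        ((-1 : ℝ) ^ j * (p.choose (j + 1) : ℝ)) *
          f (x + ((i + 1 : ℕ) : ℤ) * b + ((j + 1 : ℕ) : ℤ) * a) =
      ∑ i ∈ range p, ∑ j ∈ range p, ((-1 : ℝ) ^ i * (p.choose (i + 1) : ℝ)) *
        ((-1 : ℝ) ^ j * (p.choose (j + 1) : ℝ)) *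
          f (x + ((i + 1 : ℕ) : ℤ) * a + ((j + 1 : ℕ) : ℤ) * b) := by
    rw [Finset.sum_comm]
    refine Finset.sum_congr rfl fun i _ => Finset.sum_congr rfl fun j _ => ?_
    have e2 : x + ((j + 1 : ℕ) : ℤ) * b + ((i + 1 : ℕ) : ℤ) * a =
      x + ((i + 1 : ℕ) : ℤ) * a + ((j + 1 : ℕ) : ℤ) * b := by ring
    rw [e2]
    ring
  rw [key a b, key b a, hsw]
  have e3 : ∀ u v w : ℝ, (u + w) - (v + w) = u - v := by intro u v w; ring
  rw [e3]
  refine (abs_sub _ _).trans ?_
  have := hbd a b h1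
  have := hbd b a h2
  (clear key hsw e3; linarith)

/-- the differences of the corrected function -/
theorem wapd_corrected {p : ℕ} {f g : ℤ → ℝ} {x h h1 h2 : ℤ} {E E' : ℝ} (hE : 0 ≤ E)
    (hg : ∀ j : ℕ, j ≤ p → |g (x + j * h) - waps p f (x + j * h) (h1 + j * h2)| ≤ E')
    (hA : ∀ i : ℕ, i < p → |wapd p f (x + ((i + 1 : ℕ) : ℤ) * h1) (h + ((i + 1 : ℕ) : ℤ) * h2)| ≤ E) :
    |wapd p g x h| ≤ 2 ^ p * E' + 2 ^ p * E := by
  have e1 : wapd p g x h = (∑ j ∈ range (p + 1), (-1 : ℝ) ^ j * (p.choose j : ℝ) *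
      (g (x + j * h) - waps p f (x + j * h) (h1 + j * h2))) +
      ∑ i ∈ range p, (-1 : ℝ) ^ i * (p.choose (i + 1) : ℝ) *
        wapd p f (x + ((i + 1 : ℕ) : ℤ) * h1) (h + ((i + 1 : ℕ) : ℤ) * h2) := by
    have e2 : ∑ i ∈ range p, (-1 : ℝ) ^ i * (p.choose (i + 1) : ℝ) *
        wapd p f (x + ((i + 1 : ℕ) : ℤ) * h1) (h + ((i + 1 : ℕ) : ℤ) * h2) =
        ∑ j ∈ range (p + 1), (-1 : ℝ) ^ j * (p.choose j : ℝ) *
          waps p f (x + j * h) (h1 + j * h2) := by
      simp only [wapd, waps, Finset.mul_sum]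
      rw [Finset.sum_comm]
      refine Finset.sum_congr rfl fun j _ => Finset.sum_congr rfl fun i _ => ?_
      have e3 : x + ((i + 1 : ℕ) : ℤ) * h1 + (j : ℤ) * (h + ((i + 1 : ℕ) : ℤ) * h2) =
        x + (j : ℤ) * h + ((i + 1 : ℕ) : ℤ) * (h1 + (j : ℤ) * h2) := by ring
      rw [e3]
      ring
    rw [e2, ← Finset.sum_add_distrib, wapd]
    exact Finset.sum_congr rfl fun j _ => by ring
  rw [e1]
  refine (abs_add_le _ _).trans (add_le_add ?_ ?_)
  · refine (abs_sum_le_sum_abs _ _).trans ?_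
    have hE' : 0 ≤ E' := (abs_nonneg _).trans (hg 0 (Nat.zero_le _))
    have h3 : ∑ m ∈ range (p + 1), ((p.choose m : ℕ) : ℝ) = 2 ^ p := by
      exact_mod_cast Nat.sum_range_choose p
    calc _ ≤ ∑ j ∈ range (p + 1), ((p.choose j : ℕ) : ℝ) * E' := by
          refine Finset.sum_le_sum fun j hj => ?_
          rw [abs_mul, abs_mul, abs_pow, abs_neg, abs_one, one_pow, one_mul, Nat.abs_cast]
          exact mul_le_mul_of_nonneg_left (hg j (by simpa only [mem_range, Order.lt_add_one_iff] using hj))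
            (Nat.cast_nonneg _)
      _ = (∑ j ∈ range (p + 1), ((p.choose j : ℕ) : ℝ)) * E' := by rw [Finset.sum_mul]
      _ = 2 ^ p * E' := by rw [h3]
  · refine (abs_sum_le_sum_abs _ _).trans ?_
    calc _ ≤ ∑ i ∈ range p, ((p.choose (i + 1) : ℕ) : ℝ) * E := by
          refine Finset.sum_le_sum fun i hi => ?_
          rw [abs_mul, abs_mul, abs_pow, abs_neg, abs_one, one_pow, one_mul, Nat.abs_cast]
          exact mul_le_mul_of_nonneg_left (hA i (Finset.mem_range.mp hi)) (Nat.cast_nonneg _)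
      _ = (∑ i ∈ range p, ((p.choose (i + 1) : ℕ) : ℝ)) * E := by rw [Finset.sum_mul]
      _ ≤ 2 ^ p * E := mul_le_mul_of_nonneg_right (wsum_choose p) hE

open Classical in
/-- the bad progressions in `[0, M)` -/
noncomputable def wBad (p : ℕ) (f : ℤ → ℝ) (E : ℝ) (M : ℕ) : Finset (ℤ × ℤ) :=
  ((Ico (0 : ℤ) M) ×ˢ (Ico (0 : ℤ) M)).filter
    fun q => q.1 + p * q.2 < M ∧ E < |wapd p f q.1 q.2|

theorem wnot_bad {p : ℕ} {f : ℤ → ℝ} {E : ℝ} {M : ℕ} {x μ : ℤ} (hp : 1 ≤ p) (hx : 0 ≤ x)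
    (hμ : 0 ≤ μ) (hM : x + p * μ < M) (h : (x, μ) ∉ wBad p f E M) : |wapd p f x μ| ≤ E := by
  by_contra hc
  push Not at hc
  refine h ?_
  have hp' : (1 : ℤ) ≤ p := by exact_mod_cast hp
  have h1 : μ ≤ p * μ := by nlinarith only [hp, hμ]
  rw [wBad, Finset.mem_filter, Finset.mem_product, Finset.mem_Ico, Finset.mem_Ico]
  exact ⟨⟨⟨hx, by linarith only [hμ, hM, h1]⟩, hμ, by linarith⟩, hM, hc⟩

open Classical in
/-- a set of pairs which is mapped injectively into the bad set is small -/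
theorem wcard_pull (B : Finset (ℤ × ℤ)) (S : Finset (ℤ × ℤ)) (φ : ℤ × ℤ → ℤ × ℤ)
    (hφ : Function.Injective φ) : (S.filter fun q => φ q ∈ B).card ≤ B.card :=
  Finset.card_le_card_of_injOn φ (fun _ hq => (Finset.mem_filter.mp hq).2) (hφ.injOn)

/-- for every point most predictions agree with one of them -/
theorem wcenter {p : ℕ} (hp : 1 ≤ p) {f : ℤ → ℝ} {E : ℝ} (hE : 0 ≤ E) {M H : ℕ}
    (hH : 1 ≤ H) {x : ℤ} (hx : 0 ≤ x) (hxM : x + 2 * p * H ≤ M) :
    ∃ v : ℝ, ∃ X : Finset ℤ, X ⊆ Ico (0 : ℤ) H ∧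
      X.card * H ≤ 2 * p * (wBad p f E M).card ∧
      ∀ h ∈ Ico (0 : ℤ) H, h ∉ X → |v - waps p f x h| ≤ 2 * 2 ^ p * E := by
  classical
  set B := wBad p f E M with hB
  set S : Finset (ℤ × ℤ) := (Ico (0 : ℤ) H) ×ˢ (Ico (0 : ℤ) H) with hS
  set V : Finset (ℤ × ℤ) := S.filter fun q => 2 * 2 ^ p * E < |waps p f x q.1 - waps p f x q.2|
    with hV
  set U1 : ℕ → Finset (ℤ × ℤ) := fun i =>
    S.filter fun q => (x + ((i + 1 : ℕ) : ℤ) * q.1, q.2) ∈ B with hU1
  set U2 : ℕ → Finset (ℤ × ℤ) := fun i =>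
    S.filter fun q => (x + ((i + 1 : ℕ) : ℤ) * q.2, q.1) ∈ B with hU2
  have hp' : (1 : ℤ) ≤ p := by exact_mod_cast hp
  have hVs : V ⊆ (range p).biUnion U1 ∪ (range p).biUnion U2 := by
    intro q hq
    rw [hV, Finset.mem_filter] at hq
    obtain ⟨hqS, hq2⟩ := hq
    by_contra hn
    rw [Finset.mem_union, Finset.mem_biUnion, Finset.mem_biUnion] at hn
    push Not at hn
    have hq1 := hqS
    rw [hS, Finset.mem_product, Finset.mem_Ico, Finset.mem_Ico] at hq1
    obtain ⟨⟨ha0, ha1⟩, hb0, hb1⟩ := hq1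
    refine absurd (waps_consistent (p := p) (f := f) (x := x) (a := q.1) (b := q.2) hE ?_ ?_)
      (not_le.mpr hq2)
    · intro i hi
      have hi' : ((i + 1 : ℕ) : ℤ) ≤ p := by exact_mod_cast hi
      have hi0 : (0 : ℤ) ≤ ((i + 1 : ℕ) : ℤ) := by (clear * -; positivity)
      have h1 : ((i + 1 : ℕ) : ℤ) * q.1 ≤ p * H := by
        calc ((i + 1 : ℕ) : ℤ) * q.1 ≤ p * q.1 := mul_le_mul_of_nonneg_right hi' ha0
          _ ≤ p * H := mul_le_mul_of_nonneg_left ha1.le (by linarith only [])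
      have h2 : (p : ℤ) * q.2 < p * H := mul_lt_mul_of_pos_left hb1 (by linarith only [hp])
      refine wnot_bad (M := M) hp ?_ hb0 ?_ ?_
      · have := mul_nonneg hi0 ha0
        linarith only [hx, this]
      · linarith only [hxM, h1, h2]
      · intro hmem
        exact hn.1 i (Finset.mem_range.mpr hi) (Finset.mem_filter.mpr ⟨hqS, hmem⟩)
    · intro i hi
      have hi' : ((i + 1 : ℕ) : ℤ) ≤ p := by exact_mod_cast hi
      have hi0 : (0 : ℤ) ≤ ((i + 1 : ℕ) : ℤ) := by positivity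
      have h1 : ((i + 1 : ℕ) : ℤ) * q.2 ≤ p * H := by
        calc ((i + 1 : ℕ) : ℤ) * q.2 ≤ p * q.2 := mul_le_mul_of_nonneg_right hi' hb0
          _ ≤ p * H := mul_le_mul_of_nonneg_left hb1.le (by linarith only [])
      have h2 : (p : ℤ) * q.1 < p * H := mul_lt_mul_of_pos_left ha1 (by linarith only [hp])
      refine wnot_bad (M := M) hp ?_ ha0 ?_ ?_
      · have := mul_nonneg hi0 hb0
        linarith only [hx, this]
      · linarith only [hxM, h1, h2]
      · intro hmem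
        exact hn.2 i (Finset.mem_range.mpr hi) (Finset.mem_filter.mpr ⟨hqS, hmem⟩)
  have hU1c : ∀ i, (U1 i).card ≤ B.card := by
    intro i
    refine wcard_pull B S (fun q => (x + ((i + 1 : ℕ) : ℤ) * q.1, q.2)) ?_
    intro q q' hqq
    have h1 := congrArg Prod.fst hqq
    have h2 := congrArg Prod.snd hqq
    simp only at h1 h2
    have h3 : ((i + 1 : ℕ) : ℤ) ≠ 0 := by positivity
    have h4 : ((i + 1 : ℕ) : ℤ) * q.1 = ((i + 1 : ℕ) : ℤ) * q'.1 := by linarith only [h1]
    exact Prod.ext (mul_left_cancel₀ h3 h4) h2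
  have hU2c : ∀ i, (U2 i).card ≤ B.card := by
    intro i
    refine wcard_pull B S (fun q => (x + ((i + 1 : ℕ) : ℤ) * q.2, q.1)) ?_
    intro q q' hqq
    have h1 := congrArg Prod.fst hqq
    have h2 := congrArg Prod.snd hqq
    simp only at h1 h2
    have h3 : ((i + 1 : ℕ) : ℤ) ≠ 0 := by positivity
    have h4 : ((i + 1 : ℕ) : ℤ) * q.2 = ((i + 1 : ℕ) : ℤ) * q'.2 := by linarith only [h1]
    exact Prod.ext h2 (mul_left_cancel₀ h3 h4)
  have hVc : V.card ≤ 2 * p * B.card := by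
    calc V.card ≤ ((range p).biUnion U1 ∪ (range p).biUnion U2).card := Finset.card_le_card hVs
      _ ≤ ((range p).biUnion U1).card + ((range p).biUnion U2).card := Finset.card_union_le _ _
      _ ≤ p * B.card + p * B.card := by
          refine add_le_add ?_ ?_
          · refine Finset.card_biUnion_le.trans ?_
            calc ∑ i ∈ range p, (U1 i).card ≤ ∑ _i ∈ range p, B.card :=
                  Finset.sum_le_sum fun i _ => hU1c i
              _ = p * B.card := by rw [Finset.sum_const, Finset.card_range, smul_eq_mul]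
          · refine Finset.card_biUnion_le.trans ?_
            calc ∑ i ∈ range p, (U2 i).card ≤ ∑ _i ∈ range p, B.card :=
                  Finset.sum_le_sum fun i _ => hU2c i
              _ = p * B.card := by rw [Finset.sum_const, Finset.card_range, smul_eq_mul]
      _ = 2 * p * B.card := by ring
  -- a good row
  set row : ℤ → Finset ℤ := fun a =>
    (Ico (0 : ℤ) H).filter fun b => 2 * 2 ^ p * E < |waps p f x a - waps p f x b| with hrow
  have hsum : ∑ a ∈ Ico (0 : ℤ) H, (row a).card = V.card := by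
    have h1 : V.card = ∑ a ∈ Ico (0 : ℤ) H, (V.filter fun q => q.1 = a).card :=
      Finset.card_eq_sum_card_fiberwise fun q hq => by
        have := (Finset.mem_filter.mp hq).1
        exact (Finset.mem_product.mp this).1
    rw [h1]
    refine Finset.sum_congr rfl fun a ha => ?_
    symm
    refine Finset.card_bij' (fun q _ => q.2) (fun b _ => (a, b)) ?_ ?_ ?_ ?_
    · intro q hq
      rw [Finset.mem_filter, hV, Finset.mem_filter, hS, Finset.mem_product] at hq
      obtain ⟨⟨⟨_, h2⟩, h3⟩, h4⟩ := hq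
      rw [hrow, Finset.mem_filter]
      rw [h4] at h3
      exact ⟨h2, h3⟩
    · intro b hb
      rw [hrow, Finset.mem_filter] at hb
      rw [Finset.mem_filter, hV, Finset.mem_filter, hS, Finset.mem_product]
      exact ⟨⟨⟨ha, hb.1⟩, hb.2⟩, rfl⟩
    · intro q hq
      rw [Finset.mem_filter] at hq
      exact Prod.ext hq.2.symm rfl
    · intro b _
      rfl
  have hne : (Ico (0 : ℤ) H).Nonempty := ⟨0, Finset.mem_Ico.mpr ⟨le_rfl, by exact_mod_cast hH⟩⟩
  obtain ⟨a, ha, hmin⟩ := Finset.exists_min_image (Ico (0 : ℤ) H) (fun a => (row a).card) hne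
  refine ⟨waps p f x a, row a, Finset.filter_subset _ _, ?_, fun h hh hX => ?_⟩
  · have hcard : (Ico (0 : ℤ) H).card = H := by simp
    have h1 : (Ico (0 : ℤ) H).card • (row a).card ≤ ∑ a ∈ Ico (0 : ℤ) H, (row a).card :=
      Finset.card_nsmul_le_sum _ _ _ hmin
    rw [hcard, smul_eq_mul, hsum] at h1
    calc (row a).card * H = H * (row a).card := Nat.mul_comm _ _
      _ ≤ V.card := h1
      _ ≤ _ := hVc
  · by_contra hc
    push Not at hc
    exact hX (Finset.mem_filter.mpr ⟨hh, hc⟩)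

/-- the corrected function: all its differences in the interior are small, and it agrees with
`f` at most points -/
theorem wcorrected {p : ℕ} (hp : 1 ≤ p) {f : ℤ → ℝ} {E : ℝ} (hE : 0 ≤ E) {M H0 : ℕ}
    (hH0 : 1 ≤ H0) (hB : 3 * p * (wBad p f E M).card < H0 ^ 2) :
    ∃ g : ℤ → ℝ, ∃ Y : Finset ℤ, Y.card * H0 ≤ (wBad p f E M).card ∧
      (∀ x : ℤ, 0 ≤ x → x + 2 * p * (((p + 1) * H0 : ℕ) : ℤ) ≤ M → x ∉ Y →
        |f x - g x| ≤ (2 * 2 ^ p + 1) * E) ∧
      ∀ x h : ℤ, 0 ≤ x → 0 ≤ h → x + p * h + 2 * p * (((p + 1) * H0 : ℕ) : ℤ) ≤ M →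
        |wapd p g x h| ≤ (2 ^ p * (2 * 2 ^ p) + 2 ^ p) * E := by
  classical
  set B := wBad p f E M with hBdef
  set H : ℕ := (p + 1) * H0 with hH
  have hp' : (1 : ℤ) ≤ p := by exact_mod_cast hp
  have hHpos : 1 ≤ H := by rw [hH]; nlinarith only [hH0]
  have hH2 : 2 * H0 ≤ H := by rw [hH]; nlinarith only [hp]
  have hc : ∀ x : ℤ, ∃ v : ℝ, ∃ X : Finset ℤ, 0 ≤ x → x + 2 * p * (H : ℤ) ≤ M →
      X ⊆ Ico (0 : ℤ) H ∧ X.card * H ≤ 2 * p * B.card ∧
      ∀ h ∈ Ico (0 : ℤ) H, h ∉ X → |v - waps p f x h| ≤ 2 * 2 ^ p * E := by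
    intro x
    by_cases h : 0 ≤ x ∧ x + 2 * p * (H : ℤ) ≤ M
    · obtain ⟨v, X, h1, h2, h3⟩ := wcenter hp (f := f) hE hHpos h.1 h.2
      exact ⟨v, X, fun _ _ => ⟨h1, h2, h3⟩⟩
    · exact ⟨0, ∅, fun h1 h2 => absurd ⟨h1, h2⟩ h⟩
  choose g X hgX using hc
  set Y : Finset ℤ := (Ico (0 : ℤ) M).filter fun x => 0 ≤ x ∧ x + 2 * p * (H : ℤ) ≤ M ∧
    (2 * 2 ^ p + 1) * E < |f x - g x| with hY
  have hXc : ∀ x : ℤ, 0 ≤ x → x + 2 * p * (H : ℤ) ≤ M → (X x).card ≤ H0 := by
    intro x hx hxM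
    have h1 := (hgX x hx hxM).2.1
    by_contra hn
    push Not at hn
    have h2 : (H0 + 1) * H ≤ (X x).card * H := Nat.mul_le_mul_right _ hn
    have h3 : H0 * (2 * H0) ≤ H0 * H := Nat.mul_le_mul_left _ hH2
    nlinarith only [hB, h1, h2, h3]
  refine ⟨g, Y, ?_, ?_, ?_⟩
  · -- counting
    have h1 : B.card = ∑ a ∈ Ico (0 : ℤ) M, (B.filter fun q => q.1 = a).card :=
      Finset.card_eq_sum_card_fiberwise fun q hq => by
        have := (Finset.mem_filter.mp hq).1
        exact (Finset.mem_product.mp this).1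
    have h2 : ∀ x ∈ Y, H0 ≤ (B.filter fun q => q.1 = x).card := by
      intro x hx
      rw [hY, Finset.mem_filter] at hx
      obtain ⟨_, hx0, hxM, hxE⟩ := hx
      obtain ⟨hX1, _, hX3⟩ := hgX x hx0 hxM
      have h3 : (Ico (0 : ℤ) H \ X x).card ≤ (B.filter fun q => q.1 = x).card := by
        refine Finset.card_le_card_of_injOn (fun h => (x, h)) ?_ ?_
        · intro h hh
          have hh' := Finset.mem_sdiff.mp hh
          have h4 := hX3 h hh'.1 hh'.2
          have h5 := Finset.mem_Ico.mp hh'.1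
          refine Finset.mem_coe.mpr (Finset.mem_filter.mpr ⟨?_, rfl⟩)
          by_contra hn
          have h6 : x + p * h < M := by
            have h7 : (p : ℤ) * h < p * H := mul_lt_mul_of_pos_left h5.2 (by linarith only [hp])
            have h8 : (0 : ℤ) ≤ p * H := by positivity
            linarith only [hxM, h7, h8]
          have h9 := wnot_bad hp hx0 h5.1 h6 hn
          rw [wapd_eq] at h9
          have h10 : f x - g x = (f x - waps p f x h) - (g x - waps p f x h) := by ring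
          have h11 : |f x - g x| ≤ E + 2 * 2 ^ p * E := by
            rw [h10]
            exact (abs_sub _ _).trans (add_le_add h9 h4)
          linarith only [hxE, h11]
        · intro a _ b _ hab
          exact congrArg Prod.snd hab
      have h4 := hXc x hx0 hxM
      have h5 : (Ico (0 : ℤ) H).card - (X x).card ≤ (Ico (0 : ℤ) H \ X x).card :=
        Finset.le_card_sdiff _ _
      have h6 : (Ico (0 : ℤ) H).card = H := by simp
      rw [h6] at h5
      omega
    have h3 : Y ⊆ Ico (0 : ℤ) M := Finset.filter_subset _ _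
    calc Y.card * H0 = ∑ _a ∈ Y, H0 := by rw [Finset.sum_const, smul_eq_mul]
      _ ≤ ∑ a ∈ Y, (B.filter fun q => q.1 = a).card := Finset.sum_le_sum h2
      _ ≤ ∑ a ∈ Ico (0 : ℤ) M, (B.filter fun q => q.1 = a).card :=
          Finset.sum_le_sum_of_subset h3
      _ = B.card := h1.symm
  · intro x hx hxM hxY
    by_contra hn
    push Not at hn
    refine hxY (Finset.mem_filter.mpr ⟨Finset.mem_Ico.mpr ⟨hx, ?_⟩, hx, hxM, hn⟩)
    have h1 : (0 : ℤ) < 2 * p * (H : ℤ) := by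
      have : (0 : ℤ) < H := by exact_mod_cast hHpos
      positivity
    linarith only [hxM, h1]
  · intro x h hx hh hxM
    -- the interior points
    have hin : ∀ j : ℕ, j ≤ p → 0 ≤ x + j * h ∧ x + j * h + 2 * p * (H : ℤ) ≤ M := by
      intro j hj
      have h1 : (j : ℤ) ≤ p := by exact_mod_cast hj
      have h2 := mul_le_mul_of_nonneg_right h1 hh
      have h3 : (0 : ℤ) ≤ j * h := by (clear * - hh; positivity)
      exact ⟨by linarith only [hx, h3], by linarith only [hxM, h2]⟩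
    set S : Finset (ℤ × ℤ) := (Ico (0 : ℤ) H0) ×ˢ (Ico (0 : ℤ) H0) with hS
    set U1 : ℕ → Finset (ℤ × ℤ) := fun j => S.filter fun q => q.1 + j * q.2 ∈ X (x + j * h)
      with hU1
    set U2 : ℕ → Finset (ℤ × ℤ) := fun i => S.filter fun q =>
      (x + ((i + 1 : ℕ) : ℤ) * q.1, h + ((i + 1 : ℕ) : ℤ) * q.2) ∈ B with hU2
    have hU1c : ∀ j, j ≤ p → (U1 j).card * (p + 1) ≤ 2 * p * B.card := by
      intro j hj
      have h1 : (U1 j).card ≤ (X (x + j * h) ×ˢ Ico (0 : ℤ) H0).card := by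
        refine Finset.card_le_card_of_injOn (fun q => (q.1 + j * q.2, q.2)) ?_ ?_
        · intro q hq
          have h2 := Finset.mem_filter.mp hq
          refine Finset.mem_coe.mpr (Finset.mem_product.mpr ⟨h2.2, ?_⟩)
          exact (Finset.mem_product.mp h2.1).2
        · intro a _ b _ hab
          have e1 := congrArg Prod.fst hab
          have e2 := congrArg Prod.snd hab
          simp only at e1 e2
          rw [e2] at e1
          exact Prod.ext (by linarith only [e1]) e2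
      rw [Finset.card_product] at h1
      have h2 : (Ico (0 : ℤ) H0).card = H0 := by simp
      rw [h2] at h1
      obtain ⟨a1, a2⟩ := hin j hj
      have h3 := (hgX (x + j * h) a1 a2).2.1
      calc (U1 j).card * (p + 1) ≤ ((X (x + j * h)).card * H0) * (p + 1) :=
            Nat.mul_le_mul_right _ h1
        _ = (X (x + j * h)).card * H := by rw [hH]; ring
        _ ≤ 2 * p * B.card := h3
    have hU2c : ∀ i, (U2 i).card ≤ B.card := by
      intro i
      refine wcard_pull B S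
        (fun q => (x + ((i + 1 : ℕ) : ℤ) * q.1, h + ((i + 1 : ℕ) : ℤ) * q.2)) ?_
      intro q q' hqq
      have h1 := congrArg Prod.fst hqq
      have h2 := congrArg Prod.snd hqq
      simp only at h1 h2
      have h3 : ((i + 1 : ℕ) : ℤ) ≠ 0 := by (clear * -; positivity)
      have h4 : ((i + 1 : ℕ) : ℤ) * q.1 = ((i + 1 : ℕ) : ℤ) * q'.1 := by linarith only [h1]
      have h5 : ((i + 1 : ℕ) : ℤ) * q.2 = ((i + 1 : ℕ) : ℤ) * q'.2 := by linarith only [h2]
      exact Prod.ext (mul_left_cancel₀ h3 h4) (mul_left_cancel₀ h3 h5)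
    have hex : ∃ q ∈ S, (∀ j ∈ range (p + 1), q ∉ U1 j) ∧ ∀ i ∈ range p, q ∉ U2 i := by
      by_contra hn
      push Not at hn
      have h1 : S ⊆ (range (p + 1)).biUnion U1 ∪ (range p).biUnion U2 := by
        intro q hq
        rw [Finset.mem_union, Finset.mem_biUnion, Finset.mem_biUnion]
        by_contra hc
        push Not at hc
        obtain ⟨i, hi, hi2⟩ := hn q hq hc.1
        exact hc.2 i hi hi2
      have h2 := Finset.card_le_card h1
      have h3 : S.card = H0 ^ 2 := by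
        rw [hS, Finset.card_product, sq]
        simp
      have h4 : ((range (p + 1)).biUnion U1).card ≤ 2 * p * B.card := by
        refine Finset.card_biUnion_le.trans ?_
        have h5 : (∑ j ∈ range (p + 1), (U1 j).card) * (p + 1) ≤ (2 * p * B.card) * (p + 1) := by
          rw [Finset.sum_mul]
          calc ∑ j ∈ range (p + 1), (U1 j).card * (p + 1)
              ≤ ∑ _j ∈ range (p + 1), 2 * p * B.card :=
                Finset.sum_le_sum fun j hj => hU1c j (by simpa only [mem_range, Order.lt_add_one_iff] using hj)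
            _ = (2 * p * B.card) * (p + 1) := by
                rw [Finset.sum_const, Finset.card_range, smul_eq_mul, Nat.mul_comm]
        exact Nat.le_of_mul_le_mul_right h5 (Nat.succ_pos p)
      have h5 : ((range p).biUnion U2).card ≤ p * B.card := by
        refine Finset.card_biUnion_le.trans ?_
        calc ∑ i ∈ range p, (U2 i).card ≤ ∑ _i ∈ range p, B.card :=
              Finset.sum_le_sum fun i _ => hU2c i
          _ = p * B.card := by rw [Finset.sum_const, Finset.card_range, smul_eq_mul]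
      have h6 := Finset.card_union_le ((range (p + 1)).biUnion U1) ((range p).biUnion U2)
      rw [h3] at h2
      have h7 : 3 * p * B.card = 2 * p * B.card + p * B.card := by ring
      omega
    obtain ⟨q, hqS, hq1, hq2⟩ := hex
    have hqS' := hqS
    rw [hS, Finset.mem_product, Finset.mem_Ico, Finset.mem_Ico] at hqS'
    obtain ⟨⟨ha0, ha1⟩, hb0, hb1⟩ := hqS'
    have hHz : (H : ℤ) = (p + 1) * H0 := by rw [hH]; push_cast; ring
    have hH00 : (0 : ℤ) ≤ H0 := by positivity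
    refine (wapd_corrected (f := f) (E' := 2 * 2 ^ p * E) (h1 := q.1) (h2 := q.2) hE ?_ ?_).trans
      (le_of_eq (by ring))
    · intro j hj
      obtain ⟨a1, a2⟩ := hin j hj
      refine (hgX (x + j * h) a1 a2).2.2 _ ?_ ?_
      · rw [Finset.mem_Ico]
        have h1 : (j : ℤ) ≤ p := by exact_mod_cast hj
        have h2 := mul_le_mul_of_nonneg_right h1 hb0
        have h3 : (0 : ℤ) ≤ j * q.2 := by (clear * - hb0; positivity)
        have h4 : (p : ℤ) * q.2 ≤ p * H0 := mul_le_mul_of_nonneg_left hb1.le (by linarith only [])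
        refine ⟨by linarith only [ha0, h3], ?_⟩
        rw [hHz]
        linarith only [ha1, h2, h4]
      · intro hmem
        exact hq1 j (Finset.mem_range.mpr (Nat.lt_succ_of_le hj))
          (Finset.mem_filter.mpr ⟨hqS, hmem⟩)
    · intro i hi
      have hi' : ((i + 1 : ℕ) : ℤ) ≤ p := by exact_mod_cast hi
      have hi0 : (0 : ℤ) ≤ ((i + 1 : ℕ) : ℤ) := by (clear * -; positivity)
      have h1 : (0 : ℤ) ≤ ((i + 1 : ℕ) : ℤ) * q.1 := mul_nonneg hi0 ha0
      have h2 : (0 : ℤ) ≤ ((i + 1 : ℕ) : ℤ) * q.2 := mul_nonneg hi0 hb0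
      refine wnot_bad (M := M) hp (by linarith only [hx, h1]) (by linarith only [hh, h2]) ?_ ?_
      · have h3 : ((i + 1 : ℕ) : ℤ) * q.1 ≤ p * q.1 := mul_le_mul_of_nonneg_right hi' ha0
        have h4 : ((i + 1 : ℕ) : ℤ) * q.2 ≤ p * q.2 := mul_le_mul_of_nonneg_right hi' hb0
        have h5 : (p : ℤ) * q.1 < p * H0 := mul_lt_mul_of_pos_left ha1 (by linarith only [hp])
        have h6 : (p : ℤ) * q.2 ≤ p * H0 := mul_le_mul_of_nonneg_left hb1.le (by linarith only [])
        have h7 : (p : ℤ) * (((i + 1 : ℕ) : ℤ) * q.2) ≤ p * (p * H0) :=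
          mul_le_mul_of_nonneg_left (h4.trans h6) (by linarith only [])
        have h8 : (0 : ℤ) ≤ p * (p * H0) := by positivity
        have h9 : (0 : ℤ) ≤ p * H0 := by positivity
        rw [hHz] at hxM
        have e : (p : ℤ) * (h + ((i + 1 : ℕ) : ℤ) * q.2) =
          p * h + p * (((i + 1 : ℕ) : ℤ) * q.2) := by ring
        rw [e]
        have e2 : 2 * (p : ℤ) * ((p + 1) * H0) = 2 * (p * (p * H0)) + 2 * (p * H0) := by ring
        rw [e2] at hxM
        linarith only [hH, hH2, hxM, h3, h5, h7, h8]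
      · intro hmem
        exact hq2 i (Finset.mem_range.mpr hi) (Finset.mem_filter.mpr ⟨hqS, hmem⟩)

open Classical in
/-- **the 99% theorem along arithmetic progressions** -/
theorem wap_core (p : ℕ) (hp : 1 ≤ p) (η : ℝ) (hη : 0 < η) : ∃ δ : ℝ, 0 < δ ∧ ∃ C : ℝ, 0 < C ∧
    ∃ s : ℕ, ∀ n : ℕ, s ≤ n → ∀ (f : ℤ → ℝ) (E : ℝ), 0 ≤ E →
      ((wBad p f E (2 ^ n)).card : ℝ) ≤ δ * (2 ^ n) ^ 2 →
      ∃ P : Polynomial ℝ, P.degree < p ∧
        (((Ico (0 : ℤ) (2 ^ n)).filter fun x =>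
          C * (n + 1) * E < |f x - P.eval (x : ℝ)|).card : ℝ) ≤ η * 2 ^ n := by
  obtain ⟨s, hs⟩ := pow_unbounded_of_one_lt (2 * ((p : ℝ) + 1) ^ 2 / η + 2 * p * (p + 1))
    (by norm_num : (1 : ℝ) < 2)
  have hp0 : (0 : ℝ) < p := by exact_mod_cast hp
  have hs1 : 2 * ((p : ℝ) + 1) ^ 2 ≤ η * 2 ^ s := by
    have h1 : 2 * ((p : ℝ) + 1) ^ 2 / η ≤ 2 ^ s := by
      have : (0 : ℝ) ≤ 2 * p * (p + 1) := by positivity
      linarith only [hs, this]
    rw [div_le_iff₀ hη] at h1
    linarith only [h1]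
  have hs2 : 2 * p * (p + 1) ≤ 2 ^ s := by
    have h1 : (2 * p * (p + 1) : ℝ) ≤ 2 ^ s := by
      have : (0 : ℝ) ≤ 2 * ((p : ℝ) + 1) ^ 2 / η := by positivity
      linarith only [hs, this]
    exact_mod_cast h1
  obtain ⟨K, hK⟩ := Nat.exists_eq_add_of_le' hs2
  obtain ⟨CW, hCW, hW⟩ := whitney p K hp
  refine ⟨1 / (4 * p * 4 ^ s), by positivity,
    (2 * 2 ^ p + 1) + CW * (2 ^ p * (2 * 2 ^ p) + 2 ^ p) + 1, by positivity, s,
    fun n hn f E hE hB => ?_⟩
  obtain ⟨J, rfl⟩ := Nat.exists_eq_add_of_le hn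
  set M : ℕ := 2 ^ (s + J) with hM
  set H0 : ℕ := 2 ^ J with hH0
  have hMH : M = 2 ^ s * H0 := by rw [hM, hH0, pow_add]
  have hH0pos : 1 ≤ H0 := Nat.one_le_two_pow
  have hH0r : (0 : ℝ) < H0 := by exact_mod_cast hH0pos
  have hMr : ((2 : ℝ) ^ (s + J)) = 2 ^ s * H0 := by rw [hH0, pow_add]; push_cast; ring
  have hBr : ((wBad p f E M).card : ℝ) * (4 * p) ≤ (H0 : ℝ) ^ 2 := by
    rw [hMr] at hB
    have h1 : 1 / (4 * (p : ℝ) * 4 ^ s) * (2 ^ s * (H0 : ℝ)) ^ 2 * (4 * p) = (H0 : ℝ) ^ 2 := by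
      have h2 : ((2 : ℝ) ^ s) ^ 2 = 4 ^ s := by
        rw [← pow_mul, mul_comm, pow_mul]; norm_num
      have h3 : (4 : ℝ) ^ s ≠ 0 := by positivity
      rw [mul_pow, h2]
      (clear * - hp h3 hH0pos; field_simp)
    rw [← h1]
    exact mul_le_mul_of_nonneg_right hB (by positivity)
  have hBn : 4 * p * (wBad p f E M).card ≤ H0 ^ 2 := by
    have h1 : ((4 * p * (wBad p f E M).card : ℕ) : ℝ) ≤ ((H0 ^ 2 : ℕ) : ℝ) := by
      push_cast
      linarith only [hBr]
    exact_mod_cast h1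
  have hB3 : 3 * p * (wBad p f E M).card < H0 ^ 2 := by
    have h1 : 0 < H0 ^ 2 := by positivity
    rcases Nat.eq_zero_or_pos (wBad p f E M).card with h0 | h0
    · rw [h0]; simpa only [mul_zero, gt_iff_lt] using h1
    · have h2 : 3 * p * (wBad p f E M).card < 4 * p * (wBad p f E M).card := by
        have : 0 < p * (wBad p f E M).card := Nat.mul_pos hp h0
        nlinarith only [this]
      omega
  obtain ⟨g, Y, hYc, hfg, hgd⟩ := wcorrected hp hE hH0pos hB3
  have hKz : ((K : ℤ) + 2 * p * (p + 1)) * H0 = M := by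
    rw [hMH, hK]
    push_cast
    ring
  set F : ℝ := (2 ^ p * (2 * 2 ^ p) + 2 ^ p) * E with hF
  have hF0 : 0 ≤ F := by (clear * - hE; positivity)
  obtain ⟨P, hPd, hP⟩ := hW g J F hF0 (fun j hj x hx hxK => by
    rw [DD_wapd]
    refine hgd x (2 ^ j) hx (by positivity) ?_
    have e1 : (((p + 1) * H0 : ℕ) : ℤ) = (p + 1) * H0 := by push_cast; ring
    have e2 : ((2 : ℤ) ^ J) = H0 := by rw [hH0]; push_cast; rfl
    rw [e2] at hxK
    rw [e1, ← hKz]
    linarith only [hxK])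
  refine ⟨P, hPd, ?_⟩
  have hsub : ((Ico (0 : ℤ) (2 ^ (s + J))).filter fun x =>
      ((2 * 2 ^ p + 1) + CW * (2 ^ p * (2 * 2 ^ p) + 2 ^ p) + 1) * (((s + J : ℕ) : ℝ) + 1) * E <
        |f x - P.eval (x : ℝ)|) ⊆ Y ∪ Ico (((K : ℤ) - 2 * p) * H0) M := by
    intro x hx
    rw [Finset.mem_filter, Finset.mem_Ico] at hx
    obtain ⟨⟨hx0, hxM⟩, hxE⟩ := hx
    have hMz : ((M : ℕ) : ℤ) = 2 ^ (s + J) := by rw [hM]; push_cast; rfl
    rw [Finset.mem_union, Finset.mem_Ico]
    by_contra hn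
    push Not at hn
    obtain ⟨hxY, hn2⟩ := hn
    have hxK : x ≤ ((K : ℤ) - 2 * p) * H0 := by
      by_contra hc
      push Not at hc
      have := hn2 hc.le
      rw [hMz] at this
      linarith only [hxM, this]
    have h1 := hP x hx0 (by
      have e2 : ((2 : ℤ) ^ J) = H0 := by rw [hH0]; push_cast; rfl
      rw [e2]; exact hxK)
    have h2 := hfg x hx0 (by
      have e1 : (((p + 1) * H0 : ℕ) : ℤ) = (p + 1) * H0 := by push_cast; ring
      rw [e1, ← hKz]
      have h3 : (0 : ℤ) ≤ 2 * p * H0 := by positivity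
      linarith only [hxK, h3]) hxY
    have h3 : |f x - P.eval (x : ℝ)| ≤ (2 * 2 ^ p + 1) * E + CW * (J + 1) * F := by
      have e : f x - P.eval (x : ℝ) = (f x - g x) + (g x - P.eval (x : ℝ)) := by ring
      rw [e]
      exact (abs_add_le _ _).trans (add_le_add h2 h1)
    refine absurd (hxE.trans_le h3) (not_lt.mpr ?_)
    have hn1 : (1 : ℝ) ≤ ((s + J : ℕ) : ℝ) + 1 := by
      have : (0 : ℝ) ≤ ((s + J : ℕ) : ℝ) := Nat.cast_nonneg _
      linarith only []
    have hn2 : (J : ℝ) + 1 ≤ ((s + J : ℕ) : ℝ) + 1 := by push_cast; linarith only []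
    have h4 : (2 * 2 ^ p + 1) * E ≤ (2 * 2 ^ p + 1) * E * (((s + J : ℕ) : ℝ) + 1) :=
      le_mul_of_one_le_right (by (clear * - hE; positivity)) hn1
    have h5 : CW * (J + 1) * F ≤ CW * (((s + J : ℕ) : ℝ) + 1) * F :=
      mul_le_mul_of_nonneg_right (mul_le_mul_of_nonneg_left hn2 hCW) hF0
    have h6 : 0 ≤ (((s + J : ℕ) : ℝ) + 1) * E := mul_nonneg (by linarith only []) hE
    calc (2 * 2 ^ p + 1) * E + CW * (J + 1) * F
        ≤ (2 * 2 ^ p + 1) * E * (((s + J : ℕ) : ℝ) + 1) +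
          CW * (((s + J : ℕ) : ℝ) + 1) * F := add_le_add h4 h5
      _ ≤ (2 * 2 ^ p + 1) * E * (((s + J : ℕ) : ℝ) + 1) +
          CW * (((s + J : ℕ) : ℝ) + 1) * F + (((s + J : ℕ) : ℝ) + 1) * E := by linarith only [h6]
      _ = _ := by rw [hF]; ring
  have hYn : Y.card ≤ H0 := by
    have h1 : Y.card * H0 ≤ H0 * H0 := by
      have h2 : (wBad p f E M).card ≤ 4 * p * (wBad p f E M).card :=
        Nat.le_mul_of_pos_left _ (by (clear * - hp; omega))
      calc Y.card * H0 ≤ (wBad p f E M).card := hYc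
        _ ≤ 4 * p * (wBad p f E M).card := h2
        _ ≤ H0 ^ 2 := hBn
        _ = H0 * H0 := sq _
    exact Nat.le_of_mul_le_mul_right h1 hH0pos
  have hcard : ((Y ∪ Ico (((K : ℤ) - 2 * p) * H0) M).card : ℝ) ≤ 2 * ((p : ℝ) + 1) ^ 2 * H0 := by
    have h1 : ((Y ∪ Ico (((K : ℤ) - 2 * p) * H0) M).card : ℝ) ≤
        (Y.card : ℝ) + ((Ico (((K : ℤ) - 2 * p) * H0) M).card : ℝ) := by
      exact_mod_cast Finset.card_union_le _ _
    have h2 : ((Ico (((K : ℤ) - 2 * p) * H0) M).card : ℝ) = (2 * p * (p + 1) + 2 * p) * H0 := by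
      have h3 : ((Ico (((K : ℤ) - 2 * p) * H0) M).card : ℤ) = (2 * p * (p + 1) + 2 * p) * H0 := by
        rw [Int.card_Ico, ← hKz]
        have e : (((K : ℤ) + 2 * p * (p + 1)) * H0 - ((K : ℤ) - 2 * p) * H0) =
            (2 * p * (p + 1) + 2 * p) * H0 := by ring
        rw [e, Int.toNat_of_nonneg (by positivity)]
      exact_mod_cast h3
    have h4 : (Y.card : ℝ) ≤ H0 := by exact_mod_cast hYn
    rw [h2] at h1
    refine h1.trans ?_
    have h5 : (0 : ℝ) ≤ H0 := hH0r.le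
    nlinarith only [h4]
  calc _ ≤ ((Y ∪ Ico (((K : ℤ) - 2 * p) * H0) M).card : ℝ) := by
        exact_mod_cast Finset.card_le_card hsub
    _ ≤ 2 * ((p : ℝ) + 1) ^ 2 * H0 := hcard
    _ ≤ η * 2 ^ s * H0 := mul_le_mul_of_nonneg_right hs1 hH0r.le
    _ = η * 2 ^ (s + J) := by rw [hMr]; ring

end Vale.Agent.P127.Stk
end

section

/-!
# P127 / Stk : functions whose differences vanish along most progressions (PROOF.md, section 7)
-/

namespace Vale.Agent.P127.Stk

open Finset Polynomial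

/-- progressions `x, x + μ, ..., x + (k+1) μ` in `[0, M)` -/
noncomputable def aps (k M : ℕ) : Finset (ℤ × ℤ) :=
  ((Ico (0 : ℤ) M) ×ˢ (Ioo (-(M : ℤ)) M)).filter fun z =>
    0 ≤ z.1 + ((k + 1 : ℕ) : ℤ) * z.2 ∧ z.1 + ((k + 1 : ℕ) : ℤ) * z.2 < M

open Classical in
/-- the deterministic theorem (`M = 2^n`) -/
theorem det_poly (k : ℕ) (η : ℝ) (hη : 0 < η) : ∃ δ : ℝ, 0 < δ ∧ ∃ C : ℝ, 0 < C ∧ ∃ M0 : ℕ,
    ∀ n : ℕ, M0 ≤ 2 ^ n → ∀ (f : ℤ → ℝ) (E : ℝ), 0 < E →
    (((aps k (2 ^ n)).filter fun z => E < |apd k f z.1 z.2|).card : ℝ) ≤ δ * (2 ^ n) ^ 2 →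
    ∃ q : ℝ[X], q.natDegree ≤ k ∧
      (((Ico (0 : ℤ) (2 ^ n)).filter fun x => C * (n + 1) * E < |f x - q.eval (x : ℝ)|).card : ℝ)
        ≤ η * 2 ^ n := by
  obtain ⟨δ, hδ, C, hC, s, h⟩ := wap_core (k + 1) (by omega) η hη
  refine ⟨δ, hδ, C, hC, 2 ^ s, fun n hn f E hE hB => ?_⟩
  have hsn : s ≤ n := (Nat.pow_le_pow_iff_right (by norm_num)).mp hn
  have hsub : wBad (k + 1) f E (2 ^ n) ⊆ (aps k (2 ^ n)).filter fun z => E < |apd k f z.1 z.2| := by
    intro z hz
    rw [wBad, Finset.mem_filter, Finset.mem_product, Finset.mem_Ico, Finset.mem_Ico] at hz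
    obtain ⟨⟨⟨h1, h2⟩, h3, h4⟩, h5, h6⟩ := hz
    rw [Finset.mem_filter, aps, Finset.mem_filter, Finset.mem_product, Finset.mem_Ico,
      Finset.mem_Ioo]
    have h7 : (0 : ℤ) ≤ ((k + 1 : ℕ) : ℤ) * z.2 := mul_nonneg (by positivity) h3
    exact ⟨⟨⟨⟨h1, h2⟩, by linarith only [h1, h2, h3], h4⟩, by linarith only [h1, h7], h5⟩, h6⟩
  obtain ⟨P, hPd, hP⟩ := h n hsn f E hE.le
    (le_trans (by exact_mod_cast Finset.card_le_card hsub) hB)
  refine ⟨P, ?_, hP⟩
  by_cases hP0 : P = 0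
  · rw [hP0, Polynomial.natDegree_zero]; omega
  · have := (Polynomial.natDegree_lt_iff_degree_lt hP0).mpr hPd
    omega

end Vale.Agent.P127.Stk
end

section

/-!
# P127 / Stk : covering numbers, packing dimension, the space of affine lines
-/

namespace Vale.Agent.P127.Stk

open Filter Topology

/-- `N_δ(S)`: the smallest number of closed balls of radius `δ` which cover `S`. -/
noncomputable def cov {X : Type*} [PseudoEMetricSpace X] (δ : ℝ) (S : Set X) : ENNReal :=
  (Metric.externalCoveringNumber δ.toNNReal S : ENNReal)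

/-- The upper Minkowski dimension: the limit superior of `log N_δ(S) / log (1/δ)` as `δ → 0+`. -/
noncomputable def upperMinkowskiDim {X : Type*} [PseudoEMetricSpace X] (S : Set X) : EReal :=
  limsup (fun δ : ℝ => ENNReal.log (cov δ S) / ((Real.log (1 / δ) : ℝ) : EReal)) (𝓝[>] 0)

/-- The packing dimension (equal to the modified upper Minkowski dimension): the infimum, over the
covers of `S` by countably many sets `T i`, of the supremum of the upper Minkowski dimensions of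
the sets `T i`. -/
noncomputable def packingDim {X : Type*} [PseudoEMetricSpace X] (S : Set X) : EReal :=
  ⨅ (T : ℕ → Set X) (_ : S ⊆ ⋃ i, T i), ⨆ i, upperMinkowskiDim (T i)

/-- The line `a + ℝ e` (`e ≠ 0`) as a point of the manifold of affine lines: the orthogonal
projection onto its direction and the point of the line nearest to the origin. The standard
distance of two lines is the distance of these pairs. -/
noncomputable def toLine {n : ℕ} (a e : EuclideanSpace ℝ (Fin n)) :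
    (EuclideanSpace ℝ (Fin n) →L[ℝ] EuclideanSpace ℝ (Fin n)) × EuclideanSpace ℝ (Fin n) :=
  ((Submodule.span ℝ {e}).starProjection, a - (Submodule.span ℝ {e}).starProjection a)

end Vale.Agent.P127.Stk
end

section

/-!
# P127 / Stk : Minkowski dimensions, packing dimension, sticky families of lines
-/

namespace Vale.Agent.P127.Stk

open Filter Topology

section dims

variable {X : Type*} [PseudoEMetricSpace X]

end dims

end Vale.Agent.P127.Stk
end

section

/-!
# P127 / Stk : covering numbers at dyadic scales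
-/

namespace Vale.Agent.P127.Stk

open Filter Topology

section emetric

variable {X : Type*} [PseudoEMetricSpace X]

lemma cov_anti {δ δ' : ℝ} (h : δ ≤ δ') (S : Set X) : cov δ' S ≤ cov δ S := by
  unfold cov
  exact_mod_cast Metric.externalCoveringNumber_anti (Real.toNNReal_le_toNNReal h)

/-- from the upper Minkowski dimension to covering numbers at dyadic scales -/
theorem cov_le_of_upper {S : Set X} {d : ℝ} (h : upperMinkowskiDim S < (d : EReal)) :
    ∃ C : ℝ, 0 < C ∧ ∀ s : ℕ, cov ((1 / 2 : ℝ) ^ s) S ≤ ENNReal.ofReal (C * (2 : ℝ) ^ (d * s)) := by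
  have h1 := eventually_lt_of_limsup_lt h
  have h2 : ∀ᶠ δ : ℝ in 𝓝[>] 0, δ < 1 :=
    mem_nhdsWithin_of_mem_nhds (Iio_mem_nhds one_pos)
  obtain ⟨ε0, hε0, hε⟩ := mem_nhdsGT_iff_exists_Ioo_subset.1 (h1.and h2)
  have hε0' : (0 : ℝ) < ε0 := hε0
  obtain ⟨s0, hs0⟩ := exists_pow_lt_of_lt_one hε0' (by norm_num : (1 / 2 : ℝ) < 1)
  have key : ∀ s : ℕ, s0 ≤ s →
      cov ((1 / 2 : ℝ) ^ s) S ≤ ENNReal.ofReal ((2 : ℝ) ^ (d * s)) := by
    intro s hs
    have hδ : (1 / 2 : ℝ) ^ s ∈ Set.Ioo 0 ε0 :=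
      ⟨by positivity, (pow_le_pow_of_le_one (by norm_num) (by norm_num) hs).trans_lt hs0⟩
    obtain ⟨h3, h4⟩ := hε hδ
    have hlog : Real.log (1 / (1 / 2 : ℝ) ^ s) = s * Real.log 2 := by
      rw [one_div, one_div, inv_pow, inv_inv, Real.log_pow]
    have hs1 : s ≠ 0 := by
      rintro rfl
      simp at h4
    have hpos : (0 : ℝ) < s * Real.log 2 := by
      have : (0 : ℝ) < s := by exact_mod_cast Nat.pos_of_ne_zero hs1
      have := Real.log_pos (by norm_num : (1 : ℝ) < 2)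
      (clear * - hs1; positivity)
    rw [hlog, EReal.div_lt_iff (by exact_mod_cast hpos) (EReal.coe_ne_top _)] at h3
    have h5 : ENNReal.log (cov ((1 / 2 : ℝ) ^ s) S) ≤
        ENNReal.log (ENNReal.ofReal ((2 : ℝ) ^ (d * s))) := by
      rw [ENNReal.log_ofReal_of_pos (by positivity), Real.log_rpow (by norm_num)]
      refine h3.le.trans (le_of_eq ?_)
      rw [← EReal.coe_mul]
      congr 1
      ring
    exact ENNReal.log_le_log_iff.1 h5
  refine ⟨(2 : ℝ) ^ (d * s0) * (2 : ℝ) ^ (|d| * s0) + 1, by positivity, fun s => ?_⟩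
  rcases le_total s0 s with hs | hs
  · refine (key s hs).trans (ENNReal.ofReal_le_ofReal ?_)
    have h3 : (0 : ℝ) < (2 : ℝ) ^ (d * s) := by positivity
    have h4 : (0 : ℝ) < (2 : ℝ) ^ (d * s0) * (2 : ℝ) ^ (|d| * s0) := by positivity
    nlinarith only [h3, h4]
  · have h3 : cov ((1 / 2 : ℝ) ^ s) S ≤ cov ((1 / 2 : ℝ) ^ s0) S :=
      cov_anti (pow_le_pow_of_le_one (by norm_num) (by norm_num) hs) S
    refine (h3.trans (key s0 le_rfl)).trans (ENNReal.ofReal_le_ofReal ?_)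
    have h4 : (1 : ℝ) ≤ (2 : ℝ) ^ (|d| * s0) * (2 : ℝ) ^ (d * s) := by
      rw [← Real.rpow_add (by norm_num)]
      refine Real.one_le_rpow (by norm_num) ?_
      have h5 : -|d| ≤ d := neg_abs_le d
      have h6 : (s : ℝ) ≤ s0 := by exact_mod_cast hs
      have h7 : (0 : ℝ) ≤ s := by positivity
      nlinarith only [h5, h6, abs_nonneg d]
    have h5 : (0 : ℝ) < (2 : ℝ) ^ (d * s0) := by positivity
    have h6 : (0 : ℝ) < (2 : ℝ) ^ (d * s) := by positivity
    nlinarith only [h6, h4, h5]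

end emetric

end Vale.Agent.P127.Stk
end
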