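import Vale.Agent.P127.Bdl.B1
import Vale.Agent.P127.Bdl.B2
attribute [-instance] ProperSMul.toContinuousSMul IsTopologicalTorsor.toContinuousSMul IdemSemiring.toCanonicallyOrderedAdd IdemSemiring.toMulLeftMono IdemSemiring.toMulRightMono AddQuantale.instAddLeftMono AddQuantale.instAddRightMono Quantale.instMulLeftMono Quantale.instMulRightMono FiniteDimensional.rclike_to_real IsScalarTower.complexToReal FiniteDimensional.complexToReal

set_option linter.all false

section

/-!
# P127 / Stk : the law of arithmetic progressions (`apw`), its mass, domination and cost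
-/

namespace Vale.Agent.P127.Stk

open Finset Vale.Agent.P127

section aplaw

variable {Ω : Type} [Fintype Ω] {S S' T V : Type*}

open Classical in
/-- the positions in `[0, M)` which are good for the value `s` of the key -/
noncomputable def gd (P : Law Ω) (W : Ω → S) (U : Ω → ℤ) (M : ℕ) (s : S) : Finset ℤ :=
  (Finset.Ico (0 : ℤ) M).filter fun u => P.pr W s ≤ 2 * M * P.pr (fun ω => (W ω, U ω)) (s, u)

open Classical in
/-- the positions in `[0, M)` which are bad for the value `s` of the key -/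
noncomputable def bd (P : Law Ω) (W : Ω → S) (U : Ω → ℤ) (M : ℕ) (s : S) : Finset ℤ :=
  (Finset.Ico (0 : ℤ) M).filter fun u => ¬ P.pr W s ≤ 2 * M * P.pr (fun ω => (W ω, U ω)) (s, u)

open Classical in
/-- one factor of the weights -/
noncomputable def fw (P : Law Ω) (W : Ω → S) (U : Ω → ℤ) (M : ℕ) (s : S) (u : ℤ) (ω : Ω) : ℝ :=
  if W ω = s ∧ U ω = u then P.w ω * idn P W U M ω else 0

theorem idn_nonneg (P : Law Ω) (W : Ω → S) (U : Ω → ℤ) (M : ℕ) (ω : Ω) : 0 ≤ idn P W U M ω := by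
  unfold idn
  split_ifs
  · exact div_nonneg (P.pr_nonneg _ _) (mul_nonneg (Nat.cast_nonneg _) (P.pr_nonneg _ _))
  · exact le_rfl

theorem pr_pair_zero {P : Law Ω} {W : Ω → S} {U : Ω → ℤ} {M : ℕ}
    (hU : ∀ ω, 0 < P.w ω → 0 ≤ U ω ∧ U ω < M) (s : S) (u : ℤ) (hu : u ∉ Finset.Ico (0 : ℤ) M) :
    P.pr (fun ω => (W ω, U ω)) (s, u) = 0 := by
  classical
  unfold Law.pr
  refine Finset.sum_eq_zero fun ω hω => ?_
  simp only [Finset.mem_filter, Finset.mem_univ, true_and, Prod.mk.injEq] at hω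
  have h1 := hω
  by_contra hne
  have h2 := hU ω (lt_of_le_of_ne (P.nn ω) (Ne.symm hne))
  rw [h1.2] at h2
  exact hu (Finset.mem_Ico.2 h2)

theorem fw_sum {P : Law Ω} {W : Ω → S} {U : Ω → ℤ} {M : ℕ}
    (hU : ∀ ω, 0 < P.w ω → 0 ≤ U ω ∧ U ω < M) (s : S) (u : ℤ) [Decidable (u ∈ gd P W U M s)] :
    ∑ ω, fw P W U M s u ω = if u ∈ gd P W U M s then P.pr W s / M else 0 := by
  classical
  have h1 : ∑ ω, fw P W U M s u ω = P.pr (fun ω => (W ω, U ω)) (s, u) *
      (if P.pr W s ≤ 2 * M * P.pr (fun ω => (W ω, U ω)) (s, u) then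
        P.pr W s / (M * P.pr (fun ω => (W ω, U ω)) (s, u)) else 0) := by
    unfold Law.pr
    rw [Finset.sum_mul, Finset.sum_filter]
    refine Finset.sum_congr rfl fun ω _ => ?_
    unfold fw
    by_cases h : W ω = s ∧ U ω = u
    · rw [if_pos h, if_pos (Prod.ext h.1 h.2)]
      unfold idn Law.pr
      rw [h.1, h.2]
    · rw [if_neg h, if_neg (fun hh => h (by simpa using hh))]
  rw [h1]
  by_cases hc : P.pr W s ≤ 2 * M * P.pr (fun ω => (W ω, U ω)) (s, u)
  · rw [if_pos hc]
    rcases (P.pr_nonneg (fun ω => (W ω, U ω)) (s, u)).eq_or_lt with h0 | h0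
    · rw [← h0] at hc ⊢
      have h2 : P.pr W s = 0 := le_antisymm (by linarith only [hc]) (P.pr_nonneg _ _)
      rw [h2]
      simp only [mul_zero, div_zero, zero_div, ite_self]
    · have hu : u ∈ Finset.Ico (0 : ℤ) M := by
        by_contra hne
        rw [pr_pair_zero hU s u hne] at h0
        exact lt_irrefl _ h0
      rw [if_pos (by unfold gd; exact Finset.mem_filter.2 ⟨hu, hc⟩)]
      rcases Nat.eq_zero_or_pos M with hM | hM
      · subst hM; simp
      · have : (0:ℝ) < M := by exact_mod_cast hM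
        (clear * - h0 hM; field_simp)
  · rw [if_neg hc, if_neg (by unfold gd; exact fun hh => hc (Finset.mem_filter.1 hh).2), mul_zero]

/-- the parameters of the progressions -/
noncomputable def apI (M : ℕ) : Finset (ℤ × ℤ) :=
  (Finset.Ico (0 : ℤ) M) ×ˢ (Finset.Ioo (-(M : ℤ)) M)

theorem apw_eq {P : Law Ω} {W : Ω → S} {U : Ω → ℤ} {M p : ℕ} (hp : 1 ≤ p)
    (hU : ∀ ω, 0 < P.w ω → 0 ≤ U ω ∧ U ω < M) (w : Fin (p + 1) → Ω) :
    apw P W U M p w = ∑ s ∈ img W, ∑ q ∈ apI M,
      (∏ j : Fin (p + 1), fw P W U M s (q.1 + (j : ℕ) * q.2) (w j)) / P.pr W s ^ p := by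
  classical
  set i1 : Fin (p + 1) := ⟨1, by omega⟩ with hi1
  set q0 : ℤ × ℤ := (U (w 0), U (w i1) - U (w 0)) with hq0
  have hA : ∀ s ∈ img W, s ≠ W (w 0) → ∑ q ∈ apI M,
      (∏ j : Fin (p + 1), fw P W U M s (q.1 + (j : ℕ) * q.2) (w j)) / P.pr W s ^ p = 0 := by
    intro s _ hs
    refine Finset.sum_eq_zero fun q _ => ?_
    rw [Finset.prod_eq_zero (Finset.mem_univ 0), zero_div]
    unfold fw
    rw [if_neg (fun hh => hs hh.1.symm)]
  rw [Finset.sum_eq_single (W (w 0)) hA
    (fun h => absurd (mem_img.2 ⟨w 0, rfl⟩) h)]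
  have hB : ∀ q ∈ apI M, q ≠ q0 →
      (∏ j : Fin (p + 1), fw P W U M (W (w 0)) (q.1 + (j : ℕ) * q.2) (w j)) /
        P.pr W (W (w 0)) ^ p = 0 := by
    intro q _ hq
    by_cases h1 : q.1 = U (w 0)
    · have h2 : q.2 ≠ U (w i1) - U (w 0) := fun hh => hq (Prod.ext h1 hh)
      rw [Finset.prod_eq_zero (Finset.mem_univ i1), zero_div]
      unfold fw
      rw [if_neg]
      rintro ⟨-, h3⟩
      apply h2
      rw [h3, h1, hi1]
      push_cast
      ring
    · rw [Finset.prod_eq_zero (Finset.mem_univ 0), zero_div]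
      unfold fw
      rw [if_neg]
      rintro ⟨-, h3⟩
      apply h1
      rw [h3]
      simp only [Fin.coe_ofNat_eq_mod, Nat.zero_mod, CharP.cast_eq_zero, zero_mul, add_zero]
  -- the product at the right place
  have hC : apw P W U M p w =
      (∏ j : Fin (p + 1), fw P W U M (W (w 0)) (q0.1 + (j : ℕ) * q0.2) (w j)) /
        P.pr W (W (w 0)) ^ p := by
    by_cases h : (∀ j, W (w j) = W (w 0)) ∧
        ∀ j : Fin (p + 1), U (w j) = U (w 0) + (j : ℕ) * (U (w i1) - U (w 0))
    · have h1 : ∏ j : Fin (p + 1), fw P W U M (W (w 0)) (q0.1 + (j : ℕ) * q0.2) (w j) =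
          ∏ j, (P.w (w j) * idn P W U M (w j)) := by
        refine Finset.prod_congr rfl fun j _ => ?_
        unfold fw
        rw [if_pos ⟨h.1 j, h.2 j⟩]
      rw [h1, Finset.prod_mul_distrib]
      unfold apw cw
      rw [if_pos ⟨_, h.2⟩, if_pos h.1]
      ring
    · have h1 : ∏ j : Fin (p + 1), fw P W U M (W (w 0)) (q0.1 + (j : ℕ) * q0.2) (w j) = 0 := by
        rw [not_and_or] at h
        rcases h with h | h
        · push Not at h
          obtain ⟨j, hj⟩ := h
          rw [Finset.prod_eq_zero (Finset.mem_univ j)]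
          unfold fw
          rw [if_neg (fun hh => hj hh.1)]
        · push Not at h
          obtain ⟨j, hj⟩ := h
          rw [Finset.prod_eq_zero (Finset.mem_univ j)]
          unfold fw
          rw [if_neg (fun hh => hj hh.2)]
      rw [h1, zero_div]
      unfold apw
      split_ifs with h2
      · obtain ⟨μ, hμ⟩ := h2
        rw [not_and_or] at h
        rcases h with h | h
        · unfold cw
          rw [if_neg h, zero_mul]
        · exfalso
          apply h
          have h3 := hμ i1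
          have h4 : U (w i1) - U (w 0) = μ := by
            rw [h3, hi1]
            push_cast
            ring
          rw [h4]
          exact hμ
      · rfl
  by_cases hq : q0 ∈ apI M
  · rw [Finset.sum_eq_single q0 hB (fun h => absurd hq h)]
    exact hC
  · rw [Finset.sum_eq_zero (fun q hq' => hB q hq' (fun hh => hq (hh ▸ hq')))]
    -- one of the weights vanishes
    have h1 : P.w (w 0) = 0 ∨ P.w (w i1) = 0 := by
      by_contra hcon
      rw [not_or] at hcon
      have h2 := hU (w 0) (lt_of_le_of_ne (P.nn _) (Ne.symm hcon.1))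
      have h3 := hU (w i1) (lt_of_le_of_ne (P.nn _) (Ne.symm hcon.2))
      apply hq
      unfold apI
      rw [Finset.mem_product, Finset.mem_Ico, Finset.mem_Ioo]
      refine ⟨h2, ?_, ?_⟩ <;> simp only [hq0] <;> omega
    have h2 : cw P W p w = 0 := by
      unfold cw
      split_ifs
      · have : ∏ i, P.w (w i) = 0 := by
          rcases h1 with h1 | h1
          · exact Finset.prod_eq_zero (Finset.mem_univ 0) h1
          · exact Finset.prod_eq_zero (Finset.mem_univ i1) h1
        rw [this, zero_div]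
      · rfl
    unfold apw
    rw [h2]
    simp only [zero_mul, ite_self]


open Classical in
/-- the good progressions -/
noncomputable def apG (P : Law Ω) (W : Ω → S) (U : Ω → ℤ) (M p : ℕ) (s : S) : Finset (ℤ × ℤ) :=
  (apI M).filter fun q : ℤ × ℤ => ∀ j : Fin (p + 1), q.1 + (j : ℕ) * q.2 ∈ gd P W U M s

/-- the normalising constant -/
theorem ap_norm {P : Law Ω} {W : Ω → S} {U : Ω → ℤ} {M p : ℕ} {Q : Law (Fin (p + 1) → Ω)} {Z : ℝ}
    (hZ : 0 < Z) (hQ : ∀ w, Q.w w = apw P W U M p w / Z) : Z = ∑ w, apw P W U M p w := by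
  have h1 := Q.sum_one
  simp only [hQ] at h1
  rw [← Finset.sum_div, div_eq_one_iff_eq hZ.ne'] at h1
  exact h1.symm

/-- the number of good progressions -/
noncomputable def nap (P : Law Ω) (W : Ω → S) (U : Ω → ℤ) (M p : ℕ) (s : S) : ℕ :=
  (apG P W U M p s).card

/-- the total mass -/
theorem apw_mass {P : Law Ω} {W : Ω → S} {U : Ω → ℤ} {M p : ℕ} (hp : 1 ≤ p) (hM : 1 ≤ M)
    (hU : ∀ ω, 0 < P.w ω → 0 ≤ U ω ∧ U ω < M) :
    ∑ w, apw P W U M p w = P.ex (fun ω => (nap P W U M p (W ω) : ℝ)) / (M : ℝ) ^ (p + 1) := by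
  classical
  have hM0 : (0 : ℝ) < M := by exact_mod_cast hM
  simp only [apw_eq hp hU]
  rw [Finset.sum_comm, P.ex_comp W (fun s => (nap P W U M p s : ℝ)), Finset.sum_div]
  refine Finset.sum_congr rfl fun s _ => ?_
  rw [Finset.sum_comm]
  have h1 : ∀ q : ℤ × ℤ, ∑ w : Fin (p + 1) → Ω,
      (∏ j : Fin (p + 1), fw P W U M s (q.1 + (j : ℕ) * q.2) (w j)) / P.pr W s ^ p =
      if ∀ j : Fin (p + 1), q.1 + (j : ℕ) * q.2 ∈ gd P W U M s then
        P.pr W s / (M : ℝ) ^ (p + 1) else 0 := by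
    intro q
    rw [← Finset.sum_div, sum_prod_aux (fun j ω => fw P W U M s (q.1 + (j : ℕ) * q.2) ω)]
    simp only [fw_sum hU]
    split_ifs with h
    · rw [Finset.prod_congr rfl fun j _ => if_pos (h j), Finset.prod_const, Finset.card_univ,
        Fintype.card_fin]
      rcases (P.pr_nonneg W s).eq_or_lt with h0 | h0
      · rw [← h0]; simp only [zero_div, ne_eq, Nat.add_eq_zero_iff, one_ne_zero, and_false, not_false_eq_true, zero_pow]
      · rw [div_pow, pow_succ (P.pr W s) p]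
        field_simp
    · push Not at h
      obtain ⟨j, hj⟩ := h
      rw [Finset.prod_eq_zero (Finset.mem_univ j), zero_div]
      rw [if_neg hj]
  simp only [h1]
  rw [← Finset.sum_filter, Finset.sum_const, nsmul_eq_mul]
  have h2 : (apI M).filter (fun q : ℤ × ℤ => ∀ j : Fin (p + 1), q.1 + (j : ℕ) * q.2 ∈
      gd P W U M s) = apG P W U M p s := by
    unfold apG
    congr
  rw [h2]
  unfold nap
  ring

/-- upper bound for the total mass -/
theorem apw_mass_le (P : Law Ω) (W : Ω → S) (U : Ω → ℤ) (M p : ℕ) (hM : 1 ≤ M) (hp : 1 ≤ p)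
    (hU : ∀ ω, 0 < P.w ω → 0 ≤ U ω ∧ U ω < M) :
    ∑ w, apw P W U M p w ≤ 2 / (M : ℝ) ^ (p - 1) := by
  classical
  have hM0 : (0 : ℝ) < M := by exact_mod_cast hM
  rw [apw_mass hp hM hU]
  have h1 : P.ex (fun ω => (nap P W U M p (W ω) : ℝ)) ≤ 2 * (M : ℝ) ^ 2 := by
    refine (P.ex_mono (g := fun _ => 2 * (M : ℝ) ^ 2) fun ω _ => ?_).trans (P.ex_const _).le
    have h2 : nap P W U M p (W ω) ≤ (apI M).card := Finset.card_filter_le _ _
    have h3 : (apI M).card ≤ 2 * M ^ 2 := by
      unfold apI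
      rw [Finset.card_product, Int.card_Ico, Int.card_Ioo]
      have e1 : ((M : ℤ) - 0).toNat = M := by omega
      have e2 : ((M : ℤ) - -(M : ℤ) - 1).toNat ≤ 2 * M := by omega
      rw [e1]
      calc M * ((M : ℤ) - -(M : ℤ) - 1).toNat ≤ M * (2 * M) := Nat.mul_le_mul_left _ e2
        _ = 2 * M ^ 2 := by ring
    exact_mod_cast h2.trans h3
  rw [div_le_div_iff₀ (pow_pos hM0 _) (pow_pos hM0 _)]
  have e3 : (M : ℝ) ^ (p + 1) = M ^ 2 * M ^ (p - 1) := by
    rw [← pow_add]
    congr 1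
    omega
  rw [e3]
  have h4 : (0 : ℝ) < M ^ (p - 1) := pow_pos hM0 _
  nlinarith only [h1, h4]

/-- the number of progressions with nonnegative difference -/
theorem tri_card (M p : ℕ) (hp : 1 ≤ p) (hM : 1 ≤ M) :
    (M : ℝ) ^ 2 / (2 * p) ≤ ∑ μ ∈ Finset.range ((M - 1) / p + 1), ((M : ℝ) - p * μ) := by
  have hp0 : (0 : ℝ) < p := by exact_mod_cast hp
  have hM0 : (1 : ℝ) ≤ M := by exact_mod_cast hM
  set q := (M - 1) / p with hq
  have h1 : ∀ n : ℕ, ∑ μ ∈ Finset.range (n + 1), ((M : ℝ) - p * μ) =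
      (n + 1) * (M - p * n / 2) := by
    intro n
    induction n with
    | zero => simp only [zero_add, range_one, sum_sub_distrib, sum_const, card_singleton, one_smul, sum_singleton, CharP.cast_eq_zero, mul_zero, sub_zero, zero_div, one_mul]
    | succ n ih =>
      rw [Finset.sum_range_succ, ih]
      push_cast
      ring
  rw [h1 q]
  have h2 : (p : ℝ) * q ≤ M := by
    have : p * q ≤ M - 1 := Nat.mul_div_le _ _
    have h3 : p * q ≤ M := by omega
    exact_mod_cast h3
  have h3 : (M : ℝ) ≤ p * (q + 1) := by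
    have : M - 1 < p * (q + 1) := by
      rw [hq]
      have := Nat.lt_mul_div_succ (M - 1) (show 0 < p by omega)
      exact this
    have h4 : M ≤ p * (q + 1) := by omega
    exact_mod_cast h4
  rw [div_le_iff₀ (by positivity)]
  nlinarith only [h2, h3]

/-- the progressions with nonnegative difference in `[0, M)` -/
noncomputable def apT (M p : ℕ) : Finset (ℤ × ℤ) :=
  ((Finset.range ((M - 1) / p + 1)).sigma fun μ => Finset.range (M - p * μ)).image
    fun r => ((r.2 : ℤ), (r.1 : ℤ))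

theorem apT_card (M p : ℕ) : (apT M p).card =
    ∑ μ ∈ Finset.range ((M - 1) / p + 1), (M - p * μ) := by
  unfold apT
  rw [Finset.card_image_of_injective, Finset.card_sigma]
  · simp only [Finset.card_range]
  · rintro ⟨a, b⟩ ⟨c, d⟩ h
    simp only [Prod.mk.injEq, Nat.cast_inj] at h
    obtain ⟨h1, h2⟩ := h
    subst h1 h2
    rfl

theorem mem_apT {M p : ℕ} {r : ℤ × ℤ} (hr : r ∈ apT M p) :
    0 ≤ r.1 ∧ 0 ≤ r.2 ∧ r.1 + p * r.2 < M ∧ ∃ μ ∈ Finset.range ((M - 1) / p + 1), r.2 = (μ : ℤ) := by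
  unfold apT at hr
  rw [Finset.mem_image] at hr
  obtain ⟨⟨a, b⟩, h1, rfl⟩ := hr
  rw [Finset.mem_sigma] at h1
  obtain ⟨h1, h2⟩ := h1
  simp only at h1 h2 ⊢
  rw [Finset.mem_range] at h2
  refine ⟨by (clear * -; positivity), by positivity, ?_, a, h1, rfl⟩
  have h3 : b + p * a < M := by omega
  exact_mod_cast h3

theorem nap_ge (P : Law Ω) (W : Ω → S) (U : Ω → ℤ) (M p : ℕ) (hp : 1 ≤ p) (hM : p ≤ M) (s : S) :
    (M : ℝ) ^ 2 / (2 * p) - (p + 1) * (bd P W U M s).card * (2 * M / p) ≤ nap P W U M p s := by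
  classical
  set q := (M - 1) / p with hq
  have hp0 : (0 : ℝ) < p := by exact_mod_cast hp
  have hM0 : (p : ℝ) ≤ M := by exact_mod_cast hM
  have hTI : apT M p ⊆ apI M := by
    intro r hr
    obtain ⟨h1, h2, h3, μ, -, h4⟩ := mem_apT hr
    unfold apI
    rw [Finset.mem_product, Finset.mem_Ico, Finset.mem_Ioo]
    have h5 : r.2 ≤ p * r.2 := by
      have : (1 : ℤ) ≤ p := by exact_mod_cast hp
      (clear * - h4 hp; nlinarith)
    refine ⟨⟨h1, ?_⟩, ?_, ?_⟩ <;> omega
  have hbad : apT M p \ apG P W U M p s ⊆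
      ((Finset.univ : Finset (Fin (p + 1))) ×ˢ (bd P W U M s ×ˢ Finset.range (q + 1))).image
        (fun z => (z.2.1 - (z.1 : ℕ) * (z.2.2 : ℤ), (z.2.2 : ℤ))) := by
    intro r hr
    rw [Finset.mem_sdiff] at hr
    obtain ⟨h1, h2⟩ := hr
    obtain ⟨h3, h4, h5, μ, hμ, h6⟩ := mem_apT h1
    have h7 : ¬ ∀ j : Fin (p + 1), r.1 + (j : ℕ) * r.2 ∈ gd P W U M s := by
      intro hh
      apply h2
      unfold apG
      rw [Finset.mem_filter]
      exact ⟨hTI h1, hh⟩
    push Not at h7
    obtain ⟨j, hj⟩ := h7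
    have h8 : ((j : ℕ) : ℤ) ≤ p := by
      have := j.2
      omega
    have h9 : r.1 + (j : ℕ) * r.2 ∈ Finset.Ico (0 : ℤ) M := by
      rw [Finset.mem_Ico]
      constructor
      · (clear * - h3 h4; positivity)
      · nlinarith only [h5, h6, h8]
    have h10 : r.1 + (j : ℕ) * r.2 ∈ bd P W U M s := by
      unfold gd at hj
      unfold bd
      rw [Finset.mem_filter] at hj ⊢
      exact ⟨h9, fun hh => hj ⟨h9, hh⟩⟩
    rw [Finset.mem_image]
    refine ⟨(j, r.1 + (j : ℕ) * r.2, μ), ?_, ?_⟩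
    · rw [Finset.mem_product, Finset.mem_product]
      exact ⟨Finset.mem_univ _, h10, hμ⟩
    · simp only
      rw [← h6]
      exact Prod.ext (by ring) rfl
  have h1 : (apT M p).card ≤ nap P W U M p s + (p + 1) * ((bd P W U M s).card * (q + 1)) := by
    have h2 := Finset.card_le_card hbad
    have h3 := Finset.card_image_le (s := (Finset.univ : Finset (Fin (p + 1))) ×ˢ
      (bd P W U M s ×ˢ Finset.range (q + 1)))
      (f := fun z => (z.2.1 - (z.1 : ℕ) * (z.2.2 : ℤ), (z.2.2 : ℤ)))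
    rw [Finset.card_product, Finset.card_product, Finset.card_univ, Fintype.card_fin,
      Finset.card_range] at h3
    have h4 : (apT M p).card = (apT M p ∩ apG P W U M p s).card +
        (apT M p \ apG P W U M p s).card := by
      rw [Finset.card_inter_add_card_sdiff]
    have h5 : (apT M p ∩ apG P W U M p s).card ≤ (apG P W U M p s).card :=
      Finset.card_le_card Finset.inter_subset_right
    unfold nap
    omega
  have h2 : (M : ℝ) ^ 2 / (2 * p) ≤ (apT M p).card := by
    refine (tri_card M p hp (by omega)).trans ?_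
    rw [apT_card, Nat.cast_sum]
    refine Finset.sum_le_sum fun μ hμ => ?_
    have : (M : ℝ) ≤ ((M - p * μ : ℕ) : ℝ) + p * μ := by
      have h3 : M ≤ (M - p * μ) + p * μ := by omega
      exact_mod_cast h3
    linarith only [this]
  have h3 : ((q : ℝ) + 1) ≤ 2 * M / p := by
    have h4 : (p : ℝ) * q ≤ M := by
      have : p * q ≤ M - 1 := Nat.mul_div_le _ _
      have h3 : p * q ≤ M := by omega
      exact_mod_cast h3
    rw [le_div_iff₀ hp0]
    nlinarith only [hM0, h4]
  have h4 : ((apT M p).card : ℝ) ≤ nap P W U M p s +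
      (p + 1) * ((bd P W U M s).card * (q + 1)) := by exact_mod_cast h1
  have h5 : ((p : ℝ) + 1) * ((bd P W U M s).card * (q + 1)) ≤
      (p + 1) * ((bd P W U M s).card * (2 * M / p)) := by
    refine mul_le_mul_of_nonneg_left ?_ (by positivity)
    exact mul_le_mul_of_nonneg_left h3 (Nat.cast_nonneg _)
  have h6 : ((p : ℝ) + 1) * (bd P W U M s).card * (2 * M / p) =
      (p + 1) * ((bd P W U M s).card * (2 * M / p)) := by ring
  rw [h6]
  linarith only [h2, h4, h5]

/-- the bad positions contribute to the distance from the uniform law -/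
theorem bd_le (P : Law Ω) (W : Ω → S) (U : Ω → ℤ) (M : ℕ) (hM : 1 ≤ M) (s : S) :
    ((bd P W U M s).card : ℝ) ≤ 2 * M * l1 P W U M s := by
  classical
  have hM0 : (0 : ℝ) < M := by exact_mod_cast hM
  have h1 : ∑ u ∈ bd P W U M s, 1 / (2 * (M : ℝ)) ≤ l1 P W U M s := by
    unfold l1
    refine (Finset.sum_le_sum fun u hu => ?_).trans (Finset.sum_le_sum_of_subset_of_nonneg
      (by unfold bd; exact Finset.filter_subset _ _) fun u _ _ => abs_nonneg _)
    unfold bd at hu
    rw [Finset.mem_filter] at hu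
    have h2 := hu.2
    push Not at h2
    have h3 : 0 < P.pr W s := lt_of_le_of_lt (by
      have := P.pr_nonneg (fun ω => (W ω, U ω)) (s, u)
      (clear * - hM this; positivity)) h2
    have h4 : P.pr (fun ω => (W ω, U ω)) (s, u) / P.pr W s ≤ 1 / (2 * M) := by
      rw [div_le_div_iff₀ h3 (by positivity)]
      linarith only [hu]
    rw [abs_sub_comm]
    refine le_trans ?_ (le_abs_self _)
    have h5 : 1 / (2 * (M : ℝ)) = 1 / M - 1 / (2 * M) := by
      field_simp
      norm_num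
    linarith only [h4, h5]
  rw [Finset.sum_const, nsmul_eq_mul, mul_one_div, div_le_iff₀ (by positivity)] at h1
  linarith only [h1]

end aplaw

open Classical in
/-- lower bound for the total mass -/
theorem apw_mass_ge (p : ℕ) (hp : 1 ≤ p) : ∃ δ : ℝ, 0 < δ ∧ ∃ M0 : ℕ, ∀ M : ℕ, M0 ≤ M →
    ∀ (Ω : Type) [Fintype Ω] (S : Type) (P : Law Ω) (W : Ω → S) (U : Ω → ℤ),
    (∀ ω, 0 < P.w ω → 0 ≤ U ω ∧ U ω < M) → P.ex (fun ω => l1 P W U M (W ω)) ≤ δ →
    1 / (4 * p) / (M : ℝ) ^ (p - 1) ≤ ∑ w, apw P W U M p w := by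
  have hp0 : (0 : ℝ) < p := by exact_mod_cast hp
  refine ⟨1 / (16 * (p + 1)), by positivity, p, fun M hM Ω _ S P W U hU hl => ?_⟩
  have hM1 : 1 ≤ M := hp.trans hM
  have hM0 : (0 : ℝ) < M := by exact_mod_cast hM1
  rw [apw_mass hp hM1 hU]
  have h1 : P.ex (fun ω => (M : ℝ) ^ 2 / (2 * p) - (p + 1) * (2 * M * l1 P W U M (W ω)) *
      (2 * M / p)) ≤ P.ex (fun ω => (nap P W U M p (W ω) : ℝ)) := by
    refine P.ex_mono fun ω _ => ?_
    refine le_trans ?_ (nap_ge P W U M p hp hM (W ω))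
    have h2 := bd_le P W U M hM1 (W ω)
    have h3 : ((p : ℝ) + 1) * (bd P W U M (W ω)).card * (2 * M / p) ≤
        (p + 1) * (2 * M * l1 P W U M (W ω)) * (2 * M / p) := by
      refine mul_le_mul_of_nonneg_right ?_ (by positivity)
      exact mul_le_mul_of_nonneg_left h2 (by positivity)
    linarith only [h3]
  have h2 : P.ex (fun ω => (M : ℝ) ^ 2 / (2 * p) - (p + 1) * (2 * M * l1 P W U M (W ω)) *
      (2 * M / p)) = (M : ℝ) ^ 2 / (2 * p) - (4 * (p + 1) * M ^ 2 / p) *
        P.ex (fun ω => l1 P W U M (W ω)) := by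
    rw [← P.ex_const_mul, ← P.ex_const ((M : ℝ) ^ 2 / (2 * p)), ← P.ex_sub]
    refine P.ex_congr fun ω _ => ?_
    rw [P.ex_const]
    field_simp
    ring
  rw [h2] at h1
  have h3 : (4 * (p + 1) * (M : ℝ) ^ 2 / p) * P.ex (fun ω => l1 P W U M (W ω)) ≤
      (4 * (p + 1) * (M : ℝ) ^ 2 / p) * (1 / (16 * (p + 1))) :=
    mul_le_mul_of_nonneg_left hl (by positivity)
  have h4 : (4 * ((p : ℝ) + 1) * (M : ℝ) ^ 2 / p) * (1 / (16 * (p + 1))) = M ^ 2 / (4 * p) := by
    field_simp
    norm_num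
  have h5 : (M : ℝ) ^ 2 / (2 * p) - M ^ 2 / (4 * p) = M ^ 2 / (4 * p) := by
    field_simp
    norm_num
  have h6 : (M : ℝ) ^ 2 / (4 * p) ≤ P.ex (fun ω => (nap P W U M p (W ω) : ℝ)) := by linarith only [h1, h3, h4, h5]
  rw [div_le_div_iff₀ (pow_pos hM0 _) (pow_pos hM0 _)]
  have e3 : (M : ℝ) ^ (p + 1) = M ^ 2 * M ^ (p - 1) := by
    rw [← pow_add]
    congr 1
    omega
  rw [e3]
  have h7 : (0 : ℝ) < M ^ (p - 1) := pow_pos hM0 _
  have h8 : 1 / (4 * (p : ℝ)) * (M ^ 2 * M ^ (p - 1)) = M ^ 2 / (4 * p) * M ^ (p - 1) := by ring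
  rw [h8]
  exact mul_le_mul_of_nonneg_right h6 h7.le

end Vale.Agent.P127.Stk
end

section

/-!
# P127 / Stk : Lagrange interpolation at rounded nodes; product laws (tools for PROOF.md, section 7)
-/

namespace Vale.Agent.P127.Stk.Poly

open Finset Vale.Agent.P127

/-! ### Products of nearly equal factors -/

/-! ### Lagrange interpolation -/

/-! ### Product laws -/

variable {Λ : Type} [Fintype Λ]

/-- marginals of a product law -/
theorem sum_section {N : ℕ} (ν : Fin N → Λ → ℝ) (hν : ∀ u, ∑ v, ν u v = 1) {r : ℕ}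
    (e : Fin r → Fin N) (he : Function.Injective e) (F : (Fin r → Λ) → ℝ) :
    ∑ σ : Fin N → Λ, (∏ u, ν u (σ u)) * F (fun i => σ (e i)) =
      ∑ w : Fin r → Λ, (∏ i, ν (e i) (w i)) * F w := by
  classical
  rw [← sum_fiberwise (univ : Finset (Fin N → Λ)) (fun σ => fun i => σ (e i))]
  refine sum_congr rfl fun w _ => ?_
  have h1 : ∑ σ ∈ univ.filter (fun σ : Fin N → Λ => (fun i => σ (e i)) = w),
      (∏ u, ν u (σ u)) * F (fun i => σ (e i)) =
      (∑ σ ∈ univ.filter (fun σ : Fin N → Λ => (fun i => σ (e i)) = w), ∏ u, ν u (σ u)) * F w := by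
    rw [sum_mul]
    refine sum_congr rfl fun σ hσ => ?_
    rw [(mem_filter.mp hσ).2]
  rw [h1]
  congr 1
  set T : Fin N → Finset Λ := fun u => univ.filter fun v => ∀ i, e i = u → v = w i with hT
  have h2 : univ.filter (fun σ : Fin N → Λ => (fun i => σ (e i)) = w) = Fintype.piFinset T := by
    ext σ
    simp only [funext_iff, mem_filter, mem_univ, true_and, hT, Fintype.mem_piFinset]
    constructor
    · intro h u i hi
      rw [← hi]
      exact h i
    · intro h i
      exact h (e i) i rfl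
  rw [h2, ← prod_univ_sum]
  have h3 : ∏ i, ν (e i) (w i) = ∏ u ∈ univ.image e, ∑ v ∈ T u, ν u v := by
    rw [prod_image (fun a _ b _ h => he h)]
    refine prod_congr rfl fun i _ => ?_
    have : T (e i) = {w i} := by
      ext v
      simp only [hT, mem_filter, mem_univ, true_and, mem_singleton]
      constructor
      · intro h; exact h i rfl
      · rintro rfl j hj
        rw [he hj]
    rw [this, sum_singleton]
  rw [h3]
  symm
  apply prod_subset (subset_univ _)
  intro u _ hu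
  have : T u = univ := by
    ext v
    simp only [hT, mem_filter, mem_univ, true_and, iff_true]
    intro i hi
    exact absurd (mem_image.mpr ⟨i, mem_univ i, hi⟩) hu
  rw [this, hν]

theorem sum_section_one {N : ℕ} (ν : Fin N → Λ → ℝ) (hν : ∀ u, ∑ v, ν u v = 1) :
    ∑ σ : Fin N → Λ, (∏ u, ν u (σ u)) = 1 := by
  classical
  have h : ∑ σ : Fin N → Λ, (∏ u, ν u (σ u)) = ∏ u, ∑ v, ν u v := by
    rw [prod_univ_sum]
    simp only [Fintype.piFinset_univ]
  rw [h]
  simp only [hν, prod_const_one]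

end Vale.Agent.P127.Stk.Poly
end

section

/-!
# P127 / Stk : random functions, one key (PROOF.md, section 7)
-/

namespace Vale.Agent.P127.Stk

open Finset Polynomial Vale.Agent.P127

section kp

variable {Ω : Type} [Fintype Ω]

/-- conditional weights given the value of `U` -/
noncomputable def kpn (P : Law Ω) (U : Ω → ℤ) (u : ℤ) (ω : Ω) : ℝ :=
  if U ω = u then P.w ω / P.pr U u else 0

theorem kpn_nonneg (P : Law Ω) (U : Ω → ℤ) (u : ℤ) (ω : Ω) : 0 ≤ kpn P U u ω := by
  unfold kpn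
  split_ifs
  · exact div_nonneg (P.nn ω) (P.pr_nonneg U u)
  · exact le_rfl

theorem kp_pr_eq (P : Law Ω) (U : Ω → ℤ) (u : ℤ) :
    P.pr U u = ∑ ω, if U ω = u then P.w ω else 0 := by
  unfold Law.pr
  rw [sum_filter]
  refine sum_congr rfl fun ω _ => ?_
  by_cases h : U ω = u <;> simp [h]

theorem kpn_sum (P : Law Ω) (U : Ω → ℤ) (u : ℤ) (h : 0 < P.pr U u) : ∑ ω, kpn P U u ω = 1 := by
  have h1 : ∑ ω, kpn P U u ω = (∑ ω, if U ω = u then P.w ω else 0) / P.pr U u := by
    rw [sum_div]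
    refine sum_congr rfl fun ω _ => ?_
    unfold kpn
    split_ifs <;> simp
  rw [h1, ← kp_pr_eq, div_self h.ne']

theorem kp_cw (P : Law Ω) (p : ℕ) (w : Fin (p + 1) → Ω) :
    cw P (fun _ => ()) p w = ∏ i, P.w (w i) := by
  have h1 : P.pr (fun _ => ()) () = 1 := by
    unfold Law.pr
    simp only [filter_true, P.sum_one]
  unfold cw
  rw [if_pos (fun _ => rfl), h1, one_pow, div_one]

theorem kp_idn (P : Law Ω) (U : Ω → ℤ) (M : ℕ) (ω : Ω) :
    idn P (fun _ => ()) U M ω = if 1 ≤ 2 * M * P.pr U (U ω) then 1 / (M * P.pr U (U ω)) else 0 := by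
  have h1 : P.pr (fun _ => ()) () = 1 := by
    unfold Law.pr
    simp only [filter_true, P.sum_one]
  have h2 : P.pr (fun ω => ((), U ω)) ((), U ω) = P.pr U (U ω) := by
    unfold Law.pr
    exact sum_congr (by ext; simp only [Prod.mk.injEq, true_and, mem_filter, mem_univ]) fun _ _ => rfl
  unfold idn
  rw [h1, h2]

/-- marginal of a product weight -/
theorem kp_marg {r : ℕ} (ν : Fin r → Ω → ℝ) (hν : ∀ i, ∑ ω, ν i ω = 1) (j : Fin r) (G : Ω → ℝ) :
    ∑ w : Fin r → Ω, (∏ i, ν i (w i)) * G (w j) = ∑ ω, ν j ω * G ω := by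
  have h1 := Poly.sum_section (Λ := Ω) ν hν (r := 1) (fun _ => j)
    (fun a b _ => Subsingleton.elim a b) (fun w => G (w 0))
  rw [h1, ← (Equiv.funUnique (Fin 1) Ω).symm.sum_comp]
  refine sum_congr rfl fun v _ => ?_
  simp

open Classical in
/-- the probability that a sample of a progression is bad -/
noncomputable def kpb (P : Law Ω) (U : Ω → ℤ) (k : ℕ) (B : (Fin (k + 2) → Ω) → Prop)
    (z : ℤ × ℤ) : ℝ :=
  ∑ w : Fin (k + 2) → Ω,
    (∏ j : Fin (k + 2), kpn P U (z.1 + ((j : ℕ) : ℤ) * z.2) (w j)) * (if B w then 1 else 0)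

open Classical in
/-- comparison with the weights `apw` -/
theorem kpb_sum (P : Law Ω) (U : Ω → ℤ) (k M : ℕ) (hM : 0 < M) (B : (Fin (k + 2) → Ω) → Prop)
    (A : Finset (ℤ × ℤ))
    (hA : ∀ z ∈ A, ∀ j : Fin (k + 2), 1 ≤ 2 * M * P.pr U (z.1 + ((j : ℕ) : ℤ) * z.2)) :
    ∑ z ∈ A, kpb P U k B z ≤
      (M : ℝ) ^ (k + 2) * ∑ w with B w, apw P (fun _ => ()) U M (k + 1) w := by
  have hMr : (0 : ℝ) < M := by exact_mod_cast hM
  have hapw : ∀ w : Fin (k + 2) → Ω, 0 ≤ apw P (fun _ => ()) U M (k + 1) w := by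
    intro w
    unfold apw
    split_ifs
    · apply mul_nonneg
      · rw [kp_cw]
        exact prod_nonneg fun i _ => P.nn _
      · refine prod_nonneg fun j _ => ?_
        rw [kp_idn]
        split_ifs
        · exact div_nonneg zero_le_one (mul_nonneg hMr.le (P.pr_nonneg _ _))
        · exact le_rfl
    · exact le_rfl
  unfold kpb
  rw [sum_comm, mul_sum, sum_filter]
  refine sum_le_sum fun w _ => ?_
  split_ifs with hB
  · simp only [mul_one]
    by_cases hz : ∃ z0 ∈ A, ∀ j : Fin (k + 2), U (w j) = z0.1 + ((j : ℕ) : ℤ) * z0.2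
    · obtain ⟨z0, hz0, hU⟩ := hz
      have huniq : ∀ z ∈ A, z ≠ z0 → ∏ j : Fin (k + 2), kpn P U (z.1 + ((j : ℕ) : ℤ) * z.2) (w j) = 0 := by
        intro z _ hne
        by_contra hcon
        apply hne
        have hall : ∀ j : Fin (k + 2), U (w j) = z.1 + ((j : ℕ) : ℤ) * z.2 := by
          intro j
          by_contra hj
          apply hcon
          apply prod_eq_zero (mem_univ j)
          unfold kpn
          rw [if_neg hj]
        have h0 := hall 0
        have h0' := hU 0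
        have h1 := hall 1
        have h1' := hU 1
        simp only [Fin.coe_ofNat_eq_mod, Nat.zero_mod, CharP.cast_eq_zero, zero_mul, add_zero, Nat.one_mod, Nat.cast_one, one_mul] at h0 h0' h1 h1'
        have e1 : z.1 = z0.1 := by rw [← h0, ← h0']
        have e2 : z.2 = z0.2 := by
          rw [h1'] at h1
          rw [e1] at h1
          linarith only [h1]
        exact Prod.ext e1 e2
      rw [sum_eq_single z0 huniq (fun h => absurd hz0 h)]
      unfold apw
      rw [if_pos, kp_cw]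
      · have hgood := hA z0 hz0
        have h2 : ∀ j : Fin (k + 2), kpn P U (z0.1 + ((j : ℕ) : ℤ) * z0.2) (w j) =
            M * (P.w (w j) * idn P (fun _ => ()) U M (w j)) := by
          intro j
          rw [kp_idn]
          unfold kpn
          rw [if_pos (hU j), hU j, if_pos (hgood j)]
          have hp : 0 < P.pr U (z0.1 + ((j : ℕ) : ℤ) * z0.2) := by
            by_contra hc
            push Not at hc
            have := hgood j
            nlinarith only [this, hc]
          (clear * - hM hp; field_simp)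
        rw [prod_congr rfl fun j _ => h2 j, prod_mul_distrib, prod_mul_distrib]
        simp only [prod_const, card_univ, Fintype.card_fin, Std.le_refl]
      · refine ⟨z0.2, fun j => ?_⟩
        have h0 := hU 0
        have hj := hU j
        simp only [Fin.coe_ofNat_eq_mod, Nat.zero_mod, CharP.cast_eq_zero, zero_mul, add_zero] at h0
        rw [hj, h0]
    · push Not at hz
      have h0 : ∑ z ∈ A, ∏ j : Fin (k + 2), kpn P U (z.1 + ((j : ℕ) : ℤ) * z.2) (w j) = 0 := by
        refine sum_eq_zero fun z hzA => ?_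
        obtain ⟨j, hj⟩ := hz z hzA
        apply prod_eq_zero (mem_univ j)
        unfold kpn
        rw [if_neg hj]
      rw [h0]
      exact mul_nonneg (by positivity) (hapw w)
  · simp

open Classical in
/-- choice of a center -/
theorem kp_center (P : Law Ω) (U : Ω → ℤ) (k : ℕ) (f : Ω → ℝ) (E β : ℝ) (z : ℤ × ℤ)
    (hgood : ∀ j : Fin (k + 2), 0 < P.pr U (z.1 + ((j : ℕ) : ℤ) * z.2))
    (hb : kpb P U k (fun w => E < |∑ l : Fin (k + 2),
      (-1 : ℝ) ^ (l : ℕ) * ((k + 1).choose l : ℝ) * f (w l)|) z ≤ β) :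
    ∃ m : ℝ, ∑ ω, kpn P U z.1 ω * (if E < |f ω - m| then 1 else 0) ≤ β := by
  by_contra hcon
  push Not at hcon
  set ν : Fin (k + 1) → Ω → ℝ := fun j => kpn P U (z.1 + ((j.succ : ℕ) : ℤ) * z.2) with hν
  have hν1 : ∀ j, ∑ ω, ν j ω = 1 := fun j => kpn_sum P U _ (hgood j.succ)
  have htot : ∑ w : Fin (k + 1) → Ω, ∏ j, ν j (w j) = 1 := Poly.sum_section_one (Λ := Ω) ν hν1
  set c : (Fin (k + 1) → Ω) → ℝ := fun w =>
    -∑ l : Fin (k + 1), (-1 : ℝ) ^ (l.succ : ℕ) * ((k + 1).choose l.succ : ℝ) * f (w l) with hc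
  have h1 : kpb P U k (fun w => E < |∑ l : Fin (k + 2),
      (-1 : ℝ) ^ (l : ℕ) * ((k + 1).choose l : ℝ) * f (w l)|) z =
      ∑ w : Fin (k + 1) → Ω, (∏ j, ν j (w j)) *
        ∑ ω, kpn P U z.1 ω * (if E < |f ω - c w| then 1 else 0) := by
    unfold kpb
    rw [← (Fin.consEquiv (fun _ : Fin (k + 2) => Ω)).sum_comp, Fintype.sum_prod_type, sum_comm]
    refine sum_congr rfl fun w _ => ?_
    rw [mul_sum]
    refine sum_congr rfl fun ω _ => ?_
    have e1 : ∏ j : Fin (k + 2), kpn P U (z.1 + ((j : ℕ) : ℤ) * z.2)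
        ((Fin.consEquiv (fun _ : Fin (k + 2) => Ω)) (ω, w) j) =
        kpn P U z.1 ω * ∏ j, ν j (w j) := by
      rw [Fin.prod_univ_succ]
      simp only [Fin.coe_ofNat_eq_mod, Nat.zero_mod, CharP.cast_eq_zero, zero_mul, add_zero, Fin.consEquiv, Equiv.coe_fn_mk, Fin.cons_zero, Fin.val_succ, Nat.cast_add, Nat.cast_one, Fin.cons_succ, hν]
    have e2 : ∑ l : Fin (k + 2), (-1 : ℝ) ^ (l : ℕ) * ((k + 1).choose l : ℝ) *
        f ((Fin.consEquiv (fun _ : Fin (k + 2) => Ω)) (ω, w) l) = f ω - c w := by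
      rw [Fin.sum_univ_succ]
      simp only [Fin.coe_ofNat_eq_mod, Nat.zero_mod, pow_zero, Nat.choose_zero_right, Nat.cast_one, mul_one, Fin.consEquiv, Equiv.coe_fn_mk, Fin.cons_zero, one_mul, Fin.val_succ, Fin.cons_succ, hc, sub_neg_eq_add]
    rw [e1]
    simp only [e2]
    ring
  have h2 : β < kpb P U k (fun w => E < |∑ l : Fin (k + 2),
      (-1 : ℝ) ^ (l : ℕ) * ((k + 1).choose l : ℝ) * f (w l)|) z := by
    rw [h1]
    have h3 : ∃ w0 : Fin (k + 1) → Ω, 0 < ∏ j, ν j (w0 j) := by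
      by_contra hno
      push Not at hno
      have : ∑ w : Fin (k + 1) → Ω, ∏ j, ν j (w j) ≤ 0 := sum_nonpos fun w _ => hno w
      linarith only [htot, this]
    obtain ⟨w0, hw0⟩ := h3
    calc β = ∑ w : Fin (k + 1) → Ω, (∏ j, ν j (w j)) * β := by rw [← sum_mul, htot, one_mul]
      _ < _ := by
        apply sum_lt_sum
        · intro w _
          apply mul_le_mul_of_nonneg_left (hcon _).le
          exact prod_nonneg fun j _ => kpn_nonneg _ _ _ _
        · exact ⟨w0, mem_univ _, mul_lt_mul_of_pos_left (hcon _) hw0⟩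
  linarith only [hb, h2]

open Classical in
/-- a good sample along a progression -/
theorem kp_sample (P : Law Ω) (U : Ω → ℤ) (k : ℕ) (B : (Fin (k + 2) → Ω) → Prop)
    (S : Fin (k + 2) → Ω → Prop) (β : ℝ) (hβ : (k + 3) * β < 1) (z : ℤ × ℤ)
    (hgood : ∀ j : Fin (k + 2), 0 < P.pr U (z.1 + ((j : ℕ) : ℤ) * z.2))
    (hb : kpb P U k B z ≤ β)
    (hS : ∀ j : Fin (k + 2), ∑ ω, kpn P U (z.1 + ((j : ℕ) : ℤ) * z.2) ω * (if S j ω then 1 else 0) ≤ β) :
    ∃ w : Fin (k + 2) → Ω, ¬ B w ∧ ∀ j : Fin (k + 2), U (w j) = z.1 + ((j : ℕ) : ℤ) * z.2 ∧ ¬ S j (w j) := by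
  by_contra hcon
  push Not at hcon
  set ν : Fin (k + 2) → Ω → ℝ := fun j => kpn P U (z.1 + ((j : ℕ) : ℤ) * z.2) with hν
  have hν1 : ∀ j, ∑ ω, ν j ω = 1 := fun j => kpn_sum P U _ (hgood j)
  have htot : ∑ w : Fin (k + 2) → Ω, ∏ j, ν j (w j) = 1 := Poly.sum_section_one (Λ := Ω) ν hν1
  have hpt : ∀ w : Fin (k + 2) → Ω, ∏ j, ν j (w j) ≤
      (∏ j, ν j (w j)) * (if B w then 1 else 0) +
        ∑ j, (∏ i, ν i (w i)) * (if S j (w j) then 1 else 0) := by
    intro w
    have hnn : 0 ≤ ∏ j, ν j (w j) := prod_nonneg fun j _ => kpn_nonneg _ _ _ _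
    have hnn2 : ∀ j ∈ (univ : Finset (Fin (k + 2))),
        0 ≤ (∏ i, ν i (w i)) * (if S j (w j) then (1 : ℝ) else 0) := fun j _ =>
      mul_nonneg hnn (by split_ifs <;> norm_num)
    by_cases hB : B w
    · simp only [hB, if_true, mul_one]
      linarith only [sum_nonneg hnn2]
    · by_cases hU : ∀ j, U (w j) = z.1 + ((j : ℕ) : ℤ) * z.2
      · obtain ⟨j, hj⟩ : ∃ j, S j (w j) := by
          by_contra hno
          push Not at hno
          obtain ⟨j, hj⟩ := hcon w hB
          exact hno j (hj (hU j))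
        have := single_le_sum hnn2 (mem_univ j)
        simp only [hj, if_true, mul_one] at this
        simp only [hB, if_false, mul_zero, zero_add]
        exact this
      · push Not at hU
        obtain ⟨j, hj⟩ := hU
        have h0 : ∏ j, ν j (w j) = 0 := by
          apply prod_eq_zero (mem_univ j)
          simp only [hν, kpn]
          rw [if_neg hj]
        rw [h0]
        simp only [mul_ite, mul_one, mul_zero, ite_self, sum_const_zero, add_zero, Std.le_refl]
  have h1 : ∑ w : Fin (k + 2) → Ω, ∏ j, ν j (w j) ≤ β + (k + 2 : ℕ) * β := by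
    refine (sum_le_sum fun w _ => hpt w).trans ?_
    rw [sum_add_distrib]
    refine add_le_add hb ?_
    rw [sum_comm]
    calc ∑ j : Fin (k + 2), ∑ w : Fin (k + 2) → Ω,
          (∏ i, ν i (w i)) * (if S j (w j) then (1 : ℝ) else 0) ≤ ∑ _j : Fin (k + 2), β := by
          refine sum_le_sum fun j _ => ?_
          rw [kp_marg ν hν1 j (fun ω => if S j ω then (1 : ℝ) else 0)]
          exact hS j
      _ = (k + 2 : ℕ) * β := by simp only [sum_const, card_univ, Fintype.card_fin, nsmul_eq_mul, Nat.cast_add, Nat.cast_ofNat]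
  rw [htot] at h1
  push_cast at h1
  linarith only [hβ, h1]

end kp

/-! ### Counting progressions -/

theorem kp_aps_bounds (k M : ℕ) (z : ℤ × ℤ) (hz : z ∈ aps k M) (j : ℕ) (hj : j ≤ k + 1) :
    0 ≤ z.1 + (j : ℤ) * z.2 ∧ z.1 + (j : ℤ) * z.2 < M := by
  unfold aps at hz
  simp only [mem_filter, mem_product, mem_Ico, mem_Ioo] at hz
  obtain ⟨⟨⟨h1, h2⟩, _, _⟩, h3, h4⟩ := hz
  have hjz : (j : ℤ) ≤ ((k + 1 : ℕ) : ℤ) := by exact_mod_cast hj
  have hj0 : (0 : ℤ) ≤ j := by (clear * -; positivity)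
  rcases le_total 0 z.2 with h | h
  · have e1 : 0 ≤ (j : ℤ) * z.2 := mul_nonneg hj0 h
    have e2 : (j : ℤ) * z.2 ≤ ((k + 1 : ℕ) : ℤ) * z.2 := mul_le_mul_of_nonneg_right hjz h
    constructor <;> linarith only [h1, e1, h4, e2]
  · have e1 : (j : ℤ) * z.2 ≤ 0 := mul_nonpos_of_nonneg_of_nonpos hj0 h
    have e2 : ((k + 1 : ℕ) : ℤ) * z.2 ≤ (j : ℤ) * z.2 := mul_le_mul_of_nonpos_right hjz h
    constructor <;> linarith only [h2, e1, h3, e2]

open Classical in
/-- progressions with a vertex in a small set -/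
theorem kp_count_vertex (k M : ℕ) (S : Finset ℤ) :
    (((aps k M).filter fun z => ∃ j : Fin (k + 2), z.1 + ((j : ℕ) : ℤ) * z.2 ∈ S).card : ℝ) ≤
      (k + 2) * (2 * M * S.card) := by
  have h1 : ((aps k M).filter fun z => ∃ j : Fin (k + 2), z.1 + ((j : ℕ) : ℤ) * z.2 ∈ S) ⊆
      (univ : Finset (Fin (k + 2))).biUnion fun j =>
        (aps k M).filter fun z => z.1 + ((j : ℕ) : ℤ) * z.2 ∈ S := by
    intro z hz
    rw [mem_filter] at hz
    obtain ⟨hz1, j, hj⟩ := hz
    rw [mem_biUnion]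
    exact ⟨j, mem_univ j, mem_filter.mpr ⟨hz1, hj⟩⟩
  have h2 : ∀ j : Fin (k + 2), ((aps k M).filter fun z => z.1 + ((j : ℕ) : ℤ) * z.2 ∈ S).card ≤
      2 * M * S.card := by
    intro j
    have h3 : ((aps k M).filter fun z => z.1 + ((j : ℕ) : ℤ) * z.2 ∈ S).card ≤
        (S ×ˢ Ioo (-(M : ℤ)) M).card := by
      apply card_le_card_of_injOn (fun z => (z.1 + ((j : ℕ) : ℤ) * z.2, z.2))
      · intro z hz
        rw [coe_filter] at hz
        obtain ⟨hz1, hz2⟩ := hz
        unfold aps at hz1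
        simp only [mem_filter, mem_product] at hz1
        simp only [coe_product, Set.mem_prod, mem_coe]
        exact ⟨hz2, hz1.1.2⟩
      · intro a _ b _ hab
        simp only [Prod.mk.injEq] at hab
        obtain ⟨h4, h5⟩ := hab
        rw [h5] at h4
        exact Prod.ext (by linarith only [h4]) h5
    refine h3.trans ?_
    rw [card_product, mul_comm]
    apply Nat.mul_le_mul_right
    rw [Int.card_Ioo]
    omega
  have h3 : ((aps k M).filter fun z => ∃ j : Fin (k + 2), z.1 + ((j : ℕ) : ℤ) * z.2 ∈ S).card ≤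
      (k + 2) * (2 * M * S.card) := by
    refine (card_le_card h1).trans (card_biUnion_le.trans ?_)
    calc ∑ j : Fin (k + 2), ((aps k M).filter fun z => z.1 + ((j : ℕ) : ℤ) * z.2 ∈ S).card ≤
          ∑ _j : Fin (k + 2), 2 * M * S.card := sum_le_sum fun j _ => h2 j
      _ = (k + 2) * (2 * M * S.card) := by simp only [sum_const, card_univ, Fintype.card_fin, smul_eq_mul]
  exact_mod_cast h3

/-- many progressions start at every point -/
theorem kp_count_start (k M : ℕ) (x : ℤ) (hx : 0 ≤ x ∧ x < M) :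
    (M : ℝ) ≤ 2 * (k + 1) * (((aps k M).filter fun z => z.1 = x).card : ℝ) := by
  obtain ⟨hx0, hxM⟩ := hx
  obtain ⟨y, rfl⟩ := Int.eq_ofNat_of_zero_le hx0
  have hyM : y < M := by exact_mod_cast hxM
  by_cases hc : 2 * y < M
  · set q : ℕ := (M - 1 - y) / (k + 1) with hq
    have h1 : (Finset.range (q + 1)).card ≤ ((aps k M).filter fun z => z.1 = (y : ℤ)).card := by
      apply card_le_card_of_injOn (fun i : ℕ => ((y : ℤ), (i : ℤ)))
      · intro i hi
        rw [coe_range, Set.mem_Iio] at hi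
        have hi2 : i * (k + 1) ≤ M - 1 - y :=
          (Nat.mul_le_mul_right _ (Nat.lt_succ_iff.mp hi)).trans (Nat.div_mul_le_self _ _)
        have hi3 : i ≤ i * (k + 1) := Nat.le_mul_of_pos_right i (Nat.succ_pos k)
        rw [coe_filter]
        refine ⟨?_, rfl⟩
        unfold aps
        simp only [mem_filter, mem_product, mem_Ico, mem_Ioo]
        have e1 : ((k + 1 : ℕ) : ℤ) * (i : ℤ) = ((i * (k + 1) : ℕ) : ℤ) := by push_cast; ring
        rw [e1]
        (clear * - hx0 hxM hc hi2 hi3 e1; omega)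
      · intro a _ b _ hab
        simp only [Prod.mk.injEq] at hab
        exact_mod_cast hab.2
    rw [card_range] at h1
    have h2 : M - 1 - y < (k + 1) * (q + 1) := by
      have := Nat.lt_mul_div_succ (M - 1 - y) (Nat.succ_pos k)
      simpa only [gt_iff_lt, Nat.succ_eq_add_one] using this
    have h3 : M ≤ 2 * ((k + 1) * (q + 1)) := by omega
    have h4 : M ≤ 2 * ((k + 1) * ((aps k M).filter fun z => z.1 = (y : ℤ)).card) :=
      h3.trans (Nat.mul_le_mul_left _ (Nat.mul_le_mul_left _ h1))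
    have h5 : (M : ℝ) ≤ 2 * ((k + 1) * (((aps k M).filter fun z => z.1 = (y : ℤ)).card : ℝ)) := by
      exact_mod_cast h4
    linarith only [h5]
  · set q : ℕ := y / (k + 1) with hq
    have h1 : (Finset.range (q + 1)).card ≤ ((aps k M).filter fun z => z.1 = (y : ℤ)).card := by
      apply card_le_card_of_injOn (fun i : ℕ => ((y : ℤ), -(i : ℤ)))
      · intro i hi
        rw [coe_range, Set.mem_Iio] at hi
        have hi2 : i * (k + 1) ≤ y :=
          (Nat.mul_le_mul_right _ (Nat.lt_succ_iff.mp hi)).trans (Nat.div_mul_le_self _ _)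
        have hi3 : i ≤ i * (k + 1) := Nat.le_mul_of_pos_right i (Nat.succ_pos k)
        rw [coe_filter]
        refine ⟨?_, rfl⟩
        unfold aps
        simp only [mem_filter, mem_product, mem_Ico, mem_Ioo]
        have e1 : ((k + 1 : ℕ) : ℤ) * (-(i : ℤ)) = -((i * (k + 1) : ℕ) : ℤ) := by push_cast; ring
        rw [e1]
        omega
      · intro a _ b _ hab
        simp only [Prod.mk.injEq, neg_inj] at hab
        exact_mod_cast hab.2
    rw [card_range] at h1
    have h2 : y < (k + 1) * (q + 1) := by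
      have := Nat.lt_mul_div_succ y (Nat.succ_pos k)
      simpa using this
    have h3 : M ≤ 2 * ((k + 1) * (q + 1)) := by omega
    have h4 : M ≤ 2 * ((k + 1) * ((aps k M).filter fun z => z.1 = (y : ℤ)).card) :=
      h3.trans (Nat.mul_le_mul_left _ (Nat.mul_le_mul_left _ h1))
    have h5 : (M : ℝ) ≤ 2 * ((k + 1) * (((aps k M).filter fun z => z.1 = (y : ℤ)).card : ℝ)) := by
      exact_mod_cast h4
    linarith only [h5]

theorem kp_sum_pr_le {Ω : Type} [Fintype Ω] (P : Law Ω) (U : Ω → ℤ) (F : Finset ℤ) :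
    ∑ x ∈ F, P.pr U x ≤ 1 := by
  have h1 : ∑ x ∈ F, P.pr U x = ∑ ω, ∑ x ∈ F, (if U ω = x then P.w ω else 0) := by
    rw [sum_comm]
    exact sum_congr rfl fun x _ => kp_pr_eq P U x
  rw [h1, ← P.sum_one]
  refine sum_le_sum fun ω _ => ?_
  rw [sum_ite_eq]
  split_ifs
  · exact le_rfl
  · exact P.nn ω

open Classical in
/-- one key, random values: if the differences along the progression law are small, the values
are close to a polynomial (`M = 2^n`) -/
theorem key_poly (k : ℕ) (η : ℝ) (hη : 0 < η) : ∃ δ : ℝ, 0 < δ ∧ ∃ C : ℝ, 0 < C ∧ ∃ M0 : ℕ,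
    ∀ n : ℕ, M0 ≤ 2 ^ n → ∀ (Ω : Type) [Fintype Ω] (P : Law Ω) (U : Ω → ℤ) (f : Ω → ℝ) (E : ℝ),
    0 < E → (∀ ω, 0 < P.w ω → 0 ≤ U ω ∧ U ω < 2 ^ n) →
    ∑ u ∈ Ico (0 : ℤ) (2 ^ n), |P.pr U u - 1 / 2 ^ n| ≤ δ →
    ∑ w with E < |∑ l : Fin (k + 2), (-1 : ℝ) ^ (l : ℕ) * ((k + 1).choose l : ℝ) * f (w l)|,
      apw P (fun _ => ()) U (2 ^ n) (k + 1) w ≤ δ / (2 ^ n) ^ k →
    ∃ q : ℝ[X], q.natDegree ≤ k ∧
      ∑ ω with C * (n + 1) * E < |f ω - q.eval (U ω : ℝ)|, P.w ω ≤ η := by
  have hk0 : (0 : ℝ) ≤ k := Nat.cast_nonneg k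
  set β : ℝ := min (1 / (2 * (k + 3))) (η / 8) with hβdef
  have hβ : 0 < β := lt_min (by (clear * -; positivity)) (by positivity)
  have hβ1 : (k + 3) * β < 1 := by
    have h1 : β ≤ 1 / (2 * (k + 3)) := min_le_left _ _
    have h2 : ((k : ℝ) + 3) * β ≤ (k + 3) * (1 / (2 * (k + 3))) :=
      mul_le_mul_of_nonneg_left h1 (by (clear * -; positivity))
    have h3 : ((k : ℝ) + 3) * (1 / (2 * (k + 3))) = 1 / 2 := by
      field_simp
    (clear * - h2 h3; linarith)
  have hβ2 : β ≤ η / 8 := min_le_right _ _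
  obtain ⟨δ', hδ', C, hC, M0, hdet⟩ := det_poly k (η / 8) (by positivity)
  set A : ℝ := 4 * (k + 2) + 1 / β with hA
  have hA0 : 0 < A := by (clear * - hη; positivity)
  set D : ℝ := 1 + 4 * (k + 1) * (k + 2) with hD
  have hD0 : 0 < D := by (clear * -; positivity)
  set δ : ℝ := min (δ' / (D * A)) (min (η / 8) (η / (16 * (k + 1) * A))) with hδdef
  have hδ : 0 < δ := lt_min (by (clear * - hδ' hη; positivity)) (lt_min (by positivity) (by (clear * - hη; positivity)))
  have hδ1 : D * (A * δ) ≤ δ' := by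
    have h1 : δ ≤ δ' / (D * A) := min_le_left _ _
    rw [le_div_iff₀ (by (clear * - hη; positivity))] at h1
    linarith only [h1]
  have hδ2 : δ ≤ η / 8 := (min_le_right _ _).trans (min_le_left _ _)
  have hδ3 : 2 * (k + 1) * (A * δ) ≤ η / 8 := by
    have h1 : δ ≤ η / (16 * (k + 1) * A) := (min_le_right _ _).trans (min_le_right _ _)
    rw [le_div_iff₀ (by (clear * - hη; positivity))] at h1
    linarith only [h1]
  refine ⟨δ, hδ, C * (1 + 2 ^ (k + 1)) + 1, by (clear * - hC; positivity), M0, ?_⟩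
  intro n hn Ω _ P U f E hE hU hl1 hbad
  set M : ℕ := 2 ^ n with hM
  have hM0 : 0 < M := by positivity
  have hMr : (0 : ℝ) < M := by exact_mod_cast hM0
  have hMz : ((2 : ℤ) ^ n) = (M : ℤ) := by rw [hM]; push_cast; rfl
  have hMr2 : ((2 : ℝ) ^ n) = (M : ℝ) := by rw [hM]; push_cast; rfl
  rw [hMz] at hl1
  rw [hMr2] at hl1 hbad
  simp only [hMz] at hU
  set good : ℤ → Prop := fun u => 1 ≤ 2 * M * P.pr U u with hgood
  have hgoodpos : ∀ u, good u → 0 < P.pr U u := by
    intro u hu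
    by_contra hc
    push Not at hc
    simp only [hgood] at hu
    nlinarith only [hu, hc]
  -- the points with small probability
  set Sb : Finset ℤ := (Ico (0 : ℤ) M).filter fun u => ¬ good u with hSb
  have hSbcard : (Sb.card : ℝ) ≤ 2 * M * δ := by
    have h1 : ∑ u ∈ Sb, (1 / (2 * M) : ℝ) ≤ ∑ u ∈ Sb, |P.pr U u - 1 / M| := by
      refine sum_le_sum fun u hu => ?_
      rw [hSb, mem_filter] at hu
      have h2 := hu.2
      simp only [hgood] at h2
      push Not at h2
      have h3 : P.pr U u ≤ 1 / (2 * M) := by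
        rw [le_div_iff₀ (by positivity)]
        linarith only [hu]
      have h4 : (1 : ℝ) / M = 2 * (1 / (2 * M)) := by (clear * - hM0; field_simp)
      rw [abs_sub_comm]
      refine le_trans ?_ (le_abs_self _)
      linarith only [h3, h4]
    have h2 : ∑ u ∈ Sb, |P.pr U u - 1 / M| ≤ δ :=
      (sum_le_sum_of_subset_of_nonneg (filter_subset _ _) fun _ _ _ => abs_nonneg _).trans hl1
    rw [sum_const, nsmul_eq_mul] at h1
    have h3 : (Sb.card : ℝ) * (1 / (2 * M)) ≤ δ := h1.trans h2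
    rw [mul_one_div, div_le_iff₀ (by positivity)] at h3
    linarith only [h3]
  set B : (Fin (k + 2) → Ω) → Prop := fun w =>
    E < |∑ l : Fin (k + 2), (-1 : ℝ) ^ (l : ℕ) * ((k + 1).choose l : ℝ) * f (w l)| with hB
  set Zg : Finset (ℤ × ℤ) := (aps k M).filter fun z =>
    ∀ j : Fin (k + 2), good (z.1 + ((j : ℕ) : ℤ) * z.2) with hZg
  have hkpb0 : ∀ z, 0 ≤ kpb P U k B z := by
    intro z
    unfold kpb
    refine sum_nonneg fun w _ => mul_nonneg (prod_nonneg fun j _ => kpn_nonneg _ _ _ _) ?_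
    split_ifs <;> norm_num
  have hsumb : ∑ z ∈ Zg, kpb P U k B z ≤ δ * (M : ℝ) ^ 2 := by
    have h1 := kpb_sum P U k M hM0 B Zg (fun z hz j => (mem_filter.mp hz).2 j)
    refine h1.trans ?_
    have h2 : (M : ℝ) ^ (k + 2) * ∑ w with B w, apw P (fun _ => ()) U M (k + 1) w ≤
        (M : ℝ) ^ (k + 2) * (δ / (M : ℝ) ^ k) := mul_le_mul_of_nonneg_left hbad (by positivity)
    refine h2.trans (le_of_eq ?_)
    rw [pow_add]
    (clear * - hM0 hδ; field_simp)
  -- bad progressions
  set Zbad : Finset (ℤ × ℤ) := (aps k M).filter fun z =>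
    ¬ ((∀ j : Fin (k + 2), good (z.1 + ((j : ℕ) : ℤ) * z.2)) ∧ kpb P U k B z ≤ β) with hZbad
  have hZbadcard : (Zbad.card : ℝ) ≤ A * δ * (M : ℝ) ^ 2 := by
    set Z1 := (aps k M).filter fun z => ∃ j : Fin (k + 2), z.1 + ((j : ℕ) : ℤ) * z.2 ∈ Sb with hZ1
    set Z2 := Zg.filter fun z => β < kpb P U k B z with hZ2
    have hsub : Zbad ⊆ Z1 ∪ Z2 := by
      intro z hz
      rw [hZbad, mem_filter] at hz
      obtain ⟨hz1, hz2⟩ := hz
      rw [mem_union]
      by_cases hg : ∀ j : Fin (k + 2), good (z.1 + ((j : ℕ) : ℤ) * z.2)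
      · right
        rw [hZ2, mem_filter, hZg, mem_filter]
        refine ⟨⟨hz1, hg⟩, ?_⟩
        by_contra hc
        exact hz2 ⟨hg, not_lt.mp hc⟩
      · left
        push Not at hg
        obtain ⟨j, hj⟩ := hg
        rw [hZ1, mem_filter]
        refine ⟨hz1, j, ?_⟩
        rw [hSb, mem_filter, mem_Ico]
        exact ⟨kp_aps_bounds k M z hz1 j (by (clear * -; omega)), hj⟩
    have h1 : (Z1.card : ℝ) ≤ (k + 2) * (2 * M * Sb.card) := kp_count_vertex k M Sb
    have h2 : (Z2.card : ℝ) * β ≤ δ * (M : ℝ) ^ 2 := by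
      calc (Z2.card : ℝ) * β = ∑ _z ∈ Z2, β := by rw [sum_const, nsmul_eq_mul]
        _ ≤ ∑ z ∈ Z2, kpb P U k B z := sum_le_sum fun z hz => (mem_filter.mp hz).2.le
        _ ≤ ∑ z ∈ Zg, kpb P U k B z :=
            sum_le_sum_of_subset_of_nonneg (filter_subset _ _) fun z _ _ => hkpb0 z
        _ ≤ δ * (M : ℝ) ^ 2 := hsumb
    have h3 : (Z2.card : ℝ) ≤ 1 / β * δ * (M : ℝ) ^ 2 := by
      rw [← le_div_iff₀ hβ] at h2
      refine h2.trans (le_of_eq ?_)
      ring
    have h4 : (Zbad.card : ℝ) ≤ Z1.card + Z2.card := by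
      exact_mod_cast (card_le_card hsub).trans (card_union_le _ _)
    have h5 : (k + 2 : ℝ) * (2 * M * Sb.card) ≤ (k + 2) * (2 * M * (2 * M * δ)) := by
      apply mul_le_mul_of_nonneg_left _ (by (clear * -; positivity))
      exact mul_le_mul_of_nonneg_left hSbcard (by positivity)
    have h6 : (k + 2 : ℝ) * (2 * M * (2 * M * δ)) = 4 * (k + 2) * δ * (M : ℝ) ^ 2 := by ring
    rw [hA]
    have h7 : (4 * (k + 2) + 1 / β) * δ * (M : ℝ) ^ 2 =
        4 * (k + 2) * δ * (M : ℝ) ^ 2 + 1 / β * δ * (M : ℝ) ^ 2 := by ring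
    rw [h7]
    linarith only [h1, h3, h4, h5]
  -- bad starting points
  set Xb : Finset ℤ := (Ico (0 : ℤ) M).filter fun x => ∀ z ∈ aps k M, z.1 = x → z ∈ Zbad with hXb
  have hXbcard : (Xb.card : ℝ) * M ≤ 2 * (k + 1) * Zbad.card := by
    have h1 : (Xb.card : ℝ) * M ≤
        ∑ x ∈ Xb, 2 * (k + 1) * (((aps k M).filter fun z => z.1 = x).card : ℝ) := by
      calc (Xb.card : ℝ) * M = ∑ _x ∈ Xb, (M : ℝ) := by rw [sum_const, nsmul_eq_mul]
        _ ≤ _ := sum_le_sum fun x hx => by
          rw [hXb, mem_filter, mem_Ico] at hx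
          exact kp_count_start k M x hx.1
    have h2 : ∑ x ∈ Xb, ((aps k M).filter fun z => z.1 = x).card ≤ Zbad.card := by
      have h3 : ∑ x ∈ Xb, ((aps k M).filter fun z => z.1 = x).card =
          ∑ x ∈ Xb, (Zbad.filter fun z => z.1 = x).card := by
        refine sum_congr rfl fun x hx => ?_
        congr 1
        ext z
        simp only [mem_filter]
        constructor
        · rintro ⟨h4, h5⟩
          exact ⟨(mem_filter.mp hx).2 z h4 h5, h5⟩
        · rintro ⟨h4, h5⟩
          exact ⟨(mem_filter.mp h4).1, h5⟩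
      rw [h3]
      have h4 := card_eq_sum_card_fiberwise (s := Zbad.filter fun z => z.1 ∈ Xb) (t := Xb)
        (f := fun z : ℤ × ℤ => z.1) (fun z hz => by
          rw [mem_coe, mem_filter] at hz
          exact hz.2)
      have h5 : ∑ x ∈ Xb, (Zbad.filter fun z => z.1 = x).card =
          (Zbad.filter fun z => z.1 ∈ Xb).card := by
        rw [h4]
        refine sum_congr rfl fun x hx => ?_
        congr 1
        ext z
        simp only [mem_filter]
        constructor
        · rintro ⟨h6, h7⟩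
          exact ⟨⟨h6, h7 ▸ hx⟩, h7⟩
        · rintro ⟨⟨h6, _⟩, h7⟩
          exact ⟨h6, h7⟩
      rw [h5]
      exact card_filter_le _ _
    refine h1.trans ?_
    rw [← mul_sum]
    apply mul_le_mul_of_nonneg_left _ (by (clear * -; positivity))
    exact_mod_cast h2
  -- centers
  have hcenter : ∀ x : ℤ, ∃ m : ℝ, x ∈ Ico (0 : ℤ) M → x ∉ Xb → good x ∧
      ∑ ω, kpn P U x ω * (if E < |f ω - m| then 1 else 0) ≤ β := by
    intro x
    by_cases hx : x ∈ Ico (0 : ℤ) M ∧ x ∉ Xb
    · obtain ⟨hx1, hx2⟩ := hx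
      have h1 : ∃ z ∈ aps k M, z.1 = x ∧ z ∉ Zbad := by
        by_contra hno
        push Not at hno
        apply hx2
        rw [hXb, mem_filter]
        exact ⟨hx1, hno⟩
      obtain ⟨z, hz1, hz2, hz3⟩ := h1
      have h2 : (∀ j : Fin (k + 2), good (z.1 + ((j : ℕ) : ℤ) * z.2)) ∧ kpb P U k B z ≤ β := by
        by_contra hc
        exact hz3 (mem_filter.mpr ⟨hz1, hc⟩)
      obtain ⟨m, hm⟩ := kp_center P U k f E β z (fun j => hgoodpos _ (h2.1 j)) h2.2
      refine ⟨m, fun _ _ => ⟨?_, ?_⟩⟩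
      · have := h2.1 0
        simpa [hz2] using this
      · rw [hz2] at hm
        exact hm
    · exact ⟨0, fun h1 h2 => absurd ⟨h1, h2⟩ hx⟩
  choose m hm using hcenter
  -- the differences of the centers
  have hsub2 : ((aps k M).filter fun z => (1 + 2 ^ (k + 1)) * E < |apd k m z.1 z.2|) ⊆
      Zbad ∪ (aps k M).filter fun z => ∃ j : Fin (k + 2), z.1 + ((j : ℕ) : ℤ) * z.2 ∈ Xb := by
    intro z hz
    rw [mem_filter] at hz
    obtain ⟨hz1, hz2⟩ := hz
    rw [mem_union]
    by_contra hcon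
    push Not at hcon
    obtain ⟨hc1, hc2⟩ := hcon
    have h2 : (∀ j : Fin (k + 2), good (z.1 + ((j : ℕ) : ℤ) * z.2)) ∧ kpb P U k B z ≤ β := by
      by_contra hc
      exact hc1 (mem_filter.mpr ⟨hz1, hc⟩)
    have h3 : ∀ j : Fin (k + 2), z.1 + ((j : ℕ) : ℤ) * z.2 ∉ Xb := by
      intro j hj
      exact hc2 (mem_filter.mpr ⟨hz1, j, hj⟩)
    obtain ⟨w, hw1, hw2⟩ := kp_sample P U k B
      (fun j ω => E < |f ω - m (z.1 + ((j : ℕ) : ℤ) * z.2)|) β hβ1 z
      (fun j => hgoodpos _ (h2.1 j)) h2.2 (fun j =>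
        (hm (z.1 + ((j : ℕ) : ℤ) * z.2) (by
          rw [mem_Ico]
          exact kp_aps_bounds k M z hz1 j (by omega)) (h3 j)).2)
    simp only [hB, not_lt] at hw1
    have h4 : apd k m z.1 z.2 = ∑ l : Fin (k + 2), (-1 : ℝ) ^ (l : ℕ) * ((k + 1).choose l : ℝ) *
        m (z.1 + ((l : ℕ) : ℤ) * z.2) := by
      unfold apd
      rw [sum_range]
    have h5 : apd k m z.1 z.2 = (∑ l : Fin (k + 2), (-1 : ℝ) ^ (l : ℕ) *
        ((k + 1).choose l : ℝ) * f (w l)) - ∑ l : Fin (k + 2), (-1 : ℝ) ^ (l : ℕ) *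
        ((k + 1).choose l : ℝ) * (f (w l) - m (z.1 + ((l : ℕ) : ℤ) * z.2)) := by
      rw [h4, ← sum_sub_distrib]
      exact sum_congr rfl fun l _ => by ring
    have h6 : |∑ l : Fin (k + 2), (-1 : ℝ) ^ (l : ℕ) *
        ((k + 1).choose l : ℝ) * (f (w l) - m (z.1 + ((l : ℕ) : ℤ) * z.2))| ≤ 2 ^ (k + 1) * E := by
      refine (abs_sum_le_sum_abs _ _).trans ?_
      have h7 : ∀ l : Fin (k + 2), |(-1 : ℝ) ^ (l : ℕ) *
          ((k + 1).choose l : ℝ) * (f (w l) - m (z.1 + ((l : ℕ) : ℤ) * z.2))| ≤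
          ((k + 1).choose l : ℝ) * E := by
        intro l
        rw [abs_mul, abs_mul, abs_pow, abs_neg, abs_one, one_pow, one_mul, Nat.abs_cast]
        exact mul_le_mul_of_nonneg_left (not_lt.mp (hw2 l).2) (Nat.cast_nonneg _)
      refine (sum_le_sum fun l _ => h7 l).trans (le_of_eq ?_)
      rw [← sum_mul]
      congr 1
      have h8 := Nat.sum_range_choose (k + 1)
      rw [sum_range] at h8
      exact_mod_cast h8
    have h7 : |apd k m z.1 z.2| ≤ (1 + 2 ^ (k + 1)) * E := by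
      rw [h5]
      refine (abs_sub _ _).trans ?_
      linarith only [hw1, h6]
    linarith only [hz2, h7]
  have hcount : (((aps k M).filter fun z =>
      (1 + 2 ^ (k + 1)) * E < |apd k m z.1 z.2|).card : ℝ) ≤ δ' * (M : ℝ) ^ 2 := by
    have h1 : (((aps k M).filter fun z =>
        (1 + 2 ^ (k + 1)) * E < |apd k m z.1 z.2|).card : ℝ) ≤ Zbad.card +
        (((aps k M).filter fun z => ∃ j : Fin (k + 2), z.1 + ((j : ℕ) : ℤ) * z.2 ∈ Xb).card : ℝ) := by
      exact_mod_cast (card_le_card hsub2).trans (card_union_le _ _)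
    have h2 := kp_count_vertex k M Xb
    have h3 : (k + 2 : ℝ) * (2 * M * Xb.card) ≤ 4 * (k + 1) * (k + 2) * Zbad.card := by
      have e1 : (k + 2 : ℝ) * (2 * M * Xb.card) = 2 * (k + 2) * (Xb.card * M) := by ring
      rw [e1]
      calc 2 * (k + 2 : ℝ) * (Xb.card * M) ≤ 2 * (k + 2 : ℝ) * (2 * (k + 1) * Zbad.card) :=
            mul_le_mul_of_nonneg_left hXbcard (by (clear * -; positivity))
        _ = _ := by ring
    have h4 : (Zbad.card : ℝ) + 4 * (k + 1) * (k + 2) * Zbad.card ≤ δ' * (M : ℝ) ^ 2 := by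
      calc (Zbad.card : ℝ) + 4 * (k + 1) * (k + 2) * Zbad.card = D * Zbad.card := by
            rw [hD]; ring
        _ ≤ D * (A * δ * (M : ℝ) ^ 2) := mul_le_mul_of_nonneg_left hZbadcard hD0.le
        _ = D * (A * δ) * (M : ℝ) ^ 2 := by ring
        _ ≤ δ' * (M : ℝ) ^ 2 := mul_le_mul_of_nonneg_right hδ1 (by positivity)
    linarith only [h1, h2, h3, h4]
  obtain ⟨q, hq1, hq2⟩ := hdet n hn m ((1 + 2 ^ (k + 1)) * E) (by (clear * - hE; positivity)) (by
    rw [← hM, hMr2]
    exact hcount)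
  rw [hMz, hMr2] at hq2
  refine ⟨q, hq1, ?_⟩
  set Exc : Finset ℤ := (Ico (0 : ℤ) M).filter fun x =>
    C * (n + 1) * ((1 + 2 ^ (k + 1)) * E) < |m x - q.eval (x : ℝ)| with hExc
  set bad : Ω → Prop := fun ω =>
    (C * (1 + 2 ^ (k + 1)) + 1) * (n + 1) * E < |f ω - q.eval (U ω : ℝ)| with hbaddef
  set g : ℤ → ℝ := fun x => ∑ ω, (if U ω = x then (if bad ω then P.w ω else 0) else 0) with hg
  have hgpr : ∀ x, g x ≤ P.pr U x := by
    intro x
    rw [kp_pr_eq]
    refine sum_le_sum fun ω _ => ?_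
    split_ifs
    · exact le_rfl
    · exact P.nn ω
    · exact le_rfl
  have hgood2 : ∀ x ∈ Ico (0 : ℤ) M, x ∉ Xb → x ∉ Exc → g x ≤ P.pr U x * β := by
    intro x hx hx1 hx2
    obtain ⟨hgx, hmx⟩ := hm x hx hx1
    have hpx := hgoodpos x hgx
    have h1 : |m x - q.eval (x : ℝ)| ≤ C * (n + 1) * ((1 + 2 ^ (k + 1)) * E) := by
      by_contra hc
      exact hx2 (mem_filter.mpr ⟨hx, not_le.mp hc⟩)
    calc g x ≤ ∑ ω, P.pr U x * (kpn P U x ω * (if E < |f ω - m x| then 1 else 0)) := by
          refine sum_le_sum fun ω _ => ?_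
          unfold kpn
          by_cases hUx : U ω = x
          · rw [if_pos hUx, if_pos hUx]
            by_cases hb : bad ω
            · rw [if_pos hb]
              have h2 : E < |f ω - m x| := by
                by_contra hc
                push Not at hc
                simp only [hbaddef, hUx] at hb
                have h3 : |f ω - q.eval (x : ℝ)| ≤ |f ω - m x| + |m x - q.eval (x : ℝ)| :=
                  abs_sub_le _ _ _
                have hn0 : (0 : ℝ) ≤ n := Nat.cast_nonneg n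
                have h4 : (C * (1 + 2 ^ (k + 1)) + 1) * (n + 1) * E =
                    C * (n + 1) * ((1 + 2 ^ (k + 1)) * E) + E + n * E := by ring
                rw [h4] at hb
                have h5 : 0 ≤ (n : ℝ) * E := mul_nonneg hn0 hE.le
                linarith only [h1, hc, hb, h3, h5]
              rw [if_pos h2, mul_one, mul_div_cancel₀ _ hpx.ne']
            · rw [if_neg hb]
              apply mul_nonneg hpx.le
              apply mul_nonneg (div_nonneg (P.nn ω) hpx.le)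
              split_ifs <;> norm_num
          · rw [if_neg hUx, if_neg hUx]
            simp
      _ = P.pr U x * ∑ ω, kpn P U x ω * (if E < |f ω - m x| then 1 else 0) := by rw [mul_sum]
      _ ≤ P.pr U x * β := mul_le_mul_of_nonneg_left hmx hpx.le
  have htot : ∑ ω with bad ω, P.w ω = ∑ x ∈ Ico (0 : ℤ) M, g x := by
    simp only [hg]
    rw [sum_comm, sum_filter]
    refine sum_congr rfl fun ω _ => ?_
    rw [sum_ite_eq]
    rcases (P.nn ω).eq_or_lt with h0 | h0
    · simp [← h0]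
    · have hmem : U ω ∈ Ico (0 : ℤ) M := mem_Ico.mpr (hU ω h0)
      rw [if_pos hmem]
  rw [htot]
  have h1 : ∑ x ∈ Ico (0 : ℤ) M, g x ≤
      ∑ x ∈ Ico (0 : ℤ) M, ((if x ∈ Xb ∪ Exc then P.pr U x else 0) + P.pr U x * β) := by
    refine sum_le_sum fun x hx => ?_
    by_cases h : x ∈ Xb ∪ Exc
    · rw [if_pos h]
      have := hgpr x
      have h2 : 0 ≤ P.pr U x * β := mul_nonneg (P.pr_nonneg _ _) hβ.le
      linarith only [this, h2]
    · rw [if_neg h, zero_add]
      rw [mem_union, not_or] at h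
      exact hgood2 x hx h.1 h.2
  have h2 : ∑ x ∈ Ico (0 : ℤ) M, (if x ∈ Xb ∪ Exc then P.pr U x else 0) ≤
      δ + ((Xb.card : ℝ) + Exc.card) / M := by
    have h3 : ∑ x ∈ Ico (0 : ℤ) M, (if x ∈ Xb ∪ Exc then P.pr U x else 0) ≤
        ∑ x ∈ Ico (0 : ℤ) M, (|P.pr U x - 1 / M| + (if x ∈ Xb ∪ Exc then (1 : ℝ) / M else 0)) := by
      refine sum_le_sum fun x _ => ?_
      split_ifs
      · linarith only [le_abs_self (P.pr U x - 1 / M)]
      · simp only [one_div, add_zero, abs_nonneg]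
    refine h3.trans ?_
    rw [sum_add_distrib]
    refine add_le_add hl1 ?_
    rw [← sum_filter, sum_const, nsmul_eq_mul, mul_one_div]
    apply div_le_div_of_nonneg_right _ hMr.le
    have h4 : ((Ico (0 : ℤ) M).filter fun x => x ∈ Xb ∪ Exc).card ≤ Xb.card + Exc.card := by
      refine (card_le_card ?_).trans (card_union_le Xb Exc)
      intro x hx
      exact (mem_filter.mp hx).2
    exact_mod_cast h4
  have h3 : ∑ x ∈ Ico (0 : ℤ) M, P.pr U x * β ≤ β := by
    rw [← sum_mul]
    have := kp_sum_pr_le P U (Ico (0 : ℤ) M)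
    nlinarith only [hβ, this]
  have h4 : (Xb.card : ℝ) / M ≤ η / 8 := by
    rw [div_le_iff₀ hMr]
    have h5 : (Xb.card : ℝ) * M ≤ 2 * (k + 1) * (A * δ * (M : ℝ) ^ 2) :=
      hXbcard.trans (mul_le_mul_of_nonneg_left hZbadcard (by (clear * -; positivity)))
    have h6 : 2 * (k + 1) * (A * δ * (M : ℝ) ^ 2) = 2 * (k + 1) * (A * δ) * M * M := by ring
    rw [h6] at h5
    have h7 := le_of_mul_le_mul_right h5 hMr
    calc (Xb.card : ℝ) ≤ 2 * (k + 1) * (A * δ) * M := h7
      _ ≤ η / 8 * M := mul_le_mul_of_nonneg_right hδ3 hMr.le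
  have h5 : (Exc.card : ℝ) / M ≤ η / 8 := by
    rw [div_le_iff₀ hMr]
    exact hq2
  rw [sum_add_distrib] at h1
  rw [add_div] at h2
  linarith only [hβ, hβ2, hδ2, h1, h2, h3, h4, h5]

end Vale.Agent.P127.Stk
end

section

/-!
# P127 / Stk : interpolation through random nodes, one key (PROOF.md, 7.3)
-/

namespace Vale.Agent.P127.Stk

open Finset Polynomial Vale.Agent.P127

/-- the Lagrange expansion -/
theorem tup_lag_exp (D : ℕ) (P : ℝ[X]) (hP : P.natDegree ≤ D) (z : Fin (D + 1) → ℝ)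
    (hinj : ∀ i j, i ≠ j → z i ≠ z j) (x : ℝ) :
    P.eval x = ∑ i, (∏ j ∈ (Finset.univ : Finset (Fin (D + 1))).erase i,
      (x - z j) / (z i - z j)) * P.eval (z i) := by
  classical
  have hinj' : Set.InjOn z (Finset.univ : Finset (Fin (D + 1))) := by
    intro i _ j _ hij
    by_contra hne
    exact hinj i j hne hij
  have hdeg : P.degree < (Finset.univ : Finset (Fin (D + 1))).card := by
    rw [Finset.card_univ, Fintype.card_fin]
    refine lt_of_le_of_lt degree_le_natDegree ?_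
    exact_mod_cast Nat.lt_succ_of_le hP
  have h := Lagrange.eq_interpolate hinj' hdeg
  have h2 : P.eval x = (Lagrange.interpolate (Finset.univ : Finset (Fin (D + 1))) z
      fun i => P.eval (z i)).eval x := congrArg (Polynomial.eval x) h
  rw [h2, Lagrange.interpolate_apply, eval_finsetSum]
  refine Finset.sum_congr rfl fun i _ => ?_
  rw [eval_mul, eval_C, mul_comm, Lagrange.basis, eval_prod]
  congr 1
  refine Finset.prod_congr rfl fun j _ => ?_
  simp only [Lagrange.basisDivisor, eval_mul, eval_C, eval_sub, eval_X, div_eq_inv_mul]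

/-- difference of products -/
theorem tup_prod_diff {ι : Type*} (S : Finset ι) (a b : ι → ℝ) {K δ : ℝ} (hK : 0 ≤ K)
    (hδ : 0 ≤ δ) (ha : ∀ j ∈ S, |a j| ≤ K) (hb : ∀ j ∈ S, |b j| ≤ K)
    (hd : ∀ j ∈ S, |a j - b j| ≤ K * δ) :
    |∏ j ∈ S, a j| ≤ K ^ S.card ∧ |∏ j ∈ S, b j| ≤ K ^ S.card ∧
      |∏ j ∈ S, a j - ∏ j ∈ S, b j| ≤ S.card * K ^ S.card * δ := by
  classical
  induction S using Finset.induction_on with
  | empty => simp
  | insert i S hi ih =>
    obtain ⟨h1, h2, h3⟩ := ih (fun j hj => ha j (Finset.mem_insert_of_mem hj))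
      (fun j hj => hb j (Finset.mem_insert_of_mem hj))
      (fun j hj => hd j (Finset.mem_insert_of_mem hj))
    have ai := ha i (Finset.mem_insert_self i S)
    have bi := hb i (Finset.mem_insert_self i S)
    have di := hd i (Finset.mem_insert_self i S)
    rw [Finset.prod_insert hi, Finset.prod_insert hi, Finset.card_insert_of_notMem hi, pow_succ]
    have hKp : 0 ≤ K ^ S.card := pow_nonneg hK _
    refine ⟨?_, ?_, ?_⟩
    · rw [abs_mul, mul_comm (K ^ S.card)]
      exact mul_le_mul ai h1 (abs_nonneg _) hK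
    · rw [abs_mul, mul_comm (K ^ S.card)]
      exact mul_le_mul bi h2 (abs_nonneg _) hK
    · have e : a i * ∏ j ∈ S, a j - b i * ∏ j ∈ S, b j =
          a i * (∏ j ∈ S, a j - ∏ j ∈ S, b j) + (a i - b i) * ∏ j ∈ S, b j := by ring
      rw [e]
      refine (abs_add_le _ _).trans ?_
      rw [abs_mul, abs_mul]
      have s1 : |a i| * |∏ j ∈ S, a j - ∏ j ∈ S, b j| ≤ K * (S.card * K ^ S.card * δ) :=
        mul_le_mul ai h3 (abs_nonneg _) hK
      have s2 : |a i - b i| * |∏ j ∈ S, b j| ≤ (K * δ) * K ^ S.card :=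
        mul_le_mul di h2 (abs_nonneg _) (mul_nonneg hK hδ)
      push_cast
      linarith

/-- Lagrange interpolation: Lipschitz bound from separated nodes -/
theorem tup_lip (D : ℕ) (P : ℝ[X]) (hP : P.natDegree ≤ D) {M r A : ℝ} (hM : 0 < M) (hr : 0 < r)
    (z : Fin (D + 1) → ℝ) (hz : ∀ i, 0 ≤ z i ∧ z i ≤ M)
    (hsep : ∀ i j, i ≠ j → r ≤ |z i - z j|) (hA : ∀ i, |P.eval (z i)| ≤ A) (x y : ℝ)
    (hx : 0 ≤ x ∧ x ≤ M) (hy : 0 ≤ y ∧ y ≤ M) :
    |P.eval x - P.eval y| ≤ (D + 1) * D * (M / r) ^ D * (A / M) * |x - y| := by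
  classical
  have hinj : ∀ i j, i ≠ j → z i ≠ z j := by
    intro i j hij he
    have := hsep i j hij
    rw [he, sub_self, abs_zero] at this
    linarith only [hr, this]
  have hA0 : 0 ≤ A := (abs_nonneg _).trans (hA 0)
  have hK : 0 ≤ M / r := by positivity
  rw [tup_lag_exp D P hP z hinj x, tup_lag_exp D P hP z hinj y, ← Finset.sum_sub_distrib]
  refine (Finset.abs_sum_le_sum_abs _ _).trans ?_
  have hterm : ∀ i ∈ (Finset.univ : Finset (Fin (D + 1))),
      |(∏ j ∈ (Finset.univ : Finset (Fin (D + 1))).erase i, (x - z j) / (z i - z j)) *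
          P.eval (z i) -
        (∏ j ∈ (Finset.univ : Finset (Fin (D + 1))).erase i, (y - z j) / (z i - z j)) *
          P.eval (z i)| ≤ D * (M / r) ^ D * (|x - y| / M) * A := by
    intro i _
    have hcard : ((Finset.univ : Finset (Fin (D + 1))).erase i).card = D := by
      rw [Finset.card_erase_of_mem (Finset.mem_univ _), Finset.card_univ, Fintype.card_fin]; rfl
    have hb : ∀ v : ℝ, 0 ≤ v → v ≤ M → ∀ j ∈ (Finset.univ : Finset (Fin (D + 1))).erase i,
        |(v - z j) / (z i - z j)| ≤ M / r := by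
      intro v hv0 hv1 j hj
      have hne : i ≠ j := (Finset.ne_of_mem_erase hj).symm
      rw [abs_div]
      refine div_le_div₀ hM.le ?_ hr (hsep i j hne)
      rw [abs_le]
      constructor <;> linarith only [hv0, (hz j).2, hv1, (hz j).1]
    have h3 := (tup_prod_diff ((Finset.univ : Finset (Fin (D + 1))).erase i)
      (fun j => (x - z j) / (z i - z j)) (fun j => (y - z j) / (z i - z j)) hK
      (δ := |x - y| / M) (by (clear * - hM; positivity)) (hb x hx.1 hx.2) (hb y hy.1 hy.2) (by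
        intro j hj
        have hne : i ≠ j := (Finset.ne_of_mem_erase hj).symm
        have e : (x - z j) / (z i - z j) - (y - z j) / (z i - z j) = (x - y) / (z i - z j) := by
          rw [← sub_div]; congr 1; ring
        rw [e, abs_div]
        have e2 : M / r * (|x - y| / M) = |x - y| / r := by (clear * - hM hr; field_simp)
        rw [e2]
        exact div_le_div_of_nonneg_left (abs_nonneg _) hr (hsep i j hne))).2.2
    rw [hcard] at h3
    rw [← sub_mul, abs_mul]
    exact mul_le_mul h3 (hA i) (abs_nonneg _) (by (clear * - hM hr; positivity))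
  refine (Finset.sum_le_sum hterm).trans (le_of_eq ?_)
  rw [Finset.sum_const, Finset.card_univ, Fintype.card_fin, nsmul_eq_mul]
  push_cast
  ring

/-- the deterministic part of the interpolation -/
theorem tup_core (k : ℕ) {M r E B : ℝ} (hM : 1 ≤ M) (hr : 0 < r) (hE : 0 ≤ E) (hB : 0 ≤ B)
    (q : ℝ[X]) (hq : q.natDegree ≤ k) (t u f : Fin (k + 2) → ℝ)
    (hu : ∀ j, 0 ≤ u j ∧ u j + 1 ≤ M) (ht : ∀ j, u j ≤ t j ∧ t j ≤ u j + 1)
    (hf : ∀ j, |f j| ≤ B) (hfq : ∀ j, |f j - q.eval (u j)| ≤ E)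
    (hsep : ∀ i j, i ≠ j → r + 1 ≤ |u i - u j|) :
    |f (Fin.last (k + 1)) - ∑ l : Fin (k + 1),
        (∏ l' ∈ (Finset.univ : Finset (Fin (k + 1))).erase l,
          (t (Fin.last (k + 1)) - t l'.castSucc) / (t l.castSucc - t l'.castSucc)) *
          f l.castSucc| ≤
      (1 + (k + 1) * (M / r) ^ k) * (1 + (k + 1) * k * (M / r) ^ k) * (E + B / M) := by
  classical
  have hM0 : 0 < M := by linarith only [hM]
  have hcs : ∀ i j : Fin (k + 1), i ≠ j → i.castSucc ≠ j.castSucc := by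
    intro i j hij h
    exact hij (Fin.castSucc_injective _ h)
  have hts : ∀ i j, i ≠ j → r ≤ |t i - t j| := by
    intro i j hij
    have h1 := hsep i j hij
    have h2 := ht i
    have h3 := ht j
    have h4 : |u i - u j| ≤ |t i - t j| + 1 := by
      have e : u i - u j = (t i - t j) + ((t j - u j) - (t i - u i)) := by ring
      rw [e]
      refine (abs_add_le _ _).trans ?_
      have : |(t j - u j) - (t i - u i)| ≤ 1 := by
        rw [abs_le]; constructor <;> linarith only [h2, h3]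
      linarith only [this]
    linarith only [h1, h4]
  have htM : ∀ j, 0 ≤ t j ∧ t j ≤ M := fun j => ⟨(hu j).1.trans (ht j).1, by
    linarith only [(ht j).2, (hu j).2]⟩
  set X : ℝ := (k + 1) * k * (M / r) ^ k with hX
  have hX0 : 0 ≤ X := by (clear * - hM hr; positivity)
  -- bound for the difference between `u` and `t`
  have hqu : ∀ j, |q.eval (u j)| ≤ B + E := by
    intro j
    have e : q.eval (u j) = f j - (f j - q.eval (u j)) := by ring
    rw [e]
    refine (abs_sub _ _).trans ?_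
    linarith only [hf j, hfq j]
  have hqt : ∀ j, |f j - q.eval (t j)| ≤ (1 + X) * (E + B / M) := by
    intro j
    have h1 := tup_lip k q hq hM0 hr (fun i : Fin (k + 1) => u i.castSucc)
      (fun i => ⟨(hu _).1, by linarith only [(hu i.castSucc).2]⟩)
      (fun i j hij => by
        have := hsep i.castSucc j.castSucc (hcs i j hij)
        linarith only [this]) (A := B + E) (fun i => hqu _) (u j) (t j)
      ⟨(hu j).1, by linarith only [(hu j).2]⟩ (htM j)
    have h2 : |u j - t j| ≤ 1 := by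
      rw [abs_le]; constructor <;> linarith only [(ht j).1, (ht j).2]
    have h3 : |q.eval (u j) - q.eval (t j)| ≤ X * ((B + E) / M) := by
      refine h1.trans ?_
      have h4 : 0 ≤ (k + 1) * k * (M / r) ^ k * ((B + E) / M) := by (clear * - hM hr hB hE; positivity)
      calc (k + 1) * k * (M / r) ^ k * ((B + E) / M) * |u j - t j|
          ≤ (k + 1) * k * (M / r) ^ k * ((B + E) / M) * 1 :=
            mul_le_mul_of_nonneg_left h2 h4
        _ = X * ((B + E) / M) := by rw [hX]; ring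
    have e : f j - q.eval (t j) = (f j - q.eval (u j)) + (q.eval (u j) - q.eval (t j)) := by ring
    rw [e]
    refine (abs_add_le _ _).trans ?_
    have h5 : (B + E) / M ≤ B / M + E := by
      rw [add_div]
      have : E / M ≤ E := div_le_self hE hM
      linarith only [this]
    have h6 : X * ((B + E) / M) ≤ X * (B / M + E) := mul_le_mul_of_nonneg_left h5 hX0
    have h7 : 0 ≤ B / M := by (clear * - hB hM; positivity)
    nlinarith only [h3, h6, h7, hfq j]
  -- the interpolation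
  have hinj : ∀ i j : Fin (k + 1), i ≠ j → t i.castSucc ≠ t j.castSucc := by
    intro i j hij he
    have := hts _ _ (hcs i j hij)
    rw [he, sub_self, abs_zero] at this
    linarith only [hr, this]
  have hex := tup_lag_exp k q hq (fun i : Fin (k + 1) => t i.castSucc) hinj
    (t (Fin.last (k + 1)))
  set lg : Fin (k + 1) → ℝ := fun l => ∏ l' ∈ (Finset.univ : Finset (Fin (k + 1))).erase l,
          (t (Fin.last (k + 1)) - t l'.castSucc) / (t l.castSucc - t l'.castSucc) with hlg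
  have hlgb : ∀ l, |lg l| ≤ (M / r) ^ k := by
    intro l
    rw [hlg]
    simp only
    rw [Finset.abs_prod]
    have hcard : ((Finset.univ : Finset (Fin (k + 1))).erase l).card = k := by
      rw [Finset.card_erase_of_mem (Finset.mem_univ _), Finset.card_univ, Fintype.card_fin]; rfl
    calc ∏ l' ∈ (Finset.univ : Finset (Fin (k + 1))).erase l,
          |(t (Fin.last (k + 1)) - t l'.castSucc) / (t l.castSucc - t l'.castSucc)|
        ≤ ∏ l' ∈ (Finset.univ : Finset (Fin (k + 1))).erase l, (M / r) := by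
          refine Finset.prod_le_prod (fun _ _ => abs_nonneg _) fun j hj => ?_
          have hne : l ≠ j := (Finset.ne_of_mem_erase hj).symm
          rw [abs_div]
          refine div_le_div₀ hM0.le ?_ hr (hts _ _ (hcs l j hne))
          rw [abs_le]
          constructor <;> linarith only [(htM j.castSucc).1, (htM (Fin.last (k + 1))).2, (htM j.castSucc).2, (htM (Fin.last (k + 1))).1]
      _ = (M / r) ^ k := by rw [Finset.prod_const, hcard]
  have e : f (Fin.last (k + 1)) - ∑ l : Fin (k + 1), lg l * f l.castSucc =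
      (f (Fin.last (k + 1)) - q.eval (t (Fin.last (k + 1)))) -
        ∑ l : Fin (k + 1), lg l * (f l.castSucc - q.eval (t l.castSucc)) := by
    have h1 : ∑ l : Fin (k + 1), lg l * (f l.castSucc - q.eval (t l.castSucc)) =
        ∑ l : Fin (k + 1), lg l * f l.castSucc - ∑ l : Fin (k + 1), lg l * q.eval (t l.castSucc) := by
      rw [← Finset.sum_sub_distrib]
      exact Finset.sum_congr rfl fun l _ => by ring
    rw [h1]
    have h2 : q.eval (t (Fin.last (k + 1))) = ∑ l : Fin (k + 1), lg l * q.eval (t l.castSucc) := hex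
    linarith only [hex]
  rw [e]
  refine (abs_sub _ _).trans ?_
  have h1 := hqt (Fin.last (k + 1))
  have h2 : |∑ l : Fin (k + 1), lg l * (f l.castSucc - q.eval (t l.castSucc))| ≤
      (k + 1) * ((M / r) ^ k * ((1 + X) * (E + B / M))) := by
    refine (Finset.abs_sum_le_sum_abs _ _).trans ?_
    calc ∑ l : Fin (k + 1), |lg l * (f l.castSucc - q.eval (t l.castSucc))|
        ≤ ∑ _l : Fin (k + 1), (M / r) ^ k * ((1 + X) * (E + B / M)) := by
          refine Finset.sum_le_sum fun l _ => ?_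
          rw [abs_mul]
          exact mul_le_mul (hlgb l) (hqt _) (abs_nonneg _) (by positivity)
      _ = (k + 1) * ((M / r) ^ k * ((1 + X) * (E + B / M))) := by
          rw [Finset.sum_const, Finset.card_univ, Fintype.card_fin, nsmul_eq_mul]
          push_cast; ring
  calc |f (Fin.last (k + 1)) - q.eval (t (Fin.last (k + 1)))| +
        |∑ l : Fin (k + 1), lg l * (f l.castSucc - q.eval (t l.castSucc))|
      ≤ (1 + X) * (E + B / M) + (k + 1) * ((M / r) ^ k * ((1 + X) * (E + B / M))) :=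
        add_le_add h1 h2
    _ = (1 + (k + 1) * (M / r) ^ k) * (1 + X) * (E + B / M) := by ring

section prob

variable {Ω : Type} [Fintype Ω]

/-- marginals of the product law -/
theorem tup_prod_two {N : ℕ} (P : Law Ω) (i j : Fin N) (hij : i ≠ j) (g h : Ω → ℝ) :
    ∑ w : Fin N → Ω, (∏ l, P.w (w l)) * (g (w i) * h (w j)) = P.ex g * P.ex h := by
  classical
  have h1 : ∀ w : Fin N → Ω, (∏ l, P.w (w l)) * (g (w i) * h (w j)) =
      ∏ l, (P.w (w l) * ((if l = i then g (w l) else 1) * (if l = j then h (w l) else 1))) := by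
    intro w
    rw [Finset.prod_mul_distrib, Finset.prod_mul_distrib, Finset.prod_ite_eq', Finset.prod_ite_eq']
    simp only [mem_univ, ↓reduceIte]
  simp_rw [h1]
  have h2 := Finset.prod_univ_sum (fun _ : Fin N => (Finset.univ : Finset Ω))
    (fun l x => P.w x * ((if l = i then g x else 1) * (if l = j then h x else 1)))
  rw [Fintype.piFinset_univ] at h2
  rw [← h2]
  have h3 : ∀ l : Fin N, ∑ x, P.w x * ((if l = i then g x else 1) * (if l = j then h x else 1)) =
      (if l = i then P.ex g else 1) * (if l = j then P.ex h else 1) := by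
    intro l
    by_cases hi : l = i
    · have hj : l ≠ j := fun h => hij (hi.symm.trans h)
      simp only [hi, ↓reduceIte, hij, mul_one, Law.ex]
    · by_cases hj : l = j
      · simp only [hj, hij.symm, ↓reduceIte, one_mul, Law.ex]
      · simp [hi, hj, P.sum_one]
  rw [Finset.prod_congr rfl fun l _ => h3 l, Finset.prod_mul_distrib, Finset.prod_ite_eq',
    Finset.prod_ite_eq']
  simp only [mem_univ, ↓reduceIte]

theorem tup_prod_one {N : ℕ} (P : Law Ω) (i : Fin N) (g : Ω → ℝ) :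
    ∑ w : Fin N → Ω, (∏ l, P.w (w l)) * g (w i) = P.ex g := by
  classical
  have h1 : ∀ w : Fin N → Ω, (∏ l, P.w (w l)) * g (w i) =
      ∏ l, (P.w (w l) * (if l = i then g (w l) else 1)) := by
    intro w
    rw [Finset.prod_mul_distrib, Finset.prod_ite_eq']
    simp only [mem_univ, ↓reduceIte]
  simp_rw [h1]
  have h2 := Finset.prod_univ_sum (fun _ : Fin N => (Finset.univ : Finset Ω))
    (fun l x => P.w x * (if l = i then g x else 1))
  rw [Fintype.piFinset_univ] at h2
  rw [← h2]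
  have h3 : ∀ l : Fin N, ∑ x, P.w x * (if l = i then g x else 1) =
      (if l = i then P.ex g else 1) := by
    intro l
    by_cases hi : l = i
    · simp only [hi, ↓reduceIte, Law.ex]
    · simp only [hi, ↓reduceIte, mul_one, P.sum_one]
  rw [Finset.prod_congr rfl fun l _ => h3 l, Finset.prod_ite_eq']
  simp only [mem_univ, ↓reduceIte]

open Classical in
/-- two-variable events under the product law -/
theorem tup_prod_pair {N : ℕ} (P : Law Ω) (i j : Fin N) (hij : i ≠ j) (R : Ω → Ω → Prop) {p : ℝ}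
    (hR : ∀ a, 0 < P.w a → P.ex (fun b => if R a b then 1 else 0) ≤ p) :
    ∑ w : Fin N → Ω, (∏ l, P.w (w l)) * (if R (w i) (w j) then 1 else 0) ≤ p := by
  have h1 : ∀ w : Fin N → Ω, (∏ l, P.w (w l)) * (if R (w i) (w j) then 1 else 0) =
      ∑ a, (∏ l, P.w (w l)) * ((if w i = a then (1 : ℝ) else 0) *
        (if R a (w j) then (1 : ℝ) else 0)) := by
    intro w
    rw [← Finset.mul_sum]
    congr 1
    rw [Finset.sum_eq_single (w i)]
    · simp
    · intro b _ hb
      simp [Ne.symm hb]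
    · intro h; exact absurd (Finset.mem_univ _) h
  simp_rw [h1]
  rw [Finset.sum_comm]
  have h2 : ∀ a, ∑ w : Fin N → Ω, (∏ l, P.w (w l)) * ((if w i = a then (1 : ℝ) else 0) *
      (if R a (w j) then (1 : ℝ) else 0)) = P.w a * P.ex (fun b => if R a b then 1 else 0) := by
    intro a
    have := tup_prod_two P i j hij (fun x => if x = a then (1 : ℝ) else 0)
      (fun b => if R a b then (1 : ℝ) else 0)
    rw [this]
    congr 1
    simp only [Law.ex, mul_ite, mul_one, mul_zero, sum_ite_eq', mem_univ, ↓reduceIte]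
  simp_rw [h2]
  calc ∑ a, P.w a * P.ex (fun b => if R a b then 1 else 0) ≤ ∑ a, P.w a * p := by
        refine Finset.sum_le_sum fun a _ => ?_
        rcases (P.nn a).eq_or_lt with h0 | h0
        · simp [← h0]
        · exact mul_le_mul_of_nonneg_left (hR a h0) h0.le
    _ = p := by rw [← Finset.sum_mul, P.sum_one, one_mul]

open Classical in
/-- small balls for `U` have small probability -/
theorem tup_ball (P : Law Ω) (U : Ω → ℤ) (M : ℕ) (hM : 1 ≤ M)
    (hU : ∀ ω, 0 < P.w ω → 0 ≤ U ω ∧ U ω < M) {η r : ℝ} (hr : 0 ≤ r)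
    (hη : ∑ u ∈ Ico (0 : ℤ) M, |P.pr U u - 1 / M| ≤ η) (u0 : ℤ) :
    P.ex (fun b => if |(u0 : ℝ) - U b| < r + 1 then 1 else 0) ≤ (2 * r + 3) / M + η := by
  have hM0 : (0 : ℝ) < M := by exact_mod_cast hM
  set F : Finset ℤ := (Ico (0 : ℤ) M).filter (fun u => |(u0 : ℝ) - u| < r + 1) with hF
  have h1 : P.ex (fun b => if |(u0 : ℝ) - U b| < r + 1 then 1 else 0) ≤ ∑ u ∈ F, P.pr U u := by
    have h2 : ∑ u ∈ F, P.pr U u = ∑ ω, if U ω ∈ F then P.w ω else 0 := by
      unfold Law.pr
      simp_rw [Finset.sum_filter]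
      rw [Finset.sum_comm]
      refine Finset.sum_congr rfl fun ω _ => ?_
      by_cases h : U ω ∈ F
      · rw [Finset.sum_eq_single (U ω)]
        · simp [h]
        · intro b _ hb
          simp [Ne.symm hb]
        · intro h'; exact absurd h h'
      · simp only [h, if_false]
        refine Finset.sum_eq_zero fun b hb => ?_
        have : U ω ≠ b := fun he => h (he ▸ hb)
        simp [this]
    rw [h2]
    unfold Law.ex
    refine Finset.sum_le_sum fun ω _ => ?_
    rcases (P.nn ω).eq_or_lt with h0 | h0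
    · rw [← h0]; simp only [mul_ite, mul_one, mul_zero, ite_self, Std.le_refl]
    · by_cases hc : |(u0 : ℝ) - U ω| < r + 1
      · have : U ω ∈ F := by
          rw [hF, Finset.mem_filter, Finset.mem_Ico]
          exact ⟨hU ω h0, hc⟩
        simp [hc, this]
      · simp only [hc, if_false, mul_zero]
        split_ifs
        · exact h0.le
        · exact le_rfl
  have h2 : ∑ u ∈ F, P.pr U u ≤ ∑ u ∈ F, (1 / (M : ℝ)) + ∑ u ∈ F, |P.pr U u - 1 / M| := by
    rw [← Finset.sum_add_distrib]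
    refine Finset.sum_le_sum fun u _ => ?_
    linarith only [le_abs_self (P.pr U u - 1 / M)]
  have h3 : ∑ u ∈ F, |P.pr U u - 1 / M| ≤ η := by
    refine le_trans (Finset.sum_le_sum_of_subset_of_nonneg (Finset.filter_subset _ _)
      fun _ _ _ => abs_nonneg _) hη
  have h4 : (F.card : ℝ) ≤ 2 * r + 3 := by
    have hsub : F ⊆ Finset.Icc (u0 - ⌊r + 1⌋) (u0 + ⌊r + 1⌋) := by
      intro u hu
      rw [hF, Finset.mem_filter] at hu
      have h5 := abs_lt.1 hu.2
      rw [Finset.mem_Icc]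
      have h6 : u0 - u ≤ ⌊r + 1⌋ := by
        rw [Int.le_floor]; push_cast; linarith only [h5]
      have h7 : u - u0 ≤ ⌊r + 1⌋ := by
        rw [Int.le_floor]; push_cast; linarith only [h5]
      constructor <;> omega
    have h8 := Finset.card_le_card hsub
    rw [Int.card_Icc] at h8
    have h9 : 0 ≤ ⌊r + 1⌋ := Int.floor_nonneg.2 (by linarith only [hr])
    have h10 : (F.card : ℤ) ≤ 2 * ⌊r + 1⌋ + 1 := by
      have : ((u0 + ⌊r + 1⌋ + 1 - (u0 - ⌊r + 1⌋)).toNat : ℤ) = 2 * ⌊r + 1⌋ + 1 := by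
        rw [Int.toNat_of_nonneg (by omega)]; ring
      have h11 : (F.card : ℤ) ≤ ((u0 + ⌊r + 1⌋ + 1 - (u0 - ⌊r + 1⌋)).toNat : ℤ) := by
        exact_mod_cast h8
      omega
    have h12 : (F.card : ℝ) ≤ 2 * (⌊r + 1⌋ : ℝ) + 1 := by exact_mod_cast h10
    have h13 : (⌊r + 1⌋ : ℝ) ≤ r + 1 := Int.floor_le _
    linarith only [h12, h13]
  rw [Finset.sum_const, nsmul_eq_mul] at h2
  have h5 : (F.card : ℝ) * (1 / M) ≤ (2 * r + 3) / M := by
    rw [mul_one_div]
    exact div_le_div_of_nonneg_right h4 hM0.le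
  linarith only [h1, h2, h3, h5]

end prob

open Classical in
/-- if the values are close to a polynomial of degree at most `k` of `U`, then the Lagrange
interpolation through `k + 1` independent nodes is good (`M = 2^n`) -/
theorem tuple_interp (k : ℕ) (ε : ℝ) (hε : 0 < ε) : ∃ η : ℝ, 0 < η ∧ ∃ C : ℝ, 0 < C ∧ ∃ M0 : ℕ,
    ∀ n : ℕ, M0 ≤ 2 ^ n → ∀ (Ω : Type) [Fintype Ω] (P : Law Ω) (U : Ω → ℤ) (f τ : Ω → ℝ)
      (q : ℝ[X]) (E B : ℝ), 0 ≤ E → 0 ≤ B → (∀ ω, 0 < P.w ω → 0 ≤ U ω ∧ U ω < 2 ^ n) →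
    (∀ ω, 0 < P.w ω → (U ω : ℝ) ≤ τ ω ∧ τ ω ≤ U ω + 1) → (∀ ω, |f ω| ≤ B) →
    ∑ u ∈ Ico (0 : ℤ) (2 ^ n), |P.pr U u - 1 / 2 ^ n| ≤ η → q.natDegree ≤ k →
    ∑ ω with E < |f ω - q.eval (U ω : ℝ)|, P.w ω ≤ η →
    ∑ w : Fin (k + 2) → Ω with C * (E + B / 2 ^ n) < |f (w (Fin.last (k + 1))) -
        ∑ l : Fin (k + 1), lag τ w l * f (w l.castSucc)|, ∏ j, P.w (w j) ≤ ε := by
  set N : ℝ := (k + 2 : ℝ) with hN
  have hN0 : 0 < N := by positivity
  have hN1 : 1 ≤ N := by rw [hN]; linarith only []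
  set c : ℝ := ε / (8 * N ^ 2) with hc
  have hc0 : 0 < c := by (clear * - hε; positivity)
  obtain ⟨M0, hM0⟩ := exists_nat_ge (12 * N ^ 2 / ε)
  refine ⟨c, hc0, (1 + (k + 1) * (1 / c) ^ k) * (1 + (k + 1) * k * (1 / c) ^ k), by (clear * - hε; positivity),
    M0, ?_⟩
  intro n hn Ω _ P U f τ q E B hE hB hU hτ hf hη hq hfq
  set M : ℝ := 2 ^ n with hM
  have hMpos : 0 < M := by positivity
  have hM1 : 1 ≤ M := one_le_pow₀ (by norm_num)
  have hMb : 12 * N ^ 2 / ε ≤ M := by
    refine hM0.trans ?_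
    rw [hM]
    exact_mod_cast hn
  set r : ℝ := c * M with hr
  have hr0 : 0 < r := by (clear * - hε; positivity)
  have hMr : M / r = 1 / c := by rw [hr]; (clear * - hMpos hc0; field_simp)
  have hMcast : ((2 ^ n : ℕ) : ℝ) = M := by rw [hM]; push_cast; rfl
  -- the weight of a tuple
  let W : (Fin (k + 2) → Ω) → ℝ := fun w => ∏ j, P.w (w j)
  have hW0 : ∀ w, 0 ≤ W w := fun w => Finset.prod_nonneg fun j _ => P.nn _
  let bad : Ω → ℝ := fun ω => if E < |f ω - q.eval (U ω : ℝ)| then 1 else 0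
  let near : Ω → Ω → Prop := fun a b => |(U a : ℝ) - U b| < r + 1
  have hbad : P.ex bad ≤ c := by
    have : P.ex bad = ∑ ω with E < |f ω - q.eval (U ω : ℝ)|, P.w ω := by
      rw [Finset.sum_filter]
      unfold Law.ex
      refine Finset.sum_congr rfl fun ω _ => ?_
      simp only [bad]
      split_ifs <;> simp
    rw [this]; exact hfq
  have hnear : ∀ a, 0 < P.w a → P.ex (fun b => if near a b then 1 else 0) ≤
      (2 * r + 3) / M + c := by
    intro a _
    have := tup_ball P U (2 ^ n) Nat.one_le_two_pow (fun ω hω => by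
      have := hU ω hω
      push_cast
      exact this) hr0.le (η := c) (by
        push_cast
        exact hη) (U a)
    rw [hMcast] at this
    exact this
  -- pointwise bound
  have hpt : ∀ w : Fin (k + 2) → Ω,
      (if (1 + (k + 1) * (1 / c) ^ k) * (1 + (k + 1) * k * (1 / c) ^ k) * (E + B / M) <
        |f (w (Fin.last (k + 1))) - ∑ l : Fin (k + 1), lag τ w l * f (w l.castSucc)|
        then W w else 0) ≤
      ∑ j, W w * bad (w j) + ∑ i, ∑ j, (if i = j then 0 else
        W w * (if near (w i) (w j) then 1 else 0)) := by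
    intro w
    have hb0 : ∀ j, 0 ≤ W w * bad (w j) := fun j => mul_nonneg (hW0 w) (by
      simp only [bad]; split_ifs <;> norm_num)
    have hn0 : ∀ i j, 0 ≤ (if i = j then 0 else W w * (if near (w i) (w j) then (1 : ℝ) else 0)) := by
      intro i j
      split_ifs
      · exact le_rfl
      · simpa only [mul_one] using hW0 w
      · simp
    have hs1 : 0 ≤ ∑ j, W w * bad (w j) := Finset.sum_nonneg fun j _ => hb0 j
    have hs2 : 0 ≤ ∑ i, ∑ j, (if i = j then 0 else
        W w * (if near (w i) (w j) then (1 : ℝ) else 0)) :=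
      Finset.sum_nonneg fun i _ => Finset.sum_nonneg fun j _ => hn0 i j
    split_ifs with hcond
    · rcases (hW0 w).eq_or_lt with h0 | h0
      · rw [← h0]; rw [← h0] at hs1 hs2; exact add_nonneg hs1 hs2
      · have hpos : ∀ j, 0 < P.w (w j) := by
          intro j
          rcases (P.nn (w j)).eq_or_lt with h1 | h1
          · exfalso
            have : W w = 0 := Finset.prod_eq_zero (Finset.mem_univ j) h1.symm
            linarith only [h0, this]
          · exact h1
        by_cases hA : ∃ j, bad (w j) = 1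
        · obtain ⟨j, hj⟩ := hA
          have := Finset.single_le_sum (f := fun j => W w * bad (w j)) (fun j _ => hb0 j)
            (Finset.mem_univ j)
          simp only [hj, mul_one] at this
          linarith only [hs2, this]
        · by_cases hB' : ∃ i j, i ≠ j ∧ near (w i) (w j)
          · obtain ⟨i, j, hij, hj⟩ := hB'
            have h1 := Finset.single_le_sum (f := fun i => ∑ j, (if i = j then 0 else
              W w * (if near (w i) (w j) then (1 : ℝ) else 0)))
              (fun i _ => Finset.sum_nonneg fun j _ => hn0 i j) (Finset.mem_univ i)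
            have h2 := Finset.single_le_sum (f := fun j => (if i = j then 0 else
              W w * (if near (w i) (w j) then (1 : ℝ) else 0))) (fun j _ => hn0 i j)
              (Finset.mem_univ j)
            simp only [hij, if_false, hj, if_true, mul_one] at h2
            linarith only [hs1, h1, h2]
          · exfalso
            push Not at hA hB'
            have hcore := tup_core k (M := M) (r := r) hM1 hr0 hE hB q hq (fun j => τ (w j))
              (fun j => (U (w j) : ℝ)) (fun j => f (w j))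
              (fun j => by
                have h1 := hU (w j) (hpos j)
                constructor
                · exact_mod_cast h1.1
                · have h2 : U (w j) + 1 ≤ 2 ^ n := h1.2
                  have h3 : ((U (w j) + 1 : ℤ) : ℝ) ≤ ((2 ^ n : ℤ) : ℝ) := by exact_mod_cast h2
                  push_cast at h3
                  exact h3)
              (fun j => hτ (w j) (hpos j)) (fun j => hf _)
              (fun j => by
                have h1 := hA j
                simp only [bad] at h1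
                by_contra hcon
                push Not at hcon
                simp [hcon] at h1)
              (fun i j hij => by
                have h1 := hB' i j hij
                simp only [not_lt, near] at h1
                exact h1)
            rw [hMr] at hcore
            have : ¬ ((1 + (k + 1) * (1 / c) ^ k) * (1 + (k + 1) * k * (1 / c) ^ k) * (E + B / M) <
              |f (w (Fin.last (k + 1))) - ∑ l : Fin (k + 1), lag τ w l * f (w l.castSucc)|) := by
              rw [not_lt]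
              exact hcore
            exact this hcond
    · exact add_nonneg hs1 hs2
  rw [Finset.sum_filter]
  refine (Finset.sum_le_sum fun w _ => hpt w).trans ?_
  rw [Finset.sum_add_distrib]
  have hS1 : ∑ w : Fin (k + 2) → Ω, ∑ j, W w * bad (w j) ≤ N * c := by
    rw [Finset.sum_comm]
    calc ∑ j : Fin (k + 2), ∑ w : Fin (k + 2) → Ω, W w * bad (w j)
        ≤ ∑ _j : Fin (k + 2), c := by
          refine Finset.sum_le_sum fun j _ => ?_
          have := tup_prod_one P j bad
          rw [show ∑ w : Fin (k + 2) → Ω, W w * bad (w j) = P.ex bad from this]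
          exact hbad
      _ = N * c := by
          rw [Finset.sum_const, Finset.card_univ, Fintype.card_fin, nsmul_eq_mul, hN]
          push_cast; ring
  have hS2 : ∑ w : Fin (k + 2) → Ω, ∑ i, ∑ j, (if i = j then 0 else
        W w * (if near (w i) (w j) then (1 : ℝ) else 0)) ≤ N ^ 2 * ((2 * r + 3) / M + c) := by
    rw [Finset.sum_comm]
    have hp0 : 0 ≤ (2 * r + 3) / M + c := by (clear * - hε; positivity)
    calc ∑ i : Fin (k + 2), ∑ w : Fin (k + 2) → Ω, ∑ j, (if i = j then 0 else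
          W w * (if near (w i) (w j) then (1 : ℝ) else 0))
        ≤ ∑ _i : Fin (k + 2), ∑ _j : Fin (k + 2), ((2 * r + 3) / M + c) := by
          refine Finset.sum_le_sum fun i _ => ?_
          rw [Finset.sum_comm]
          refine Finset.sum_le_sum fun j _ => ?_
          by_cases hij : i = j
          · simpa only [hij, ↓reduceIte, sum_const_zero] using hp0
          · simp only [hij, if_false]
            exact tup_prod_pair P i j hij near hnear
      _ = N ^ 2 * ((2 * r + 3) / M + c) := by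
          rw [Finset.sum_const, Finset.sum_const, Finset.card_univ, Fintype.card_fin,
            nsmul_eq_mul, nsmul_eq_mul, hN]
          push_cast; ring
  refine (add_le_add hS1 hS2).trans ?_
  have h1 : N * c ≤ ε / 8 := by
    have : N * c = ε / 8 * (1 / N) := by rw [hc]; field_simp
    rw [this]
    have h2 : 1 / N ≤ 1 := by rw [div_le_one hN0]; exact hN1
    nlinarith only [hε, h2]
  have h2 : N ^ 2 * c = ε / 8 := by rw [hc]; field_simp
  have h3 : N ^ 2 * (2 * r / M) = ε / 4 := by rw [hr, hc]; field_simp; ring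
  have h4 : N ^ 2 * (3 / M) ≤ ε / 4 := by
    rw [div_le_iff₀ hε] at hMb
    rw [← mul_div_assoc, div_le_iff₀ hMpos]
    nlinarith only [hMb]
  have h5 : N ^ 2 * ((2 * r + 3) / M + c) = N ^ 2 * (2 * r / M) + N ^ 2 * (3 / M) + N ^ 2 * c := by
    rw [add_div]; ring
  rw [h5]
  linarith only [hε, h1, h2, h3, h4]

end Vale.Agent.P127.Stk
end

section

/-!
# P127 / Stk : assembly over the keys (PROOF.md, section 7)
-/

namespace Vale.Agent.P127.Stk

open Finset Polynomial Vale.Agent.P127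

section keys

variable {Ω : Type} [Fintype Ω] {S : Type}

/-- sums over tuples, key by key -/
theorem pf_fib (P : Law Ω) (W : Ω → S) {N : ℕ} (A : (Fin (N + 1) → Ω) → ℝ)
    (A' : S → (Fin (N + 1) → Ω) → ℝ)
    (h1 : ∀ s, 0 < P.pr W s → ∀ w : Fin (N + 1) → Ω, W (w 0) = s → A w = P.pr W s * A' s w)
    (h2 : ∀ s, 0 < P.pr W s → ∀ w : Fin (N + 1) → Ω, W (w 0) ≠ s → A' s w = 0)
    (h3 : ∀ w : Fin (N + 1) → Ω, P.w (w 0) = 0 → A w = 0) (g : (Fin (N + 1) → Ω) → ℝ) :
    ∑ w, g w * A w = ∑ s ∈ img W, P.pr W s * (if 0 < P.pr W s then ∑ w, g w * A' s w else 0) := by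
  classical
  rw [← Finset.sum_fiberwise_of_maps_to (s := (Finset.univ : Finset (Fin (N + 1) → Ω)))
    (t := img W) (g := fun w => W (w 0)) (fun w _ => by rw [mem_img]; exact ⟨w 0, rfl⟩)]
  refine Finset.sum_congr rfl fun s _ => ?_
  rcases (P.pr_nonneg W s).eq_or_lt with h0 | h0
  · rw [← h0, zero_mul]
    refine Finset.sum_eq_zero fun w hw => ?_
    have hw' : W (w 0) = s := by simpa only [mem_filter, mem_univ, true_and] using hw
    have h4 := P.w_le_pr W (w 0)
    rw [hw', ← h0] at h4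
    rw [h3 w (le_antisymm h4 (P.nn _)), mul_zero]
  · rw [if_pos h0, Finset.mul_sum, ← Finset.sum_filter_add_sum_filter_not Finset.univ
      (fun w : Fin (N + 1) → Ω => W (w 0) = s) (fun w => P.pr W s * (g w * A' s w))]
    have h5 : ∑ w with ¬ W (w 0) = s, P.pr W s * (g w * A' s w) = 0 := by
      refine Finset.sum_eq_zero fun w hw => ?_
      have hw' : W (w 0) ≠ s := by simpa only [ne_eq, mem_filter, mem_univ, true_and] using hw
      rw [h2 s h0 w hw', mul_zero, mul_zero]
    rw [h5, add_zero]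
    refine Finset.sum_congr rfl fun w hw => ?_
    have hw' : W (w 0) = s := by simpa only [mem_filter, mem_univ, true_and] using hw
    rw [h1 s h0 w hw']
    ring

/-- copies, key by key -/
theorem pf_cw (P : Law Ω) (W : Ω → S) (N : ℕ) (s : S) (hs : 0 < P.pr W s)
    (w : Fin (N + 1) → Ω) (h0 : W (w 0) = s) :
    cw P W N w = P.pr W s * ∏ j, (P.cond W s).w (w j) := by
  classical
  unfold cw
  simp only [P.cond_w W s hs]
  by_cases hall : ∀ i, W (w i) = W (w 0)
  · rw [if_pos hall]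
    have h1 : ∀ j ∈ (Finset.univ : Finset (Fin (N + 1))),
        (if W (w j) = s then P.w (w j) / P.pr W s else 0) = P.w (w j) / P.pr W s := by
      intro j _
      rw [if_pos ((hall j).trans h0)]
    rw [Finset.prod_congr rfl h1, Finset.prod_div_distrib, Finset.prod_const, Finset.card_univ,
      Fintype.card_fin, h0, pow_succ]
    field_simp
  · rw [if_neg hall]
    push Not at hall
    obtain ⟨i, hi⟩ := hall
    rw [Finset.prod_eq_zero (Finset.mem_univ i), mul_zero]
    rw [if_neg]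
    rw [← h0]
    exact hi

theorem pf_prod_zero (P : Law Ω) (W : Ω → S) (N : ℕ) (s : S) (hs : 0 < P.pr W s)
    (w : Fin (N + 1) → Ω) (i : Fin (N + 1)) (h0 : W (w i) ≠ s) :
    ∏ j, (P.cond W s).w (w j) = 0 := by
  classical
  refine Finset.prod_eq_zero (Finset.mem_univ i) ?_
  rw [P.cond_w W s hs, if_neg h0]

theorem pf_pr_const (P : Law Ω) : P.pr (fun _ => ()) () = 1 := by
  classical
  unfold Law.pr
  simp only [filter_true, P.sum_one]

theorem pf_pr_unit (P : Law Ω) (U : Ω → ℤ) (u : ℤ) :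
    P.pr (fun ω => ((), U ω)) ((), u) = P.pr U u := by
  classical
  unfold Law.pr
  refine Finset.sum_congr ?_ fun _ _ => rfl
  ext ω
  simp only [Prod.mk.injEq, true_and, mem_filter, mem_univ]

theorem pf_cw_const (P : Law Ω) (N : ℕ) (w : Fin (N + 1) → Ω) :
    cw P (fun _ => ()) N w = ∏ j, P.w (w j) := by
  classical
  unfold cw
  rw [if_pos (fun _ => rfl), pf_pr_const, one_pow, div_one]

theorem pf_idn (P : Law Ω) (W : Ω → S) (U : Ω → ℤ) (M : ℕ) (s : S) (hs : 0 < P.pr W s) (ω : Ω)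
    (h0 : W ω = s) : idn P W U M ω = idn (P.cond W s) (fun _ => ()) U M ω := by
  classical
  unfold idn
  rw [pf_pr_const, pf_pr_unit, P.cond_pr W s hs, ← un_swap P W U, h0]
  set p := P.pr W s with hp
  set q := P.pr (fun ω => (W ω, U ω)) (s, U ω) with hq
  have h1 : (1 ≤ 2 * M * (q / p)) ↔ p ≤ 2 * M * q := by
    rw [← mul_div_assoc, le_div_iff₀ hs, one_mul]
  by_cases h : p ≤ 2 * M * q
  · rw [if_pos h, if_pos (h1.2 h)]
    have hM : 0 < (M : ℝ) * q := by
      by_contra hcon
      push Not at hcon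
      have : 2 * (M : ℝ) * q = 2 * (M * q) := by ring
      rw [this] at h
      linarith only [hs, h, hcon]
    have hq0 : q ≠ 0 := by
      intro he
      rw [he, mul_zero] at hM
      exact lt_irrefl _ hM
    have hM0 : (M : ℝ) ≠ 0 := by
      intro he
      rw [he, zero_mul] at hM
      exact lt_irrefl _ hM
    have hp0 : p ≠ 0 := hs.ne'
    field_simp
  · rw [if_neg h, if_neg (fun hc => h (h1.1 hc))]

theorem pf_apw (P : Law Ω) (W : Ω → S) (U : Ω → ℤ) (M p : ℕ) (s : S) (hs : 0 < P.pr W s)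
    (w : Fin (p + 1) → Ω) (h0 : W (w 0) = s) :
    apw P W U M p w = P.pr W s * apw (P.cond W s) (fun _ => ()) U M p w := by
  classical
  unfold apw
  rw [pf_cw P W p s hs w h0, pf_cw_const]
  by_cases hμ : ∃ μ : ℤ, ∀ j : Fin (p + 1), U (w j) = U (w 0) + (j : ℕ) * μ
  · rw [if_pos hμ, if_pos hμ]
    by_cases hall : ∀ i, W (w i) = s
    · rw [Finset.prod_congr rfl fun j _ => pf_idn P W U M s hs (w j) (hall j)]
      ring
    · push Not at hall
      obtain ⟨i, hi⟩ := hall
      rw [pf_prod_zero P W p s hs w i hi]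
      ring
  · rw [if_neg hμ, if_neg hμ, mul_zero]

theorem pf_sum_cw (P : Law Ω) (W : Ω → S) (N : ℕ) (g : (Fin (N + 1) → Ω) → ℝ) :
    ∑ w, g w * cw P W N w = ∑ s ∈ img W, P.pr W s *
      (if 0 < P.pr W s then ∑ w : Fin (N + 1) → Ω, g w * ∏ j, (P.cond W s).w (w j) else 0) := by
  refine pf_fib P W _ (fun s w => ∏ j, (P.cond W s).w (w j)) (fun s hs w hw => pf_cw P W N s hs w hw)
    (fun s hs w hw => pf_prod_zero P W N s hs w 0 hw) (fun w hw => ?_) g
  classical
  unfold cw
  rw [Finset.prod_eq_zero (Finset.mem_univ (0 : Fin (N + 1))) hw, zero_div, ite_self]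

theorem pf_sum_apw (P : Law Ω) (W : Ω → S) (U : Ω → ℤ) (M N : ℕ) (g : (Fin (N + 1) → Ω) → ℝ) :
    ∑ w, g w * apw P W U M N w = ∑ s ∈ img W, P.pr W s *
      (if 0 < P.pr W s then ∑ w : Fin (N + 1) → Ω,
        g w * apw (P.cond W s) (fun _ => ()) U M N w else 0) := by
  refine pf_fib P W _ (fun s w => apw (P.cond W s) (fun _ => ()) U M N w)
    (fun s hs w hw => pf_apw P W U M N s hs w hw) (fun s hs w hw => ?_) (fun w hw => ?_) g
  · classical
    unfold apw
    rw [pf_cw_const, pf_prod_zero P W N s hs w 0 hw, zero_mul, ite_self]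
  · classical
    unfold apw cw
    rw [Finset.prod_eq_zero (Finset.mem_univ (0 : Fin (N + 1))) hw, zero_div, ite_self, zero_mul,
      ite_self]

/-- Markov's inequality over the keys -/
theorem pf_markov (P : Law Ω) (W : Ω → S) (b : S → ℝ) (hb : ∀ s, 0 ≤ b s) {t D : ℝ} (ht : 0 < t)
    (h : ∑ s ∈ img W, P.pr W s * b s ≤ t * D) :
    ∑ s ∈ img W, P.pr W s * (if t < b s then 1 else 0) ≤ D := by
  classical
  have h1 : ∑ s ∈ img W, t * (P.pr W s * (if t < b s then (1 : ℝ) else 0)) ≤ t * D := by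
    refine le_trans (Finset.sum_le_sum fun s _ => ?_) h
    have h2 : t * (P.pr W s * (if t < b s then (1 : ℝ) else 0)) =
        P.pr W s * (t * (if t < b s then (1 : ℝ) else 0)) := by ring
    rw [h2]
    refine mul_le_mul_of_nonneg_left ?_ (P.pr_nonneg W s)
    split_ifs with h3
    · linarith only [h3]
    · linarith only [hb s]
  rw [← Finset.mul_sum] at h1
  exact le_of_mul_le_mul_left h1 ht

theorem pf_prod_one (P : Law Ω) (N : ℕ) : ∑ w : Fin N → Ω, ∏ j, P.w (w j) = 1 := by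
  classical
  have h2 := Finset.prod_univ_sum (fun _ : Fin N => (Finset.univ : Finset Ω))
    (fun _ x => P.w x)
  rw [Fintype.piFinset_univ] at h2
  rw [← h2]
  simp only [P.sum_one, prod_const_one]

end keys

open Classical in
/-- from progressions to Lagrange interpolation, all keys -/
theorem law_poly (k : ℕ) (ε : ℝ) (hε : 0 < ε) : ∃ δ : ℝ, 0 < δ ∧ ∃ C : ℝ, 0 < C ∧ ∃ M0 : ℕ,
    ∀ n : ℕ, M0 ≤ 2 ^ n → ∀ (Ω : Type) [Fintype Ω] (S : Type) (P : Law Ω) (W : Ω → S) (U : Ω → ℤ)
      (f τ : Ω → ℝ) (E B : ℝ), 0 < E → 0 ≤ B →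
    (∀ ω, 0 < P.w ω → 0 ≤ U ω ∧ U ω < 2 ^ n) →
    (∀ ω, 0 < P.w ω → (U ω : ℝ) ≤ τ ω ∧ τ ω ≤ U ω + 1) → (∀ ω, |f ω| ≤ B) →
    P.ex (fun ω => l1 P W U (2 ^ n) (W ω)) ≤ δ →
    ∑ w with E < |∑ l : Fin (k + 2), (-1 : ℝ) ^ (l : ℕ) * ((k + 1).choose l : ℝ) * f (w l)|,
      apw P W U (2 ^ n) (k + 1) w ≤ δ / (2 ^ n) ^ k →
    ∑ w : Fin (k + 2) → Ω with C * ((n + 1) * E + B / 2 ^ n) < |f (w (Fin.last (k + 1))) -
        ∑ l : Fin (k + 1), lag τ w l * f (w l.castSucc)|, cw P W (k + 1) w ≤ ε := by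
  obtain ⟨η, hη, C2, hC2, M2, H2⟩ := tuple_interp k (ε / 2) (by linarith only [hε])
  obtain ⟨δ₁, hδ₁, C1, hC1, M1, H1⟩ := key_poly k η hη
  set δ₂ : ℝ := min δ₁ η with hδ₂
  have hδ₂0 : 0 < δ₂ := lt_min hδ₁ hη
  refine ⟨δ₂ * (ε / 4), by positivity, C2 * (C1 + 1), by (clear * - hC2 hC1; positivity), max M1 M2, ?_⟩
  intro n hn Ω _ S P W U f τ E B hE hB hU hτ hf hl1 hap
  have hn1 : M1 ≤ 2 ^ n := (le_max_left _ _).trans hn
  have hn2 : M2 ≤ 2 ^ n := (le_max_right _ _).trans hn
  have hM : (0 : ℝ) < 2 ^ n := by positivity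
  set bad : (Fin (k + 2) → Ω) → Prop := fun w =>
    E < |∑ l : Fin (k + 2), (-1 : ℝ) ^ (l : ℕ) * ((k + 1).choose l : ℝ) * f (w l)| with hbad
  set ev : (Fin (k + 2) → Ω) → Prop := fun w =>
    C2 * (C1 + 1) * ((n + 1) * E + B / 2 ^ n) < |f (w (Fin.last (k + 1))) -
        ∑ l : Fin (k + 1), lag τ w l * f (w l.castSucc)| with hev
  -- the two bad sets of keys
  set b1 : S → ℝ := fun s => l1 P W U (2 ^ n) s with hb1
  set b2 : S → ℝ := fun s => if 0 < P.pr W s then ∑ w : Fin (k + 1 + 1) → Ω,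
        (if bad w then (1 : ℝ) else 0) * apw (P.cond W s) (fun _ => ()) U (2 ^ n) (k + 1) w else 0
    with hb2
  have hapn : ∀ (Q : Law Ω) (w : Fin (k + 1 + 1) → Ω),
      0 ≤ apw Q (fun _ => ()) U (2 ^ n) (k + 1) w := by
    intro Q w
    unfold apw
    rw [pf_cw_const]
    split_ifs
    · refine mul_nonneg (Finset.prod_nonneg fun j _ => Q.nn _) (Finset.prod_nonneg fun j _ => ?_)
      unfold idn
      split_ifs
      · exact div_nonneg (Q.pr_nonneg _ _) (mul_nonneg (Nat.cast_nonneg _) (Q.pr_nonneg _ _))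
      · exact le_rfl
    · exact le_rfl
  have hb1n : ∀ s, 0 ≤ b1 s := fun s => Finset.sum_nonneg fun u _ => abs_nonneg _
  have hb2n : ∀ s, 0 ≤ b2 s := by
    intro s
    rw [hb2]
    simp only
    split_ifs
    · refine Finset.sum_nonneg fun w _ => mul_nonneg ?_ (hapn _ _)
      split_ifs <;> norm_num
    · exact le_rfl
  have hm1 : ∑ s ∈ img W, P.pr W s * (if δ₂ < b1 s then (1 : ℝ) else 0) ≤ ε / 4 := by
    refine pf_markov P W b1 hb1n hδ₂0 ?_
    rw [← P.ex_comp W (fun s => b1 s)]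
    exact hl1
  have hm2 : ∑ s ∈ img W, P.pr W s * (if δ₂ / (2 ^ n) ^ k < b2 s then (1 : ℝ) else 0) ≤ ε / 4 := by
    refine pf_markov P W b2 hb2n (by positivity) ?_
    rw [hb2, ← pf_sum_apw P W U (2 ^ n) (k + 1) (fun w => if bad w then (1 : ℝ) else 0)]
    have h1 : ∑ w : Fin (k + 1 + 1) → Ω, (if bad w then (1 : ℝ) else 0) *
        apw P W U (2 ^ n) (k + 1) w = ∑ w with bad w, apw P W U (2 ^ n) (k + 1) w := by
      rw [Finset.sum_filter]
      refine Finset.sum_congr rfl fun w _ => ?_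
      split_ifs <;> simp
    rw [h1]
    refine hap.trans (le_of_eq ?_)
    ring
  -- the good keys
  have hgood : ∀ s, 0 < P.pr W s → ¬ δ₂ < b1 s → ¬ δ₂ / (2 ^ n) ^ k < b2 s →
      ∑ w : Fin (k + 1 + 1) → Ω, (if ev w then (1 : ℝ) else 0) * ∏ j, (P.cond W s).w (w j) ≤
        ε / 2 := by
    intro s hs h1 h2
    have hsup : ∀ ω, 0 < (P.cond W s).w ω → 0 < P.w ω := by
      intro ω hω
      rw [P.cond_w W s hs] at hω
      split_ifs at hω with h3
      · by_contra hcon
        have h4 : P.w ω = 0 := le_antisymm (not_lt.1 hcon) (P.nn ω)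
        rw [h4, zero_div] at hω
        exact lt_irrefl _ hω
      · exact absurd hω (lt_irrefl _)
    have hl : ∑ u ∈ Ico (0 : ℤ) (2 ^ n), |(P.cond W s).pr U u - 1 / 2 ^ n| ≤ δ₂ := by
      refine le_trans (le_of_eq ?_) (not_lt.1 h1)
      rw [hb1]
      unfold l1
      push_cast
      refine Finset.sum_congr rfl fun u _ => ?_
      rw [P.cond_pr W s hs, ← un_swap P W U]
    obtain ⟨q, hq, hfq⟩ := H1 n hn1 Ω (P.cond W s) U f E hE (fun ω hω => hU ω (hsup ω hω))
      (hl.trans (min_le_left _ _)) (by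
        refine le_trans (le_of_eq ?_) ((not_lt.1 h2).trans
          (div_le_div_of_nonneg_right (min_le_left _ _) (by positivity)))
        rw [hb2]
        simp only
        rw [if_pos hs, Finset.sum_filter]
        refine Finset.sum_congr rfl fun w _ => ?_
        by_cases hw : bad w
        · rw [if_pos hw, if_pos hw, one_mul]
        · rw [if_neg hw, if_neg hw, zero_mul])
    have h3 := H2 n hn2 Ω (P.cond W s) U f τ q (C1 * (n + 1) * E) B (by (clear * - hC1 hE; positivity)) hB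
      (fun ω hω => hU ω (hsup ω hω)) (fun ω hω => hτ ω (hsup ω hω)) hf
      (hl.trans (min_le_right _ _)) hq hfq
    refine le_trans ?_ h3
    rw [Finset.sum_filter]
    refine Finset.sum_le_sum fun w _ => ?_
    have hp : 0 ≤ ∏ j, (P.cond W s).w (w j) := Finset.prod_nonneg fun j _ => (P.cond W s).nn _
    by_cases hw : ev w
    · rw [if_pos hw, one_mul, if_pos]
      refine lt_of_le_of_lt ?_ hw
      have h4 : 0 ≤ (n + 1 : ℝ) * E := by (clear * - hE; positivity)
      have h5 : 0 ≤ B / 2 ^ n := by (clear * - hB; positivity)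
      have h6 : C1 * (n + 1) * E + B / 2 ^ n ≤ (C1 + 1) * ((n + 1) * E + B / 2 ^ n) := by
        nlinarith only [hE, hC1, h5]
      calc C2 * (C1 * (n + 1) * E + B / 2 ^ n) ≤ C2 * ((C1 + 1) * ((n + 1) * E + B / 2 ^ n)) :=
            mul_le_mul_of_nonneg_left h6 hC2.le
        _ = C2 * (C1 + 1) * ((n + 1) * E + B / 2 ^ n) := by ring
    · rw [if_neg hw, zero_mul]
      split_ifs
      · exact hp
      · exact le_rfl
  have hfin : ∑ w : Fin (k + 2) → Ω with ev w, cw P W (k + 1) w =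
      ∑ w : Fin (k + 1 + 1) → Ω, (if ev w then (1 : ℝ) else 0) * cw P W (k + 1) w := by
    rw [Finset.sum_filter]
    refine Finset.sum_congr rfl fun w _ => ?_
    split_ifs <;> simp
  rw [hfin, pf_sum_cw]
  have hterm : ∀ s ∈ img W, P.pr W s * (if 0 < P.pr W s then ∑ w : Fin (k + 1 + 1) → Ω,
      (if ev w then (1 : ℝ) else 0) * ∏ j, (P.cond W s).w (w j) else 0) ≤
      P.pr W s * (if δ₂ < b1 s then (1 : ℝ) else 0) +
        P.pr W s * (if δ₂ / (2 ^ n) ^ k < b2 s then (1 : ℝ) else 0) + P.pr W s * (ε / 2) := by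
    intro s _
    rw [← mul_add, ← mul_add]
    refine mul_le_mul_of_nonneg_left ?_ (P.pr_nonneg W s)
    have hi1 : 0 ≤ (if δ₂ < b1 s then (1 : ℝ) else 0) := by split_ifs <;> norm_num
    have hi2 : 0 ≤ (if δ₂ / (2 ^ n) ^ k < b2 s then (1 : ℝ) else 0) := by split_ifs <;> norm_num
    by_cases hs : 0 < P.pr W s
    · rw [if_pos hs]
      have hle1 : ∑ w : Fin (k + 1 + 1) → Ω,
          (if ev w then (1 : ℝ) else 0) * ∏ j, (P.cond W s).w (w j) ≤ 1 := by
        refine le_trans (Finset.sum_le_sum fun w _ => ?_) (pf_prod_one (P.cond W s) (k + 1 + 1)).le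
        have hp : 0 ≤ ∏ j, (P.cond W s).w (w j) := Finset.prod_nonneg fun j _ => (P.cond W s).nn _
        split_ifs
        · rw [one_mul]
        · rw [zero_mul]
          exact hp
      by_cases h1 : δ₂ < b1 s
      · rw [if_pos h1]
        linarith only [hε, hi2, hle1]
      · by_cases h2 : δ₂ / (2 ^ n) ^ k < b2 s
        · rw [if_pos h2]
          linarith only [hε, hi1, hle1]
        · have := hgood s hs h1 h2
          linarith only [hi1, hi2, this]
    · rw [if_neg hs]
      linarith only [hε, hi1, hi2]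
  refine (Finset.sum_le_sum hterm).trans ?_
  rw [Finset.sum_add_distrib, Finset.sum_add_distrib, ← Finset.sum_mul, P.sum_pr_image W]
  linarith only [hm1, hm2]

end Vale.Agent.P127.Stk
end

section

/-!
# P127 / Stk : `AK → CK` (PROOF.md, section 7)
-/

set_option linter.all false

namespace Vale.Agent.P127.Stk

open Finset Polynomial Vale.Agent.P127

section pe

variable {Ω : Type} [Fintype Ω] {m : ℕ}

/-- the low digits lie in `[0, 2^(L-a))` -/
theorem pe_floor {a L : ℕ} (h : a ≤ L) (t : ℝ) :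
    0 ≤ fl1 L t - 2 ^ (L - a) * fl1 a t ∧ fl1 L t - 2 ^ (L - a) * fl1 a t < 2 ^ (L - a) := by
  have h1 : fl1 a t = fl1 L t / ((2 ^ (L - a) : ℕ) : ℤ) := floor_pow_aux h t
  have h2 : ((2 ^ (L - a) : ℕ) : ℤ) = 2 ^ (L - a) := by push_cast; rfl
  rw [h2] at h1
  have hpos : (0 : ℤ) < 2 ^ (L - a) := by positivity
  have h3 : fl1 L t - 2 ^ (L - a) * fl1 a t = fl1 L t % 2 ^ (L - a) := by
    rw [h1]
    have := Int.emod_add_mul_ediv (fl1 L t) (2 ^ (L - a))
    linarith only [this]
  rw [h3]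
  exact ⟨Int.emod_nonneg _ hpos.ne', Int.emod_lt_of_pos _ hpos⟩

theorem pe_apw_nonneg {S : Type*} (P : Law Ω) (W : Ω → S) (U : Ω → ℤ) (M p : ℕ)
    (w : Fin (p + 1) → Ω) : 0 ≤ apw P W U M p w := by
  unfold apw
  split_ifs
  · exact mul_nonneg (cw_nn_aux P W p w)
      (Finset.prod_nonneg fun j _ => idn_nonneg P W U M (w j))
  · exact le_rfl

/-- Lagrange coefficients are invariant under affine maps -/
theorem pe_lag {k : ℕ} (t b : Ω → ℝ) (s : ℝ) (hs : s ≠ 0) (w : Fin (k + 2) → Ω)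
    (hb : ∀ i j, b (w i) = b (w j)) (l : Fin (k + 1)) :
    lag (fun ω => s * t ω - b ω) w l = lag t w l := by
  unfold lag
  refine Finset.prod_congr rfl fun l' _ => ?_
  have e1 : (s * t (w (Fin.last (k + 1))) - b (w (Fin.last (k + 1)))) -
      (s * t (w l'.castSucc) - b (w l'.castSucc)) =
      s * (t (w (Fin.last (k + 1))) - t (w l'.castSucc)) := by
    rw [hb (Fin.last (k + 1)) l'.castSucc]; ring
  have e2 : (s * t (w l.castSucc) - b (w l.castSucc)) -
      (s * t (w l'.castSucc) - b (w l'.castSucc)) =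
      s * (t (w l.castSucc) - t (w l'.castSucc)) := by
    rw [hb l.castSucc l'.castSucc]; ring
  rw [e1, e2, mul_div_mul_left _ _ hs]

/-- the entropy hypothesis in terms of the low digits -/
theorem pe_hc (P : Law Ω) (c : Cf Ω m) (a L : ℕ) :
    hc P (low c a L) (key c a) =
      hc P (fun ω => fl1 L (c.t ω)) (fun ω => (fl1 a (c.t ω), c.x ω, c.y ω, c.A ω)) := by
  refine hc_congr P ?_ ?_ ?_ ?_
  · intro ω ω' _ _ e
    simp only [key, Prod.mk.injEq] at e
    simp only [low, e.1, e.2.2.2.2]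
  · intro ω ω' _ _ e
    simp only [key, Prod.mk.injEq] at e
    have h1 := e.1
    simp only [low, e.2.2.2.2] at h1
    linarith only [h1]
  · intro ω ω' _ _ e
    simp only [Prod.mk.injEq] at e
    simp only [key, Prod.mk.injEq]
    exact ⟨e.2.1, e.2.2.1, e.2.2.2, e.1⟩
  · intro ω ω' _ _ e
    simp only [key, Prod.mk.injEq] at e
    simp only [Prod.mk.injEq]
    exact ⟨e.2.2.2, e.1, e.2.1, e.2.2.1⟩

/-- large numbers of digits -/
theorem pe_large (ε Cp : ℝ) (hε : 0 < ε) (hCp : 0 < Cp) (M0 κ : ℕ) : ∃ L0 : ℝ, 0 < L0 ∧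
    ∀ L : ℝ, L0 ≤ L → 1 ≤ L ∧ 2 * (M0 : ℝ) ≤ L ∧
      Cp * ((L + 1) * (2 : ℝ) ^ (-(ε / 2 * L))) ≤ 1 / 2 ∧
      Cp * (3 ^ κ * (2 : ℝ) ^ (-(ε * L))) ≤ 1 / 2 := by
  have hl2 : 0 < Real.log 2 := Real.log_pos (by norm_num)
  set b : ℝ := ε / 2 * Real.log 2 with hb
  have hb0 : 0 < b := by positivity
  refine ⟨1 + 2 * M0 + 8 * Cp / b ^ 2 + 2 * Cp * 3 ^ κ / (2 * b), by positivity,
    fun L hL => ?_⟩
  have hA : 0 ≤ 8 * Cp / b ^ 2 := by positivity
  have hB : 0 ≤ 2 * Cp * 3 ^ κ / (2 * b) := by positivity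
  have hM : (0 : ℝ) ≤ 2 * M0 := by (clear * -; positivity)
  have hL1 : 1 ≤ L := by linarith only [hL, hA, hB]
  have hL0 : 0 < L := by linarith only [hL, hA, hB]
  refine ⟨hL1, by linarith only [hL, hA, hB], ?_, ?_⟩
  · have e1 : (2 : ℝ) ^ (-(ε / 2 * L)) = (Real.exp (b * L))⁻¹ := by
      rw [Real.rpow_def_of_pos (by norm_num), ← Real.exp_neg]
      congr 1
      rw [hb]; ring
    have h1 : (b * L) ^ 2 / 2 ≤ Real.exp (b * L) := by
      have := Real.quadratic_le_exp_of_nonneg (x := b * L) (by (clear * - hε hL1; positivity))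
      nlinarith only [this, hb0, hL0]
    rw [e1]
    have h2 : (0 : ℝ) < Real.exp (b * L) := Real.exp_pos _
    rw [← div_eq_mul_inv, mul_div_assoc', div_le_iff₀ h2]
    have h3 : 8 * Cp ≤ L * b ^ 2 := by
      have : 8 * Cp / b ^ 2 ≤ L := by linarith only [hL, hB]
      rwa [div_le_iff₀ (by positivity)] at this
    have h4 : Cp * (L + 1) ≤ Cp * (2 * L) := mul_le_mul_of_nonneg_left (by linarith only [hL, hA, hB]) hCp.le
    have h5 : 8 * Cp * L ≤ L * b ^ 2 * L := mul_le_mul_of_nonneg_right h3 hL0.le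
    linarith
  · have e1 : (2 : ℝ) ^ (-(ε * L)) = (Real.exp (2 * b * L))⁻¹ := by
      rw [Real.rpow_def_of_pos (by norm_num), ← Real.exp_neg]
      congr 1
      rw [hb]; ring
    have h1 : 2 * b * L ≤ Real.exp (2 * b * L) := by
      have := Real.add_one_le_exp (2 * b * L)
      linarith only [this]
    rw [e1]
    have h2 : (0 : ℝ) < Real.exp (2 * b * L) := Real.exp_pos _
    rw [← div_eq_mul_inv, mul_div_assoc', div_le_iff₀ h2]
    have h3 : 2 * Cp * 3 ^ κ ≤ L * (2 * b) := by
      have : 2 * Cp * 3 ^ κ / (2 * b) ≤ L := by linarith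
      rwa [div_le_iff₀ (by positivity)] at this
    nlinarith only [h1, h3]

open Classical in
/-- from the normalised law to the unnormalised weights -/
theorem pe_mass (P : Law Ω) {S : Type*} (W : Ω → S) (U : Ω → ℤ) (M p : ℕ) (hM : 1 ≤ M)
    (hp : 1 ≤ p) (hU : ∀ ω, 0 < P.w ω → 0 ≤ U ω ∧ U ω < M) (F : Finset (Fin (p + 1) → Ω))
    (εA δ : ℝ) (hεA : 0 ≤ εA) (hδ : 2 * εA ≤ δ)
    (h : ∀ Q : Law (Fin (p + 1) → Ω), (∃ Z : ℝ, 0 < Z ∧ ∀ w, Q.w w = apw P W U M p w / Z) →
      ∑ w ∈ F, Q.w w ≤ εA) :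
    ∑ w ∈ F, apw P W U M p w ≤ δ / (M : ℝ) ^ (p - 1) := by
  have hM0 : (0 : ℝ) < M := by exact_mod_cast hM
  have hnn := pe_apw_nonneg P W U M p
  have hmass := apw_mass_le P W U M p hM hp hU
  have hMp : (0 : ℝ) < (M : ℝ) ^ (p - 1) := by positivity
  rcases (Finset.sum_nonneg (s := (univ : Finset (Fin (p + 1) → Ω)))
    fun w _ => hnn w).eq_or_lt with h0 | h0
  · have h1 : ∑ w ∈ F, apw P W U M p w ≤ ∑ w, apw P W U M p w :=
      Finset.sum_le_sum_of_subset_of_nonneg (Finset.subset_univ _) fun w _ _ => hnn w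
    rw [← h0] at h1
    exact h1.trans (div_nonneg (by linarith only [hεA, hδ]) hMp.le)
  · set Z := ∑ w, apw P W U M p w with hZ
    have h1 := h ⟨fun w => apw P W U M p w / Z, fun w => div_nonneg (hnn w) h0.le, by
      rw [← Finset.sum_div, ← hZ, div_self h0.ne']⟩ ⟨Z, h0, fun _ => rfl⟩
    simp only at h1
    rw [← Finset.sum_div, div_le_iff₀ h0] at h1
    refine h1.trans ?_
    calc εA * Z ≤ εA * (2 / (M : ℝ) ^ (p - 1)) := mul_le_mul_of_nonneg_left hmass hεA
      _ = (2 * εA) / (M : ℝ) ^ (p - 1) := by ring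
      _ ≤ δ / (M : ℝ) ^ (p - 1) := div_le_div_of_nonneg_right hδ hMp.le

end pe

/-- section 7 -/
theorem interp (R : Gr) : PInterp R := by
  classical
  intro m h κ k hk hA ε hε
  obtain ⟨δ, hδ, Cp, hCp, M0, hlaw⟩ := law_poly k (ε / (m * m + 1)) (by positivity)
  obtain ⟨ι, hι, εu1, hεu1, hA1⟩ := hA (min (ε / 2) (δ / 2)) (by positivity)
  set εA : ℝ := min (ε / 2) (δ / 2) with hεA
  have hεA0 : 0 < εA := by positivity
  refine ⟨ι, hι, min εu1 ((δ / 2) ^ 2), by positivity, fun g => ?_⟩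
  obtain ⟨n1, hn1⟩ := hA1 g
  obtain ⟨L0, hL0, hbig⟩ := pe_large ε Cp hε hCp M0 κ
  obtain ⟨n2, hn2⟩ := R.small g (1 / L0) (by (clear * - hL0; positivity))
  refine ⟨max n1 n2, fun a e C hok Ω _ P c o hyp Q hQ => ?_⟩
  have hok1 := R.anti g n1 _ _ _ _ (le_max_left _ _) hok
  have hok2 := R.anti g n2 _ _ _ _ (le_max_right _ _) hok
  have hLL : L0 ≤ (((κ + 4) * a : ℕ) : ℝ) := by
    have h1 := (hn2 _ _ _ hok2).1
    rw [one_div, inv_mul_eq_div, le_div_iff₀ hL0] at h1
    linarith only [h1]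
  obtain ⟨hL1, hLM, hb1, hb2⟩ := hbig _ hLL
  set L : ℕ := (κ + 4) * a with hLdef
  set n : ℕ := (κ + 3) * a with hndef
  have hnL : n + a = L := by rw [hndef, hLdef]; ring
  have haL : a ≤ L := by omega
  have hLa : L - a = n := by omega
  have hn2L : L ≤ 2 * n := by rw [hndef, hLdef]; nlinarith only []
  have ha1 : 1 ≤ a := by
    by_contra h0
    have : a = 0 := by omega
    rw [hLdef, this] at hL1
    norm_num at hL1
  have hM0n : M0 ≤ 2 ^ n := by
    have h1 : (2 * M0 : ℕ) ≤ L := by exact_mod_cast hLM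
    have h2 : M0 ≤ n := by omega
    exact h2.trans Nat.lt_two_pow_self.le
  -- the hypotheses
  have hyp1 : Hyp h κ a ι εu1 e C P c o :=
    ⟨hyp.good, hyp.cost, hyp.rate, by
      have h1 := hyp.unif
      have h2 : min εu1 ((δ / 2) ^ 2) ≤ εu1 := min_le_left _ _
      linarith only [h1, h2]⟩
  have hAQ := hn1 a e C hok1 Ω P c o hyp1
  have hUr : ∀ ω, 0 ≤ low c a L ω ∧ low c a L ω < 2 ^ n := by
    intro ω
    have := pe_floor haL (c.t ω)
    rw [hLa] at this
    unfold low
    rw [hLa]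
    exact this
  set τ : Ω → ℝ := fun ω => 2 ^ L * c.t ω - 2 ^ n * (fl1 a (c.t ω) : ℝ) with hτ
  have hτr : ∀ ω, ((low c a L ω : ℤ) : ℝ) ≤ τ ω ∧ τ ω ≤ (low c a L ω : ℤ) + 1 := by
    intro ω
    have h1 : ((low c a L ω : ℤ) : ℝ) = (fl1 L (c.t ω) : ℝ) - 2 ^ n * (fl1 a (c.t ω) : ℝ) := by
      unfold low
      rw [hLa]
      push_cast
      ring
    have h2 : (fl1 L (c.t ω) : ℝ) ≤ 2 ^ L * c.t ω := Int.floor_le _
    have h3 : 2 ^ L * c.t ω < (fl1 L (c.t ω) : ℝ) + 1 := Int.lt_floor_add_one _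
    rw [h1, hτ]
    constructor
    · simp only; linarith only [h2]
    · simp only; linarith only [h3]
  have hl1 : P.ex (fun ω => l1 P (key c a) (low c a L) (2 ^ n) (key c a ω)) ≤ δ := by
    have hu : min εu1 ((δ / 2) ^ 2) ≤ (δ / 2) ^ 2 := min_le_right _ _
    have h1 := unif_l1 P (key c a) (low c a L) (2 ^ n) Nat.one_le_two_pow (fun ω _ => by
      have := hUr ω
      push_cast
      exact this) ((δ / 2) ^ 2) (by positivity) (by
        rw [pe_hc]
        have h2 := hyp.unif
        have h3 : Real.log ((2 ^ n : ℕ) : ℝ) = (((κ + 4) * a : ℕ) - (a : ℝ)) * Real.log 2 := by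
          push_cast
          rw [Real.log_pow, hndef]
          push_cast
          ring
        rw [h3]
        linarith only [hu, h2])
    rw [Real.sqrt_sq (by positivity)] at h1
    linarith only [h1]
  -- the thresholds
  set Thr : ℝ := (2 : ℝ) ^ (-(((k + 1) * a : ℕ) : ℝ) + ε * (L : ℕ)) with hThr
  set E : ℝ := (2 : ℝ) ^ (-(((k + 1) * a : ℕ) : ℝ) + εA * (L : ℕ)) with hE
  have hE0 : 0 < E := by positivity
  have hThr0 : 0 < Thr := by positivity
  have hEThr : E ≤ Thr * (2 : ℝ) ^ (-(ε / 2 * L)) := by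
    rw [hThr, hE, ← Real.rpow_add (by norm_num)]
    refine Real.rpow_le_rpow_of_exponent_le (by norm_num) ?_
    have h1 : εA ≤ ε / 2 := min_le_left _ _
    have h2 : εA * (L : ℝ) ≤ ε / 2 * L := mul_le_mul_of_nonneg_right h1 (by (clear * - ha1; positivity))
    linarith only [h2]
  have hThrB : Cp * ((n + 1) * E + 3 ^ κ / 2 ^ n) ≤ Thr := by
    have hnl : (n : ℝ) + 1 ≤ L + 1 := by
      have : (n : ℝ) ≤ L := by exact_mod_cast (by (clear * - hnL ha1; omega) : n ≤ L)
      linarith only [this]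
    have h1 : Cp * ((n + 1) * E) ≤ Thr / 2 := by
      have h2 : ((n : ℝ) + 1) * E ≤ (L + 1) * (Thr * (2 : ℝ) ^ (-(ε / 2 * L))) :=
        mul_le_mul hnl hEThr hE0.le (by positivity)
      have h3 := mul_le_mul_of_nonneg_left h2 hCp.le
      have h4 := mul_le_mul_of_nonneg_right hb1 hThr0.le
      calc Cp * ((n + 1) * E) ≤ Cp * ((L + 1) * (Thr * (2 : ℝ) ^ (-(ε / 2 * L)))) := h3
        _ = Cp * ((L + 1) * (2 : ℝ) ^ (-(ε / 2 * L))) * Thr := by ring
        _ ≤ 1 / 2 * Thr := h4
        _ = Thr / 2 := by ring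
    have h5 : Cp * (3 ^ κ / 2 ^ n) ≤ Thr / 2 := by
      have h6 : (1 : ℝ) / 2 ^ n ≤ Thr * (2 : ℝ) ^ (-(ε * L)) := by
        rw [hThr, ← Real.rpow_add (by norm_num), one_div, ← Real.rpow_natCast,
          ← Real.rpow_neg (by norm_num)]
        refine Real.rpow_le_rpow_of_exponent_le (by norm_num) ?_
        have h7 : (((k + 1) * a : ℕ) : ℝ) ≤ (n : ℝ) := by
          have : (k + 1) * a ≤ n := by
            rw [hndef]
            exact Nat.mul_le_mul_right _ (by (clear * - hk; omega))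
          exact_mod_cast this
        linarith only [h7]
      have h8 := mul_le_mul_of_nonneg_left h6 (by positivity : (0 : ℝ) ≤ Cp * 3 ^ κ)
      have h9 := mul_le_mul_of_nonneg_right hb2 hThr0.le
      calc Cp * (3 ^ κ / 2 ^ n) = Cp * 3 ^ κ * (1 / 2 ^ n) := by ring
        _ ≤ Cp * 3 ^ κ * (Thr * (2 : ℝ) ^ (-(ε * L))) := h8
        _ = Cp * (3 ^ κ * (2 : ℝ) ^ (-(ε * L))) * Thr := by ring
        _ ≤ 1 / 2 * Thr := h9
        _ = Thr / 2 := by ring
    linarith only [h1, h5]
  -- one entry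
  have hone : ∀ i j, i ∉ o.J → j ∈ o.J →
      ∑ w with Thr < |o.Γ (w (Fin.last (k + 1))) i j -
        ∑ l : Fin (k + 1), lag c.t w l * o.Γ (w l.castSucc) i j|, Q.w w ≤
        ε / (m * m + 1) := by
    intro i j hi hj
    have hap := pe_mass P (key c a) (low c a L) (2 ^ n) (k + 1) Nat.one_le_two_pow (by omega)
      (fun ω _ => by
        have := hUr ω
        push_cast
        exact this)
      (univ.filter fun w => E < |∑ l : Fin (k + 2), (-1 : ℝ) ^ (l : ℕ) *
        ((k + 1).choose l : ℝ) * o.Γ (w l) i j|) εA δ hεA0.le (by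
          have : εA ≤ δ / 2 := min_le_right _ _
          linarith only [this]) (by
        intro Q' hQ'
        refine le_trans ?_ (hAQ Q' hQ')
        refine Finset.sum_le_sum_of_subset_of_nonneg ?_ fun w _ _ => Q'.nn w
        intro w hw
        simp only [mem_filter, mem_univ, true_and] at hw ⊢
        exact ⟨i, hi, j, hj, hw⟩)
    have hlp := hlaw n hM0n Ω _ P (key c a) (low c a L) (fun ω => o.Γ ω i j) τ E (3 ^ κ) hE0
      (by positivity) (fun ω _ => hUr ω) (fun ω _ => hτr ω) (fun ω => o.bd ω i j) hl1 (by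
        have h2 : (((2 ^ n : ℕ) : ℝ)) ^ (k + 1 - 1) = (2 ^ n) ^ k := by
          push_cast
          simp
        rw [h2] at hap
        exact hap)
    refine le_trans ?_ hlp
    rw [Finset.sum_filter, Finset.sum_filter]
    refine Finset.sum_le_sum fun w _ => ?_
    rw [hQ w]
    have hcw := cw_nn_aux P (key c a) (k + 1) w
    rcases hcw.eq_or_lt with h0 | h0
    · rw [← h0]
      simp only [ite_self, Std.le_refl]
    · have hkey : ∀ i, key c a (w i) = key c a (w 0) := by
        by_contra hne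
        unfold cw at h0
        rw [if_neg hne] at h0
        exact lt_irrefl _ h0
      have hlag : ∀ l : Fin (k + 1), lag τ w l = lag c.t w l := by
        intro l
        refine pe_lag c.t (fun ω => 2 ^ n * (fl1 a (c.t ω) : ℝ)) (2 ^ L) (by positivity) w ?_ l
        intro i' j'
        have h1 := (hkey i').trans (hkey j').symm
        simp only [key, Prod.mk.injEq] at h1
        simp only [h1.2.2.2]
      simp only [hlag]
      by_cases hT : Thr < |o.Γ (w (Fin.last (k + 1))) i j -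
        ∑ l : Fin (k + 1), lag c.t w l * o.Γ (w l.castSucc) i j|
      · rw [if_pos hT, if_pos (hThrB.trans_lt hT)]
      · rw [if_neg hT]
        split_ifs
        · exact hcw
        · exact le_rfl
  -- union bound
  have hε' : 0 ≤ ε / (m * m + 1) := by (clear * - hε; positivity)
  calc ∑ w with (∃ i, i ∉ o.J ∧ ∃ j ∈ o.J, Thr < |o.Γ (w (Fin.last (k + 1))) i j -
          ∑ l : Fin (k + 1), lag c.t w l * o.Γ (w l.castSucc) i j|), Q.w w
      ≤ ∑ i : Fin m, ∑ j : Fin m, ∑ w : Fin (k + 2) → Ω,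
          (if (i ∉ o.J ∧ j ∈ o.J ∧ Thr < |o.Γ (w (Fin.last (k + 1))) i j -
            ∑ l : Fin (k + 1), lag c.t w l * o.Γ (w l.castSucc) i j|) then Q.w w else 0) := by
        have hsw : ∑ i : Fin m, ∑ j : Fin m, ∑ w : Fin (k + 2) → Ω,
            (if (i ∉ o.J ∧ j ∈ o.J ∧ Thr < |o.Γ (w (Fin.last (k + 1))) i j -
              ∑ l : Fin (k + 1), lag c.t w l * o.Γ (w l.castSucc) i j|) then Q.w w else 0) =
            ∑ w : Fin (k + 2) → Ω, ∑ i : Fin m, ∑ j : Fin m,
            (if (i ∉ o.J ∧ j ∈ o.J ∧ Thr < |o.Γ (w (Fin.last (k + 1))) i j -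
              ∑ l : Fin (k + 1), lag c.t w l * o.Γ (w l.castSucc) i j|) then Q.w w else 0) := by
          rw [Finset.sum_congr rfl fun i _ => Finset.sum_comm]
          rw [Finset.sum_comm]
        rw [hsw, Finset.sum_filter]
        refine Finset.sum_le_sum fun w _ => ?_
        have hnn : ∀ i j : Fin m, 0 ≤ (if (i ∉ o.J ∧ j ∈ o.J ∧
            Thr < |o.Γ (w (Fin.last (k + 1))) i j -
              ∑ l : Fin (k + 1), lag c.t w l * o.Γ (w l.castSucc) i j|) then Q.w w else 0) := by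
          intro i j
          split_ifs
          · exact Q.nn w
          · exact le_rfl
        split_ifs with hex
        · obtain ⟨i, hi, j, hj, hT⟩ := hex
          refine le_trans ?_ (Finset.single_le_sum (f := fun i : Fin m => ∑ j : Fin m,
            (if (i ∉ o.J ∧ j ∈ o.J ∧ Thr < |o.Γ (w (Fin.last (k + 1))) i j -
              ∑ l : Fin (k + 1), lag c.t w l * o.Γ (w l.castSucc) i j|) then Q.w w else 0))
            (fun i _ => Finset.sum_nonneg fun j _ => hnn i j) (Finset.mem_univ i))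
          refine le_trans ?_ (Finset.single_le_sum (f := fun j : Fin m =>
            (if (i ∉ o.J ∧ j ∈ o.J ∧ Thr < |o.Γ (w (Fin.last (k + 1))) i j -
              ∑ l : Fin (k + 1), lag c.t w l * o.Γ (w l.castSucc) i j|) then Q.w w else 0))
            (fun j _ => hnn i j) (Finset.mem_univ j))
          rw [if_pos ⟨hi, hj, hT⟩]
        · exact Finset.sum_nonneg fun i _ => Finset.sum_nonneg fun j _ => hnn i j
    _ ≤ ∑ i : Fin m, ∑ j : Fin m, ε / (m * m + 1) := by
        refine Finset.sum_le_sum fun i _ => Finset.sum_le_sum fun j _ => ?_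
        by_cases hij : i ∉ o.J ∧ j ∈ o.J
        · refine le_trans (le_of_eq ?_) (hone i j hij.1 hij.2)
          rw [Finset.sum_filter]
          refine Finset.sum_congr rfl fun w _ => ?_
          have h1 := hij.1
          have h2 := hij.2
          by_cases hT : Thr < |o.Γ (w (Fin.last (k + 1))) i j -
            ∑ l : Fin (k + 1), lag c.t w l * o.Γ (w l.castSucc) i j|
          · rw [if_pos ⟨h1, h2, hT⟩, if_pos hT]
          · rw [if_neg hT, if_neg fun hh => hT hh.2.2]
        · refine le_trans (le_of_eq ?_) hε'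
          refine Finset.sum_eq_zero fun w _ => if_neg ?_
          rintro ⟨h1, h2, _⟩
          exact hij ⟨h1, h2⟩
    _ = (m * m : ℝ) * (ε / (m * m + 1)) := by
        simp only [sum_const, card_univ, Fintype.card_fin, nsmul_eq_mul]
        ring
    _ ≤ ε := by
        rw [mul_div_assoc', div_le_iff₀ (by (clear * -; positivity))]
        nlinarith only [hε]

end Vale.Agent.P127.Stk
end
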