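import Mathlib
import Vale.Agent.P127.Bdl.B1
import Vale.Agent.P127.MathlibUsed
import Vale.Agent.P127.KDefs
import Vale.Agent.P127.Bdl.B2

set_option linter.all false

section

section

/-!
# P127: the finite core statement
-/

namespace Vale.Agent.P127

open Finset Law

/-- the law of (uniform line, uniform good height) -/
noncomputable def shLaw {N : ℕ} {Λ : Type} [Fintype Λ] [Nonempty Λ] (E : Λ → Finset ℕ)
    (hE : ∀ l, E l ⊆ Finset.range N) (hne : ∀ l, (E l).Nonempty) : Law (Λ × Fin N) where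
  w p := if (p.2 : ℕ) ∈ E p.1 then 1 / ((Fintype.card Λ : ℝ) * (E p.1).card) else 0
  nn p := by split_ifs <;> positivity
  sum_one := by
    classical
    rw [Fintype.sum_prod_type]
    have h1 : ∀ l : Λ, ∑ i : Fin N, (if ((i : ℕ)) ∈ E l then
        1 / ((Fintype.card Λ : ℝ) * (E l).card) else 0) = 1 / (Fintype.card Λ : ℝ) := by
      intro l
      have h2 : ∑ i : Fin N, (if ((i : ℕ)) ∈ E l then
        1 / ((Fintype.card Λ : ℝ) * (E l).card) else 0) =
        ∑ i ∈ Finset.range N, (if i ∈ E l then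
        1 / ((Fintype.card Λ : ℝ) * (E l).card) else 0) := by
        rw [Finset.sum_range]
      rw [h2, ← Finset.sum_filter]
      have h3 : (Finset.range N).filter (fun i => i ∈ E l) = E l := by
        ext i
        simp only [Finset.mem_filter]
        exact ⟨fun h => h.2, fun h => ⟨hE l h, h⟩⟩
      rw [h3, Finset.sum_const, nsmul_eq_mul]
      have h4 : (0 : ℝ) < (E l).card := by exact_mod_cast (hne l).card_pos
      have h5 : (0 : ℝ) < Fintype.card Λ := by exact_mod_cast Fintype.card_pos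
      field_simp
    simp only [h1, Finset.sum_const, Finset.card_univ, nsmul_eq_mul]
    have h5 : (0 : ℝ) < Fintype.card Λ := by exact_mod_cast Fintype.card_pos
    field_simp

theorem kakeyaCore_of_sd {m : ℕ} {β : ℝ} (hβ : 0 ≤ β)
    (h : ∀ B : ℝ, 1 ≤ B → ∃ C : ℝ, 0 ≤ C ∧ SD m B β C) : KakeyaCore β m := by
  intro B hB
  obtain ⟨C, hC, hSD⟩ := h B hB
  refine ⟨C, hC, ?_⟩
  intro N hN Λ _ _ X V hX hV hinj E hE lam hlam hlam1 hcard S hS
  have hNpos : (0 : ℝ) < N := by exact_mod_cast hN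
  have hEpos : ∀ l, (0 : ℝ) < (E l).card := fun l => lt_of_lt_of_le (by (clear * - hlam hN; positivity)) (hcard l)
  have hne : ∀ l, (E l).Nonempty := fun l => by
    have := hEpos l
    rw [← Finset.card_pos]
    exact_mod_cast this
  have hΛ : (0 : ℝ) < Fintype.card Λ := by exact_mod_cast Fintype.card_pos
  set P := shLaw E hE hne with hP
  let F : LineFam m B := ⟨N, hN, Λ, inferInstance, X, V, hX, hV, hinj⟩
  have hw : ∀ p : Λ × Fin N, P.w p =
      if (p.2 : ℕ) ∈ E p.1 then 1 / ((Fintype.card Λ : ℝ) * (E p.1).card) else 0 := fun p => rfl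
  have hsupp : ∀ p : Λ × Fin N, 0 < P.w p → (p.2 : ℕ) ∈ E p.1 := by
    intro p hp
    rw [hw] at hp
    by_contra hcon
    rw [if_neg hcon] at hp
    exact lt_irrefl _ hp
  have main := hSD F (Λ × Fin N) P (fun p => p.1) (fun p => p.2)
  -- entropy of the line
  have hprL : ∀ l, P.pr (fun p : Λ × Fin N => p.1) l = 1 / (Fintype.card Λ : ℝ) := by
    classical
    intro l
    have h1 : P.pr (fun p : Λ × Fin N => p.1) l = ∑ i : Fin N, P.w (l, i) := by
      unfold Law.pr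
      rw [Finset.sum_filter, Fintype.sum_prod_type, Finset.sum_eq_single l]
      · simp only [↓reduceIte]
      · intro l' _ hl'
        refine Finset.sum_eq_zero fun i _ => ?_
        rw [if_neg hl']
      · intro hcon
        exact absurd (Finset.mem_univ l) hcon
    rw [h1]
    simp only [hw]
    have h2 : ∑ i : Fin N, (if ((i : ℕ)) ∈ E l then
        1 / ((Fintype.card Λ : ℝ) * (E l).card) else 0) =
        ∑ i ∈ Finset.range N, (if i ∈ E l then
        1 / ((Fintype.card Λ : ℝ) * (E l).card) else 0) := by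
      rw [Finset.sum_range]
    rw [h2, ← Finset.sum_filter]
    have h3 : (Finset.range N).filter (fun i => i ∈ E l) = E l := by
      ext i
      simp only [Finset.mem_filter]
      exact ⟨fun h => h.2, fun h => ⟨hE l h, h⟩⟩
    rw [h3, Finset.sum_const, nsmul_eq_mul]
    have h4 := hEpos l
    (clear m β hβ h B hB C hC hSD X V hX hV hinj hE hlam1 S hS hNpos hΛ P hP F hw hsupp main h1 h2 h3 h4; field_simp)
  have HL : P.H (fun p : Λ × Fin N => p.1) = Real.log (Fintype.card Λ) := by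
    unfold Law.H
    simp only [hprL]
    rw [P.ex_const, one_div, Real.log_inv, neg_neg]
  -- joint entropy
  have HtL : Real.log (Fintype.card Λ) + Real.log (lam * N) ≤
      P.H (fun p : Λ × Fin N => (p.2, p.1)) := by
    rw [← P.ex_const (Real.log (Fintype.card Λ) + Real.log (lam * N))]
    unfold Law.H
    refine P.ex_mono fun p hp => ?_
    have h1 : P.pr (fun p : Λ × Fin N => (p.2, p.1)) (p.2, p.1) = P.w p := by
      classical
      unfold Law.pr
      rw [Finset.sum_filter, Finset.sum_eq_single p]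
      · simp
      · intro q _ hq
        rw [if_neg]
        intro hcon
        apply hq
        simp only [Prod.mk.injEq] at hcon
        exact Prod.ext hcon.2 hcon.1
      · intro hcon
        exact absurd (Finset.mem_univ p) hcon
    rw [h1, hw, if_pos (hsupp p hp), one_div, Real.log_inv, neg_neg,
      Real.log_mul hΛ.ne' (hEpos _).ne']
    have := Real.log_le_log (by positivity) (hcard p.1)
    linarith only [this]
  -- entropy of the cell
  obtain ⟨l0⟩ := (inferInstance : Nonempty Λ)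
  obtain ⟨i0, hi0⟩ := hne l0
  have hSpos : ∀ l, ∀ i ∈ E l, (0 : ℝ) < (S i).card := by
    intro l i hi
    have : (S i).Nonempty := ⟨_, hS l i hi⟩
    exact_mod_cast this.card_pos
  set A : ℝ := (∑ i ∈ Finset.range N, ((S i).card : ℝ)) / (lam * N) with hA
  have hApos : 0 < A := by
    rw [hA]
    refine div_pos ?_ (by positivity)
    exact Finset.sum_pos' (fun i _ => by (clear * -; (clear * -; positivity))) ⟨i0, hE l0 hi0, hSpos l0 i0 hi0⟩
  have HC : P.H (fun p : Λ × Fin N => (F.cell p.1 p.2, p.2)) - P.H (fun p => p.2) ≤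
      Real.log A := by
    classical
    have h1 := P.gibbs_cond (fun p : Λ × Fin N => F.cell p.1 p.2) (fun p => p.2)
      (fun x i => if x ∈ S i then 1 / ((S i).card : ℝ) else 0)
      (fun x i => by split_ifs <;> (clear * -; positivity)) (by
        intro i T
        rw [← Finset.sum_filter, Finset.sum_const, nsmul_eq_mul]
        rcases Nat.eq_zero_or_pos (S i).card with h0 | h0
        · rw [h0]; simp only [CharP.cast_eq_zero, div_zero, mul_zero, zero_le_one]
        · have h2 : ((T.filter (fun x => x ∈ S i)).card : ℝ) ≤ (S i).card := by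
            exact_mod_cast Finset.card_le_card (fun x hx => (Finset.mem_filter.1 hx).2)
          have h3 : (0 : ℝ) < (S i).card := by exact_mod_cast h0
          rw [mul_one_div]
          exact div_le_one_of_le₀ h2 h3.le) (by
        intro p hp
        have hpE := hsupp p hp
        have h4 : F.cell p.1 p.2 ∈ S p.2 := hS p.1 p.2 hpE
        rw [if_pos h4]
        exact one_div_pos.2 (hSpos p.1 p.2 hpE))
    refine h1.trans ?_
    have h5 : P.ex (fun p => -Real.log (if F.cell p.1 p.2 ∈ S p.2 then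
        1 / ((S p.2).card : ℝ) else 0)) ≤
        P.ex (fun p => (Real.log A - 1) + A⁻¹ * ((S p.2).card : ℝ)) := by
      refine P.ex_mono fun p hp => ?_
      have hpE := hsupp p hp
      have h4 : F.cell p.1 p.2 ∈ S p.2 := hS p.1 p.2 hpE
      have h6 := hSpos p.1 p.2 hpE
      rw [if_pos h4, one_div, Real.log_inv, neg_neg]
      have h7 := Real.log_le_sub_one_of_pos (mul_pos (inv_pos.2 hApos) h6)
      rw [Real.log_mul (inv_pos.2 hApos).ne' h6.ne', Real.log_inv] at h7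
      linarith only [h7]
    refine h5.trans ?_
    rw [P.ex_add, P.ex_const, P.ex_const_mul]
    have h8 : P.ex (fun p : Λ × Fin N => ((S p.2).card : ℝ)) ≤ A := by
      unfold Law.ex
      rw [Fintype.sum_prod_type_right]
      have h9 : ∀ i : Fin N, ∑ l : Λ, P.w (l, i) * ((S i).card : ℝ) ≤
          ((S i).card : ℝ) / (lam * N) := by
        intro i
        rw [← Finset.sum_mul]
        have h10 : ∑ l : Λ, P.w (l, i) ≤ 1 / (lam * N) := by
          have h11 : ∀ l ∈ (Finset.univ : Finset Λ), P.w (l, i) ≤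
              1 / ((Fintype.card Λ : ℝ) * (lam * N)) := by
            intro l _
            rw [hw]
            simp only
            split_ifs
            · refine one_div_le_one_div_of_le (by (clear m β hβ h B hB C hC hSD X V hX hV hinj hE hlam1 hcard S hS hNpos hEpos hne hΛ P hP F hw hsupp main hprL HL HtL l0 i0 hi0 hSpos A hA hApos h1 h5; positivity)) ?_
              exact mul_le_mul_of_nonneg_left (hcard l) hΛ.le
            · (clear m β hβ h B hB C hC hSD X V hX hV hinj hE hlam1 hcard S hS hNpos hEpos hne hΛ P hP F hw hsupp main hprL HL HtL l0 i0 hi0 hSpos A hA hApos h1 h5; positivity)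
          refine (Finset.sum_le_sum h11).trans (le_of_eq ?_)
          rw [Finset.sum_const, Finset.card_univ, nsmul_eq_mul]
          (clear m β hβ h B hB C hC hSD X V hX hV hinj E hE hlam1 hcard S hS hNpos hEpos hne hΛ P hP F hw hsupp main hprL HL HtL l0 i0 hi0 hSpos A hA hApos h1 h5 i h11; field_simp)
        calc (∑ l : Λ, P.w (l, i)) * ((S i).card : ℝ) ≤ 1 / (lam * N) * ((S i).card : ℝ) :=
              mul_le_mul_of_nonneg_right h10 (by (clear * -; (clear * -; positivity)))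
          _ = ((S i).card : ℝ) / (lam * N) := by ring
      refine (Finset.sum_le_sum fun i _ => h9 i).trans (le_of_eq ?_)
      rw [← Finset.sum_div, hA, Finset.sum_range (fun i => ((S i).card : ℝ))]
    have h12 : A⁻¹ * P.ex (fun p : Λ × Fin N => ((S p.2).card : ℝ)) ≤ 1 := by
      calc A⁻¹ * P.ex (fun p : Λ × Fin N => ((S p.2).card : ℝ)) ≤ A⁻¹ * A :=
            mul_le_mul_of_nonneg_left h8 (inv_pos.2 hApos).le
        _ = 1 := inv_mul_cancel₀ hApos.ne'
    linarith only [h12]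
  -- conclusion
  have e1 : Real.log (1 / lam) = Real.log N - Real.log (lam * N) := by
    rw [one_div, Real.log_inv, Real.log_mul hlam.ne' hNpos.ne']
    ring
  have main' : P.H (fun p : Λ × Fin N => p.1) ≤
      β * (P.H (fun p : Λ × Fin N => (F.cell p.1 p.2, p.2)) - P.H (fun p => p.2)) +
      C * (1 + (Real.log N - (P.H (fun p : Λ × Fin N => (p.2, p.1)) -
        P.H (fun p : Λ × Fin N => p.1)))) := main
  have g1 := mul_le_mul_of_nonneg_left HC hβ
  have g2 : C * (1 + (Real.log N - (P.H (fun p : Λ × Fin N => (p.2, p.1)) -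
        P.H (fun p : Λ × Fin N => p.1)))) ≤ C * (1 + Real.log (1 / lam)) := by
    refine mul_le_mul_of_nonneg_left ?_ hC
    rw [e1]
    linarith only [HL, HtL]
  rw [HL] at main'
  rw [HL] at g2
  linarith only [main', g1, g2]

theorem kakeyaCore_of_gt (m : ℕ) {α : ℝ} (hα1 : 1 < α)
    (hα : α ^ 3 - 4 * α + 2 = 0) {β : ℝ} (hβ : α < β) : KakeyaCore β m :=
  kakeyaCore_of_sd (by linarith only [hα1, hβ]) fun B hB => sd_all m B (by linarith only [hB]) hα1 hα hβ

end Vale.Agent.P127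
end
end

section

section

/-!
# P127: covers of sets of small Hausdorff dimension
-/

namespace Vale.Agent.P127

open MeasureTheory MeasureTheory.Measure Finset

lemma geom_quarter (F : Finset ℕ) : ∑ i ∈ F, ((1 : ℝ) / 4) ^ (i + 1) ≤ 1 / 2 := by
  have h1 : Summable fun i : ℕ => ((1 : ℝ) / 4) ^ (i + 1) := by
    have := (summable_geometric_of_lt_one (by (clear * -; norm_num) : (0 : ℝ) ≤ 1 / 4) (by norm_num)).mul_right
      (1 / 4 : ℝ)
    simpa only [one_div, pow_succ, inv_pow] using this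
  have h2 : ∑' i : ℕ, ((1 : ℝ) / 4) ^ (i + 1) = 1 / 3 := by
    have h3 : ∑' i : ℕ, ((1 : ℝ) / 4) ^ (i + 1) = (∑' i : ℕ, ((1 : ℝ) / 4) ^ i) * (1 / 4) := by
      rw [← tsum_mul_right]
      simp only [one_div, pow_succ, inv_pow]
    rw [h3, tsum_geometric_of_lt_one (by norm_num) (by norm_num)]
    norm_num
  have h3 := h1.sum_le_tsum F (fun i _ => by (clear * -; positivity))
  rw [h2] at h3
  linarith only [h3]

theorem exists_cover {n : ℕ} {K : Set (EuclideanSpace ℝ (Fin n))} {s : NNReal}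
    (hs : dimH K < s) {r : ℝ} (hr : 0 < r) :
    ∃ (x : ℕ → EuclideanSpace ℝ (Fin n)) (ρ : ℕ → ℝ), (∀ i, 0 < ρ i) ∧ (∀ i, ρ i ≤ r) ∧
      K ⊆ ⋃ i, Metric.closedBall (x i) (ρ i) ∧ ∀ F : Finset ℕ, ∑ i ∈ F, ρ i ^ (s : ℝ) ≤ 1 := by
  classical
  borelize (EuclideanSpace ℝ (Fin n))
  have hs0 : (0 : ℝ) < s := by
    have : (0 : ENNReal) < s := lt_of_le_of_lt zero_le hs
    exact_mod_cast this
  have h0 : μH[(s : ℝ)] K = 0 := hausdorffMeasure_of_dimH_lt hs
  have hr' : (0 : ENNReal) < ENNReal.ofReal r := ENNReal.ofReal_pos.2 hr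
  have h1 : (⨅ (t : ℕ → Set (EuclideanSpace ℝ (Fin n))) (_ : K ⊆ ⋃ i, t i)
      (_ : ∀ i, Metric.ediam (t i) ≤ ENNReal.ofReal r),
      ∑' i, ⨆ _ : (t i).Nonempty, Metric.ediam (t i) ^ (s : ℝ)) ≤ μH[(s : ℝ)] K := by
    rw [hausdorffMeasure_apply]
    exact le_iSup₂ (f := fun (r : ENNReal) (_ : 0 < r) =>
      ⨅ (t : ℕ → Set (EuclideanSpace ℝ (Fin n))) (_ : K ⊆ ⋃ i, t i)
      (_ : ∀ i, Metric.ediam (t i) ≤ r),
      ∑' i, ⨆ _ : (t i).Nonempty, Metric.ediam (t i) ^ (s : ℝ)) (ENNReal.ofReal r) hr'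
  have h2 : (⨅ (t : ℕ → Set (EuclideanSpace ℝ (Fin n))) (_ : K ⊆ ⋃ i, t i)
      (_ : ∀ i, Metric.ediam (t i) ≤ ENNReal.ofReal r),
      ∑' i, ⨆ _ : (t i).Nonempty, Metric.ediam (t i) ^ (s : ℝ)) < 1 / 4 := by
    refine lt_of_le_of_lt (h1.trans h0.le) ?_
    (clear * -; norm_num)
  simp only [iInf_lt_iff] at h2
  obtain ⟨t, ht1, ht2, ht3⟩ := h2
  -- radii
  set η : ℕ → ℝ := fun i => min r ((((1 : ℝ) / 4) ^ (i + 1)) ^ (1 / (s : ℝ))) with hη
  have hηpos : ∀ i, 0 < η i := fun i => lt_min hr (by (clear * -; positivity))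
  have hηr : ∀ i, η i ≤ r := fun i => min_le_left _ _
  have hηs : ∀ i, η i ^ (s : ℝ) ≤ ((1 : ℝ) / 4) ^ (i + 1) := by
    intro i
    calc η i ^ (s : ℝ) ≤ ((((1 : ℝ) / 4) ^ (i + 1)) ^ (1 / (s : ℝ))) ^ (s : ℝ) :=
          Real.rpow_le_rpow (hηpos i).le (min_le_right _ _) hs0.le
      _ = ((1 : ℝ) / 4) ^ (i + 1) := by
          rw [← Real.rpow_mul (by positivity), one_div_mul_cancel hs0.ne', Real.rpow_one]
  set d : ℕ → ℝ := fun i => if (t i).Nonempty then (Metric.ediam (t i)).toReal else 0 with hd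
  have hd0 : ∀ i, 0 ≤ d i := fun i => by
    simp only [hd]; split_ifs <;> (clear * -; positivity)
  have hfin : ∀ i, Metric.ediam (t i) ≠ ⊤ := fun i =>
    ne_top_of_le_ne_top ENNReal.ofReal_ne_top (ht2 i)
  have hdr : ∀ i, d i ≤ r := fun i => by
    simp only [hd]
    split_ifs
    · exact ENNReal.toReal_le_of_le_ofReal hr.le (ht2 i)
    · exact hr.le
  refine ⟨fun i => if h : (t i).Nonempty then h.some else 0, fun i => max (d i) (η i),
    fun i => lt_max_of_lt_right (hηpos i), fun i => max_le (hdr i) (hηr i), ?_, ?_⟩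
  · intro y hy
    obtain ⟨i, hi⟩ := Set.mem_iUnion.1 (ht1 hy)
    refine Set.mem_iUnion.2 ⟨i, ?_⟩
    have hne : (t i).Nonempty := ⟨y, hi⟩
    rw [Metric.mem_closedBall]
    simp only [dif_pos hne]
    refine le_trans ?_ (le_max_left _ _)
    simp only [hd, if_pos hne]
    rw [dist_edist]
    exact ENNReal.toReal_mono (hfin i) (Metric.edist_le_ediam_of_mem hi hne.some_mem)
  · intro F
    have h3 : ∀ i ∈ F, (max (d i) (η i)) ^ (s : ℝ) ≤ d i ^ (s : ℝ) + ((1 : ℝ) / 4) ^ (i + 1) := by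
      intro i _
      rcases max_choice (d i) (η i) with h | h
      · rw [h]
        have : (0 : ℝ) ≤ ((1 : ℝ) / 4) ^ (i + 1) := by (clear * -; positivity)
        linarith only [this]
      · rw [h]
        have := hηs i
        have := Real.rpow_nonneg (hd0 i) (s : ℝ)
        (clear h0 hr' h1 ht1 ht2 ht3 hη hηr hfin hdr h; linarith)
    refine (Finset.sum_le_sum h3).trans ?_
    rw [Finset.sum_add_distrib]
    have h4 := geom_quarter F
    have h5 : ∑ i ∈ F, d i ^ (s : ℝ) ≤ 1 / 4 := by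
      have h6 : ∑ i ∈ F, ENNReal.ofReal (d i ^ (s : ℝ)) ≤ 1 / 4 := by
        refine le_trans ?_ ht3.le
        refine le_trans (Finset.sum_le_sum fun i _ => ?_) (ENNReal.sum_le_tsum F)
        by_cases hne : (t i).Nonempty
        · simp only [hd, if_pos hne]
          refine le_trans ?_ (le_iSup (fun _ : (t i).Nonempty => Metric.ediam (t i) ^ (s : ℝ)) hne)
          rw [← ENNReal.ofReal_rpow_of_nonneg ENNReal.toReal_nonneg hs0.le,
            ENNReal.ofReal_toReal (hfin i)]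
        · simp only [hd, if_neg hne]
          rw [Real.zero_rpow hs0.ne']
          simp only [ENNReal.ofReal_zero, zero_le]
      rw [← ENNReal.ofReal_sum_of_nonneg (fun i _ => Real.rpow_nonneg (hd0 i) _)] at h6
      have h7 : (1 : ENNReal) / 4 = ENNReal.ofReal (1 / 4) := by
        rw [ENNReal.ofReal_div_of_pos (by norm_num)]
        simp
      rw [h7] at h6
      exact (ENNReal.ofReal_le_ofReal_iff (by (clear * -; norm_num))).1 h6
    linarith only [h4, h5]

end Vale.Agent.P127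
end
end

section

section

/-!
# P127: parametrisation of the segments of a Kakeya set by the last coordinate
-/

namespace Vale.Agent.P127

open MeasureTheory Finset

variable {m : ℕ}

/-- the point `(x + y v, y)` -/
noncomputable def pt (x v : Fin m → ℝ) (y : ℝ) : EuclideanSpace ℝ (Fin (m + 1)) :=
  WithLp.toLp 2 (Fin.snoc (α := fun _ => ℝ) (fun i => x i + y * v i) y)

lemma pt_castSucc (x v : Fin m → ℝ) (y : ℝ) (i : Fin m) :
    (pt x v y).ofLp (Fin.castSucc i) = x i + y * v i := by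
  simp only [pt, Fin.snoc_castSucc]

lemma pt_last (x v : Fin m → ℝ) (y : ℝ) : (pt x v y).ofLp (Fin.last m) = y := by
  simp [pt]

theorem exists_line {K : Set (EuclideanSpace ℝ (Fin (m + 1)))} (hK : IsKakeya (m + 1) K)
    (v : Fin m → ℝ) (hv : ∀ i, v i ∈ Set.Icc (0 : ℝ) 1) :
    ∃ (x : Fin m → ℝ) (y0 : ℝ),
      ∀ y ∈ Set.Icc y0 (y0 + 1 / Real.sqrt (m + 1)), pt x v y ∈ K := by
  set d : EuclideanSpace ℝ (Fin (m + 1)) :=
    WithLp.toLp 2 (Fin.snoc (α := fun _ => ℝ) v 1) with hd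
  have hdc : ∀ i : Fin m, d.ofLp (Fin.castSucc i) = v i := fun i => by simp [hd]
  have hdl : d.ofLp (Fin.last m) = 1 := by simp [hd]
  have hnorm : ‖d‖ ^ 2 = ∑ i, v i ^ 2 + 1 := by
    rw [EuclideanSpace.norm_eq, Real.sq_sqrt (Finset.sum_nonneg fun i _ => by (clear * -; (clear * -; positivity))),
      Fin.sum_univ_castSucc]
    simp only [hdc, Real.norm_eq_abs, sq_abs, hdl, norm_one, one_pow]
  have hsum0 : 0 ≤ ∑ i, v i ^ 2 := Finset.sum_nonneg fun i _ => by (clear * -; (clear * -; positivity))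
  have hsum1 : ∑ i, v i ^ 2 ≤ m := by
    calc ∑ i, v i ^ 2 ≤ ∑ _i : Fin m, (1 : ℝ) := by
          refine Finset.sum_le_sum fun i _ => ?_
          have := hv i
          nlinarith only [this.1, this.2]
      _ = m := by simp only [sum_const, card_univ, Fintype.card_fin, nsmul_eq_mul, mul_one]
  have hd1 : 1 ≤ ‖d‖ := by nlinarith only [norm_nonneg d, hnorm, hsum0]
  have hd0 : 0 < ‖d‖ := by linarith only [hd1]
  have hd2 : ‖d‖ ≤ Real.sqrt (m + 1) := by
    rw [← Real.sqrt_sq hd0.le]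
    exact Real.sqrt_le_sqrt (by rw [hnorm]; linarith only [hsum1])
  obtain ⟨a, ha⟩ := hK (‖d‖⁻¹ • d) (by
    rw [norm_smul, norm_inv, norm_norm, inv_mul_cancel₀ hd0.ne'])
  refine ⟨fun i => a.ofLp (Fin.castSucc i) - a.ofLp (Fin.last m) * v i, a.ofLp (Fin.last m), ?_⟩
  intro y hy
  set y0 := a.ofLp (Fin.last m) with hy0
  have hs : 0 < Real.sqrt ((m : ℝ) + 1) := Real.sqrt_pos.2 (by (clear * -; (clear * -; positivity)))
  have ht : (y - y0) * ‖d‖ ∈ Set.Icc (0 : ℝ) 1 := by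
    constructor
    · exact mul_nonneg (by linarith only [hy.1]) hd0.le
    · have h1 : y - y0 ≤ 1 / Real.sqrt (m + 1) := by linarith only [hy.2]
      calc (y - y0) * ‖d‖ ≤ 1 / Real.sqrt (m + 1) * Real.sqrt (m + 1) :=
            mul_le_mul h1 hd2 hd0.le (by (clear * -; (clear * -; positivity)))
        _ = 1 := by (clear * -; field_simp)
  have h := ha _ ht
  have e : a + ((y - y0) * ‖d‖) • (‖d‖⁻¹ • d) =
      pt (fun i => a.ofLp (Fin.castSucc i) - y0 * v i) v y := by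
    rw [smul_smul, mul_assoc, mul_inv_cancel₀ hd0.ne', mul_one]
    ext i
    refine Fin.lastCases ?_ (fun i => ?_) i
    · rw [pt_last]
      simp [hdl, ← hy0]
    · rw [pt_castSucc]
      simp only [PiLp.add_apply, PiLp.smul_apply, hdc, smul_eq_mul]
      ring
  rw [← e]
  exact h

end Vale.Agent.P127
end
end

section

section

/-!
# P127: selection of a scale and discretisation at one scale
-/

namespace Vale.Agent.P127

open MeasureTheory Finset

/-- weights of the scales -/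
noncomputable def aw (k : ℕ) : ℝ := 1 / (((k : ℝ) + 1) * (k + 2))

lemma aw_pos (k : ℕ) : 0 < aw k := by unfold aw; (clear * -; positivity)

lemma aw_le (k : ℕ) : aw k ≤ 1 := by
  unfold aw
  rw [div_le_one (by (clear * -; positivity))]
  have : (0 : ℝ) ≤ k := by positivity
  nlinarith only []

lemma aw_sum (n : ℕ) : ∑ k ∈ Finset.range n, aw k = 1 - 1 / ((n : ℝ) + 1) := by
  induction n with
  | zero => simp
  | succ n ih =>
    rw [Finset.sum_range_succ, ih]
    unfold aw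
    push_cast
    field_simp
    ring

lemma aw_tsum : ∑' k, ENNReal.ofReal (aw k) ≤ 1 := by
  refine ENNReal.tsum_le_of_sum_range_le fun n => ?_
  rw [← ENNReal.ofReal_sum_of_nonneg (fun i _ => (aw_pos i).le), aw_sum]
  refine ENNReal.ofReal_le_one.2 ?_
  have : (0 : ℝ) ≤ 1 / ((n : ℝ) + 1) := by (clear * -; positivity)
  linarith only [this]

/-- weighted pigeonhole principle over the scales -/
theorem pigeon {X : Type*} [MeasurableSpace X] (μ : Measure X) (S : Set X) (T : ℕ → Set X)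
    (hS : S ⊆ ⋃ k, T k) {w : ℝ} (hw : 0 < w) (hwS : ENNReal.ofReal w ≤ μ S) :
    ∃ k, ENNReal.ofReal (w / 2 * aw k) ≤ μ (T k) := by
  by_contra hcon
  push Not at hcon
  have h1 : μ S ≤ ∑' k, μ (T k) := (measure_mono hS).trans (measure_iUnion_le T)
  have h2 : ∑' k, μ (T k) ≤ ∑' k, ENNReal.ofReal (w / 2 * aw k) :=
    ENNReal.tsum_le_tsum fun k => (hcon k).le
  have h3 : ∑' k, ENNReal.ofReal (w / 2 * aw k) ≤ ENNReal.ofReal (w / 2) := by
    have h4 : ∀ k, ENNReal.ofReal (w / 2 * aw k) = ENNReal.ofReal (w / 2) * ENNReal.ofReal (aw k) :=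
      fun k => ENNReal.ofReal_mul (by (clear * - hw; positivity))
    simp only [h4]
    rw [ENNReal.tsum_mul_left]
    calc ENNReal.ofReal (w / 2) * ∑' k, ENNReal.ofReal (aw k) ≤ ENNReal.ofReal (w / 2) * 1 := by
          gcongr
          exact aw_tsum
      _ = ENNReal.ofReal (w / 2) := mul_one _
  have h5 := hwS.trans (h1.trans (h2.trans h3))
  rw [ENNReal.ofReal_le_ofReal_iff (by (clear * - hw; positivity))] at h5
  linarith only [hw, h5]

/-- number of integers in an interval -/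
lemma card_interval (F : Finset ℕ) (u L : ℝ) (hL : 0 ≤ L)
    (h : ∀ i ∈ F, u ≤ (i : ℝ) ∧ (i : ℝ) ≤ u + L) : (F.card : ℝ) ≤ L + 1 := by
  classical
  have h1 : F.card ≤ (Finset.Icc ⌈u⌉ ⌊u + L⌋).card := by
    rw [← Finset.card_image_of_injective F (f := fun i : ℕ => (i : ℤ)) Nat.cast_injective]
    refine Finset.card_le_card ?_
    intro z hz
    obtain ⟨i, hi, rfl⟩ := Finset.mem_image.1 hz
    rw [Finset.mem_Icc]
    obtain ⟨h1, h2⟩ := h i hi
    exact ⟨Int.ceil_le.2 (by exact_mod_cast h1), Int.le_floor.2 (by exact_mod_cast h2)⟩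
  rw [Int.card_Icc] at h1
  have h2 : (F.card : ℝ) ≤ (((⌊u + L⌋ + 1 - ⌈u⌉).toNat : ℕ) : ℝ) := by exact_mod_cast h1
  refine h2.trans ?_
  have h3 : (((⌊u + L⌋ + 1 - ⌈u⌉).toNat : ℕ) : ℝ) = ((max (⌊u + L⌋ + 1 - ⌈u⌉) 0 : ℤ) : ℝ) := by
    rw [← Int.toNat_eq_max]
    push_cast
    rfl
  rw [h3]
  push_cast
  refine max_le ?_ (by linarith only [hL])
  have h4 := Int.floor_le (u + L)
  have h5 := Int.le_ceil u
  linarith only [h4, h5]

variable {m : ℕ}

/-- the cube of slopes with index `z` -/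
def cubez (q : ℝ) (z : Fin m → ℤ) : Set (Fin m → ℝ) := {v | ∀ i, ⌊q * v i⌋ = z i}

lemma volume_cubez (q : ℝ) (hq : 0 < q) (z : Fin m → ℤ) :
    volume (cubez q z) ≤ ENNReal.ofReal ((1 / q) ^ m) := by
  have h1 : cubez q z ⊆ Set.Icc (fun i => (z i : ℝ) / q) (fun i => ((z i : ℝ) + 1) / q) := by
    intro v hv
    rw [Set.mem_Icc]
    constructor
    · intro i
      have h2 := Int.floor_le (q * v i)
      rw [hv i] at h2
      simp only
      rw [div_le_iff₀ hq]
      linarith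
    · intro i
      have h2 := Int.lt_floor_add_one (q * v i)
      rw [hv i] at h2
      simp only
      rw [le_div_iff₀ hq]
      linarith only [h2]
  refine (measure_mono h1).trans ?_
  rw [Real.volume_Icc_pi]
  have h2 : ∀ i : Fin m, ENNReal.ofReal (((z i : ℝ) + 1) / q - (z i : ℝ) / q) =
      ENNReal.ofReal (1 / q) := by
    intro i
    congr 1
    field_simp
    ring
  simp only [h2, Finset.prod_const, Finset.card_univ, Fintype.card_fin]
  rw [ENNReal.ofReal_pow (by positivity)]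

/-- the finite set of cubes that meet `A` -/
theorem exists_cubes (A : Set (Fin m → ℝ)) (hA : A ⊆ Set.Icc 0 1) (q : ℝ) (hq : 0 < q)
    {w : ℝ} (hwA : ENNReal.ofReal w ≤ volume A) :
    ∃ Zs : Finset (Fin m → ℤ), (∀ z ∈ Zs, ∃ v ∈ A, ∀ i, ⌊q * v i⌋ = z i) ∧
      w * q ^ m ≤ (Zs.card : ℝ) := by
  classical
  set Zs : Finset (Fin m → ℤ) := (Fintype.piFinset (fun _ => Finset.Icc (0 : ℤ) ⌊q⌋)).filter
    (fun z => ∃ v ∈ A, ∀ i, ⌊q * v i⌋ = z i) with hZs
  refine ⟨Zs, fun z hz => (Finset.mem_filter.1 hz).2, ?_⟩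
  have h1 : A ⊆ ⋃ z ∈ Zs, cubez q z := by
    intro v hv
    simp only [Set.mem_iUnion]
    refine ⟨fun i => ⌊q * v i⌋, ?_, fun i => rfl⟩
    rw [hZs, Finset.mem_filter]
    refine ⟨?_, v, hv, fun i => rfl⟩
    rw [Fintype.mem_piFinset]
    intro i
    have h2 := (hA hv).1 i
    have h3 := (hA hv).2 i
    simp only [Pi.zero_apply, Pi.one_apply] at h2 h3
    rw [Finset.mem_Icc]
    refine ⟨Int.floor_nonneg.2 (by (clear * - hq h2; positivity)), Int.floor_le_floor ?_⟩
    nlinarith only [hq, h3]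
  have h2 : volume A ≤ ENNReal.ofReal ((Zs.card : ℝ) * (1 / q) ^ m) := by
    refine (measure_mono h1).trans ?_
    refine (measure_biUnion_finset_le Zs _).trans ?_
    refine (Finset.sum_le_sum fun z _ => volume_cubez q hq z).trans ?_
    rw [Finset.sum_const, nsmul_eq_mul, ENNReal.ofReal_mul (by (clear * -; (clear * -; positivity)))]
    simp only [one_div, inv_pow, ENNReal.ofReal_natCast, Std.le_refl]
  have h3 := hwA.trans h2
  rw [ENNReal.ofReal_le_ofReal_iff (by (clear * - hq; (clear * - hq; positivity)))] at h3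
  have h4 : w * q ^ m ≤ ((Zs.card : ℝ) * (1 / q) ^ m) * q ^ m :=
    mul_le_mul_of_nonneg_right h3 (by positivity)
  refine h4.trans (le_of_eq ?_)
  rw [mul_assoc, ← mul_pow, one_div_mul_cancel hq.ne', one_pow, mul_one]

end Vale.Agent.P127
end
end

section

section

/-!
# P127: the core inequality applied at one scale
-/

namespace Vale.Agent.P127

open MeasureTheory Finset

/-- the core statement with fixed constants -/
def CoreAt (β : ℝ) (m : ℕ) (B C : ℝ) : Prop :=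
    ∀ (N : ℕ), 1 ≤ N → ∀ (Λ : Type) [Fintype Λ] [Nonempty Λ] (X V : Λ → Fin m → ℝ),
      (∀ l c, |X l c| ≤ B * N) → (∀ l c, |V l c| ≤ B * N) →
      Function.Injective (fun l => fun c => ⌊V l c⌋) →
      ∀ (E : Λ → Finset ℕ), (∀ l, E l ⊆ Finset.range N) →
      ∀ (lam : ℝ), 0 < lam → lam ≤ 1 → (∀ l, lam * N ≤ ((E l).card : ℝ)) →
      ∀ (S : ℕ → Finset (Fin m → ℤ)),
      (∀ l, ∀ i ∈ E l, (fun c => ⌊X l c + ((i : ℝ) / N) * V l c⌋) ∈ S i) →
      Real.log (Fintype.card Λ) ≤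
        β * Real.log ((∑ i ∈ Finset.range N, ((S i).card : ℝ)) / (lam * N))
          + C * (1 + Real.log (1 / lam))

lemma coord_le {n : ℕ} (x y : EuclideanSpace ℝ (Fin n)) (i : Fin n) :
    |x.ofLp i - y.ofLp i| ≤ dist x y := by
  have h := PiLp.norm_apply_le (x - y) i
  rw [dist_eq_norm]
  simpa only [ge_iff_le, PiLp.sub_apply, Real.norm_eq_abs] using h

/-- the discretised heights -/
noncomputable def hy (j : ℤ) (c : ℝ) (N i : ℕ) : ℝ := j * c + i * (c / N)

open Classical in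
/-- good heights -/
noncomputable def Eset (j : ℤ) (c : ℝ) (N : ℕ) (G : Set ℝ) : Finset ℕ :=
  (Finset.range N).filter (fun i => ∃ y ∈ Set.Icc (hy j c N i) (hy j c N i + c / N), y ∈ G)

open Classical in
/-- cells near the balls at a given height -/
noncomputable def Sset {m : ℕ} (j : ℤ) (c : ℝ) (N : ℕ) (Cl : Finset ℕ)
    (xc : ℕ → EuclideanSpace ℝ (Fin (m + 1))) (i : ℕ) : Finset (Fin m → ℤ) :=
  (Cl.filter (fun n => |(xc n).ofLp (Fin.last m) - hy j c N i| ≤ 2 / N)).biUnion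
      (fun n => Fintype.piFinset (fun c' => Finset.Icc
        (⌊(N : ℝ) * (xc n).ofLp (Fin.castSucc c')⌋ - 3)
        (⌊(N : ℝ) * (xc n).ofLp (Fin.castSucc c')⌋ + 3)))

lemma ecard {N : ℕ} (hN : 1 ≤ N) {c : ℝ} (hc : 0 < c) (j : ℤ) {lam : ℝ} (G : Set ℝ)
    (hGI : G ⊆ Set.Icc (j * c) ((j + 1) * c))
    (hG : ENNReal.ofReal (c * lam) ≤ volume G) :
    lam * N ≤ ((Eset j c N G).card : ℝ) := by
  classical
  have hNpos : (0 : ℝ) < N := by exact_mod_cast hN
  have hcN : 0 < c / N := by (clear * - hc hN; positivity)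
  have h1 : G ⊆ ⋃ i ∈ Eset j c N G, Set.Icc (hy j c N i) (hy j c N i + c / N) := by
    intro y hyG
    obtain ⟨hy1, hy2⟩ := hGI hyG
    -- index of the height
    set u := (y - j * c) / (c / N) with hu
    have hu0 : 0 ≤ u := div_nonneg (by linarith only [hy1]) hcN.le
    have huN : u ≤ N := by
      rw [hu, div_le_iff₀ hcN]
      have : (N : ℝ) * (c / N) = c := by (clear * - hN hc; field_simp)
      linarith only [hy2, this]
    have hyu : y = j * c + u * (c / N) := by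
      rw [hu, div_mul_cancel₀ _ hcN.ne']
      ring
    simp only [Set.mem_iUnion]
    by_cases hlast : u < N
    · have h2 := Nat.floor_le hu0
      have h3 := Nat.lt_floor_add_one u
      have hmem : y ∈ Set.Icc (hy j c N ⌊u⌋₊) (hy j c N ⌊u⌋₊ + c / N) := by
        unfold hy
        rw [hyu]
        have h4 := mul_le_mul_of_nonneg_right h2 hcN.le
        have h5 := mul_le_mul_of_nonneg_right h3.le hcN.le
        rw [add_mul, one_mul] at h5
        constructor
        · exact add_le_add le_rfl h4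
        · rw [add_assoc]
          exact add_le_add le_rfl h5
      refine ⟨⌊u⌋₊, ?_, hmem⟩
      rw [Eset, Finset.mem_filter, Finset.mem_range]
      exact ⟨(Nat.floor_lt hu0).2 hlast, y, hmem, hyG⟩
    · have huN' : u = N := le_antisymm huN (not_lt.1 hlast)
      have hN1' : ((N - 1 : ℕ) : ℝ) = N - 1 := by
        rw [Nat.cast_sub hN]; simp only [Nat.cast_one]
      have hmem : y ∈ Set.Icc (hy j c N (N - 1)) (hy j c N (N - 1) + c / N) := by
        unfold hy
        rw [hyu, huN', hN1', sub_mul, one_mul]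
        constructor
        · linarith only [hcN]
        · linarith only [hcN]
      refine ⟨N - 1, ?_, hmem⟩
      rw [Eset, Finset.mem_filter, Finset.mem_range]
      exact ⟨by omega, y, hmem, hyG⟩
  have h3 : volume G ≤ ENNReal.ofReal (((Eset j c N G).card : ℝ) * (c / N)) := by
    refine (measure_mono h1).trans ?_
    refine (measure_biUnion_finset_le _ _).trans ?_
    have h4 : ∀ i ∈ Eset j c N G, volume (Set.Icc (hy j c N i) (hy j c N i + c / N)) ≤
        ENNReal.ofReal (c / N) := by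
      intro i _
      rw [Real.volume_Icc]
      simp only [add_sub_cancel_left, Std.le_refl]
    refine (Finset.sum_le_sum h4).trans ?_
    rw [Finset.sum_const, nsmul_eq_mul, ENNReal.ofReal_mul (by (clear * -; (clear * -; positivity)))]
    simp only [ENNReal.ofReal_natCast, Std.le_refl]
  have h5 := hG.trans h3
  rw [ENNReal.ofReal_le_ofReal_iff (by (clear * - hc hN; positivity))] at h5
  have h6 : c * lam * N ≤ ((Eset j c N G).card : ℝ) * (c / N) * N :=
    mul_le_mul_of_nonneg_right h5 hNpos.le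
  have h7 : ((Eset j c N G).card : ℝ) * (c / N) * N = ((Eset j c N G).card : ℝ) * c := by
    (clear * - hN hc; field_simp)
  rw [h7] at h6
  have h8 : c * (lam * N) ≤ c * ((Eset j c N G).card : ℝ) := by
    rw [← mul_assoc, mul_comm c ((Eset j c N G).card : ℝ)]
    exact h6
  exact le_of_mul_le_mul_left h8 hc

lemma smem {m N : ℕ} (hN : 1 ≤ N) {c : ℝ} (hc : 0 < c) (hc1 : c ≤ 1) (j : ℤ)
    (Cl : Finset ℕ) (xc : ℕ → EuclideanSpace ℝ (Fin (m + 1))) (ρ : ℕ → ℝ)
    (hρ : ∀ n ∈ Cl, ρ n ≤ 1 / N) (x v : Fin m → ℝ) (hv : ∀ i, 0 ≤ v i ∧ v i ≤ 1) (i : ℕ)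
    (hi : i ∈ Eset j c N {y : ℝ | y ∈ Set.Icc (j * c) ((j + 1) * c) ∧
      ∃ n ∈ Cl, pt x v y ∈ Metric.closedBall (xc n) (ρ n)}) :
    (fun c' => ⌊N * (x c' + j * c * v c') + ((i : ℝ) / N) * (c * N * v c')⌋) ∈
      Sset j c N Cl xc i := by
  classical
  have hNpos : (0 : ℝ) < N := by exact_mod_cast hN
  rw [Eset, Finset.mem_filter] at hi
  obtain ⟨_, y, ⟨hy1, hy2⟩, hyG⟩ := hi
  obtain ⟨_, n, hn, hball⟩ := hyG
  rw [Metric.mem_closedBall] at hball
  have hd : dist (pt x v y) (xc n) ≤ 1 / N := hball.trans (hρ n hn)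
  have hcN : c / N ≤ 1 / N := div_le_div_of_nonneg_right hc1 hNpos.le
  have e : (2 : ℝ) / N = 1 / N + 1 / N := by ring
  rw [Sset, Finset.mem_biUnion]
  refine ⟨n, ?_, ?_⟩
  · rw [Finset.mem_filter]
    refine ⟨hn, ?_⟩
    have h1 := (coord_le _ _ (Fin.last m)).trans hd
    rw [pt_last, abs_le] at h1
    rw [abs_le, e]
    have hN0 : 0 ≤ 1 / (N : ℝ) := one_div_nonneg.2 hNpos.le
    constructor
    · linarith only [h1.2, hy1, hN0]
    · linarith only [h1.1, hy2, hcN]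
  · rw [Fintype.mem_piFinset]
    intro c'
    have h1 := (coord_le _ _ (Fin.castSucc c')).trans hd
    rw [pt_castSucc] at h1
    have hv := hv c'
    have e1 : N * (x c' + j * c * v c') + ((i : ℝ) / N) * (c * N * v c') =
        N * (x c' + hy j c N i * v c') := by
      unfold hy
      field_simp
      ring
    have h2 : |(N : ℝ) * (x c' + hy j c N i * v c') -
        N * (xc n).ofLp (Fin.castSucc c')| ≤ 2 := by
      rw [← mul_sub, abs_mul, abs_of_pos hNpos]
      have h3 : |x c' + hy j c N i * v c' - (xc n).ofLp (Fin.castSucc c')| ≤ 2 / N := by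
        have e2 : x c' + hy j c N i * v c' - (xc n).ofLp (Fin.castSucc c') =
            (x c' + y * v c' - (xc n).ofLp (Fin.castSucc c')) -
              (y - hy j c N i) * v c' := by ring
        rw [e2]
        refine (abs_sub _ _).trans ?_
        have h4 : |(y - hy j c N i) * v c'| ≤ 1 / N := by
          rw [abs_mul, abs_of_nonneg (by linarith only [hy1] : 0 ≤ y - hy j c N i), abs_of_nonneg hv.1]
          calc (y - hy j c N i) * v c' ≤ (c / N) * 1 :=
                mul_le_mul (by linarith only [hy2]) hv.2 hv.1 (by (clear * - hc hN; positivity))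
            _ ≤ 1 / N := by linarith only [hcN]
        rw [e]
        linarith only [h1, h4]
      calc (N : ℝ) * |x c' + hy j c N i * v c' - (xc n).ofLp (Fin.castSucc c')| ≤
            N * (2 / N) := mul_le_mul_of_nonneg_left h3 hNpos.le
        _ = 2 := by (clear * - hN; field_simp)
    rw [e1, Finset.mem_Icc]
    rw [abs_le] at h2
    constructor
    · rw [Int.le_floor]
      push_cast
      have := Int.floor_le ((N : ℝ) * (xc n).ofLp (Fin.castSucc c'))
      linarith only [h2, this]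
    · rw [← Int.lt_add_one_iff, Int.floor_lt]
      push_cast
      have := Int.lt_floor_add_one ((N : ℝ) * (xc n).ofLp (Fin.castSucc c'))
      linarith only [h2, this]

lemma ssum {m N : ℕ} (hN : 1 ≤ N) {c : ℝ} (hc : 0 < c) (j : ℤ)
    (Cl : Finset ℕ) (xc : ℕ → EuclideanSpace ℝ (Fin (m + 1))) :
    (∑ i ∈ Finset.range N, ((Sset j c N Cl xc i).card : ℝ)) ≤
      Cl.card * 7 ^ m * (4 / c + 1) := by
  classical
  have hNpos : (0 : ℝ) < N := by exact_mod_cast hN
  have h1 : ∀ i ∈ Finset.range N, ((Sset j c N Cl xc i).card : ℝ) ≤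
      ∑ n ∈ Cl, (if |(xc n).ofLp (Fin.last m) - hy j c N i| ≤ 2 / N then (7 : ℝ) ^ m
        else 0) := by
    intro i _
    have h2 : (Sset j c N Cl xc i).card ≤
        ∑ n ∈ Cl.filter (fun n => |(xc n).ofLp (Fin.last m) - hy j c N i| ≤ 2 / N),
        7 ^ m := by
      rw [Sset]
      refine Finset.card_biUnion_le.trans (Finset.sum_le_sum fun n _ => ?_)
      rw [Fintype.card_piFinset]
      have h3 : ∀ c' : Fin m, (Finset.Icc
        (⌊(N : ℝ) * (xc n).ofLp (Fin.castSucc c')⌋ - 3)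
        (⌊(N : ℝ) * (xc n).ofLp (Fin.castSucc c')⌋ + 3)).card = 7 := by
        intro c'
        rw [Int.card_Icc]
        have : ⌊(N : ℝ) * (xc n).ofLp (Fin.castSucc c')⌋ + 3 + 1 -
          (⌊(N : ℝ) * (xc n).ofLp (Fin.castSucc c')⌋ - 3) = 7 := by ring
        rw [this]
        rfl
      simp only [h3, Finset.prod_const, Finset.card_univ, Fintype.card_fin]
      exact le_rfl
    have h4 : ((Sset j c N Cl xc i).card : ℝ) ≤ ((∑ n ∈ Cl.filter
        (fun n => |(xc n).ofLp (Fin.last m) - hy j c N i| ≤ 2 / N), 7 ^ m : ℕ) : ℝ) := by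
      exact_mod_cast h2
    refine h4.trans (le_of_eq ?_)
    push_cast
    rw [Finset.sum_filter]
  refine (Finset.sum_le_sum h1).trans ?_
  rw [Finset.sum_comm]
  have h5 : ∀ n ∈ Cl, ∑ i ∈ Finset.range N,
      (if |(xc n).ofLp (Fin.last m) - hy j c N i| ≤ 2 / N then (7 : ℝ) ^ m else 0) ≤
      7 ^ m * (4 / c + 1) := by
    intro n _
    rw [← Finset.sum_filter, Finset.sum_const, nsmul_eq_mul, mul_comm]
    refine mul_le_mul_of_nonneg_left ?_ (by positivity)
    refine card_interval _ (((xc n).ofLp (Fin.last m) - j * c) * (N / c) - 2 / c) (4 / c)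
      (by (clear * - hc; positivity)) ?_
    intro i hi
    have h6 := (Finset.mem_filter.1 hi).2
    unfold hy at h6
    rw [abs_le] at h6
    have hNc : (0 : ℝ) < N / c := by (clear * - hN hc; positivity)
    have h7 := mul_le_mul_of_nonneg_right h6.1 hNc.le
    have h8 := mul_le_mul_of_nonneg_right h6.2 hNc.le
    have e1 : -(2 / (N : ℝ)) * (N / c) = -(2 / c) := by (clear * - hN hc; field_simp)
    have e2 : (2 / (N : ℝ)) * (N / c) = 2 / c := by (clear * - hN hc; field_simp)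
    have e3 : ((xc n).ofLp (Fin.last m) - (j * c + i * (c / N))) * (N / c) =
        ((xc n).ofLp (Fin.last m) - j * c) * (N / c) - i := by
      field_simp
      ring
    rw [e1, e3] at h7
    rw [e2, e3] at h8
    have e4 : (4 : ℝ) / c = 2 / c + 2 / c := by ring
    rw [e4]
    constructor <;> linarith only [h7, h8]
  refine (Finset.sum_le_sum h5).trans (le_of_eq ?_)
  rw [Finset.sum_const, nsmul_eq_mul]
  ring

theorem one_scale {β : ℝ} {m : ℕ} {B C : ℝ} (hcore : CoreAt β m B C) (hβ : 0 ≤ β)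
    {N : ℕ} (hN : 1 ≤ N) {c : ℝ} (hc : 0 < c) (hc1 : c ≤ 1) (j : ℤ) {R : ℝ} (hR : 0 ≤ R)
    (hB : R + |(j : ℝ)| * c + 1 ≤ B) {lam : ℝ} (hlam : 0 < lam) (hlam1 : lam ≤ 1)
    (Cl : Finset ℕ) (xc : ℕ → EuclideanSpace ℝ (Fin (m + 1))) (ρ : ℕ → ℝ)
    (hρ : ∀ n ∈ Cl, ρ n ≤ 1 / N)
    (A : Set (Fin m → ℝ)) (hA : A ⊆ Set.Icc 0 1) (xv : (Fin m → ℝ) → (Fin m → ℝ))
    (hxv : ∀ v ∈ A, ∀ i, |xv v i| ≤ R) {w : ℝ} (hw : 0 < w)
    (hwA : ENNReal.ofReal w ≤ volume A)
    (hG : ∀ v ∈ A, ENNReal.ofReal (c * lam) ≤ volume {y : ℝ | y ∈ Set.Icc (j * c) ((j + 1) * c) ∧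
      ∃ n ∈ Cl, pt (xv v) v y ∈ Metric.closedBall (xc n) (ρ n)}) :
    Real.log (w * (c * N) ^ m) ≤
      β * Real.log ((Cl.card * 7 ^ m * (4 / c + 1)) / (lam * N)) +
        C * (1 + Real.log (1 / lam)) := by
  classical
  have hNpos : (0 : ℝ) < N := by exact_mod_cast hN
  have hq : 0 < c * N := by (clear * - hc hN; positivity)
  obtain ⟨Zs, hZ1, hZ2⟩ := exists_cubes A hA (c * N) hq hwA
  choose! vz hvA hvz using hZ1
  have hcardpos : (0 : ℝ) < Zs.card := lt_of_lt_of_le (by (clear * - hw hc hN; positivity)) hZ2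
  have hZne : Zs.Nonempty := by
    rw [← Finset.card_pos]
    exact_mod_cast hcardpos
  have hne : Nonempty {z // z ∈ Zs} := ⟨⟨hZne.choose, hZne.choose_spec⟩⟩
  have hv01 : ∀ z : {z // z ∈ Zs}, ∀ i, 0 ≤ vz z.1 i ∧ vz z.1 i ≤ 1 := fun z i =>
    ⟨(hA (hvA z.1 z.2)).1 i, (hA (hvA z.1 z.2)).2 i⟩
  have hXB : ∀ (z : {z // z ∈ Zs}) (i : Fin m),
      |(N : ℝ) * (xv (vz z.1) i + j * c * vz z.1 i)| ≤ B * N := by
    intro z i
    have h1 := hxv _ (hvA z.1 z.2) i
    have h2 := hv01 z i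
    rw [abs_mul, abs_of_pos hNpos, mul_comm]
    refine mul_le_mul_of_nonneg_right ?_ hNpos.le
    refine (abs_add_le _ _).trans ?_
    have h3 : |(j : ℝ) * c * vz z.1 i| ≤ |(j : ℝ)| * c := by
      rw [abs_mul, abs_mul, abs_of_pos hc, abs_of_nonneg h2.1]
      exact mul_le_of_le_one_right (mul_nonneg (abs_nonneg _) hc.le) h2.2
    linarith only [h1, h3, hB]
  have hVB : ∀ (z : {z // z ∈ Zs}) (i : Fin m), |c * N * vz z.1 i| ≤ B * N := by
    intro z i
    have h2 := hv01 z i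
    rw [abs_of_nonneg (mul_nonneg hq.le h2.1)]
    have h3 : c * N * vz z.1 i ≤ c * N * 1 := mul_le_mul_of_nonneg_left h2.2 hq.le
    have h4 : 0 ≤ |(j : ℝ)| * c := by (clear * - hc; (clear * - hc; positivity))
    have h5 : c * N ≤ B * N := mul_le_mul_of_nonneg_right (by linarith only [hc1, hR, hB, h4]) hNpos.le
    linarith only [h3, h5]
  have hinj : Function.Injective (fun z : {z // z ∈ Zs} => fun i => ⌊c * N * vz z.1 i⌋) := by
    intro z z' h
    apply Subtype.ext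
    funext i
    have h1 := congrFun h i
    simp only at h1
    rw [hvz z.1 z.2 i, hvz z'.1 z'.2 i] at h1
    exact h1
  have hEcard : ∀ z : {z // z ∈ Zs}, lam * N ≤ ((Eset j c N
      {y : ℝ | y ∈ Set.Icc (j * c) ((j + 1) * c) ∧
      ∃ n ∈ Cl, pt (xv (vz z.1)) (vz z.1) y ∈ Metric.closedBall (xc n) (ρ n)}).card : ℝ) :=
    fun z => ecard hN hc j _ (fun y hy => hy.1) (hG _ (hvA z.1 z.2))
  have hSmem : ∀ z : {z // z ∈ Zs}, ∀ i ∈ Eset j c N
      {y : ℝ | y ∈ Set.Icc (j * c) ((j + 1) * c) ∧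
      ∃ n ∈ Cl, pt (xv (vz z.1)) (vz z.1) y ∈ Metric.closedBall (xc n) (ρ n)},
      (fun c' => ⌊(N : ℝ) * (xv (vz z.1) c' + j * c * vz z.1 c') +
        ((i : ℝ) / N) * (c * N * vz z.1 c')⌋) ∈ Sset j c N Cl xc i :=
    fun z i hi => smem hN hc hc1 j Cl xc ρ hρ _ _ (hv01 z) i hi
  have main := hcore N hN {z // z ∈ Zs}
    (fun z i => (N : ℝ) * (xv (vz z.1) i + j * c * vz z.1 i)) (fun z i => c * N * vz z.1 i)
    hXB hVB hinj _ (fun z => Finset.filter_subset _ _) lam hlam hlam1 hEcard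
    (Sset j c N Cl xc) hSmem
  have hSsum := ssum hN hc j Cl xc
  have hSpos : 0 < ∑ i ∈ Finset.range N, ((Sset j c N Cl xc i).card : ℝ) := by
    obtain ⟨z⟩ := hne
    have h1 := lt_of_lt_of_le (mul_pos hlam hNpos) (hEcard z)
    have h2 := Finset.card_pos.1 (Nat.cast_pos.1 h1)
    obtain ⟨i, hi⟩ := h2
    refine Finset.sum_pos' (fun i _ => by (clear * -; (clear * -; positivity))) ⟨i, (Finset.mem_filter.1 hi).1, ?_⟩
    exact Nat.cast_pos.2 (Finset.card_pos.2 ⟨_, hSmem z i hi⟩)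
  -- conclusion
  have h1 : Real.log (w * (c * N) ^ m) ≤ Real.log (Fintype.card {z // z ∈ Zs}) := by
    refine Real.log_le_log (by (clear * - hw hc hN; positivity)) ?_
    rw [Fintype.card_coe]
    exact hZ2
  have h2 : Real.log ((∑ i ∈ Finset.range N, ((Sset j c N Cl xc i).card : ℝ)) / (lam * N)) ≤
      Real.log ((Cl.card * 7 ^ m * (4 / c + 1)) / (lam * N)) := by
    exact Real.log_le_log (div_pos hSpos (mul_pos hlam hNpos))
      (div_le_div_of_nonneg_right hSsum (mul_pos hlam hNpos).le)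
  have h3 := mul_le_mul_of_nonneg_left h2 hβ
  exact h1.trans (main.trans (add_le_add h3 le_rfl))

end Vale.Agent.P127
end
end

section

section

/-!
# P127: from the finite core statement to the Hausdorff dimension
-/

namespace Vale.Agent.P127

open MeasureTheory Finset

/-- the balls of one dyadic class form a small finite set -/
theorem exists_class {ρ : ℕ → ℝ} {s : ℝ} (hs : 0 < s)
    (hsum : ∀ F : Finset ℕ, ∑ i ∈ F, ρ i ^ s ≤ 1) (k : ℕ) :
    ∃ Cl : Finset ℕ, (∀ n, n ∈ Cl ↔ (1 / 2 : ℝ) ^ (k + 1) < ρ n ∧ ρ n ≤ (1 / 2) ^ k) ∧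
      (Cl.card : ℝ) ≤ (2 : ℝ) ^ (((k : ℝ) + 1) * s) := by
  classical
  have hlow : ∀ F : Finset ℕ, (∀ n ∈ F, (1 / 2 : ℝ) ^ (k + 1) < ρ n) →
      (F.card : ℝ) ≤ (2 : ℝ) ^ (((k : ℝ) + 1) * s) := by
    intro F hF
    have h1 : ∀ n ∈ F, ((1 / 2 : ℝ) ^ (k + 1)) ^ s ≤ ρ n ^ s := fun n hn =>
      Real.rpow_le_rpow (by (clear * -; positivity)) (hF n hn).le hs.le
    have h2 := (Finset.sum_le_sum h1).trans (hsum F)
    rw [Finset.sum_const, nsmul_eq_mul] at h2
    have h3 : ((1 / 2 : ℝ) ^ (k + 1)) ^ s = ((2 : ℝ) ^ (((k : ℝ) + 1) * s))⁻¹ := by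
      rw [one_div, inv_pow, Real.inv_rpow (by positivity), ← Real.rpow_natCast,
        ← Real.rpow_mul (by norm_num)]
      push_cast
      rfl
    rw [h3, ← div_eq_mul_inv, div_le_one (by positivity)] at h2
    exact h2
  have hfin : {n : ℕ | (1 / 2 : ℝ) ^ (k + 1) < ρ n ∧ ρ n ≤ (1 / 2) ^ k}.Finite := by
    by_contra hinf
    obtain ⟨F, hF1, hF2⟩ := Set.Infinite.exists_subset_card_eq hinf
      (⌈(2 : ℝ) ^ (((k : ℝ) + 1) * s)⌉₊ + 1)
    have h1 := hlow F (fun n hn => (hF1 hn).1)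
    rw [hF2] at h1
    push_cast at h1
    have h2 := Nat.le_ceil ((2 : ℝ) ^ (((k : ℝ) + 1) * s))
    linarith only [h1, h2]
  refine ⟨hfin.toFinset, fun n => by simp only [one_div, inv_pow, Set.Finite.mem_toFinset,
                                       Set.mem_ofPred_eq], hlow _ fun n hn => ?_⟩
  have := hfin.mem_toFinset.1 hn
  exact this.1

/-- growth of the dyadic scale beats the logarithmic losses -/
lemma growth (ε M K0 : ℝ) (hε : 0 < ε) (hM : 0 ≤ M) :
    ∃ k0 : ℕ, ∀ k : ℕ, k0 ≤ k → K0 + M * (-Real.log (aw k)) < ε * k := by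
  set U : ℝ := (4 * M + |K0| + 2 * ε + 1) / ε + 1 with hU
  have hU1 : 1 ≤ U := by
    have : 0 ≤ (4 * M + |K0| + 2 * ε + 1) / ε := by (clear * - hM hε; positivity)
    linarith only [this]
  refine ⟨⌈U ^ 2⌉₊, fun k hk => ?_⟩
  have hk' : U ^ 2 ≤ k := (Nat.le_ceil _).trans (by exact_mod_cast hk)
  set u := Real.sqrt ((k : ℝ) + 2) with hu
  have hu2 : u ^ 2 = k + 2 := Real.sq_sqrt (by (clear * -; positivity))
  have huU : U ≤ u := Real.le_sqrt_of_sq_le (by linarith only [hk'])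
  have hu0 : 0 < u := by linarith only [hU1, huU]
  have h1 : -Real.log (aw k) ≤ 4 * u := by
    unfold aw
    rw [one_div, Real.log_inv, neg_neg, Real.log_mul (by (clear * -; positivity)) (by (clear * -; positivity))]
    have h2 : Real.log ((k : ℝ) + 1) ≤ Real.log (k + 2) :=
      Real.log_le_log (by (clear * -; positivity)) (by linarith only [])
    have h3 : Real.log ((k : ℝ) + 2) ≤ 2 * u := by
      have h4 := Real.log_le_sub_one_of_pos hu0
      have h5 : Real.log ((k : ℝ) + 2) = 2 * Real.log u := by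
        rw [← hu2, Real.log_pow]
        norm_num
      linarith only [h4, h5]
    linarith only [h2, h3]
  have h2 : M * (-Real.log (aw k)) ≤ M * (4 * u) := mul_le_mul_of_nonneg_left h1 hM
  have h3 : (k : ℝ) = u ^ 2 - 2 := by linarith only [hu2]
  have h4 : (4 * M + |K0| + 2 * ε + 1) < ε * u := by
    have : (4 * M + |K0| + 2 * ε + 1) / ε < u := by linarith only [huU]
    rw [div_lt_iff₀ hε] at this
    linarith only [this]
  have h5 : (4 * M + |K0| + 2 * ε + 1) * u ≤ ε * u * u := by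
    exact mul_le_mul_of_nonneg_right h4.le hu0.le
  have h6 : |K0| ≤ |K0| * u := le_mul_of_one_le_right (abs_nonneg _) (by linarith only [hU1, huU])
  have h7 : K0 ≤ |K0| := le_abs_self _
  have h8 : 2 * ε ≤ 2 * ε * u := le_mul_of_one_le_right (by positivity) (by linarith only [hU1, huU])
  rw [h3]
  linarith only [h2, h5, h6, h7, h8, hu0]


/-- the set of directions whose line stays in `K` over the whole interval number `j` -/
def goodDir {m : ℕ} (K : Set (EuclideanSpace ℝ (Fin (m + 1)))) (c : ℝ) (j : ℤ) (R : ℕ) :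
    Set (Fin m → ℝ) :=
  {v | v ∈ Set.Icc (0 : Fin m → ℝ) 1 ∧
    ∃ x : Fin m → ℝ, (∀ i, |x i| ≤ R) ∧
      ∀ y ∈ Set.Icc ((j : ℝ) * c) (((j : ℝ) + 1) * c), pt x v y ∈ K}

/-- one interval of heights serves a set of directions of positive measure -/
theorem exists_goodDir {m : ℕ} {K : Set (EuclideanSpace ℝ (Fin (m + 1)))}
    (hK : IsKakeya (m + 1) K) {c : ℝ} (hc : 0 < c)
    (h2c : 1 / Real.sqrt ((m : ℝ) + 1) = 2 * c) :
    ∃ (j : ℤ) (R : ℕ), volume (goodDir K c j R) ≠ 0 := by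
  have hcov : Set.Icc (0 : Fin m → ℝ) 1 ⊆ ⋃ p : ℤ × ℕ, goodDir K c p.1 p.2 := by
    intro v hv
    obtain ⟨x, y0, hx⟩ := exists_line hK v (fun i => ⟨hv.1 i, hv.2 i⟩)
    have hR : ∃ R : ℕ, ∀ i, |x i| ≤ R := by
      obtain ⟨R, hR⟩ := exists_nat_ge (∑ i, |x i|)
      exact ⟨R, fun i => (Finset.single_le_sum (f := fun i => |x i|)
        (fun i _ => abs_nonneg _) (Finset.mem_univ i)).trans hR⟩
    obtain ⟨R, hR⟩ := hR
    refine Set.mem_iUnion.2 ⟨(⌈y0 / c⌉, R), hv, x, hR, ?_⟩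
    intro y hy
    refine hx y ?_
    rw [h2c]
    have h1 := Int.le_ceil (y0 / c)
    have h2 := Int.ceil_lt_add_one (y0 / c)
    rw [div_le_iff₀ hc] at h1
    have h3 : (⌈y0 / c⌉ : ℝ) * c < y0 + c := by
      have := mul_lt_mul_of_pos_right h2 hc
      rw [add_mul, div_mul_cancel₀ _ hc.ne'] at this
      linarith only [this]
    simp only at hy
    constructor
    · linarith only [hy.1, h1]
    · linarith only [hy.2, hy, h3]
  have hvol : volume (⋃ p : ℤ × ℕ, goodDir K c p.1 p.2) ≠ 0 := by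
    intro h0
    have h1 := measure_mono_null hcov h0
    rw [Real.volume_Icc_pi] at h1
    simp only [Pi.one_apply, Pi.zero_apply, sub_zero, ENNReal.ofReal_one, prod_const_one,
      one_ne_zero] at h1
  obtain ⟨⟨j, R⟩, hpos⟩ := exists_measure_pos_of_not_measure_iUnion_null hvol
  exact ⟨j, R, hpos.ne'⟩

/-- the inequality at arbitrarily small scales -/
theorem exists_scale {β : ℝ} (hβ0 : 0 < β) {m : ℕ}
    {K : Set (EuclideanSpace ℝ (Fin (m + 1)))} {c : ℝ} (hc : 0 < c) (hc1 : c ≤ 1)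
    {j : ℤ} {R : ℕ} {A : Set (Fin m → ℝ)} (hA01 : A ⊆ Set.Icc 0 1)
    {xv : (Fin m → ℝ) → (Fin m → ℝ)}
    (hxv : ∀ v ∈ A, ((∀ i, |xv v i| ≤ (R : ℝ)) ∧
      ∀ y ∈ Set.Icc ((j : ℝ) * c) (((j : ℝ) + 1) * c), pt (xv v) v y ∈ K))
    {w : ℝ} (hwpos : 0 < w) (hwA : ENNReal.ofReal w ≤ volume A) {C : ℝ}
    (hcore : CoreAt β m ((R : ℝ) + |(j : ℝ)| * c + 1) C)
    {s : NNReal} (hs0 : (0 : ℝ) < s) (hs1 : dimH K < s) (k0 : ℕ) :
    ∃ k : ℕ, k0 ≤ k ∧
      Real.log ((w / 2 * aw k) * (c * ((2 ^ k : ℕ) : ℝ)) ^ m) ≤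
      β * Real.log (((2 : ℝ) ^ (((k : ℝ) + 1) * s) * 7 ^ m * (4 / c + 1)) /
        ((aw k / 2) * ((2 ^ k : ℕ) : ℝ))) + C * (1 + Real.log (1 / (aw k / 2))) := by
  obtain ⟨xc, ρ, hρ0, hρr, hKc, hsum⟩ := exists_cover hs1 (r := (1 / 2) ^ k0) (by (clear * -; positivity))
  choose Cl hCl hClc using fun k => exists_class hs0 hsum k
  -- good heights
  set G : ℕ → (Fin m → ℝ) → Set ℝ := fun k v =>
    {y : ℝ | y ∈ Set.Icc (j * c) ((j + 1) * c) ∧
      ∃ n ∈ Cl k, pt (xv v) v y ∈ Metric.closedBall (xc n) (ρ n)} with hG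
  set T : ℕ → Set (Fin m → ℝ) := fun k =>
    {v | v ∈ A ∧ k0 ≤ k ∧ ENNReal.ofReal (c / 2 * aw k) ≤ volume (G k v)} with hT
  have hTcov : A ⊆ ⋃ k, T k := by
    intro v hv
    have h1 : Set.Icc ((j : ℝ) * c) ((j + 1) * c) ⊆
        ⋃ k, {y | k0 ≤ k ∧ y ∈ G k v} := by
      intro y hy
      have hyK := (hxv v hv).2 y hy
      obtain ⟨n, hn⟩ := Set.mem_iUnion.1 (hKc hyK)
      have hr1 : ρ n ≤ 1 := (hρr n).trans (pow_le_one₀ (by (clear * -; norm_num)) (by norm_num))
      obtain ⟨k, hk1, hk2⟩ := exists_nat_pow_near_of_lt_one (hρ0 n) hr1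
        (by norm_num : (0 : ℝ) < 1 / 2) (by norm_num)
      refine Set.mem_iUnion.2 ⟨k, ?_, hy, n, (hCl k n).2 ⟨hk1, hk2⟩, hn⟩
      have h3 : (1 / 2 : ℝ) ^ (k + 1) < (1 / 2) ^ k0 := lt_of_lt_of_le hk1 (hρr n)
      have h4 := (pow_lt_pow_iff_right_of_lt_one₀ (by norm_num : (0 : ℝ) < 1 / 2)
        (by norm_num)).1 h3
      omega
    obtain ⟨k, hk⟩ := pigeon volume _ _ h1 hc (by
      rw [Real.volume_Icc]
      refine ENNReal.ofReal_le_ofReal ?_
      linarith only [])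
    have hkpos : 0 < volume {y | k0 ≤ k ∧ y ∈ G k v} :=
      lt_of_lt_of_le (ENNReal.ofReal_pos.2 (mul_pos (by (clear * - hc; positivity)) (aw_pos k))) hk
    have hk0 : k0 ≤ k := by
      obtain ⟨y, hy⟩ := nonempty_of_measure_ne_zero hkpos.ne'
      exact hy.1
    refine Set.mem_iUnion.2 ⟨k, hv, hk0, hk.trans (measure_mono fun y hy => hy.2)⟩
  obtain ⟨k, hk⟩ := pigeon volume _ _ hTcov hwpos hwA
  have hw' : 0 < w / 2 * aw k := mul_pos (by positivity) (aw_pos k)
  have hkpos : 0 < volume (T k) := lt_of_lt_of_le (ENNReal.ofReal_pos.2 hw') hk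
  obtain ⟨v0, hv0⟩ := nonempty_of_measure_ne_zero hkpos.ne'
  refine ⟨k, hv0.2.1, ?_⟩
  have hlam : 0 < aw k / 2 := by have := aw_pos k; (clear * - this; positivity)
  have hlam1 : aw k / 2 ≤ 1 := by have := aw_le k; linarith only [this]
  have hclk : ∀ n ∈ Cl k, ρ n ≤ 1 / ((2 ^ k : ℕ) : ℝ) := by
    intro n hn
    have := ((hCl k n).1 hn).2
    rw [one_div, inv_pow] at this
    push_cast
    rw [one_div]
    exact this
  have h1 := one_scale hcore hβ0.le (N := 2 ^ k) Nat.one_le_two_pow hc hc1 j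
    (by (clear * -; (clear * -; positivity)) : (0 : ℝ) ≤ R) le_rfl hlam hlam1 (Cl k) xc ρ hclk (T k)
    (fun v hv => hA01 hv.1) xv (fun v hv => (hxv v hv.1).1) hw' hk (by
      intro v hv
      have h2 := hv.2.2
      have e : c * (aw k / 2) = c / 2 * aw k := by ring
      rw [e]
      exact h2)
  refine h1.trans ?_
  have hCpos : (0 : ℝ) < (Cl k).card := by
    -- the class is not empty
    have h2 := hv0.2.2
    have h3 : 0 < volume (G k v0) := lt_of_lt_of_le
      (ENNReal.ofReal_pos.2 (mul_pos (by (clear * - hc; positivity)) (aw_pos k))) h2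
    obtain ⟨y, _, n, hn, _⟩ := nonempty_of_measure_ne_zero h3.ne'
    exact Nat.cast_pos.2 (Finset.card_pos.2 ⟨n, hn⟩)
  have h2 : Real.log (((Cl k).card * 7 ^ m * (4 / c + 1)) / ((aw k / 2) * ((2 ^ k : ℕ) : ℝ))) ≤
      Real.log (((2 : ℝ) ^ (((k : ℝ) + 1) * s) * 7 ^ m * (4 / c + 1)) /
      ((aw k / 2) * ((2 ^ k : ℕ) : ℝ))) := by
    refine Real.log_le_log (by (clear * - hc hlam hCpos; (clear * - hCpos hc hlam; positivity))) ?_
    refine div_le_div_of_nonneg_right ?_ (by (clear * - hlam; positivity))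
    refine mul_le_mul_of_nonneg_right ?_ (by positivity)
    exact mul_le_mul_of_nonneg_right (hClc k) (by positivity)
  have h3 := mul_le_mul_of_nonneg_left h2 hβ0.le
  linarith only [h3]

/-- the algebra of logarithms at one scale -/
theorem log_algebra {β w c C s a : ℝ} {m k : ℕ} (hw : 0 < w) (hc : 0 < c) (ha : 0 < a)
    (hineq : Real.log ((w / 2 * a) * (c * ((2 ^ k : ℕ) : ℝ)) ^ m) ≤
      β * Real.log (((2 : ℝ) ^ (((k : ℝ) + 1) * s) * 7 ^ m * (4 / c + 1)) /
        ((a / 2) * ((2 ^ k : ℕ) : ℝ))) + C * (1 + Real.log (1 / (a / 2)))) :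
    Real.log 2 * ((m : ℝ) - β * (s - 1)) * k ≤
      (-Real.log (w / 2) - m * Real.log c +
        β * (s * Real.log 2 + Real.log (7 ^ m * (4 / c + 1)) + Real.log 2) +
        C * (1 + Real.log 2)) + (1 + β + C) * (-Real.log a) := by
  have h2k : (0 : ℝ) < ((2 ^ k : ℕ) : ℝ) := by (clear * -; positivity)
  have hlog2k : Real.log ((2 ^ k : ℕ) : ℝ) = k * Real.log 2 := by
    push_cast
    rw [Real.log_pow]
  have L1 : Real.log ((w / 2 * a) * (c * ((2 ^ k : ℕ) : ℝ)) ^ m) =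
      Real.log (w / 2) + Real.log a + m * (Real.log c + k * Real.log 2) := by
    rw [Real.log_mul (by (clear * - hw ha; positivity)) (by (clear * - hc; positivity)), Real.log_mul (by positivity) (by (clear * - ha; positivity)),
      Real.log_pow, Real.log_mul (by positivity) (by positivity), hlog2k]
  have L2 : Real.log (((2 : ℝ) ^ (((k : ℝ) + 1) * s) * 7 ^ m * (4 / c + 1)) /
      ((a / 2) * ((2 ^ k : ℕ) : ℝ))) =
      ((k : ℝ) + 1) * s * Real.log 2 + Real.log (7 ^ m * (4 / c + 1)) -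
        (Real.log a - Real.log 2 + k * Real.log 2) := by
    have e1 : Real.log ((2 : ℝ) ^ (((k : ℝ) + 1) * s) * 7 ^ m * (4 / c + 1)) =
        ((k : ℝ) + 1) * s * Real.log 2 + Real.log (7 ^ m * (4 / c + 1)) := by
      rw [mul_assoc, Real.log_mul (by positivity) (by positivity), Real.log_rpow (by norm_num)]
    have e2 : Real.log ((a / 2) * ((2 ^ k : ℕ) : ℝ)) =
        Real.log a - Real.log 2 + k * Real.log 2 := by
      rw [Real.log_mul (by positivity) (by positivity), hlog2k,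
        Real.log_div (by positivity) (by norm_num)]
    rw [Real.log_div (by positivity) (by positivity), e1, e2]
  have L3 : Real.log (1 / (a / 2)) = Real.log 2 - Real.log a := by
    rw [one_div, Real.log_inv, Real.log_div (by positivity) (by norm_num)]
    ring
  rw [L1, L2, L3] at hineq
  linarith only [hineq]

theorem dimH_ge_of_core {β : ℝ} (hβ : 1 ≤ β) {m : ℕ} (h : KakeyaCore β m)
    {K : Set (EuclideanSpace ℝ (Fin (m + 1)))} (hK : IsKakeya (m + 1) K) :
    ENNReal.ofReal ((m : ℝ) / β + 1) ≤ dimH K := by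
  by_contra hlt
  push Not at hlt
  obtain ⟨s, hs1, hs2⟩ := ENNReal.lt_iff_exists_nnreal_btwn.1 hlt
  have hβ0 : 0 < β := by linarith only [hβ]
  have hs0 : (0 : ℝ) < s := by
    have : (0 : ENNReal) < s := lt_of_le_of_lt zero_le hs1
    exact_mod_cast this
  have hsm : (s : ℝ) < (m : ℝ) / β + 1 := by
    rw [← ENNReal.ofReal_coe_nnreal] at hs2
    exact (ENNReal.ofReal_lt_ofReal_iff (by (clear * - hβ; (clear * - hβ; positivity)))).1 hs2
  -- the common interval of heights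
  obtain ⟨c, hcdef⟩ : ∃ c : ℝ, c = 1 / (2 * Real.sqrt ((m : ℝ) + 1)) := ⟨_, rfl⟩
  have hsq : 1 ≤ Real.sqrt ((m : ℝ) + 1) := Real.one_le_sqrt.2 (by
    have : (0 : ℝ) ≤ m := by (clear * -; positivity)
    linarith only [])
  have hc : 0 < c := by rw [hcdef]; (clear * -; positivity)
  have hc1 : c ≤ 1 := by
    rw [hcdef, div_le_one (by (clear * -; positivity))]
    linarith only [hsq]
  have h2c : 1 / Real.sqrt ((m : ℝ) + 1) = 2 * c := by
    rw [hcdef]
    (clear * -; field_simp)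
  obtain ⟨j, R, hpos⟩ := exists_goodDir hK hc h2c
  have hA01 : goodDir K c j R ⊆ Set.Icc 0 1 := fun v hv => hv.1
  have hxex : ∀ v : Fin m → ℝ, ∃ x : Fin m → ℝ, v ∈ goodDir K c j R →
      ((∀ i, |x i| ≤ (R : ℝ)) ∧
      ∀ y ∈ Set.Icc ((j : ℝ) * c) (((j : ℝ) + 1) * c), pt x v y ∈ K) := by
    intro v
    by_cases hv : v ∈ goodDir K c j R
    · obtain ⟨x, hx⟩ := hv.2
      exact ⟨x, fun _ => hx⟩
    · exact ⟨0, fun h => absurd h hv⟩
  choose xv hxv using hxex
  have hAfin : volume (goodDir K c j R) ≠ ⊤ := by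
    refine ne_top_of_le_ne_top ?_ (measure_mono hA01)
    rw [Real.volume_Icc_pi]
    simp only [Pi.one_apply, Pi.zero_apply, sub_zero, ENNReal.ofReal_one, prod_const_one, ne_eq,
      ENNReal.one_ne_top, not_false_eq_true]
  obtain ⟨w, hw⟩ : ∃ w : ℝ, w = (volume (goodDir K c j R)).toReal := ⟨_, rfl⟩
  have hwpos : 0 < w := by rw [hw]; exact ENNReal.toReal_pos hpos hAfin
  have hwA : ENNReal.ofReal w ≤ volume (goodDir K c j R) := by
    rw [hw]; exact (ENNReal.ofReal_toReal hAfin).le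
  obtain ⟨C, hC, hcore⟩ := h ((R : ℝ) + |(j : ℝ)| * c + 1) (by
    have : 0 ≤ |(j : ℝ)| * c := by (clear * - hc; (clear * - hc; positivity))
    have : (0 : ℝ) ≤ R := by (clear * -; positivity)
    (clear β hβ h K hK hlt s hs1 hs2 hβ0 hs0 hsm hsq hc1 h2c hpos hA01 xv hxv hAfin w hw hwpos hwA this; linarith))
  have hl2 : 0 < Real.log 2 := Real.log_pos (by norm_num)
  have hεpos : 0 < Real.log 2 * ((m : ℝ) - β * (s - 1)) := by
    refine mul_pos hl2 ?_
    have : β * ((s : ℝ) - 1) < β * ((m : ℝ) / β) := mul_lt_mul_of_pos_left (by linarith only [hsm]) hβ0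
    rw [mul_div_cancel₀ _ hβ0.ne'] at this
    linarith only [this]
  obtain ⟨k0, hk0⟩ := growth (Real.log 2 * ((m : ℝ) - β * (s - 1))) (1 + β + C)
    (-Real.log (w / 2) - m * Real.log c +
        β * (s * Real.log 2 + Real.log (7 ^ m * (4 / c + 1)) + Real.log 2) +
        C * (1 + Real.log 2)) hεpos (by (clear * - hβ hC; positivity))
  obtain ⟨k, hkk, hineq⟩ := exists_scale hβ0 hc hc1 hA01 hxv hwpos hwA hcore hs0 hs1 k0
  have hgr := hk0 k hkk
  have := log_algebra hwpos hc (aw_pos k) hineq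
  linarith only [hgr, this]

end Vale.Agent.P127
end
end

section

section

/-!
# P127: definitions for the maximal function
-/

namespace Vale.Agent.P127

open MeasureTheory

/-- the unit direction with slope `v` -/
noncomputable def dir {m : ℕ} (v : Fin m → ℝ) : EuclideanSpace ℝ (Fin (m + 1)) :=
  ‖pt 0 v 1‖⁻¹ • pt 0 v 1

/-- local restricted weak type estimate, in terms of slopes -/
def LocRWT (m : ℕ) (β C : ℝ) : Prop :=
  ∀ δ : ℝ, 0 < δ → δ < 1 → ∀ E : Set (EuclideanSpace ℝ (Fin (m + 1))), MeasurableSet E →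
    ∀ lam : ℝ, 0 < lam → lam ≤ 1 → ∀ A : Set (Fin m → ℝ),
    (∀ v ∈ A, (∀ i, |v i| ≤ 1) ∧ ∃ a : EuclideanSpace ℝ (Fin (m + 1)), (∀ i, |a i| ≤ 1) ∧
      ENNReal.ofReal lam * volume (tube δ a (dir v)) ≤ volume (E ∩ tube δ a (dir v))) →
    volume A ≤ ENNReal.ofReal (C * lam ^ (-C) * δ ^ (-(m * (β - 1)))) * volume E ^ β

/-- restricted weak type estimate on the sphere -/
def RWT (n : ℕ) (β C : ℝ) : Prop :=
  ∀ δ : ℝ, 0 < δ → δ < 1 → ∀ E : Set (EuclideanSpace ℝ (Fin n)), MeasurableSet E →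
    ∀ lam : ℝ, 0 < lam → lam ≤ 1 →
    (volume : Measure (EuclideanSpace ℝ (Fin n))).toSphere
      {e | ENNReal.ofReal lam < kakeyaMax δ (E.indicator 1) e.1} ≤
    ENNReal.ofReal (C * lam ^ (-C) * δ ^ (-(((n : ℝ) - 1) * (β - 1)))) * volume E ^ β

end Vale.Agent.P127
end
end

section

section

/-!
# P127: geometry of a tube and of the cells that it meets
-/

namespace Vale.Agent.P127

open MeasureTheory Finset

variable {m : ℕ}

lemma volume_box (h r : ℝ) (_hh : 0 ≤ h) (hr : 0 ≤ r) :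
    volume {z : EuclideanSpace ℝ (Fin (m + 1)) | |z.ofLp (Fin.last m)| ≤ h ∧
      ∀ c : Fin m, |z.ofLp (Fin.castSucc c)| ≤ r} = ENNReal.ofReal (2 * h * (2 * r) ^ m) := by
  have h1 : {z : EuclideanSpace ℝ (Fin (m + 1)) | |z.ofLp (Fin.last m)| ≤ h ∧
      ∀ c : Fin m, |z.ofLp (Fin.castSucc c)| ≤ r} =
      (fun z : EuclideanSpace ℝ (Fin (m + 1)) => z.ofLp) ⁻¹'
      (Set.Icc (Fin.snoc (α := fun _ => ℝ) (fun _ => -r) (-h))
        (Fin.snoc (α := fun _ => ℝ) (fun _ => r) h)) := by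
    ext z
    simp only [Set.mem_ofPred_eq, Set.mem_preimage, Set.mem_Icc, Pi.le_def, abs_le]
    constructor
    · rintro ⟨h1, h2⟩
      constructor
      · intro i
        refine Fin.lastCases ?_ (fun c => ?_) i
        · simpa only [Fin.snoc_last] using h1.1
        · simpa only [Fin.snoc_castSucc] using (h2 c).1
      · intro i
        refine Fin.lastCases ?_ (fun c => ?_) i
        · simpa only [Fin.snoc_last] using h1.2
        · simpa only [Fin.snoc_castSucc] using (h2 c).2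
    · rintro ⟨h1, h2⟩
      refine ⟨⟨by simpa only [Fin.snoc_last] using h1 (Fin.last m), by simpa only [Fin.snoc_last] using h2 (Fin.last m)⟩, fun c => ?_⟩
      exact ⟨by simpa only [Fin.snoc_castSucc] using h1 (Fin.castSucc c), by simpa only [Fin.snoc_castSucc] using h2 (Fin.castSucc c)⟩
  rw [h1, (PiLp.volume_preserving_ofLp (Fin (m + 1))).measure_preimage
    measurableSet_Icc.nullMeasurableSet, Real.volume_Icc_pi, Fin.prod_univ_castSucc]
  simp only [Fin.snoc_castSucc, Fin.snoc_last, Finset.prod_const, Finset.card_univ,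
    Fintype.card_fin]
  rw [← ENNReal.ofReal_pow (by linarith only [hr]), ← ENNReal.ofReal_mul (by
    have : 0 ≤ r - -r := by linarith only [hr]
    (clear * - this; positivity))]
  congr 1
  ring

/-- lower bound for the volume of a tube -/
theorem volume_tube_ge {δ : ℝ} (hδ : 0 < δ) (a e : EuclideanSpace ℝ (Fin (m + 1)))
    (he : ‖e‖ = 1) :
    ENNReal.ofReal ((2 / (m + 1)) ^ m * δ ^ m) ≤ volume (tube δ a e) := by
  set e0 : EuclideanSpace ℝ (Fin (m + 1)) := EuclideanSpace.single (Fin.last m) 1 with he0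
  have hn0 : ‖e0‖ = 1 := by simp only [he0, PiLp.norm_single, norm_one]
  set ρ : EuclideanSpace ℝ (Fin (m + 1)) ≃ₗᵢ[ℝ] EuclideanSpace ℝ (Fin (m + 1)) :=
    Submodule.reflection (Submodule.span ℝ {e0 - e})ᗮ with hρ
  have hρe : ρ e0 = e := Submodule.reflection_sub (by rw [hn0, he])
  set Bx : Set (EuclideanSpace ℝ (Fin (m + 1))) := {z | |z.ofLp (Fin.last m)| ≤ 1 / 2 ∧
      ∀ c : Fin m, |z.ofLp (Fin.castSucc c)| ≤ δ / (m + 1)} with hBx
  have hsub : Bx ⊆ (fun z => a + ρ z) ⁻¹' tube δ a e := by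
    intro z hz
    obtain ⟨hz1, hz2⟩ := hz
    set z' : EuclideanSpace ℝ (Fin (m + 1)) := z - (z.ofLp (Fin.last m)) • e0 with hz'
    have hz'l : z'.ofLp (Fin.last m) = 0 := by simp [hz', he0]
    have hz'c : ∀ c : Fin m, z'.ofLp (Fin.castSucc c) = z.ofLp (Fin.castSucc c) := by
      intro c
      simp [hz', he0, Fin.castSucc_ne_last]
    refine ⟨z.ofLp (Fin.last m), ρ z', hz1, ?_, ?_, ?_⟩
    · rw [← hρe, LinearIsometryEquiv.inner_map_map, he0, EuclideanSpace.inner_single_right, hz'l]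
      simp
    · rw [LinearIsometryEquiv.norm_map, EuclideanSpace.norm_eq, Fin.sum_univ_castSucc]
      simp only [hz'l, hz'c, norm_zero, Real.norm_eq_abs]
      have h1 : ∑ c : Fin m, |z.ofLp (Fin.castSucc c)| ^ 2 + 0 ^ 2 ≤ δ ^ 2 := by
        have h2 : ∀ c ∈ (Finset.univ : Finset (Fin m)), |z.ofLp (Fin.castSucc c)| ^ 2 ≤
            (δ / (m + 1)) ^ 2 := fun c _ => pow_le_pow_left₀ (abs_nonneg _) (hz2 c) 2
        have h3 := Finset.sum_le_sum h2
        rw [Finset.sum_const, Finset.card_univ, Fintype.card_fin, nsmul_eq_mul] at h3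
        have h4 : (m : ℝ) * (δ / (m + 1)) ^ 2 ≤ δ ^ 2 := by
          rw [div_pow, mul_div_assoc', div_le_iff₀ (by (clear * -; (clear * -; positivity)))]
          have h5 : (m : ℝ) ≤ (m + 1) ^ 2 := by
            have h7 : (0 : ℝ) ≤ m := Nat.cast_nonneg m
            linarith only [sq_nonneg (m : ℝ)]
          have h6 : 0 ≤ δ ^ 2 := sq_nonneg δ
          rw [mul_comm]
          exact mul_le_mul_of_nonneg_left h5 h6
        rw [zero_pow two_ne_zero, add_zero]
        exact h3.trans h4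
      exact Real.sqrt_le_iff.2 ⟨hδ.le, h1⟩
    · have : z = (z.ofLp (Fin.last m)) • e0 + z' := by rw [hz']; abel
      conv_lhs => rw [this]
      simp only [map_add, map_smul, hρe]
      abel
  have hmp : MeasurePreserving (fun z : EuclideanSpace ℝ (Fin (m + 1)) => a + ρ z) :=
    (measurePreserving_add_left volume a).comp ρ.measurePreserving
  have hemb : MeasurableEmbedding (fun z : EuclideanSpace ℝ (Fin (m + 1)) => a + ρ z) :=
    (measurableEmbedding_addLeft a).comp ρ.toHomeomorph.measurableEmbedding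
  rw [← hmp.measure_preimage_emb hemb]
  refine le_trans (le_of_eq ?_) (measure_mono hsub)
  rw [hBx, volume_box _ _ (by norm_num) (by (clear * - hδ; (clear * - hδ; positivity)))]
  congr 1
  rw [← mul_pow]
  ring_nf

lemma norm_dirvec (v : Fin m → ℝ) : 1 ≤ ‖pt (0 : Fin m → ℝ) v 1‖ := by
  have h := PiLp.norm_apply_le (pt (0 : Fin m → ℝ) v 1) (Fin.last m)
  rw [pt_last] at h
  simpa only [ge_iff_le, norm_one] using h

lemma norm_dir (v : Fin m → ℝ) : ‖dir v‖ = 1 := by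
  have h := norm_dirvec v
  unfold dir
  rw [norm_smul, norm_inv, norm_norm, inv_mul_cancel₀ (by linarith only [h])]

/-- a point of a tube is close to the central line -/
theorem tube_near {δ : ℝ} {a : EuclideanSpace ℝ (Fin (m + 1))} {v : Fin m → ℝ}
    (hv : ∀ i, |v i| ≤ 1) {z : EuclideanSpace ℝ (Fin (m + 1))} (hz : z ∈ tube δ a (dir v)) :
    |z.ofLp (Fin.last m) - a.ofLp (Fin.last m)| ≤ 1 / 2 + δ ∧
    ∀ c : Fin m, |z.ofLp (Fin.castSucc c) - ((a.ofLp (Fin.castSucc c) -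
      a.ofLp (Fin.last m) * v c) + z.ofLp (Fin.last m) * v c)| ≤ 2 * δ := by
  obtain ⟨t, u, ht, _, hu, rfl⟩ := hz
  set η : ℝ := ‖pt (0 : Fin m → ℝ) v 1‖⁻¹ with hη
  have hη0 : 0 ≤ η := by (clear * -; positivity)
  have hη1 : η ≤ 1 := inv_le_one_of_one_le₀ (norm_dirvec v)
  have hl : (dir v).ofLp (Fin.last m) = η := by
    simp only [dir, PiLp.smul_apply, pt_last, smul_eq_mul, mul_one, hη]
  have hc : ∀ c : Fin m, (dir v).ofLp (Fin.castSucc c) = η * v c := by
    intro c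
    simp only [dir, PiLp.smul_apply, pt_castSucc, Pi.zero_apply, one_mul, zero_add, smul_eq_mul, hη]
  have huc : ∀ i, |u.ofLp i| ≤ δ := fun i => by
    have := PiLp.norm_apply_le u i
    rw [Real.norm_eq_abs] at this
    linarith only [hu, this]
  constructor
  · simp only [PiLp.add_apply, PiLp.smul_apply, hl, smul_eq_mul]
    have e1 : a.ofLp (Fin.last m) + t * η + u.ofLp (Fin.last m) - a.ofLp (Fin.last m) =
        t * η + u.ofLp (Fin.last m) := by ring
    rw [e1]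
    refine (abs_add_le _ _).trans (add_le_add ?_ (huc _))
    rw [abs_mul, abs_of_nonneg hη0]
    exact (mul_le_of_le_one_right (abs_nonneg t) hη1).trans ht
  · intro c
    simp only [PiLp.add_apply, PiLp.smul_apply, smul_eq_mul, hl, hc]
    have e1 : a.ofLp (Fin.castSucc c) + t * (η * v c) + u.ofLp (Fin.castSucc c) -
        ((a.ofLp (Fin.castSucc c) - a.ofLp (Fin.last m) * v c) +
          (a.ofLp (Fin.last m) + t * η + u.ofLp (Fin.last m)) * v c) =
        u.ofLp (Fin.castSucc c) - u.ofLp (Fin.last m) * v c := by ring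
    rw [e1]
    refine (abs_sub _ _).trans ?_
    have h1 := huc (Fin.castSucc c)
    have h2 : |u.ofLp (Fin.last m) * v c| ≤ δ := by
      rw [abs_mul]
      exact (mul_le_of_le_one_right (abs_nonneg _) (hv c)).trans (huc (Fin.last m))
    linarith only [h1, h2]

/-- the cell with height index `i` and horizontal index `k` -/
def cell3 (N : ℕ) (i : ℕ) (k : Fin m → ℤ) : Set (EuclideanSpace ℝ (Fin (m + 1))) :=
  {z | ⌊(z.ofLp (Fin.last m) + 3) * N / 6⌋ = (i : ℤ) ∧
    ∀ c : Fin m, ⌊(N : ℝ) * z.ofLp (Fin.castSucc c)⌋ = k c}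

lemma measurableSet_cell3 (N i : ℕ) (k : Fin m → ℤ) : MeasurableSet (cell3 N i k) := by
  have hcoord : ∀ j : Fin (m + 1),
      Measurable (fun z : EuclideanSpace ℝ (Fin (m + 1)) => z.ofLp j) := fun j => by fun_prop
  have h1 : Measurable (fun z : EuclideanSpace ℝ (Fin (m + 1)) =>
      ⌊(z.ofLp (Fin.last m) + 3) * N / 6⌋) := by
    have h0 : Measurable (fun z : EuclideanSpace ℝ (Fin (m + 1)) => z.ofLp (Fin.last m) + 3) :=
      (hcoord _).add_const 3
    have h0' : Measurable (fun z : EuclideanSpace ℝ (Fin (m + 1)) =>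
      (z.ofLp (Fin.last m) + 3) * N / 6) := (h0.mul_const (N : ℝ)).div_const 6
    exact Int.measurable_floor.comp h0'
  have h2 : ∀ c : Fin m, Measurable (fun z : EuclideanSpace ℝ (Fin (m + 1)) =>
      ⌊(N : ℝ) * z.ofLp (Fin.castSucc c)⌋) := fun c =>
    Int.measurable_floor.comp ((hcoord _).const_mul (N : ℝ))
  have h3 : cell3 N i k = (fun z : EuclideanSpace ℝ (Fin (m + 1)) =>
      ⌊(z.ofLp (Fin.last m) + 3) * N / 6⌋) ⁻¹' {(i : ℤ)} ∩
      ⋂ c : Fin m, (fun z : EuclideanSpace ℝ (Fin (m + 1)) =>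
      ⌊(N : ℝ) * z.ofLp (Fin.castSucc c)⌋) ⁻¹' {k c} := by
    ext z
    simp only [cell3, Set.mem_ofPred_eq, Set.mem_inter_iff, Set.mem_preimage,
      Set.mem_singleton_iff, Set.mem_iInter]
  rw [h3]
  exact (h1 (measurableSet_singleton _)).inter
    (MeasurableSet.iInter fun c => h2 c (measurableSet_singleton _))

lemma disjoint_cell3 (N : ℕ) {p q : ℕ × (Fin m → ℤ)} (h : p ≠ q) :
    Disjoint (cell3 N p.1 p.2) (cell3 N q.1 q.2) := by
  rw [Set.disjoint_left]
  intro z hz1 hz2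
  apply h
  refine Prod.ext ?_ ?_
  · have := hz1.1.symm.trans hz2.1
    exact_mod_cast this
  · funext c
    exact (hz1.2 c).symm.trans (hz2.2 c)

lemma volume_cell3 {N : ℕ} (hN : 1 ≤ N) (i : ℕ) (k : Fin m → ℤ) :
    volume (cell3 N i k) ≤ ENNReal.ofReal (6 / N * (1 / N) ^ m) := by
  have hNpos : (0 : ℝ) < N := by exact_mod_cast hN
  have h1 : cell3 N i k ⊆ (fun z : EuclideanSpace ℝ (Fin (m + 1)) => z.ofLp) ⁻¹'
      (Set.Icc (Fin.snoc (α := fun _ => ℝ) (fun c => (k c : ℝ) / N) ((i : ℝ) * 6 / N - 3))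
        (Fin.snoc (α := fun _ => ℝ) (fun c => ((k c : ℝ) + 1) / N)
          (((i : ℝ) + 1) * 6 / N - 3))) := by
    intro z hz
    have hl1 := Int.floor_le ((z.ofLp (Fin.last m) + 3) * N / 6)
    have hl2 := Int.lt_floor_add_one ((z.ofLp (Fin.last m) + 3) * N / 6)
    rw [hz.1] at hl1 hl2
    push_cast at hl1 hl2
    rw [le_div_iff₀ (by norm_num)] at hl1
    rw [div_lt_iff₀ (by norm_num)] at hl2
    simp only [Set.mem_preimage, Set.mem_Icc, Pi.le_def]
    constructor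
    · intro j
      refine Fin.lastCases ?_ (fun c => ?_) j
      · simp only [Fin.snoc_last]
        rw [sub_le_iff_le_add, div_le_iff₀ hNpos]
        exact hl1
      · simp only [Fin.snoc_castSucc]
        have h2 := Int.floor_le ((N : ℝ) * z.ofLp (Fin.castSucc c))
        rw [hz.2 c] at h2
        rw [div_le_iff₀ hNpos]
        linarith only [h2]
    · intro j
      refine Fin.lastCases ?_ (fun c => ?_) j
      · simp only [Fin.snoc_last]
        rw [le_sub_iff_add_le, le_div_iff₀ hNpos]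
        exact hl2.le
      · simp only [Fin.snoc_castSucc]
        have h2 := Int.lt_floor_add_one ((N : ℝ) * z.ofLp (Fin.castSucc c))
        rw [hz.2 c] at h2
        rw [le_div_iff₀ hNpos]
        linarith only [h2]
  refine (measure_mono h1).trans ?_
  rw [(PiLp.volume_preserving_ofLp (Fin (m + 1))).measure_preimage
    measurableSet_Icc.nullMeasurableSet, Real.volume_Icc_pi, Fin.prod_univ_castSucc]
  simp only [Fin.snoc_castSucc, Fin.snoc_last]
  have e1 : ∀ c : Fin m, ((k c : ℝ) + 1) / N - (k c : ℝ) / N = 1 / N := fun c => by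
    field_simp
    ring
  have e2 : ((i : ℝ) + 1) * 6 / N - 3 - ((i : ℝ) * 6 / N - 3) = 6 / N := by
    field_simp
    ring
  simp only [e1, e2, Finset.prod_const, Finset.card_univ, Fintype.card_fin]
  rw [← ENNReal.ofReal_pow (by (clear * - hN; positivity)), ← ENNReal.ofReal_mul (by positivity), mul_comm]

end Vale.Agent.P127
end
end

section

section

/-!
# P127: counting of cells, and the local restricted weak type estimate
-/

namespace Vale.Agent.P127

open MeasureTheory Finset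

variable {m : ℕ}

/-- the finite set of slope cubes that meet `A` -/
theorem exists_cubes' (A : Set (Fin m → ℝ)) (hA : ∀ v ∈ A, ∀ i, |v i| ≤ 1) (q : ℝ) (hq : 0 < q)
    {w : ℝ} (hwA : ENNReal.ofReal w ≤ volume A) :
    ∃ Zs : Finset (Fin m → ℤ), (∀ z ∈ Zs, ∃ v ∈ A, ∀ i, ⌊q * v i⌋ = z i) ∧
      w * q ^ m ≤ (Zs.card : ℝ) := by
  classical
  set Zs : Finset (Fin m → ℤ) := (Fintype.piFinset (fun _ => Finset.Icc ⌊-q⌋ ⌊q⌋)).filter
    (fun z => ∃ v ∈ A, ∀ i, ⌊q * v i⌋ = z i) with hZs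
  refine ⟨Zs, fun z hz => (Finset.mem_filter.1 hz).2, ?_⟩
  have h1 : A ⊆ ⋃ z ∈ Zs, cubez q z := by
    intro v hv
    simp only [Set.mem_iUnion]
    refine ⟨fun i => ⌊q * v i⌋, ?_, fun i => rfl⟩
    rw [hZs, Finset.mem_filter]
    refine ⟨?_, v, hv, fun i => rfl⟩
    rw [Fintype.mem_piFinset]
    intro i
    have h2 := abs_le.1 (hA v hv i)
    rw [Finset.mem_Icc]
    have h3 := mul_le_mul_of_nonneg_left h2.1 hq.le
    have h4 := mul_le_mul_of_nonneg_left h2.2 hq.le
    rw [mul_neg_one] at h3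
    rw [mul_one] at h4
    exact ⟨Int.floor_le_floor h3, Int.floor_le_floor h4⟩
  have h2 : volume A ≤ ENNReal.ofReal ((Zs.card : ℝ) * (1 / q) ^ m) := by
    refine (measure_mono h1).trans ?_
    refine (measure_biUnion_finset_le Zs _).trans ?_
    refine (Finset.sum_le_sum fun z _ => volume_cubez q hq z).trans ?_
    rw [Finset.sum_const, nsmul_eq_mul, ENNReal.ofReal_mul (by (clear * -; (clear * -; positivity)))]
    simp only [one_div, inv_pow, ENNReal.ofReal_natCast, Std.le_refl]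
  have h3 := hwA.trans h2
  rw [ENNReal.ofReal_le_ofReal_iff (by (clear * - hq; (clear * - hq; positivity)))] at h3
  have h4 : w * q ^ m ≤ ((Zs.card : ℝ) * (1 / q) ^ m) * q ^ m :=
    mul_le_mul_of_nonneg_right h3 (by positivity)
  refine h4.trans (le_of_eq ?_)
  rw [mul_assoc, ← mul_pow, one_div_mul_cancel hq.ne', one_pow, mul_one]

/-- the horizontal neighbours of a cell -/
noncomputable def nbh (k : Fin m → ℤ) : Finset (Fin m → ℤ) :=
  Fintype.piFinset (fun c => Finset.Icc (k c - 11) (k c + 11))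

lemma card_nbh (k : Fin m → ℤ) : (nbh k).card = 23 ^ m := by
  rw [nbh, Fintype.card_piFinset]
  have h : ∀ c : Fin m, (Finset.Icc (k c - 11) (k c + 11)).card = 23 := by
    intro c
    rw [Int.card_Icc]
    have : k c + 11 + 1 - (k c - 11) = 23 := by ring
    rw [this]
    rfl
  simp only [h, Finset.prod_const, Finset.card_univ, Fintype.card_fin]

lemma mem_nbh_comm {k l : Fin m → ℤ} : k ∈ nbh l ↔ l ∈ nbh k := by
  simp only [nbh, Fintype.mem_piFinset, mem_Icc]
  constructor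
  · intro h c
    have := h c
    constructor <;> omega
  · intro h c
    have := h c
    constructor <;> omega

/-- the cell of the central line at the height index `i` -/
noncomputable def kl (N : ℕ) (a : EuclideanSpace ℝ (Fin (m + 1))) (v : Fin m → ℝ) (i : ℕ) :
    Fin m → ℤ :=
  fun c => ⌊(N : ℝ) * (a.ofLp (Fin.castSucc c) - a.ofLp (Fin.last m) * v c - 3 * v c) +
    ((i : ℝ) / N) * (6 * N * v c)⌋

theorem tube_subset {N : ℕ} (hN : 1 ≤ N) {δ : ℝ} (hδ1 : δ < 1) (hNδ : (N : ℝ) * δ ≤ 2)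
    {a : EuclideanSpace ℝ (Fin (m + 1))} {v : Fin m → ℝ} (hv : ∀ i, |v i| ≤ 1)
    (ha : ∀ i, |a.ofLp i| ≤ 1) :
    tube δ a (dir v) ⊆ ⋃ i ∈ Finset.range N, ⋃ k ∈ nbh (kl N a v i), cell3 N i k := by
  intro z hz
  have hNpos : (0 : ℝ) < N := by exact_mod_cast hN
  obtain ⟨h1, h2⟩ := tube_near hv hz
  have hal := abs_le.1 (ha (Fin.last m))
  have h1' := abs_le.1 h1
  set y := z.ofLp (Fin.last m) with hy
  set u : ℝ := (y + 3) * N / 6 with hu
  have hu0 : 0 ≤ u := by
    have : 0 ≤ y + 3 := by linarith only [hδ1, hal, h1']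
    (clear * - hN this; (clear * - this hN; positivity))
  have huN : u < N := by
    rw [hu, div_lt_iff₀ (by norm_num), mul_comm]
    exact mul_lt_mul_of_pos_left (by linarith only [hδ1, hal, h1']) hNpos
  have hf1 := Nat.floor_le hu0
  have hf2 := Nat.lt_floor_add_one u
  simp only [Set.mem_iUnion]
  refine ⟨⌊u⌋₊, Finset.mem_range.2 ((Nat.floor_lt hu0).2 huN),
    fun c => ⌊(N : ℝ) * z.ofLp (Fin.castSucc c)⌋, ?_, ?_⟩
  · rw [nbh, Fintype.mem_piFinset]
    intro c
    have h3 : |(N : ℝ) * z.ofLp (Fin.castSucc c) -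
        ((N : ℝ) * (a.ofLp (Fin.castSucc c) - a.ofLp (Fin.last m) * v c - 3 * v c) +
        ((⌊u⌋₊ : ℝ) / N) * (6 * N * v c))| ≤ 10 := by
      have e1 : (N : ℝ) * z.ofLp (Fin.castSucc c) -
        ((N : ℝ) * (a.ofLp (Fin.castSucc c) - a.ofLp (Fin.last m) * v c - 3 * v c) +
        ((⌊u⌋₊ : ℝ) / N) * (6 * N * v c)) =
        N * (z.ofLp (Fin.castSucc c) - ((a.ofLp (Fin.castSucc c) -
          a.ofLp (Fin.last m) * v c) + y * v c)) + 6 * (u - ⌊u⌋₊) * v c := by
        rw [hu]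
        field_simp
        ring
      rw [e1]
      refine (abs_add_le _ _).trans ?_
      rw [abs_mul, abs_mul, abs_mul, abs_of_pos hNpos,
        abs_of_nonneg (by linarith only [hf1] : 0 ≤ u - (⌊u⌋₊ : ℝ)), abs_of_pos (by norm_num : (0 : ℝ) < 6)]
      have h4 := mul_le_mul_of_nonneg_left (h2 c) hNpos.le
      have h5 : 6 * (u - (⌊u⌋₊ : ℝ)) * |v c| ≤ 6 * 1 * 1 :=
        mul_le_mul (by linarith only [hf2]) (hv c) (abs_nonneg _) (by norm_num)
      linarith only [hNδ, h4, h5]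
    have h4 := abs_le.1 h3
    rw [Finset.mem_Icc]
    unfold kl
    constructor
    · rw [Int.le_floor]
      push_cast
      have := Int.floor_le ((N : ℝ) * (a.ofLp (Fin.castSucc c) - a.ofLp (Fin.last m) * v c -
        3 * v c) + ((⌊u⌋₊ : ℝ) / N) * (6 * N * v c))
      linarith only [h4.1, this]
    · rw [← Int.lt_add_one_iff, Int.floor_lt]
      push_cast
      have := Int.lt_floor_add_one ((N : ℝ) * (a.ofLp (Fin.castSucc c) -
        a.ofLp (Fin.last m) * v c - 3 * v c) + ((⌊u⌋₊ : ℝ) / N) * (6 * N * v c))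
      linarith only [h4.2, this]
  · refine ⟨?_, fun c => rfl⟩
    rw [Int.floor_eq_iff]
    push_cast
    exact ⟨hf1, hf2⟩

/-- good cells -/
theorem exists_good {E : Set (EuclideanSpace ℝ (Fin (m + 1)))} (hE : MeasurableSet E)
    (hEfin : volume E ≠ ⊤) (N : ℕ) {θ : ℝ} (hθ : 0 < θ) :
    ∃ Gd : ℕ → Finset (Fin m → ℤ),
      (∀ i k, ENNReal.ofReal θ ≤ volume (E ∩ cell3 N i k) → k ∈ Gd i) ∧
      (∑ i ∈ Finset.range N, ((Gd i).card : ℝ)) * θ ≤ (volume E).toReal := by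
  classical
  have hmeas : ∀ p : ℕ × (Fin m → ℤ), MeasurableSet (E ∩ cell3 N p.1 p.2) := fun p =>
    hE.inter (measurableSet_cell3 N p.1 p.2)
  have hdisj : Pairwise (Function.onFun Disjoint
      (fun p : ℕ × (Fin m → ℤ) => E ∩ cell3 N p.1 p.2)) := by
    intro p q hpq
    exact (disjoint_cell3 N hpq).mono Set.inter_subset_right Set.inter_subset_right
  have hfin : {p : ℕ × (Fin m → ℤ) | ENNReal.ofReal θ ≤ volume (E ∩ cell3 N p.1 p.2)}.Finite := by
    refine Measure.finite_const_le_meas_of_disjoint_iUnion volume (ENNReal.ofReal_pos.2 hθ)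
      hmeas hdisj ?_
    refine ne_top_of_le_ne_top hEfin (measure_mono (Set.iUnion_subset fun p => ?_))
    exact Set.inter_subset_left
  have hfin_i : ∀ i : ℕ, {k : Fin m → ℤ |
      ENNReal.ofReal θ ≤ volume (E ∩ cell3 N i k)}.Finite := by
    intro i
    refine (hfin.preimage (f := fun k : Fin m → ℤ => (i, k)) ?_)
    intro k _ k' _ h
    exact (Prod.ext_iff.1 h).2
  refine ⟨fun i => (hfin_i i).toFinset, fun i k h => (hfin_i i).mem_toFinset.2 h, ?_⟩
  have h1 : ∑ p ∈ (Finset.range N).sigma (fun i => (hfin_i i).toFinset),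
      ENNReal.ofReal θ ≤ volume E := by
    have h2 : ∑ p ∈ (Finset.range N).sigma (fun i => (hfin_i i).toFinset), ENNReal.ofReal θ ≤
        ∑ p ∈ (Finset.range N).sigma (fun i => (hfin_i i).toFinset),
          volume (E ∩ cell3 N p.1 p.2) := by
      refine Finset.sum_le_sum fun p hp => ?_
      rw [Finset.mem_sigma] at hp
      exact (hfin_i p.1).mem_toFinset.1 hp.2
    refine h2.trans ?_
    rw [← measure_biUnion_finset]
    · refine measure_mono (Set.iUnion₂_subset fun p _ => Set.inter_subset_left)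
    · intro p _ q _ hpq
      refine hdisj (i := (p.1, p.2)) (j := (q.1, q.2)) ?_
      intro h
      apply hpq
      obtain ⟨h1, h2⟩ := Prod.ext_iff.1 h
      exact Sigma.ext h1 (heq_of_eq h2)
    · exact fun p _ => hmeas (p.1, p.2)
  rw [Finset.sum_const, Finset.card_sigma, nsmul_eq_mul] at h1
  have h3 := ENNReal.toReal_mono hEfin h1
  rw [ENNReal.toReal_mul, ENNReal.toReal_natCast, ENNReal.toReal_ofReal hθ.le] at h3
  push_cast at h3
  exact h3

end Vale.Agent.P127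
end
end

section

section

/-!
# P127: the local restricted weak type estimate
-/

namespace Vale.Agent.P127

open MeasureTheory Finset

variable {m : ℕ}

/-- the mass of `E` in a tube is carried by the good cells -/
theorem card_good {N : ℕ} (hN : 1 ≤ N) {δ : ℝ} (hδ1 : δ < 1) (hNδ : (N : ℝ) * δ ≤ 2)
    {a : EuclideanSpace ℝ (Fin (m + 1))} {v : Fin m → ℝ} (hv : ∀ i, |v i| ≤ 1)
    (ha : ∀ i, |a.ofLp i| ≤ 1) {E : Set (EuclideanSpace ℝ (Fin (m + 1)))} {θ : ℝ} (hθ : 0 < θ)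
    (Gd : ℕ → Finset (Fin m → ℤ))
    (hGd : ∀ i k, ENNReal.ofReal θ ≤ volume (E ∩ cell3 N i k) → k ∈ Gd i)
    (Es : Finset ℕ) (hEs : ∀ i ∈ Finset.range N, (∃ k ∈ nbh (kl N a v i), k ∈ Gd i) → i ∈ Es)
    {μ : ℝ} (hμ : ENNReal.ofReal μ ≤ volume (E ∩ tube δ a (dir v))) :
    μ ≤ 23 ^ m * (N * θ + Es.card * (6 / N * (1 / N) ^ m)) := by
  classical
  have hNpos : (0 : ℝ) < N := by exact_mod_cast hN
  have hsub := tube_subset hN hδ1 hNδ hv ha
  have h1 : volume (E ∩ tube δ a (dir v)) ≤ ∑ i ∈ Finset.range N,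
      ∑ k ∈ nbh (kl N a v i), volume (E ∩ cell3 N i k) := by
    have h2 : E ∩ tube δ a (dir v) ⊆ ⋃ i ∈ Finset.range N, ⋃ k ∈ nbh (kl N a v i),
        (E ∩ cell3 N i k) := by
      intro z hz
      have h3 := hsub hz.2
      simp only [Set.mem_iUnion] at h3 ⊢
      obtain ⟨i, hi, k, hk, h4⟩ := h3
      exact ⟨i, hi, k, hk, hz.1, h4⟩
    refine (measure_mono h2).trans ?_
    refine (measure_biUnion_finset_le _ _).trans (Finset.sum_le_sum fun i _ => ?_)
    exact measure_biUnion_finset_le _ _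
  have hcell : (0 : ℝ) ≤ 6 / N * (1 / N) ^ m := by (clear * - hN; positivity)
  have h2 : ∀ i ∈ Finset.range N, ∑ k ∈ nbh (kl N a v i), volume (E ∩ cell3 N i k) ≤
      ENNReal.ofReal (23 ^ m * (θ + (if i ∈ Es then 6 / (N : ℝ) * (1 / N) ^ m else 0 : ℝ))) := by
    intro i hi
    have h3 : ∀ k ∈ nbh (kl N a v i), volume (E ∩ cell3 N i k) ≤
        ENNReal.ofReal (θ + (if i ∈ Es then 6 / (N : ℝ) * (1 / N) ^ m else 0 : ℝ)) := by
      intro k hk
      by_cases hgood : k ∈ Gd i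
      · have h4 : i ∈ Es := hEs i hi ⟨k, hk, hgood⟩
        rw [if_pos h4]
        refine (measure_mono Set.inter_subset_right).trans ((volume_cell3 hN i k).trans ?_)
        exact ENNReal.ofReal_le_ofReal (by linarith only [hθ])
      · have h4 : volume (E ∩ cell3 N i k) < ENNReal.ofReal θ := by
          by_contra hcon
          exact hgood (hGd i k (not_lt.1 hcon))
        refine h4.le.trans (ENNReal.ofReal_le_ofReal ?_)
        split_ifs <;> linarith only [hcell]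
    refine (Finset.sum_le_sum h3).trans ?_
    rw [Finset.sum_const, card_nbh, nsmul_eq_mul, ENNReal.ofReal_mul (by positivity)]
    refine le_of_eq ?_
    congr 1
    rw [ENNReal.ofReal_pow (by norm_num)]
    norm_num
  have h3 := hμ.trans (h1.trans (Finset.sum_le_sum h2))
  rw [← ENNReal.ofReal_sum_of_nonneg (fun i _ => by
    split_ifs <;> positivity)] at h3
  rw [ENNReal.ofReal_le_ofReal_iff (Finset.sum_nonneg fun i _ => by
    split_ifs <;> positivity)] at h3
  rw [← Finset.mul_sum, Finset.sum_add_distrib, Finset.sum_const, Finset.card_range,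
    nsmul_eq_mul, ← Finset.sum_filter, Finset.sum_const, nsmul_eq_mul] at h3
  refine h3.trans ?_
  refine mul_le_mul_of_nonneg_left ?_ (by positivity)
  have h4 : (((Finset.range N).filter (fun i => i ∈ Es)).card : ℝ) ≤ Es.card := by
    exact_mod_cast Finset.card_le_card fun i hi => (Finset.mem_filter.1 hi).2
  have h5 := mul_le_mul_of_nonneg_right h4 hcell
  linarith only [h5]

/-- exponentiated form of the core inequality -/
lemma exp_core {β C L Q lam : ℝ} (hL : 0 < L) (hQ : 0 < Q) (hlam : 0 < lam)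
    (h : Real.log L ≤ β * Real.log Q + C * (1 + Real.log (1 / lam))) :
    L ≤ Q ^ β * Real.exp C * (1 / lam) ^ C := by
  rw [Real.rpow_def_of_pos hQ, Real.rpow_def_of_pos (by (clear * - hlam; positivity) : 0 < 1 / lam),
    ← Real.exp_add, ← Real.exp_add]
  rw [← Real.exp_log hL]
  refine Real.exp_le_exp.2 (h.trans (le_of_eq (by ring)))

end Vale.Agent.P127
end
end

section

section

/-!
# P127: the local restricted weak type estimate, conclusion
-/

namespace Vale.Agent.P127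

open MeasureTheory Finset

variable {m : ℕ}

/-- the algebra of the constants -/
lemma final_alg {β C0 w e lam δ Nr Ka Kb : ℝ} (hβ : 1 ≤ β) (hC0 : 0 ≤ C0) (he : 0 ≤ e)
    (hw : 0 ≤ w) (hlam : 0 < lam) (hlam1 : lam ≤ 1) (hδ : 0 < δ) (hN : 1 ≤ Nr)
    (hNδ : Nr ≤ 2 / δ) (hKa : 0 < Ka) (hKb : 0 < Kb)
    (h : w * (6 * Nr) ^ m ≤ (Ka * e * Nr ^ m / lam ^ 2) ^ β * Real.exp C0 * (Kb / lam) ^ C0) :
    w ≤ ((Ka ^ β * Real.exp C0 * Kb ^ C0 * 2 ^ ((m : ℝ) * (β - 1))) + (2 * β + C0)) *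
      lam ^ (-((Ka ^ β * Real.exp C0 * Kb ^ C0 * 2 ^ ((m : ℝ) * (β - 1))) + (2 * β + C0))) *
      δ ^ (-((m : ℝ) * (β - 1))) * e ^ β := by
  have hNr : 0 < Nr := by linarith only [hN]
  set K1 : ℝ := Ka ^ β * Real.exp C0 * Kb ^ C0 * 2 ^ ((m : ℝ) * (β - 1)) with hK1
  have hK1pos : 0 < K1 := by (clear * - hKa hKb; positivity)
  have hNm : (0 : ℝ) < Nr ^ m := by (clear * - hN; positivity)
  -- expand the right-hand side
  have e1 : (Ka * e * Nr ^ m / lam ^ 2) ^ β = Ka ^ β * e ^ β * (Nr ^ m) ^ β * lam ^ (-(2 * β)) := by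
    rw [div_eq_mul_inv, Real.mul_rpow (by (clear * - hKa he hN; positivity)) (by (clear * - hlam; positivity)),
      Real.mul_rpow (by (clear * - hKa he; positivity)) hNm.le, Real.mul_rpow hKa.le he,
      Real.inv_rpow (by positivity), ← Real.rpow_natCast lam 2, ← Real.rpow_mul hlam.le,
      ← Real.rpow_neg hlam.le]
    norm_num
  have e2 : (Kb / lam) ^ C0 = Kb ^ C0 * lam ^ (-C0) := by
    rw [div_eq_mul_inv, Real.mul_rpow hKb.le (by positivity), Real.inv_rpow hlam.le,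
      ← Real.rpow_neg hlam.le]
  have e3 : (Nr ^ m) ^ β = Nr ^ m * Nr ^ ((m : ℝ) * (β - 1)) := by
    rw [← Real.rpow_natCast Nr m, ← Real.rpow_mul hNr.le, ← Real.rpow_add hNr]
    congr 1
    ring
  have h1 : w * Nr ^ m ≤ w * (6 * Nr) ^ m := by
    refine mul_le_mul_of_nonneg_left ?_ hw
    exact pow_le_pow_left₀ hNr.le (by linarith only [hN]) m
  have h2 := h1.trans h
  rw [e1, e2, e3] at h2
  have h3 : w ≤ Ka ^ β * Real.exp C0 * Kb ^ C0 * e ^ β * Nr ^ ((m : ℝ) * (β - 1)) *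
      (lam ^ (-(2 * β)) * lam ^ (-C0)) := by
    refine le_of_mul_le_mul_right ?_ hNm
    refine h2.trans (le_of_eq ?_)
    ring
  have h4 : Nr ^ ((m : ℝ) * (β - 1)) ≤ 2 ^ ((m : ℝ) * (β - 1)) * δ ^ (-((m : ℝ) * (β - 1))) := by
    have hx : 0 ≤ (m : ℝ) * (β - 1) := mul_nonneg (by (clear * -; (clear * -; positivity))) (by linarith only [hβ])
    refine (Real.rpow_le_rpow hNr.le hNδ hx).trans (le_of_eq ?_)
    rw [Real.div_rpow (by norm_num) hδ.le, Real.rpow_neg hδ.le, div_eq_mul_inv]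
  have h5 : lam ^ (-(2 * β)) * lam ^ (-C0) ≤ lam ^ (-(K1 + (2 * β + C0))) := by
    rw [← Real.rpow_add hlam]
    refine Real.rpow_le_rpow_of_exponent_ge hlam hlam1 ?_
    linarith only [hK1pos]
  have h6 : 0 ≤ e ^ β := Real.rpow_nonneg he _
  calc w ≤ Ka ^ β * Real.exp C0 * Kb ^ C0 * e ^ β * Nr ^ ((m : ℝ) * (β - 1)) *
      (lam ^ (-(2 * β)) * lam ^ (-C0)) := h3
    _ ≤ Ka ^ β * Real.exp C0 * Kb ^ C0 * e ^ β *
        (2 ^ ((m : ℝ) * (β - 1)) * δ ^ (-((m : ℝ) * (β - 1)))) *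
        lam ^ (-(K1 + (2 * β + C0))) := by (clear * - he hlam hδ hKa hKb h4 h5; gcongr)
    _ = K1 * lam ^ (-(K1 + (2 * β + C0))) * δ ^ (-((m : ℝ) * (β - 1))) * e ^ β := by
        rw [hK1]; ring
    _ ≤ (K1 + (2 * β + C0)) * lam ^ (-(K1 + (2 * β + C0))) *
        δ ^ (-((m : ℝ) * (β - 1))) * e ^ β := by
        have h7 : 0 ≤ 2 * β + C0 := by linarith only [hβ, hC0]
        gcongr
        linarith only [hβ, hC0]

lemma alg_Q {lam cT P Nr e : ℝ} (hlam : 0 < lam) (hcT : 0 < cT) (hP : 0 < P) (hN : 0 < Nr)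
    (m : ℕ) :
    P * (e / (lam * cT * (1 / Nr) ^ m / (2 * P * Nr))) / (lam * cT / (12 * P) * Nr) =
      24 * P ^ 3 / cT ^ 2 * e * Nr ^ m / lam ^ 2 := by
  have h1 : (1 / Nr) ^ m = (Nr ^ m)⁻¹ := by rw [one_div, inv_pow]
  have h2 : 0 < Nr ^ m := by (clear * - hN; positivity)
  rw [h1]
  generalize Nr ^ m = T at h2 ⊢
  field_simp
  ring

lemma final_combine {β C0 L Q Q' l K W : ℝ} (hβ : 0 ≤ β) (hK : 0 ≤ K) (hW : W ≤ L)
    (h : L ≤ Q ^ β * Real.exp C0 * (1 / l) ^ C0) (hQ : 0 ≤ Q) (hQQ : Q ≤ Q') (hl : 1 / l = K) :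
    W ≤ Q' ^ β * Real.exp C0 * K ^ C0 := by
  rw [hl] at h
  refine hW.trans (h.trans ?_)
  have h1 := Real.rpow_le_rpow hQ hQQ hβ
  have h2 : 0 ≤ K ^ C0 := Real.rpow_nonneg hK _
  have h3 := (Real.exp_pos C0).le
  gcongr

/-- density of the good heights -/
theorem card_heights {N : ℕ} (hN : 1 ≤ N) {δ : ℝ} (hδ : 0 < δ) (hδ1 : δ < 1)
    (hNδ : (N : ℝ) * δ ≤ 2) (hNδ' : 1 / (N : ℝ) ≤ δ)
    {a : EuclideanSpace ℝ (Fin (m + 1))} {v : Fin m → ℝ} (hv : ∀ i, |v i| ≤ 1)
    (ha : ∀ i, |a.ofLp i| ≤ 1) {E : Set (EuclideanSpace ℝ (Fin (m + 1)))} {lam cT P : ℝ}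
    (hlam : 0 < lam) (hcT : cT = (2 / ((m : ℝ) + 1)) ^ m) (hP : P = 23 ^ m)
    (Gd : ℕ → Finset (Fin m → ℤ))
    (hGd : ∀ i k, ENNReal.ofReal (lam * cT * (1 / N) ^ m / (2 * P * N)) ≤
      volume (E ∩ cell3 N i k) → k ∈ Gd i)
    (Es : Finset ℕ) (hEs : ∀ i ∈ Finset.range N, (∃ k ∈ nbh (kl N a v i), k ∈ Gd i) → i ∈ Es)
    (hμ : ENNReal.ofReal lam * volume (tube δ a (dir v)) ≤ volume (E ∩ tube δ a (dir v))) :
    lam * cT / (12 * P) * N ≤ (Es.card : ℝ) := by
  have hNpos : (0 : ℝ) < N := by exact_mod_cast hN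
  have hcTpos : 0 < cT := by rw [hcT]; (clear * -; positivity)
  have hPpos : 0 < P := by rw [hP]; positivity
  have h1 := card_good (μ := lam * (cT * δ ^ m)) hN hδ1 hNδ hv ha (by (clear * - hlam hcTpos hN hPpos; positivity)) Gd hGd Es hEs
    (by
      refine le_trans ?_ hμ
      rw [ENNReal.ofReal_mul hlam.le]
      refine mul_le_mul_right ?_ _
      rw [hcT]
      exact volume_tube_ge hδ _ _ (norm_dir _))
  rw [← hP] at h1
  have hpow : (1 / (N : ℝ)) ^ m ≤ δ ^ m := pow_le_pow_left₀ (by positivity) hNδ' m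
  have h2 : P * (N * (lam * cT * (1 / N) ^ m / (2 * P * N))) = lam * cT * (1 / N) ^ m / 2 := by
    (clear * - hPpos hN hcTpos hlam; field_simp)
  have h3 : lam * (cT * (1 / (N : ℝ)) ^ m) ≤ lam * (cT * δ ^ m) := by (clear * - hlam hcTpos hpow; gcongr)
  have h4 : lam * cT * (1 / (N : ℝ)) ^ m / 2 ≤ P * ((Es.card : ℝ) * (6 / N * (1 / N) ^ m)) := by
    rw [mul_add, h2] at h1
    linarith only [h1, h3]
  have hpp : 0 < (1 / (N : ℝ)) ^ m := by (clear * - hN; positivity)
  have h5 : lam * cT / 2 ≤ P * ((Es.card : ℝ) * (6 / N)) := by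
    refine le_of_mul_le_mul_right ?_ hpp
    linarith only [h1, h2, h3]
  have h6 : lam * cT / 2 * N ≤ P * ((Es.card : ℝ) * 6) := by
    have := mul_le_mul_of_nonneg_right h5 hNpos.le
    have e : P * ((Es.card : ℝ) * (6 / N)) * N = P * ((Es.card : ℝ) * 6) := by
      (clear * - hN hPpos; (clear * - hN hPpos; field_simp))
    rw [e] at this
    exact this
  rw [div_mul_eq_mul_div, div_le_iff₀ (by (clear * - hPpos; positivity))]
  linarith only [h6]

/-- the estimate at one scale, in terms of natural constants -/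
theorem loc_main {β C0 : ℝ} (hβ : 1 ≤ β) (hcore : CoreAt β m 6 C0)
    {δ : ℝ} (hδ : 0 < δ) (hδ1 : δ < 1) {E : Set (EuclideanSpace ℝ (Fin (m + 1)))}
    (hE : MeasurableSet E) (hEfin : volume E ≠ ⊤) {lam : ℝ} (hlam : 0 < lam)
    {A : Set (Fin m → ℝ)}
    (hA : ∀ v ∈ A, (∀ i, |v i| ≤ 1) ∧ ∃ a : EuclideanSpace ℝ (Fin (m + 1)),
      (∀ i, |a.ofLp i| ≤ 1) ∧
      ENNReal.ofReal lam * volume (tube δ a (dir v)) ≤ volume (E ∩ tube δ a (dir v)))
    {w : ℝ} (hw : 0 < w) (hwA : ENNReal.ofReal w ≤ volume A)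
    {N : ℕ} (hN : 1 ≤ N) (hNδ : (N : ℝ) * δ ≤ 2) (hNδ' : 1 / (N : ℝ) ≤ δ)
    {cT P : ℝ} (hcT : cT = (2 / ((m : ℝ) + 1)) ^ m) (hP : P = 23 ^ m) :
    w * (6 * (N : ℝ)) ^ m ≤ (24 * P ^ 3 / cT ^ 2 * (volume E).toReal * (N : ℝ) ^ m / lam ^ 2) ^ β *
      Real.exp C0 * (12 * P / cT / lam) ^ C0 := by
  classical
  have hNpos : (0 : ℝ) < N := by exact_mod_cast hN
  have hcTpos : 0 < cT := by rw [hcT]; (clear * -; (clear * -; positivity))
  have hPpos : 0 < P := by rw [hP]; positivity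
  have hq : 0 < 6 * (N : ℝ) := by (clear * - hN; positivity)
  obtain ⟨Zs, hZ1, hZ2⟩ := exists_cubes' A (fun v hv => (hA v hv).1) (6 * N) hq hwA
  choose! vz hvA hvz using hZ1
  choose! av hav1 hav2 using fun v hv => (hA v hv).2
  have hcardpos : (0 : ℝ) < Zs.card := lt_of_lt_of_le (by (clear * - hw hN; positivity)) hZ2
  have hZne : Zs.Nonempty := by
    rw [← Finset.card_pos]
    exact_mod_cast hcardpos
  have hne : Nonempty {z // z ∈ Zs} := ⟨⟨hZne.choose, hZne.choose_spec⟩⟩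
  have hv1 : ∀ z : {z // z ∈ Zs}, ∀ i, |vz z.1 i| ≤ 1 := fun z => (hA _ (hvA z.1 z.2)).1
  have ha1 : ∀ z : {z // z ∈ Zs}, ∀ i, |(av (vz z.1)).ofLp i| ≤ 1 := fun z =>
    hav1 _ (hvA z.1 z.2)
  -- good cells
  set θ : ℝ := lam * cT * (1 / N) ^ m / (2 * P * N) with hθ
  have hθpos : 0 < θ := by (clear * - hlam hN hcTpos hPpos; (clear * - hlam hcTpos hN hPpos; positivity))
  obtain ⟨Gd, hGd1, hGd2⟩ := exists_good hE hEfin N hθpos
  set S : ℕ → Finset (Fin m → ℤ) := fun i => (Gd i).biUnion nbh with hS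
  set Es : {z // z ∈ Zs} → Finset ℕ := fun z =>
    (Finset.range N).filter (fun i => kl N (av (vz z.1)) (vz z.1) i ∈ S i) with hEs
  set lam' : ℝ := lam * cT / (12 * P) with hlam'
  have hlam'pos : 0 < lam' := by (clear * - hlam hcTpos hPpos; positivity)
  have hEcard : ∀ z : {z // z ∈ Zs}, lam' * N ≤ ((Es z).card : ℝ) := by
    intro z
    refine card_heights hN hδ hδ1 hNδ hNδ' (hv1 z) (ha1 z) hlam hcT hP Gd hGd1 (Es z)
      (fun i hi hk => ?_) (hav2 _ (hvA z.1 z.2))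
    obtain ⟨k, hk1, hk2⟩ := hk
    exact Finset.mem_filter.2 ⟨hi, Finset.mem_biUnion.2 ⟨k, hk2, mem_nbh_comm.1 hk1⟩⟩
  have hlam'1 : lam' ≤ 1 := by
    obtain ⟨z⟩ := hne
    have h1 := hEcard z
    have h2 : ((Es z).card : ℝ) ≤ N := by
      have := Finset.card_le_card (Finset.filter_subset
        (fun i => kl N (av (vz z.1)) (vz z.1) i ∈ S i) (Finset.range N))
      rw [Finset.card_range] at this
      exact_mod_cast this
    have h3 : lam' * N ≤ 1 * N := by linarith only [h1, h2]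
    exact le_of_mul_le_mul_right h3 hNpos
  have hXB : ∀ (z : {z // z ∈ Zs}) (c : Fin m),
      |(N : ℝ) * ((av (vz z.1)).ofLp (Fin.castSucc c) -
        (av (vz z.1)).ofLp (Fin.last m) * vz z.1 c - 3 * vz z.1 c)| ≤ 6 * N := by
    intro z c
    have h1 := abs_le.1 (ha1 z (Fin.castSucc c))
    have h2 := ha1 z (Fin.last m)
    have h3 := abs_le.1 (hv1 z c)
    have h4 : |(av (vz z.1)).ofLp (Fin.last m) * vz z.1 c| ≤ 1 := by
      rw [abs_mul]
      exact mul_le_one₀ h2 (abs_nonneg _) (hv1 z c)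
    have h5 := abs_le.1 h4
    rw [abs_mul, abs_of_pos hNpos, mul_comm]
    refine mul_le_mul_of_nonneg_right ?_ hNpos.le
    rw [abs_le]
    constructor <;> linarith only [h1, h3, h5]
  have hVB : ∀ (z : {z // z ∈ Zs}) (c : Fin m), |6 * (N : ℝ) * vz z.1 c| ≤ 6 * N := by
    intro z c
    rw [abs_mul, abs_of_pos hq]
    exact mul_le_of_le_one_right hq.le (hv1 z c)
  have hinj : Function.Injective (fun z : {z // z ∈ Zs} => fun i => ⌊6 * (N : ℝ) * vz z.1 i⌋) := by
    intro z z' h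
    apply Subtype.ext
    funext i
    have h1 := congrFun h i
    simp only at h1
    rw [hvz z.1 z.2 i, hvz z'.1 z'.2 i] at h1
    exact h1
  have main := hcore N hN {z // z ∈ Zs}
    (fun z c => (N : ℝ) * ((av (vz z.1)).ofLp (Fin.castSucc c) -
        (av (vz z.1)).ofLp (Fin.last m) * vz z.1 c - 3 * vz z.1 c))
    (fun z c => 6 * (N : ℝ) * vz z.1 c) hXB hVB hinj Es (fun z => Finset.filter_subset _ _)
    lam' hlam'pos hlam'1 hEcard S (fun z i hi => (Finset.mem_filter.1 hi).2)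
  have hSsum : ∑ i ∈ Finset.range N, ((S i).card : ℝ) ≤ P * ((volume E).toReal / θ) := by
    have h1 : ∀ i ∈ Finset.range N, ((S i).card : ℝ) ≤ P * ((Gd i).card : ℝ) := by
      intro i _
      have h2 : (S i).card ≤ ∑ k ∈ Gd i, (nbh k).card := Finset.card_biUnion_le
      simp only [card_nbh, Finset.sum_const, smul_eq_mul] at h2
      have h3 : ((S i).card : ℝ) ≤ (((Gd i).card * 23 ^ m : ℕ) : ℝ) := by exact_mod_cast h2
      refine h3.trans (le_of_eq ?_)
      rw [hP]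
      push_cast
      ring
    refine (Finset.sum_le_sum h1).trans ?_
    rw [← Finset.mul_sum]
    refine mul_le_mul_of_nonneg_left ?_ hPpos.le
    rw [le_div_iff₀ hθpos]
    exact hGd2
  have hSpos : 0 < ∑ i ∈ Finset.range N, ((S i).card : ℝ) := by
    obtain ⟨z⟩ := hne
    have h1 := lt_of_lt_of_le (mul_pos hlam'pos hNpos) (hEcard z)
    have h2 := Finset.card_pos.1 (Nat.cast_pos.1 h1)
    obtain ⟨i, hi⟩ := h2
    refine Finset.sum_pos' (fun i _ => by (clear * -; positivity)) ⟨i, (Finset.mem_filter.1 hi).1, ?_⟩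
    exact Nat.cast_pos.2 (Finset.card_pos.2 ⟨_, (Finset.mem_filter.1 hi).2⟩)
  have h1 := exp_core (by
    rw [Fintype.card_coe]
    exact hcardpos) (div_pos hSpos (mul_pos hlam'pos hNpos)) hlam'pos main
  rw [Fintype.card_coe] at h1
  exact final_combine (by linarith only [hβ]) (by (clear * - hlam hcTpos hPpos; (clear * - hPpos hcTpos hlam; positivity))) hZ2 h1
    (div_pos hSpos (mul_pos hlam'pos hNpos)).le
    ((div_le_div_of_nonneg_right hSsum (mul_pos hlam'pos hNpos).le).trans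
    (le_of_eq (alg_Q hlam hcTpos hPpos hNpos m))) (by rw [hlam']; (clear * - hlam hcTpos hPpos; field_simp))

end Vale.Agent.P127
end
end

section

section

/-!
# P127: the local restricted weak type estimate from the core statement
-/

namespace Vale.Agent.P127

open MeasureTheory Finset

theorem locRWT_of_core {β : ℝ} (hβ : 1 ≤ β) {m : ℕ} (h : KakeyaCore β m) :
    ∃ C : ℝ, 0 ≤ C ∧ LocRWT m β C := by
  obtain ⟨C0, hC0, hcore⟩ := h 6 (by norm_num)
  set cT : ℝ := (2 / ((m : ℝ) + 1)) ^ m with hcT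
  set P : ℝ := 23 ^ m with hP
  have hcTpos : 0 < cT := by rw [hcT]; (clear * -; positivity)
  have hPpos : 0 < P := by rw [hP]; positivity
  set Ka : ℝ := 24 * P ^ 3 / cT ^ 2 with hKa
  set Kb : ℝ := 12 * P / cT with hKb
  have hKapos : 0 < Ka := by rw [hKa]; (clear * -; positivity)
  have hKbpos : 0 < Kb := by rw [hKb]; (clear * -; positivity)
  set C : ℝ := (Ka ^ β * Real.exp C0 * Kb ^ C0 * 2 ^ ((m : ℝ) * (β - 1))) + (2 * β + C0) with hC
  have hCpos : 0 < C := by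
    have : 0 < Ka ^ β * Real.exp C0 * Kb ^ C0 * 2 ^ ((m : ℝ) * (β - 1)) := by (clear * -; (clear * -; positivity))
    linarith only [hβ, hC0, this]
  have hβ0 : 0 < β := by linarith only [hβ]
  refine ⟨C, hCpos.le, ?_⟩
  intro δ hδ hδ1 E hE lam hlam hlam1 A hA
  have hpos : 0 < C * lam ^ (-C) * δ ^ (-(m * (β - 1))) := by (clear * - hβ hC0 hδ hlam; (clear * - hβ hC0 hlam hδ; positivity))
  by_cases hEtop : volume E = ⊤
  · rw [hEtop, ENNReal.top_rpow_of_pos hβ0, ENNReal.mul_top]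
    · exact le_top
    · exact (ENNReal.ofReal_pos.2 hpos).ne'
  by_cases hA0 : volume A = 0
  · rw [hA0]
    exact zero_le
  have hAfin : volume A ≠ ⊤ := by
    have h1 : A ⊆ Set.Icc (fun _ => -1) (fun _ => 1) := by
      intro v hv
      have h2 := (hA v hv).1
      exact ⟨fun i => (abs_le.1 (h2 i)).1, fun i => (abs_le.1 (h2 i)).2⟩
    refine ne_top_of_le_ne_top ?_ (measure_mono h1)
    rw [Real.volume_Icc_pi]
    simp only [sub_neg_eq_add, prod_const, card_univ, Fintype.card_fin, ne_eq,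
      ENNReal.pow_eq_top_iff, ENNReal.ofReal_ne_top, false_and, not_false_eq_true]
  obtain ⟨w, hw⟩ : ∃ w, w = (volume A).toReal := ⟨_, rfl⟩
  have hwpos : 0 < w := by rw [hw]; exact ENNReal.toReal_pos hA0 hAfin
  have hwA : volume A = ENNReal.ofReal w := by rw [hw, ENNReal.ofReal_toReal hAfin]
  -- the discretisation
  obtain ⟨N, hN⟩ : ∃ N, N = ⌈1 / δ⌉₊ := ⟨_, rfl⟩
  have hd1 : 1 < 1 / δ := by rw [lt_div_iff₀ hδ]; linarith only [hδ1]
  have hN1 : 1 / δ ≤ N := by rw [hN]; exact Nat.le_ceil _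
  have hN2 : (N : ℝ) < 1 / δ + 1 := by rw [hN]; exact Nat.ceil_lt_add_one (by (clear * - hδ; positivity))
  have hNr : (1 : ℝ) ≤ N := by linarith only [hd1, hN1]
  have hNn : 1 ≤ N := by exact_mod_cast hNr
  have hNpos : (0 : ℝ) < N := by linarith only [hd1, hN1]
  have hN3 : (N : ℝ) ≤ 2 / δ := by
    have : (2 : ℝ) / δ = 1 / δ + 1 / δ := by ring
    linarith only [hd1, hN2, this]
  have hNδ : (N : ℝ) * δ ≤ 2 := by
    rw [← le_div_iff₀ hδ]
    exact hN3
  have hNδ' : 1 / (N : ℝ) ≤ δ := by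
    rw [div_le_iff₀ hNpos]
    rw [div_le_iff₀ hδ] at hN1
    linarith only [hN1]
  have h1 := loc_main hβ hcore hδ hδ1 hE hEtop hlam hA hwpos hwA.ge hNn hNδ hNδ' hcT hP
  have h2 := final_alg hβ hC0 ENNReal.toReal_nonneg hwpos.le hlam hlam1 hδ hNr hN3 hKapos hKbpos h1
  rw [hwA]
  refine (ENNReal.ofReal_le_ofReal h2).trans (le_of_eq ?_)
  rw [ENNReal.ofReal_mul hpos.le]
  congr 1
  rw [← ENNReal.ofReal_rpow_of_nonneg ENNReal.toReal_nonneg hβ0.le, ENNReal.ofReal_toReal hEtop]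

end Vale.Agent.P127
end
end

section

section

/-!
# P127: from the local estimate in terms of slopes to the estimate on the sphere
-/

namespace Vale.Agent.P127

open MeasureTheory Set
open scoped Pointwise

/-- the slope of a vector -/
noncomputable def slope {m : ℕ} (x : EuclideanSpace ℝ (Fin (m + 1))) : Fin m → ℝ :=
  fun i => x.ofLp (Fin.castSucc i) / x.ofLp (Fin.last m)

lemma measurable_coord {n : ℕ} (i : Fin n) :
    Measurable fun x : EuclideanSpace ℝ (Fin n) => x.ofLp i :=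
  (measurable_pi_apply i).comp (WithLp.measurable_ofLp 2 _)

lemma measurable_slope {m : ℕ} : Measurable (slope (m := m)) := by
  refine measurable_pi_lambda _ fun i => ?_
  have h : Measurable (fun x : EuclideanSpace ℝ (Fin (m + 1)) =>
      x.ofLp (Fin.castSucc i) / x.ofLp (Fin.last m)) :=
    (measurable_coord (Fin.castSucc i)).div (measurable_coord (Fin.last m))
  exact h

lemma coord_le_norm {n : ℕ} (x : EuclideanSpace ℝ (Fin n)) (i : Fin n) : |x.ofLp i| ≤ ‖x‖ := by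
  have := PiLp.norm_apply_le x i
  simpa only [ge_iff_le, Real.norm_eq_abs] using this

/-- the cone over a set of slopes has measure at most the measure of the set -/
lemma volume_cone {m : ℕ} {H : Set (Fin m → ℝ)} (hH : MeasurableSet H) :
    volume {x : EuclideanSpace ℝ (Fin (m + 1)) |
      0 < x.ofLp (Fin.last m) ∧ x.ofLp (Fin.last m) ≤ 1 ∧ slope x ∈ H} ≤ volume H := by
  set T : Set (ℝ × (Fin m → ℝ)) := {q | 0 < q.1 ∧ q.1 ≤ 1 ∧ (fun i => q.2 i / q.1) ∈ H} with hT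
  have hmT : MeasurableSet T := by
    refine (measurableSet_lt measurable_const measurable_fst).inter
      ((measurableSet_le measurable_fst measurable_const).inter ?_)
    have : Measurable fun q : ℝ × (Fin m → ℝ) => (fun i => q.2 i / q.1) := by
      refine measurable_pi_lambda _ fun i => ?_
      have h : Measurable (fun q : ℝ × (Fin m → ℝ) => q.2 i / q.1) :=
        Measurable.div ((measurable_pi_apply i).comp measurable_snd) measurable_fst
      exact h
    exact this hH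
  have hp := (volume_preserving_piFinSuccAbove (fun _ : Fin (m + 1) => ℝ) (Fin.last m)).comp
    (PiLp.volume_preserving_ofLp (Fin (m + 1)))
  have he : {x : EuclideanSpace ℝ (Fin (m + 1)) |
      0 < x.ofLp (Fin.last m) ∧ x.ofLp (Fin.last m) ≤ 1 ∧ slope x ∈ H} =
      ((MeasurableEquiv.piFinSuccAbove (fun _ : Fin (m + 1) => ℝ) (Fin.last m)) ∘
        (@WithLp.ofLp 2 (Fin (m + 1) → ℝ))) ⁻¹' T := by
    ext x
    have h1 : ((MeasurableEquiv.piFinSuccAbove (fun _ : Fin (m + 1) => ℝ) (Fin.last m))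
        x.ofLp).1 = x.ofLp (Fin.last m) := rfl
    have h2 : ∀ i, ((MeasurableEquiv.piFinSuccAbove (fun _ : Fin (m + 1) => ℝ) (Fin.last m))
        x.ofLp).2 i = x.ofLp (Fin.castSucc i) := fun i => by
      rw [← Fin.succAbove_last_apply]; rfl
    have h3 : slope x = fun i => ((MeasurableEquiv.piFinSuccAbove
        (fun _ : Fin (m + 1) => ℝ) (Fin.last m)) x.ofLp).2 i /
        ((MeasurableEquiv.piFinSuccAbove (fun _ : Fin (m + 1) => ℝ) (Fin.last m)) x.ofLp).1 := by
      funext i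
      rw [h2, h1]; rfl
    rw [mem_ofPred_eq, h3, ← h1]
    rfl
  rw [he, hp.measure_preimage hmT.nullMeasurableSet,
    Measure.volume_eq_prod, Measure.prod_apply hmT]
  have hb : ∀ y : ℝ, volume (Prod.mk y ⁻¹' T) ≤ (Ioc (0 : ℝ) 1).indicator (fun _ => volume H) y := by
    intro y
    by_cases hy : y ∈ Ioc (0 : ℝ) 1
    · rw [indicator_of_mem hy]
      have h4 : Prod.mk y ⁻¹' T ⊆ (fun w => y⁻¹ • w) ⁻¹' H := by
        rintro w ⟨-, -, hw⟩
        have : (y⁻¹ • w) = fun i => w i / y := by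
          funext i
          simp [div_eq_inv_mul]
        rw [mem_preimage, this]
        exact hw
      refine (measure_mono h4).trans ?_
      rw [Measure.addHaar_preimage_smul _ (inv_ne_zero hy.1.ne')]
      refine mul_le_of_le_one_left zero_le ?_
      rw [ENNReal.ofReal_le_one, inv_pow, inv_inv, abs_of_nonneg (pow_nonneg hy.1.le _)]
      exact pow_le_one₀ hy.1.le hy.2
    · rw [indicator_of_notMem hy]
      have : Prod.mk y ⁻¹' T = ∅ := by
        ext w
        simp only [mem_preimage, mem_empty_iff_false, iff_false]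
        rintro ⟨h1, h2, -⟩
        exact hy ⟨h1, h2⟩
      simp [this]
  refine (lintegral_mono hb).trans ?_
  rw [lintegral_indicator measurableSet_Ioc]
  simp only [lintegral_const, MeasurableSet.univ, Measure.restrict_apply, univ_inter,
    Real.volume_Ioc, sub_zero, ENNReal.ofReal_one, mul_one, Std.le_refl]


/-- the measure of a set of directions with slopes in `H` -/
lemma toSphere_slope_le {m : ℕ}
    (U : EuclideanSpace ℝ (Fin (m + 1)) ≃ₗᵢ[ℝ] EuclideanSpace ℝ (Fin (m + 1)))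
    {H : Set (Fin m → ℝ)} (hH : MeasurableSet H) :
    (volume : Measure (EuclideanSpace ℝ (Fin (m + 1)))).toSphere
      {e | 0 < (U e.1).ofLp (Fin.last m) ∧ slope (U e.1) ∈ H} ≤
      ((m + 1 : ℕ) : ENNReal) * volume H := by
  have hU : Measurable fun e : Metric.sphere (0 : EuclideanSpace ℝ (Fin (m + 1))) 1 => U e.1 :=
    U.continuous.measurable.comp measurable_subtype_coe
  have hms : MeasurableSet {e : Metric.sphere (0 : EuclideanSpace ℝ (Fin (m + 1))) 1 |
      0 < (U e.1).ofLp (Fin.last m) ∧ slope (U e.1) ∈ H} := by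
    have h1 : Measurable fun e : Metric.sphere (0 : EuclideanSpace ℝ (Fin (m + 1))) 1 =>
      (U e.1).ofLp (Fin.last m) := (measurable_coord (Fin.last m)).comp hU
    have h2 : Measurable fun e : Metric.sphere (0 : EuclideanSpace ℝ (Fin (m + 1))) 1 =>
      slope (U e.1) := measurable_slope.comp hU
    exact (measurableSet_lt measurable_const h1).inter (h2 hH)
  rw [Measure.toSphere_apply' _ hms, finrank_euclideanSpace, Fintype.card_fin]
  refine mul_le_mul_right ?_ _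
  have hsub : Ioo (0 : ℝ) 1 • (Subtype.val ''
      {e : Metric.sphere (0 : EuclideanSpace ℝ (Fin (m + 1))) 1 |
        0 < (U e.1).ofLp (Fin.last m) ∧ slope (U e.1) ∈ H}) ⊆
      U ⁻¹' {x : EuclideanSpace ℝ (Fin (m + 1)) |
        0 < x.ofLp (Fin.last m) ∧ x.ofLp (Fin.last m) ≤ 1 ∧ slope x ∈ H} := by
    rintro x ⟨r, hr, y, ⟨e, ⟨he1, he2⟩, rfl⟩, rfl⟩
    have h1 : U (r • e.1) = r • U e.1 := map_smul _ _ _
    have h2 : (r • U e.1).ofLp (Fin.last m) = r * (U e.1).ofLp (Fin.last m) := by simp only [PiLp.smul_apply, smul_eq_mul]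
    have h3 : slope (r • U e.1) = slope (U e.1) := by
      funext i
      simp only [slope, PiLp.smul_apply, smul_eq_mul]
      rw [mul_div_mul_left _ _ hr.1.ne']
    have h4 : ‖U e.1‖ = 1 := by
      rw [LinearIsometryEquiv.norm_map]
      simp only [norm_eq_of_mem_sphere]
    have h5 := coord_le_norm (U e.1) (Fin.last m)
    rw [h4, abs_of_pos he1] at h5
    simp only [mem_preimage, mem_ofPred_eq]
    rw [h1, h2, h3]
    exact ⟨mul_pos hr.1 he1, mul_le_one₀ hr.2.le he1.le h5, he2⟩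
  refine (measure_mono hsub).trans ?_
  have hmc : MeasurableSet {x : EuclideanSpace ℝ (Fin (m + 1)) |
      0 < x.ofLp (Fin.last m) ∧ x.ofLp (Fin.last m) ≤ 1 ∧ slope x ∈ H} :=
    (measurableSet_lt measurable_const (measurable_coord _)).inter
      ((measurableSet_le (measurable_coord _) measurable_const).inter (measurable_slope hH))
  rw [U.measurePreserving.measure_preimage hmc.nullMeasurableSet]
  exact volume_cone hH


/-- isometries map tubes to tubes -/
lemma mem_tube_map {n : ℕ} (U : EuclideanSpace ℝ (Fin n) ≃ₗᵢ[ℝ] EuclideanSpace ℝ (Fin n))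
    (δ : ℝ) (a e x : EuclideanSpace ℝ (Fin n)) :
    U x ∈ tube δ (U a) (U e) ↔ x ∈ tube δ a e := by
  constructor
  · rintro ⟨t, u, ht, hu, hn, hx⟩
    refine ⟨t, U.symm u, ht, ?_, ?_, ?_⟩
    · rw [← U.inner_map_map, U.apply_symm_apply]
      exact hu
    · rw [LinearIsometryEquiv.norm_map]
      exact hn
    · apply U.injective
      simp only [hx, map_add, map_smul, LinearIsometryEquiv.apply_symm_apply]
  · rintro ⟨t, u, ht, hu, hn, rfl⟩
    refine ⟨t, U u, ht, ?_, ?_, ?_⟩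
    · rw [U.inner_map_map]
      exact hu
    · rw [LinearIsometryEquiv.norm_map]
      exact hn
    · simp only [map_add, map_smul]

lemma mem_tube_add {n : ℕ} (δ : ℝ) (z a e x : EuclideanSpace ℝ (Fin n)) :
    x + z ∈ tube δ (a + z) e ↔ x ∈ tube δ a e := by
  constructor
  · rintro ⟨t, u, ht, hu, hn, hx⟩
    refine ⟨t, u, ht, hu, hn, ?_⟩
    have : x + z = (a + t • e + u) + z := by rw [hx]; abel
    exact add_right_cancel this
  · rintro ⟨t, u, ht, hu, hn, rfl⟩
    exact ⟨t, u, ht, hu, hn, by abel⟩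

lemma tube_subset_box {n : ℕ} {δ : ℝ} (hδ : δ ≤ 1) {a e x : EuclideanSpace ℝ (Fin n)}
    (ha : ∀ i, |a.ofLp i| ≤ 1) (he : ‖e‖ = 1) (hx : x ∈ tube δ a e) (i : Fin n) :
    |x.ofLp i| ≤ 4 := by
  obtain ⟨t, u, ht, -, hn, rfl⟩ := hx
  have h1 := coord_le_norm (t • e) i
  have h2 := coord_le_norm u i
  rw [norm_smul, he, mul_one, Real.norm_eq_abs] at h1
  have h3 : (a + t • e + u).ofLp i = a.ofLp i + (t • e).ofLp i + u.ofLp i := by simp
  rw [h3]
  have h4 := abs_add_le (a.ofLp i + (t • e).ofLp i) (u.ofLp i)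
  have h5 := abs_add_le (a.ofLp i) ((t • e).ofLp i)
  have := ha i
  linarith only [hδ, ht, hn, h1, h2, h4, h5, this]

/-- a unit vector with positive last coordinate is the direction of its slope -/
lemma dir_slope {m : ℕ} {e : EuclideanSpace ℝ (Fin (m + 1))} (he : ‖e‖ = 1)
    (hl : 0 < e.ofLp (Fin.last m)) : dir (slope e) = e := by
  have h1 : pt 0 (slope e) 1 = (e.ofLp (Fin.last m))⁻¹ • e := by
    ext i
    refine Fin.lastCases ?_ (fun i => ?_) i
    · rw [pt_last]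
      simp [hl.ne']
    · rw [pt_castSucc]
      simp only [Pi.zero_apply, slope, div_eq_inv_mul, one_mul, zero_add, PiLp.smul_apply,
        smul_eq_mul]
  rw [dir, h1, norm_smul, he, mul_one, norm_inv, inv_inv, smul_smul, Real.norm_eq_abs,
    abs_of_pos hl, mul_inv_cancel₀ hl.ne', one_smul]

lemma tsum_rpow_le {ι : Type*} (f : ι → ENNReal) {β : ℝ} (hβ : 1 ≤ β) :
    ∑' i, f i ^ β ≤ (∑' i, f i) ^ β := by
  set S := ∑' i, f i with hS
  by_cases h0 : S = 0
  · have : ∀ i, f i = 0 := ENNReal.tsum_eq_zero.1 h0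
    simp only [this, ENNReal.zero_rpow_of_pos (by linarith only [hβ] : 0 < β), tsum_zero, zero_le]
  by_cases ht : S = ⊤
  · rw [ht, ENNReal.top_rpow_of_pos (by linarith only [hβ])]
    exact le_top
  have h1 : ∀ i, f i ^ β ≤ f i * S ^ (β - 1) := by
    intro i
    have hi : f i ≤ S := ENNReal.le_tsum i
    by_cases hi0 : f i = 0
    · rw [hi0, ENNReal.zero_rpow_of_pos (by linarith only [hβ])]
      exact zero_le
    have hit : f i ≠ ⊤ := ne_top_of_le_ne_top ht hi
    calc f i ^ β = f i ^ (1 + (β - 1)) := by ring_nf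
      _ = f i ^ (1 : ℝ) * f i ^ (β - 1) := ENNReal.rpow_add _ _ hi0 hit
      _ ≤ f i * S ^ (β - 1) := by
          rw [ENNReal.rpow_one]
          exact mul_le_mul_right (ENNReal.rpow_le_rpow hi (by linarith only [hβ])) _
  calc ∑' i, f i ^ β ≤ ∑' i, f i * S ^ (β - 1) := ENNReal.tsum_le_tsum h1
    _ = S * S ^ (β - 1) := by rw [ENNReal.tsum_mul_right]
    _ = S ^ (1 : ℝ) * S ^ (β - 1) := by rw [ENNReal.rpow_one]
    _ = S ^ β := by
        rw [← ENNReal.rpow_add _ _ h0 ht]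
        ring_nf

/-- the integer point as a vector -/
noncomputable def zvec {n : ℕ} (z : Fin n → ℤ) : EuclideanSpace ℝ (Fin n) :=
  WithLp.toLp 2 fun i => (z i : ℝ)

lemma zvec_apply {n : ℕ} (z : Fin n → ℤ) (i : Fin n) : (zvec z).ofLp i = z i := rfl

/-- localised and recentred set -/
def locSet {n : ℕ} (E : Set (EuclideanSpace ℝ (Fin n))) (z : Fin n → ℤ) :
    Set (EuclideanSpace ℝ (Fin n)) :=
  {x | (∀ i, |x.ofLp i| ≤ 4) ∧ x + zvec z ∈ E}

lemma measurableSet_locSet {n : ℕ} {E : Set (EuclideanSpace ℝ (Fin n))} (hE : MeasurableSet E)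
    (z : Fin n → ℤ) : MeasurableSet (locSet E z) := by
  have h1 : MeasurableSet {x : EuclideanSpace ℝ (Fin n) | ∀ i, |x.ofLp i| ≤ 4} := by
    have : {x : EuclideanSpace ℝ (Fin n) | ∀ i, |x.ofLp i| ≤ 4} =
        ⋂ i, {x : EuclideanSpace ℝ (Fin n) | |x.ofLp i| ≤ 4} := by
      ext x; simp only [mem_ofPred_eq, mem_iInter]
    rw [this]
    exact MeasurableSet.iInter fun i =>
      measurableSet_le (measurable_coord i).abs measurable_const
  exact h1.inter ((measurable_id.add_const (zvec z)) hE)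

/-- integer part -/
noncomputable def fl {n : ℕ} (x : EuclideanSpace ℝ (Fin n)) : Fin n → ℤ := fun i => ⌊x.ofLp i⌋

lemma measurable_fl {n : ℕ} : Measurable (fl (n := n)) :=
  measurable_pi_lambda _ fun _ => (measurable_coord _).floor

lemma tsum_fl {n : ℕ} {E : Set (EuclideanSpace ℝ (Fin n))} (hE : MeasurableSet E) :
    ∑' w : Fin n → ℤ, volume (E ∩ fl ⁻¹' {w}) = volume E := by
  rw [← measure_iUnion]
  · congr 1
    ext x
    simp only [mem_iUnion, mem_inter_iff, mem_preimage, mem_singleton_iff, exists_and_left,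
      ↓existsAndEq, and_true]
  · intro a b hab
    refine Set.disjoint_left.2 ?_
    rintro x ⟨-, hx⟩ ⟨-, hx'⟩
    exact hab (by rw [mem_preimage, mem_singleton_iff] at hx hx'; rw [← hx, ← hx'])
  · intro w
    exact hE.inter (measurable_fl (measurableSet_singleton w))

lemma tsum_locSet {n : ℕ} {E : Set (EuclideanSpace ℝ (Fin n))} (hE : MeasurableSet E) :
    ∑' z : Fin n → ℤ, volume (locSet E z) ≤ (11 : ENNReal) ^ n * volume E := by
  classical
  set F : Finset (Fin n → ℤ) := Fintype.piFinset fun _ => Finset.Icc (-5 : ℤ) 5 with hF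
  have hcard : (F.card : ENNReal) = 11 ^ n := by
    rw [hF, Fintype.card_piFinset]
    simp only [Int.reduceNeg, Int.card_Icc, Int.reduceAdd, sub_neg_eq_add, Int.reduceToNat,
      Finset.prod_const, Finset.card_univ, Fintype.card_fin, Nat.cast_pow, Nat.cast_ofNat]
  have h1 : ∀ z, volume (locSet E z) ≤ ∑ k ∈ F, volume (E ∩ fl ⁻¹' {z + k}) := by
    intro z
    have h2 : locSet E z ⊆ (fun x => x + zvec z) ⁻¹' (⋃ k ∈ F, E ∩ fl ⁻¹' {z + k}) := by
      rintro x ⟨hx1, hx2⟩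
      rw [mem_preimage, mem_iUnion₂]
      refine ⟨fun i => ⌊x.ofLp i⌋, ?_, hx2, ?_⟩
      · rw [hF, Fintype.mem_piFinset]
        intro i
        have := abs_le.1 (hx1 i)
        rw [Finset.mem_Icc]
        constructor
        · rw [Int.le_floor]; push_cast; linarith only [this]
        · have h3 : ((⌊x.ofLp i⌋ : ℤ) : ℝ) ≤ (5 : ℤ) := by
            push_cast
            linarith only [this, Int.floor_le (x.ofLp i)]
          exact_mod_cast h3
      · rw [mem_preimage, mem_singleton_iff]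
        funext i
        simp only [fl, PiLp.add_apply, zvec_apply, Pi.add_apply]
        rw [Int.floor_add_intCast, add_comm]
    calc volume (locSet E z) ≤ volume ((fun x => x + zvec z) ⁻¹'
          (⋃ k ∈ F, E ∩ fl ⁻¹' {z + k})) := measure_mono h2
      _ = volume (⋃ k ∈ F, E ∩ fl ⁻¹' {z + k}) := measure_preimage_add_right _ _ _
      _ ≤ ∑ k ∈ F, volume (E ∩ fl ⁻¹' {z + k}) := measure_biUnion_finset_le _ _
  calc ∑' z, volume (locSet E z) ≤ ∑' z, ∑ k ∈ F, volume (E ∩ fl ⁻¹' {z + k}) :=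
        ENNReal.tsum_le_tsum h1
    _ = ∑ k ∈ F, ∑' z, volume (E ∩ fl ⁻¹' {z + k}) :=
        Summable.tsum_finsetSum fun _ _ => ENNReal.summable
    _ = ∑ _k ∈ F, volume E := by
        refine Finset.sum_congr rfl fun k _ => ?_
        rw [← tsum_fl hE, ← (Equiv.addRight k).tsum_eq fun w => volume (E ∩ fl ⁻¹' {w})]
        rfl
    _ = (11 : ENNReal) ^ n * volume E := by
        rw [Finset.sum_const, nsmul_eq_mul, hcard]

/-- the part of the exceptional set with slopes bounded in one coordinate system -/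
lemma sphere_part {β C : ℝ} (hβ : 1 ≤ β) {m : ℕ} (h : LocRWT m β C) {δ : ℝ} (hδ0 : 0 < δ)
    (hδ1 : δ < 1) {E : Set (EuclideanSpace ℝ (Fin (m + 1)))} (hE : MeasurableSet E)
    {lam : ℝ} (hl0 : 0 < lam) (hl1 : lam ≤ 1)
    (U : EuclideanSpace ℝ (Fin (m + 1)) ≃ₗᵢ[ℝ] EuclideanSpace ℝ (Fin (m + 1))) :
    (volume : Measure (EuclideanSpace ℝ (Fin (m + 1)))).toSphere
      {e | 0 < (U e.1).ofLp (Fin.last m) ∧
        (∀ i, |(U e.1).ofLp i| ≤ (U e.1).ofLp (Fin.last m)) ∧
        ∃ a, ENNReal.ofReal lam * volume (tube δ a e.1) ≤ volume (E ∩ tube δ a e.1)} ≤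
      ((m + 1 : ℕ) : ENNReal) * (ENNReal.ofReal (C * lam ^ (-C) * δ ^ (-(m * (β - 1)))) *
        ((11 : ENNReal) ^ (m + 1) * volume E) ^ β) := by
  set K := ENNReal.ofReal (C * lam ^ (-C) * δ ^ (-(m * (β - 1)))) with hK
  set E' : Set (EuclideanSpace ℝ (Fin (m + 1))) := U.symm ⁻¹' E with hE'
  have hmE' : MeasurableSet E' := U.symm.continuous.measurable hE
  have hvE' : volume E' = volume E :=
    U.symm.measurePreserving.measure_preimage hE.nullMeasurableSet
  have hvU : ∀ s : Set (EuclideanSpace ℝ (Fin (m + 1))), volume (U ⁻¹' s) = volume s := fun s =>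
    (show MeasurePreserving U.toHomeomorph.toMeasurableEquiv volume volume from
      U.measurePreserving).measure_preimage_equiv s
  set A : (Fin (m + 1) → ℤ) → Set (Fin m → ℝ) := fun z =>
    {v | (∀ i, |v i| ≤ 1) ∧ ∃ a : EuclideanSpace ℝ (Fin (m + 1)), (∀ i, |a.ofLp i| ≤ 1) ∧
      ENNReal.ofReal lam * volume (tube δ a (dir v)) ≤
        volume (locSet E' z ∩ tube δ a (dir v))} with hA
  have hvA : ∀ z, volume (A z) ≤ K * volume (locSet E' z) ^ β := fun z =>
    h δ hδ0 hδ1 (locSet E' z) (measurableSet_locSet hmE' z) lam hl0 hl1 (A z) fun v hv => hv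
  have hsub : {e : Metric.sphere (0 : EuclideanSpace ℝ (Fin (m + 1))) 1 |
      0 < (U e.1).ofLp (Fin.last m) ∧
        (∀ i, |(U e.1).ofLp i| ≤ (U e.1).ofLp (Fin.last m)) ∧
        ∃ a, ENNReal.ofReal lam * volume (tube δ a e.1) ≤ volume (E ∩ tube δ a e.1)} ⊆
      ⋃ z, {e | 0 < (U e.1).ofLp (Fin.last m) ∧ slope (U e.1) ∈ toMeasurable volume (A z)} := by
    rintro e ⟨he1, he2, a, ha⟩
    have hne : ‖U e.1‖ = 1 := by
      rw [LinearIsometryEquiv.norm_map]
      simp only [norm_eq_of_mem_sphere]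
    have hdir := dir_slope hne he1
    set z : Fin (m + 1) → ℤ := fun i => ⌊(U a).ofLp i⌋ with hz
    rw [mem_iUnion]
    refine ⟨z, he1, subset_toMeasurable _ _ ?_⟩
    set b := U a - zvec z with hb
    have hab : U a = b + zvec z := by rw [hb]; abel
    have hb1 : ∀ i, |b.ofLp i| ≤ 1 := by
      intro i
      have h1 : b.ofLp i = (U a).ofLp i - ⌊(U a).ofLp i⌋ := by
        rw [hb, PiLp.sub_apply, zvec_apply]
      rw [h1, abs_of_nonneg (by linarith only [Int.floor_le ((U a).ofLp i)])]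
      linarith only [Int.lt_floor_add_one ((U a).ofLp i)]
    refine ⟨fun i => ?_, b, hb1, ?_⟩
    · rw [slope, abs_div, abs_of_pos he1]
      exact div_le_one_of_le₀ (he2 _) he1.le
    · rw [hdir]
      have ht1 : tube δ a e.1 = U ⁻¹' tube δ (U a) (U e.1) := by
        ext x
        exact (mem_tube_map U δ a e.1 x).symm
      have ht2 : tube δ b (U e.1) = (fun x => x + zvec z) ⁻¹' tube δ (U a) (U e.1) := by
        ext x
        rw [mem_preimage, hab]
        exact (mem_tube_add δ (zvec z) b (U e.1) x).symm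
      have hv1 : volume (tube δ a e.1) = volume (tube δ b (U e.1)) := by
        rw [ht1, hvU, ht2]
        exact (measure_preimage_add_right _ _ _).symm
      have hv2 : volume (E ∩ tube δ a e.1) ≤ volume (locSet E' z ∩ tube δ b (U e.1)) := by
        have h1 : E ∩ tube δ a e.1 = U ⁻¹' (E' ∩ tube δ (U a) (U e.1)) := by
          rw [preimage_inter, ← ht1, hE', ← preimage_comp]
          congr 1
          ext x
          simp
        have h2 : (fun x => x + zvec z) ⁻¹' (E' ∩ tube δ (U a) (U e.1)) ⊆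
            locSet E' z ∩ tube δ b (U e.1) := by
          rintro x ⟨hx1, hx2⟩
          have hx3 : x ∈ tube δ b (U e.1) := by
            rw [ht2]; exact hx2
          exact ⟨⟨fun i => tube_subset_box hδ1.le hb1 hne hx3 i, hx1⟩, hx3⟩
        calc volume (E ∩ tube δ a e.1) = volume (E' ∩ tube δ (U a) (U e.1)) := by rw [h1, hvU]
          _ = volume ((fun x => x + zvec z) ⁻¹' (E' ∩ tube δ (U a) (U e.1))) :=
              (measure_preimage_add_right _ _ _).symm
          _ ≤ _ := measure_mono h2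
      rw [← hv1]
      exact ha.trans hv2
  calc _ ≤ (volume : Measure (EuclideanSpace ℝ (Fin (m + 1)))).toSphere
        (⋃ z, {e | 0 < (U e.1).ofLp (Fin.last m) ∧
          slope (U e.1) ∈ toMeasurable volume (A z)}) := measure_mono hsub
    _ ≤ ∑' z, (volume : Measure (EuclideanSpace ℝ (Fin (m + 1)))).toSphere
        {e | 0 < (U e.1).ofLp (Fin.last m) ∧
          slope (U e.1) ∈ toMeasurable volume (A z)} := measure_iUnion_le _
    _ ≤ ∑' z, ((m + 1 : ℕ) : ENNReal) * (K * volume (locSet E' z) ^ β) := by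
        refine ENNReal.tsum_le_tsum fun z => ?_
        refine (toSphere_slope_le U (measurableSet_toMeasurable _ _)).trans ?_
        rw [measure_toMeasurable]
        exact mul_le_mul_right (hvA z) _
    _ = ((m + 1 : ℕ) : ENNReal) * (K * ∑' z, volume (locSet E' z) ^ β) := by
        rw [ENNReal.tsum_mul_left, ENNReal.tsum_mul_left]
    _ ≤ _ := by
        refine mul_le_mul_right (mul_le_mul_right ?_ _) _
        refine (tsum_rpow_le _ hβ).trans (ENNReal.rpow_le_rpow ?_ (by linarith only [hβ]))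
        rw [← hvE']
        exact tsum_locSet hmE'

/-- swapping a coordinate with the last one, possibly with a sign -/
noncomputable def swapIso {m : ℕ} (i : Fin (m + 1)) (b : Bool) :
    EuclideanSpace ℝ (Fin (m + 1)) ≃ₗᵢ[ℝ] EuclideanSpace ℝ (Fin (m + 1)) :=
  if b then LinearIsometryEquiv.piLpCongrLeft 2 ℝ ℝ (Equiv.swap i (Fin.last m))
  else (LinearIsometryEquiv.piLpCongrLeft 2 ℝ ℝ (Equiv.swap i (Fin.last m))).trans
    (LinearIsometryEquiv.neg ℝ)

lemma swapIso_true {m : ℕ} (i j : Fin (m + 1)) (x : EuclideanSpace ℝ (Fin (m + 1))) :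
    (swapIso i true x).ofLp j = x.ofLp (Equiv.swap i (Fin.last m) j) := by
  simp only [swapIso, ↓reduceIte, LinearIsometryEquiv.piLpCongrLeft_apply, Equiv.piCongrLeft'_apply, Equiv.symm_swap]

lemma swapIso_false {m : ℕ} (i j : Fin (m + 1)) (x : EuclideanSpace ℝ (Fin (m + 1))) :
    (swapIso i false x).ofLp j = -x.ofLp (Equiv.swap i (Fin.last m) j) := by
  simp only [swapIso, Bool.false_eq_true, ↓reduceIte, LinearIsometryEquiv.trans_apply, LinearIsometryEquiv.coe_neg, PiLp.neg_apply, LinearIsometryEquiv.piLpCongrLeft_apply, Equiv.piCongrLeft'_apply, Equiv.symm_swap]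

lemma exists_swapIso {m : ℕ} {x : EuclideanSpace ℝ (Fin (m + 1))} (hx : x ≠ 0) :
    ∃ (i : Fin (m + 1)) (b : Bool), 0 < (swapIso i b x).ofLp (Fin.last m) ∧
      ∀ j, |(swapIso i b x).ofLp j| ≤ (swapIso i b x).ofLp (Fin.last m) := by
  obtain ⟨i, -, hi⟩ := Finset.exists_max_image Finset.univ (fun i => |x.ofLp i|)
    ⟨0, Finset.mem_univ _⟩
  have hpos : 0 < |x.ofLp i| := by
    rw [abs_pos]
    intro h0
    apply hx
    ext j
    have := hi j (Finset.mem_univ _)
    rw [h0, abs_zero] at this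
    simpa only [PiLp.zero_apply, abs_nonpos_iff] using this
  rcases le_or_gt 0 (x.ofLp i) with hs | hs
  · refine ⟨i, true, ?_, fun j => ?_⟩
    · rw [swapIso_true, Equiv.swap_apply_right]
      rwa [abs_of_nonneg hs] at hpos
    · rw [swapIso_true, swapIso_true, Equiv.swap_apply_right, ← abs_of_nonneg hs]
      exact hi _ (Finset.mem_univ _)
  · refine ⟨i, false, ?_, fun j => ?_⟩
    · rw [swapIso_false, Equiv.swap_apply_right]
      linarith only [hs]
    · rw [swapIso_false, swapIso_false, Equiv.swap_apply_right, abs_neg, ← abs_of_neg hs]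
      exact hi _ (Finset.mem_univ _)

/-- T3 -/
theorem rwt_of_locRWT {β C : ℝ} (hβ : 1 ≤ β) (hC : 0 ≤ C) {m : ℕ} (h : LocRWT m β C) :
    ∃ C' : ℝ, 0 ≤ C' ∧ RWT (m + 1) β C' := by
  set D : ℝ := 2 * (m + 1) * (m + 1) * C * ((11 : ℝ) ^ (m + 1)) ^ β with hD
  have hD0 : 0 ≤ D := by (clear * - hC; (clear * - hC; positivity))
  refine ⟨C + D, by (clear * - hC; positivity), ?_⟩
  intro δ hδ0 hδ1 E hE lam hl0 hl1
  set S : Set (Metric.sphere (0 : EuclideanSpace ℝ (Fin (m + 1))) 1) :=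
    {e | ENNReal.ofReal lam < kakeyaMax δ (E.indicator 1) e.1} with hS
  set P : Fin (m + 1) × Bool → Set (Metric.sphere (0 : EuclideanSpace ℝ (Fin (m + 1))) 1) :=
    fun q => {e | 0 < (swapIso q.1 q.2 e.1).ofLp (Fin.last m) ∧
        (∀ i, |(swapIso q.1 q.2 e.1).ofLp i| ≤ (swapIso q.1 q.2 e.1).ofLp (Fin.last m)) ∧
        ∃ a, ENNReal.ofReal lam * volume (tube δ a e.1) ≤ volume (E ∩ tube δ a e.1)} with hP
  have hsub : S ⊆ ⋃ q, P q := by
    intro e he
    obtain ⟨a, ha⟩ := lt_iSup_iff.1 (show ENNReal.ofReal lam < ⨆ a, _ from he)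
    have hint : ∫⁻ x in tube δ a e.1, E.indicator 1 x = volume (E ∩ tube δ a e.1) := by
      rw [lintegral_indicator_one hE, Measure.restrict_apply hE]
    rw [hint] at ha
    have hne : e.1 ≠ 0 := by
      intro h0
      have : ‖e.1‖ = 1 := by simp
      rw [h0, norm_zero] at this
      exact zero_ne_one this
    obtain ⟨i, b, h1, h2⟩ := exists_swapIso hne
    exact mem_iUnion.2 ⟨(i, b), h1, h2, a, ENNReal.mul_le_of_le_div ha.le⟩
  have hn : ((m + 1 : ℕ) : ℝ) - 1 = m := by push_cast; ring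
  have hr : 0 ≤ δ ^ (-(m * (β - 1))) := by (clear * - hδ0; positivity)
  calc _ ≤ (volume : Measure (EuclideanSpace ℝ (Fin (m + 1)))).toSphere (⋃ q, P q) :=
        measure_mono hsub
    _ ≤ ∑ q, (volume : Measure (EuclideanSpace ℝ (Fin (m + 1)))).toSphere (P q) := by
        exact measure_iUnion_fintype_le _ _
    _ ≤ ∑ _q : Fin (m + 1) × Bool, ((m + 1 : ℕ) : ENNReal) *
        (ENNReal.ofReal (C * lam ^ (-C) * δ ^ (-(m * (β - 1)))) *
        ((11 : ENNReal) ^ (m + 1) * volume E) ^ β) :=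
        Finset.sum_le_sum fun q _ => sphere_part hβ h hδ0 hδ1 hE hl0 hl1 _
    _ = ENNReal.ofReal (D * lam ^ (-C) * δ ^ (-(m * (β - 1)))) * volume E ^ β := by
        rw [Finset.sum_const, nsmul_eq_mul, Finset.card_univ, Fintype.card_prod, Fintype.card_fin,
          Fintype.card_bool, ENNReal.mul_rpow_of_nonneg _ _ (by linarith only [hβ] : 0 ≤ β)]
        have e1 : ((11 : ENNReal) ^ (m + 1)) ^ β = ENNReal.ofReal (((11 : ℝ) ^ (m + 1)) ^ β) := by
          rw [← ENNReal.ofReal_rpow_of_nonneg (by positivity) (by linarith only [hβ, hδ0, hδ1]),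
            ENNReal.ofReal_pow (by norm_num)]
          norm_num
        have e2 : (((m + 1) * 2 : ℕ) : ENNReal) = ENNReal.ofReal (2 * (m + 1)) := by
          rw [← ENNReal.ofReal_natCast]
          congr 1
          push_cast
          ring
        have e3 : ((m + 1 : ℕ) : ENNReal) = ENNReal.ofReal (m + 1) := by
          rw [← ENNReal.ofReal_natCast]
          push_cast
          rfl
        rw [e1, e2, e3, ← mul_assoc, ← mul_assoc, ← mul_assoc,
          ← ENNReal.ofReal_mul (by (clear * -; positivity)), ← ENNReal.ofReal_mul (by (clear * -; positivity)),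
          ← ENNReal.ofReal_mul (by (clear * - hC hδ0 hl0; positivity))]
        congr 2
        rw [hD]
        ring
    _ ≤ _ := by
        rw [hn]
        refine mul_le_mul_left (ENNReal.ofReal_le_ofReal ?_) _
        refine mul_le_mul_of_nonneg_right ?_ hr
        have h1 : lam ^ (-C) ≤ lam ^ (-(C + D)) :=
          Real.rpow_le_rpow_of_exponent_ge hl0 hl1 (by linarith only [hD0])
        have h2 : 0 ≤ lam ^ (-(C + D)) := by positivity
        have h3 : 0 ≤ lam ^ (-C) := by positivity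
        linarith only [mul_le_mul_of_nonneg_left h1 hD0, mul_nonneg hC h2]

end Vale.Agent.P127
end
end

section

section

/-!
# P127: strong type estimates for the Kakeya maximal function from restricted weak type
-/

namespace Vale.Agent.P127

open MeasureTheory Set

/-- the averages of an indicator function are at most one -/
lemma kakeyaMax_indicator_le_one {n : ℕ} (δ : ℝ) (E : Set (EuclideanSpace ℝ (Fin n)))
    (e : EuclideanSpace ℝ (Fin n)) : kakeyaMax δ (E.indicator 1) e ≤ 1 := by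
  refine iSup_le fun a => ?_
  refine le_trans (ENNReal.div_le_div_right ?_ _) (ENNReal.div_self_le_one (a := volume (tube δ a e)))
  calc ∫⁻ x in tube δ a e, E.indicator 1 x
      ≤ ∫⁻ _ in tube δ a e, 1 := by
        refine lintegral_mono fun x => ?_
        exact Set.indicator_le_self' (f := (1 : EuclideanSpace ℝ (Fin n) → ENNReal))
          (by intro x _; exact zero_le) x
    _ = volume (tube δ a e) := by simp only [lintegral_const, MeasurableSet.univ,
                                    Measure.restrict_apply, univ_inter, one_mul]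

/-- interpolation between the restricted weak type estimate and the finiteness of the sphere -/
lemma rwt_interp {β C : ℝ} (hβ : 1 ≤ β) (hC : 0 ≤ C) {n : ℕ} (h : RWT n β C) :
    ∃ C₁ : ℝ, 0 ≤ C₁ ∧ ∀ δ : ℝ, 0 < δ → δ < 1 →
      ∀ E : Set (EuclideanSpace ℝ (Fin n)), MeasurableSet E → ∀ lam : ℝ, 0 < lam → lam ≤ 1 →
      (volume : Measure (EuclideanSpace ℝ (Fin n))).toSphere
        {e | ENNReal.ofReal lam < kakeyaMax δ (E.indicator 1) e.1} ≤
      ENNReal.ofReal (C₁ * lam ^ (-(C / β)) * δ ^ (-(((n : ℝ) - 1) * (1 - 1 / β)))) *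
        volume E := by
  have hβ0 : 0 < β := by linarith
  set σ := (volume : Measure (EuclideanSpace ℝ (Fin n))).toSphere with hσ
  have h1β : 0 ≤ 1 - 1 / β := by
    have : 1 / β ≤ 1 := by rw [div_le_one hβ0]; exact hβ
    linarith only [this]
  have hib : 0 ≤ 1 / β := by (clear * - hβ; positivity)
  refine ⟨(σ univ).toReal ^ (1 - 1 / β) * C ^ (1 / β), by (clear * - hC; positivity), ?_⟩
  intro δ hδ hδ1 E hE lam hlam hlam1
  set s := σ {e | ENNReal.ofReal lam < kakeyaMax δ (E.indicator 1) e.1} with hs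
  have h1 : s ≤ σ univ := measure_mono (subset_univ _)
  have h2 := h δ hδ hδ1 E hE lam hlam hlam1
  have h3 : s = s ^ (1 - 1 / β) * s ^ (1 / β) := by
    rw [← ENNReal.rpow_add_of_nonneg _ _ h1β hib]
    simp
  rw [h3]
  have h4 : s ^ (1 - 1 / β) ≤ ENNReal.ofReal ((σ univ).toReal ^ (1 - 1 / β)) := by
    rw [← ENNReal.ofReal_rpow_of_nonneg ENNReal.toReal_nonneg h1β,
      ENNReal.ofReal_toReal (measure_ne_top _ _)]
    exact ENNReal.rpow_le_rpow h1 h1β
  have h5 : s ^ (1 / β) ≤ ENNReal.ofReal (C ^ (1 / β) * lam ^ (-(C / β)) *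
      δ ^ (-(((n : ℝ) - 1) * (1 - 1 / β)))) * volume E := by
    have h6 : s ^ (1 / β) ≤ (ENNReal.ofReal (C * lam ^ (-C) * δ ^ (-(((n : ℝ) - 1) * (β - 1)))) *
        volume E ^ β) ^ (1 / β) := ENNReal.rpow_le_rpow h2 hib
    refine le_trans h6 (le_of_eq ?_)
    rw [ENNReal.mul_rpow_of_nonneg _ _ hib, ← ENNReal.rpow_mul,
      mul_one_div_cancel hβ0.ne', ENNReal.rpow_one,
      ENNReal.ofReal_rpow_of_nonneg (by (clear * - hC hδ hlam; positivity)) hib]
    congr 2
    rw [Real.mul_rpow (by (clear * - hC hlam; positivity)) (by positivity), Real.mul_rpow (by positivity) (by positivity),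
      ← Real.rpow_mul hlam.le, ← Real.rpow_mul hδ.le]
    congr 2
    · congr 1; ring
    · (clear * - hβ; field_simp)
  calc s ^ (1 - 1 / β) * s ^ (1 / β)
      ≤ ENNReal.ofReal ((σ univ).toReal ^ (1 - 1 / β)) *
        (ENNReal.ofReal (C ^ (1 / β) * lam ^ (-(C / β)) *
      δ ^ (-(((n : ℝ) - 1) * (1 - 1 / β)))) * volume E) := mul_le_mul' h4 h5
    _ = _ := by
      rw [← mul_assoc, ← ENNReal.ofReal_mul (by (clear * -; positivity))]
      congr 2
      ring

/-- strong type estimate for indicator functions, with a measurable majorant -/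
lemma strong_indicator {β C : ℝ} (hβ : 1 ≤ β) (hC : 0 ≤ C) {n : ℕ} (h : RWT n β C) :
    ∃ C₃ : ℝ, 0 ≤ C₃ ∧ ∀ δ : ℝ, 0 < δ → δ < 1 →
      ∀ E : Set (EuclideanSpace ℝ (Fin n)), MeasurableSet E →
        ∃ H : Metric.sphere (0 : EuclideanSpace ℝ (Fin n)) 1 → ENNReal, Measurable H ∧
          (∀ e, kakeyaMax δ (E.indicator 1) e.1 ^ (C / β + 1) ≤ H e) ∧
          ∫⁻ e, H e ∂(volume : Measure (EuclideanSpace ℝ (Fin n))).toSphere ≤
            ENNReal.ofReal (C₃ * δ ^ (-(((n : ℝ) - 1) * (1 - 1 / β)))) * volume E := by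
  have hβ0 : 0 < β := by linarith only [hβ]
  obtain ⟨C₁, hC₁, h1⟩ := rwt_interp hβ hC h
  have hq : 0 ≤ C / β := by (clear * - hC hβ; positivity)
  set q := C / β with hqdef
  refine ⟨C₁ * 2 ^ q * 2, by (clear * - hC₁; positivity), ?_⟩
  intro δ hδ hδ1 E hE
  set σ := (volume : Measure (EuclideanSpace ℝ (Fin n))).toSphere with hσ
  set D := δ ^ (-(((n : ℝ) - 1) * (1 - 1 / β))) with hD
  have hD0 : 0 < D := Real.rpow_pos_of_pos hδ _
  let S : ℕ → Set (Metric.sphere (0 : EuclideanSpace ℝ (Fin n)) 1) := fun k =>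
    toMeasurable σ {e | ENNReal.ofReal ((1 / 2) ^ (k + 1)) < kakeyaMax δ (E.indicator 1) e.1}
  refine ⟨fun e => ∑' k : ℕ, ENNReal.ofReal (((1 / 2) ^ k) ^ (q + 1)) * (S k).indicator 1 e,
    ?_, ?_, ?_⟩
  · refine Measurable.tsum fun k => ?_
    exact (measurable_one.indicator (measurableSet_toMeasurable _ _)).const_mul _
  · intro e
    set a := kakeyaMax δ (E.indicator 1) e.1 with ha
    have ha1 : a ≤ 1 := kakeyaMax_indicator_le_one _ _ _
    by_cases ha0 : a = 0
    · rw [ha0, ENNReal.zero_rpow_of_pos (by (clear * - hβ hC; (clear * - hC hβ; positivity)))]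
      exact zero_le
    · have hat : a ≠ ⊤ := ne_top_of_le_ne_top ENNReal.one_ne_top ha1
      have hr0 : 0 < a.toReal := ENNReal.toReal_pos ha0 hat
      have hr1 : a.toReal ≤ 1 := by
        have := (ENNReal.toReal_le_toReal hat ENNReal.one_ne_top).2 ha1
        simpa only [ge_iff_le, ENNReal.toReal_one] using this
      obtain ⟨k, hk1, hk2⟩ := exists_nat_pow_near_of_lt_one hr0 hr1
        (show (0 : ℝ) < 1 / 2 by (clear * -; norm_num)) (by norm_num)
      have hmem : e ∈ S k := by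
        refine subset_toMeasurable _ _ ?_
        show ENNReal.ofReal ((1 / 2) ^ (k + 1)) < a
        rw [ENNReal.ofReal_lt_iff_lt_toReal (by positivity) hat]
        exact hk1
      refine le_trans ?_ (ENNReal.le_tsum k)
      rw [Set.indicator_of_mem hmem, Pi.one_apply, mul_one,
        ← ENNReal.ofReal_rpow_of_nonneg (by positivity) (by (clear * - hβ hC; (clear * - hC hβ; positivity)))]
      refine ENNReal.rpow_le_rpow ?_ (by (clear * - hC hβ; positivity))
      rw [← ENNReal.ofReal_toReal hat]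
      exact ENNReal.ofReal_le_ofReal hk2
  · rw [lintegral_tsum (fun k => ((measurable_one.indicator
      (measurableSet_toMeasurable _ _)).const_mul _).aemeasurable)]
    have hterm : ∀ k : ℕ, ∫⁻ e, ENNReal.ofReal (((1 / 2) ^ k) ^ (q + 1)) *
        (S k).indicator 1 e ∂σ ≤
        ENNReal.ofReal (C₁ * 2 ^ q * D) * volume E * ENNReal.ofReal ((1 / 2) ^ k) := by
      intro k
      rw [lintegral_const_mul _ (measurable_one.indicator (measurableSet_toMeasurable _ _)),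
        lintegral_indicator_one (measurableSet_toMeasurable _ _)]
      have h2 : σ (S k) ≤ ENNReal.ofReal (C₁ * ((1 / 2) ^ (k + 1)) ^ (-q) * D) * volume E := by
        show σ (toMeasurable σ _) ≤ _
        rw [measure_toMeasurable]
        exact h1 δ hδ hδ1 E hE ((1 / 2) ^ (k + 1)) (by positivity)
          (pow_le_one₀ (by norm_num) (by norm_num))
      refine le_trans (mul_le_mul_right h2 _) (le_of_eq ?_)
      rw [← mul_assoc, ← ENNReal.ofReal_mul (by positivity),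
        mul_right_comm (ENNReal.ofReal (C₁ * 2 ^ q * D)),
        ← ENNReal.ofReal_mul (by (clear * - hC₁ hδ; positivity))]
      congr 2
      have e1 : (((1 : ℝ) / 2) ^ k) ^ (q + 1) = ((1 / 2 : ℝ) ^ q) ^ k * (1 / 2) ^ k := by
        rw [Real.rpow_add (by positivity), Real.rpow_one, ← Real.rpow_natCast,
          ← Real.rpow_mul (by norm_num), mul_comm (k : ℝ) q, Real.rpow_mul (by norm_num),
          Real.rpow_natCast]
      have e2 : ((1 / 2 : ℝ) ^ (k + 1)) ^ (-q) = ((2 : ℝ) ^ q) ^ (k + 1) := by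
        rw [one_div, inv_pow, Real.inv_rpow (by positivity), Real.rpow_neg (by positivity),
          inv_inv, ← Real.rpow_natCast, ← Real.rpow_mul (by norm_num), mul_comm _ q,
          Real.rpow_mul (by norm_num), Real.rpow_natCast]
      have e3 : (1 / 2 : ℝ) ^ q * 2 ^ q = 1 := by
        rw [← Real.mul_rpow (by norm_num) (by norm_num)]
        norm_num
      rw [e1, e2, pow_succ]
      have e4 : ((1 / 2 : ℝ) ^ q) ^ k * ((2 : ℝ) ^ q) ^ k = 1 := by
        rw [← mul_pow, e3, one_pow]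
      calc ((1 / 2 : ℝ) ^ q) ^ k * (1 / 2) ^ k * (C₁ * (((2 : ℝ) ^ q) ^ k * 2 ^ q) * D)
          = (((1 / 2 : ℝ) ^ q) ^ k * ((2 : ℝ) ^ q) ^ k) * (C₁ * 2 ^ q * D * (1 / 2) ^ k) := by
            ring
        _ = _ := by rw [e4, one_mul]
    refine le_trans (ENNReal.tsum_le_tsum hterm) (le_of_eq ?_)
    rw [ENNReal.tsum_mul_left]
    have e5 : ∑' k : ℕ, ENNReal.ofReal ((1 / 2) ^ k) = 2 := by
      have : ∀ k : ℕ, ENNReal.ofReal ((1 / 2) ^ k) = (2⁻¹ : ENNReal) ^ k := by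
        intro k
        rw [ENNReal.ofReal_pow (by norm_num)]
        congr 1
        rw [one_div, ENNReal.ofReal_inv_of_pos (by norm_num)]
        norm_num
      simp_rw [this]
      rw [ENNReal.tsum_geometric]
      rw [ENNReal.one_sub_inv_two, inv_inv]
    rw [e5, mul_right_comm (ENNReal.ofReal (C₁ * 2 ^ q * D))]
    congr 1
    rw [show (2 : ENNReal) = ENNReal.ofReal 2 by norm_num, ← ENNReal.ofReal_mul (by (clear * - hC₁ hδ; (clear * - hC₁ hδ; positivity)))]
    congr 1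
    ring

lemma tsum_int_half_natAbs_le : ∑' l : ℤ, (2⁻¹ : ENNReal) ^ l.natAbs ≤ 4 := by
  rw [tsum_of_nat_of_neg_add_one ENNReal.summable ENNReal.summable]
  have h1 : ∑' k : ℕ, (2⁻¹ : ENNReal) ^ k = 2 := by
    rw [ENNReal.tsum_geometric, ENNReal.one_sub_inv_two, inv_inv]
  have h2 : ∑' k : ℕ, (2⁻¹ : ENNReal) ^ (-((k : ℤ) + 1)).natAbs ≤ 2 := by
    refine le_trans (ENNReal.tsum_le_tsum fun k => ?_) h1.le
    have : (-((k : ℤ) + 1)).natAbs = k + 1 := by omega
    rw [this]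
    have h2i : (2⁻¹ : ENNReal) ≤ 1 := ENNReal.inv_le_one.2 (by norm_num)
    exact pow_le_pow_right_of_le_one' h2i (Nat.le_succ k)
  have h3 : ∑' k : ℕ, (2⁻¹ : ENNReal) ^ ((k : ℤ)).natAbs = 2 := h1
  rw [h3]
  calc (2 : ENNReal) + ∑' k : ℕ, (2⁻¹ : ENNReal) ^ (-((k : ℤ) + 1)).natAbs
      ≤ 2 + 2 := by (clear * - h2; gcongr)
    _ = 4 := by norm_num

/-- summing the dyadic levels -/
lemma tsum_dyadic_le {a : ℤ → ENNReal} (ha : ∀ i, a i ≤ 1) {M : ENNReal}
    (hM : ∀ i : ℤ, (2 : ENNReal) ^ i * a i ^ ((1 : ℝ) / 2) ≤ M) :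
    ∑' i : ℤ, (2 : ENNReal) ^ i * a i ≤ 16 * M := by
  have h20 : (2 : ENNReal) ≠ 0 := by norm_num
  have h2t : (2 : ENNReal) ≠ ⊤ := by norm_num
  have hsq : ∀ i, a i = a i ^ ((1 : ℝ) / 2) * a i ^ ((1 : ℝ) / 2) := by
    intro i
    rw [← ENNReal.rpow_add_of_nonneg _ _ (by norm_num) (by norm_num)]
    norm_num
  by_cases hM0 : M = 0
  · have : ∀ i : ℤ, (2 : ENNReal) ^ i * a i = 0 := by
      intro i
      have h1 := hM i
      rw [hM0, nonpos_iff_eq_zero] at h1
      rw [hsq i, ← mul_assoc, h1, zero_mul]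
    simp only [this, tsum_zero, zero_le]
  by_cases hMt : M = ⊤
  · rw [hMt, ENNReal.mul_top (by norm_num)]
    exact le_top
  obtain ⟨k, hk1, hk2⟩ := ENNReal.exists_mem_Ioc_zpow hM0 hMt (show (1 : ENNReal) < 2 by norm_num) h2t
  have key : ∀ l : ℤ, (2 : ENNReal) ^ (k + l) * a (k + l) ≤
      4 * 2 ^ k * (2⁻¹ : ENNReal) ^ l.natAbs := by
    intro l
    rcases le_or_gt l 0 with hl | hl
    · calc (2 : ENNReal) ^ (k + l) * a (k + l) ≤ 2 ^ (k + l) * 1 := by
            gcongr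
            exact ha _
        _ = 2 ^ k * (2⁻¹ : ENNReal) ^ l.natAbs := by
            rw [mul_one, ENNReal.zpow_add h20 h2t]
            congr 1
            have : l = -(l.natAbs : ℤ) := by omega
            conv_lhs => rw [this]
            rw [ENNReal.zpow_neg, zpow_natCast, ENNReal.inv_pow]
        _ ≤ 4 * 2 ^ k * (2⁻¹ : ENNReal) ^ l.natAbs := by
            gcongr
            exact le_mul_of_one_le_left zero_le (by norm_num)
    · have h3 : (2 : ENNReal) ^ (k + l) * a (k + l) =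
          ((2 : ENNReal) ^ (k + l) * a (k + l) ^ ((1 : ℝ) / 2)) *
          ((2 : ENNReal) ^ (k + l) * a (k + l) ^ ((1 : ℝ) / 2)) * 2 ^ (-(k + l)) := by
        have h4 : (2 : ENNReal) ^ (k + l) * 2 ^ (-(k + l)) = 1 := by
          rw [← ENNReal.zpow_add h20 h2t]
          simp only [neg_add_rev, add_add_neg_add_cancel, add_neg_cancel, zpow_ofNat, pow_zero]
        calc (2 : ENNReal) ^ (k + l) * a (k + l)
            = (2 : ENNReal) ^ (k + l) *
              (a (k + l) ^ ((1 : ℝ) / 2) * a (k + l) ^ ((1 : ℝ) / 2)) * 1 := by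
                rw [mul_one, ← hsq]
          _ = (2 : ENNReal) ^ (k + l) *
              (a (k + l) ^ ((1 : ℝ) / 2) * a (k + l) ^ ((1 : ℝ) / 2)) *
              ((2 : ENNReal) ^ (k + l) * 2 ^ (-(k + l))) := by rw [h4]
          _ = _ := by ring
      rw [h3]
      calc ((2 : ENNReal) ^ (k + l) * a (k + l) ^ ((1 : ℝ) / 2)) *
          ((2 : ENNReal) ^ (k + l) * a (k + l) ^ ((1 : ℝ) / 2)) * 2 ^ (-(k + l))
          ≤ 2 ^ (k + 1) * 2 ^ (k + 1) * 2 ^ (-(k + l)) := by
            gcongr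
            · exact (hM _).trans hk2
            · exact (hM _).trans hk2
        _ = 4 * 2 ^ k * (2⁻¹ : ENNReal) ^ l.natAbs := by
            rw [← ENNReal.zpow_add h20 h2t, ← ENNReal.zpow_add h20 h2t]
            have : l = (l.natAbs : ℤ) := by (clear * - hl; omega)
            conv_lhs => rw [this]
            rw [show k + 1 + (k + 1) + -(k + (l.natAbs : ℤ)) = 2 + k + -(l.natAbs : ℤ) by ring,
              ENNReal.zpow_add h20 h2t, ENNReal.zpow_add h20 h2t, ENNReal.zpow_neg, zpow_natCast,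
              ENNReal.inv_pow]
            (clear * -; norm_num)
  calc ∑' i : ℤ, (2 : ENNReal) ^ i * a i
      = ∑' l : ℤ, (2 : ENNReal) ^ (k + l) * a (k + l) := by
        rw [← (Equiv.addLeft k).tsum_eq]
        rfl
    _ ≤ ∑' l : ℤ, 4 * 2 ^ k * (2⁻¹ : ENNReal) ^ l.natAbs := ENNReal.tsum_le_tsum key
    _ = 4 * 2 ^ k * ∑' l : ℤ, (2⁻¹ : ENNReal) ^ l.natAbs := ENNReal.tsum_mul_left
    _ ≤ 4 * 2 ^ k * 4 := by
        gcongr
        exact tsum_int_half_natAbs_le
    _ = 16 * 2 ^ k := by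
        rw [mul_right_comm]
        norm_num
    _ ≤ 16 * M := by
        (clear * - hk1; gcongr)

/-- the dyadic level sets -/
def lvl {n : ℕ} (f : EuclideanSpace ℝ (Fin n) → ENNReal) (i : ℤ) :
    Set (EuclideanSpace ℝ (Fin n)) := f ⁻¹' Ioc (2 ^ i) (2 ^ (i + 1))

lemma measurableSet_lvl {n : ℕ} {f : EuclideanSpace ℝ (Fin n) → ENNReal} (hf : Measurable f)
    (i : ℤ) : MeasurableSet (lvl f i) := hf measurableSet_Ioc

lemma disjoint_lvl {n : ℕ} (f : EuclideanSpace ℝ (Fin n) → ENNReal) :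
    Pairwise (Function.onFun Disjoint (lvl f)) := by
  intro i j hij
  have h := (ENNReal.monotone_zpow (show (1 : ENNReal) ≤ 2 by norm_num)).pairwise_disjoint_on_Ioc_succ
    hij
  exact Disjoint.preimage f h

/-- the maximal function is controlled by those of the level sets -/
lemma kakeyaMax_le_tsum {n : ℕ} (δ : ℝ) {f : EuclideanSpace ℝ (Fin n) → ENNReal}
    (hf : Measurable f) (hft : volume (f ⁻¹' {⊤}) = 0) (e : EuclideanSpace ℝ (Fin n)) :
    kakeyaMax δ f e ≤ ∑' i : ℤ, (2 : ENNReal) ^ (i + 1) * kakeyaMax δ ((lvl f i).indicator 1) e := by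
  refine iSup_le fun a => ?_
  have h1 : ∀ᵐ x ∂(volume.restrict (tube δ a e)), f x ≤
      ∑' i : ℤ, (2 : ENNReal) ^ (i + 1) * (lvl f i).indicator 1 x := by
    refine ae_restrict_of_ae ?_
    have h2 : ∀ᵐ x, x ∉ f ⁻¹' {⊤} := measure_eq_zero_iff_ae_notMem.1 hft
    filter_upwards [h2] with x hx
    by_cases hx0 : f x = 0
    · rw [hx0]; exact zero_le
    · obtain ⟨i, hi⟩ := ENNReal.exists_mem_Ioc_zpow hx0 hx (show (1 : ENNReal) < 2 by norm_num)
        (by norm_num)
      refine le_trans ?_ (ENNReal.le_tsum i)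
      rw [Set.indicator_of_mem (show x ∈ lvl f i from hi), Pi.one_apply, mul_one]
      exact hi.2
  calc (∫⁻ x in tube δ a e, f x) / volume (tube δ a e)
      ≤ (∫⁻ x in tube δ a e, ∑' i : ℤ, (2 : ENNReal) ^ (i + 1) * (lvl f i).indicator 1 x) /
        volume (tube δ a e) := ENNReal.div_le_div_right (lintegral_mono_ae h1) _
    _ = (∑' i : ℤ, (2 : ENNReal) ^ (i + 1) * ∫⁻ x in tube δ a e, (lvl f i).indicator 1 x) /
        volume (tube δ a e) := by
        rw [lintegral_tsum (fun i =>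
          ((measurable_one.indicator (measurableSet_lvl hf i)).const_mul _).aemeasurable)]
        congr 1
        refine tsum_congr fun i => ?_
        rw [lintegral_const_mul _ (measurable_one.indicator (measurableSet_lvl hf i))]
    _ = ∑' i : ℤ, (2 : ENNReal) ^ (i + 1) * ((∫⁻ x in tube δ a e, (lvl f i).indicator 1 x) /
        volume (tube δ a e)) := by
        rw [ENNReal.div_eq_inv_mul, ← ENNReal.tsum_mul_left]
        refine tsum_congr fun i => ?_
        rw [ENNReal.div_eq_inv_mul]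
        ring
    _ ≤ _ := by
        refine ENNReal.tsum_le_tsum fun i => ?_
        gcongr
        exact le_iSup (fun a => (∫⁻ x in tube δ a e, (lvl f i).indicator 1 x) /
          volume (tube δ a e)) a

lemma tsum_lvl_le {n : ℕ} {f : EuclideanSpace ℝ (Fin n) → ENNReal} (hf : Measurable f)
    {p : ℝ} (hp : 0 ≤ p) :
    ∑' i : ℤ, ((2 : ENNReal) ^ i) ^ p * volume (lvl f i) ≤ ∫⁻ x, f x ^ p := by
  calc ∑' i : ℤ, ((2 : ENNReal) ^ i) ^ p * volume (lvl f i)
      ≤ ∑' i : ℤ, ∫⁻ x in lvl f i, f x ^ p := by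
        refine ENNReal.tsum_le_tsum fun i => ?_
        rw [← setLIntegral_const]
        refine setLIntegral_mono (hf.pow_const p) fun x hx => ?_
        exact ENNReal.rpow_le_rpow hx.1.le hp
    _ = ∫⁻ x in ⋃ i, lvl f i, f x ^ p :=
        (lintegral_iUnion (measurableSet_lvl hf) (disjoint_lvl f) _).symm
    _ ≤ ∫⁻ x, f x ^ p := setLIntegral_le_lintegral _ _

/-- T4: strong type estimates from the restricted weak type estimate -/
theorem strong_of_rwt {β C : ℝ} (hβ : 1 ≤ β) (hC : 0 ≤ C) {n : ℕ} (hn : 1 ≤ n)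
    (h : RWT n β C) :
    ∃ p₀ : ℝ, 1 ≤ p₀ ∧ ∀ p : ℝ, p₀ ≤ p → ∃ C' : ℝ, 0 ≤ C' ∧
      ∀ δ : ℝ, 0 < δ → δ < 1 → ∀ f : EuclideanSpace ℝ (Fin n) → ENNReal, Measurable f →
        ∃ G : Metric.sphere (0 : EuclideanSpace ℝ (Fin n)) 1 → ENNReal, Measurable G ∧
          (∀ e, kakeyaMax δ f e.1 ≤ G e) ∧
          ∫⁻ e, G e ^ p ∂(volume : Measure (EuclideanSpace ℝ (Fin n))).toSphere ≤
            ENNReal.ofReal (C' * δ ^ (-(((n : ℝ) - 1) * (1 - 1 / β)))) * ∫⁻ x, f x ^ p := by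
  have _ := hn
  obtain ⟨C₃, hC₃, h3⟩ := strong_indicator hβ hC h
  have hβ0 : 0 < β := by linarith only [hβ]
  have hq0 : 0 ≤ C / β := by (clear * - hC hβ; positivity)
  set q := C / β + 1 with hq
  have hq1 : 1 ≤ q := by linarith only [hq0]
  refine ⟨2 * q, by linarith only [hq0], ?_⟩
  intro p hp
  have hp0 : 0 < p := by linarith only [hq0, hp]
  refine ⟨32 ^ p * C₃ + 1, by (clear * - hC₃; positivity), ?_⟩
  intro δ hδ hδ1 f hf
  set D := δ ^ (-(((n : ℝ) - 1) * (1 - 1 / β))) with hD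
  have hD0 : 0 < D := Real.rpow_pos_of_pos hδ _
  by_cases hft : volume (f ⁻¹' {⊤}) = 0
  swap
  · refine ⟨fun _ => ⊤, measurable_const, fun _ => le_top, ?_⟩
    have h4 : ∫⁻ x, f x ^ p = ⊤ := by
      rw [eq_top_iff]
      calc (⊤ : ENNReal) = ∫⁻ _ in f ⁻¹' {⊤}, (⊤ : ENNReal) := by
            rw [setLIntegral_const, ENNReal.top_mul hft]
        _ ≤ ∫⁻ x in f ⁻¹' {⊤}, f x ^ p := by
            refine setLIntegral_mono (hf.pow_const p) fun x hx => ?_
            rw [show f x = ⊤ from hx, ENNReal.top_rpow_of_pos hp0]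
        _ ≤ ∫⁻ x, f x ^ p := setLIntegral_le_lintegral _ _
    rw [h4, ENNReal.mul_top]
    · exact le_top
    · rw [Ne, ENNReal.ofReal_eq_zero, not_le]
      (clear * - hC₃ hδ; (clear * - hC₃ hδ; positivity))
  choose H hH1 hH2 hH3 using fun i : ℤ => h3 δ hδ hδ1 (lvl f i) (measurableSet_lvl hf i)
  refine ⟨fun e => 32 * (∑' i : ℤ, ((2 : ENNReal) ^ i) ^ p * H i e) ^ (1 / p), ?_, ?_, ?_⟩
  · refine Measurable.const_mul (Measurable.pow_const ?_ _) _
    exact Measurable.tsum fun i => (hH1 i).const_mul _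
  · intro e
    have hM : ∀ i : ℤ, (2 : ENNReal) ^ i *
        kakeyaMax δ ((lvl f i).indicator 1) e.1 ^ ((1 : ℝ) / 2) ≤
        (∑' i : ℤ, ((2 : ENNReal) ^ i) ^ p * H i e) ^ (1 / p) := by
      intro i
      rw [one_div p, ENNReal.le_rpow_inv_iff hp0]
      refine le_trans ?_ (ENNReal.le_tsum i)
      rw [ENNReal.mul_rpow_of_nonneg _ _ hp0.le, ← ENNReal.rpow_mul]
      gcongr
      refine le_trans ?_ (hH2 i e)
      exact ENNReal.rpow_le_rpow_of_exponent_ge (kakeyaMax_indicator_le_one _ _ _) (by linarith only [hp])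
    calc kakeyaMax δ f e.1
        ≤ ∑' i : ℤ, (2 : ENNReal) ^ (i + 1) * kakeyaMax δ ((lvl f i).indicator 1) e.1 :=
          kakeyaMax_le_tsum δ hf hft e.1
      _ = 2 * ∑' i : ℤ, (2 : ENNReal) ^ i * kakeyaMax δ ((lvl f i).indicator 1) e.1 := by
          rw [← ENNReal.tsum_mul_left]
          refine tsum_congr fun i => ?_
          rw [ENNReal.zpow_add (by norm_num) (by norm_num), zpow_one]
          ring
      _ ≤ 2 * (16 * (∑' i : ℤ, ((2 : ENNReal) ^ i) ^ p * H i e) ^ (1 / p)) := by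
          gcongr
          exact tsum_dyadic_le (fun i => kakeyaMax_indicator_le_one _ _ _) hM
      _ = _ := by
          rw [← mul_assoc]
          norm_num
  · have h5 : ∀ e, (32 * (∑' i : ℤ, ((2 : ENNReal) ^ i) ^ p * H i e) ^ (1 / p)) ^ p =
        ENNReal.ofReal (32 ^ p) * ∑' i : ℤ, ((2 : ENNReal) ^ i) ^ p * H i e := by
      intro e
      rw [ENNReal.mul_rpow_of_nonneg _ _ hp0.le, ← ENNReal.rpow_mul, one_div_mul_cancel hp0.ne',
        ENNReal.rpow_one, ← ENNReal.ofReal_rpow_of_nonneg (by norm_num) hp0.le]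
      norm_num
    simp_rw [h5]
    rw [lintegral_const_mul _ (Measurable.tsum fun i => (hH1 i).const_mul _),
      lintegral_tsum (fun i => ((hH1 i).const_mul _).aemeasurable)]
    calc ENNReal.ofReal (32 ^ p) * ∑' i : ℤ, ∫⁻ e, ((2 : ENNReal) ^ i) ^ p * H i e
          ∂(volume : Measure (EuclideanSpace ℝ (Fin n))).toSphere
        ≤ ENNReal.ofReal (32 ^ p) * ∑' i : ℤ, ENNReal.ofReal (C₃ * D) *
          (((2 : ENNReal) ^ i) ^ p * volume (lvl f i)) := by
          gcongr with i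
          rw [lintegral_const_mul _ (hH1 i)]
          refine le_trans (mul_le_mul_right (hH3 i) _) (le_of_eq ?_)
          ring
      _ = ENNReal.ofReal (32 ^ p * C₃ * D) * ∑' i : ℤ,
          (((2 : ENNReal) ^ i) ^ p * volume (lvl f i)) := by
          rw [ENNReal.tsum_mul_left, ← mul_assoc, ← ENNReal.ofReal_mul (by positivity),
            ← mul_assoc]
      _ ≤ ENNReal.ofReal ((32 ^ p * C₃ + 1) * D) * ∫⁻ x, f x ^ p := by
          gcongr
          · linarith only []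
          · exact tsum_lvl_le hf hp0.le

end Vale.Agent.P127
end
end

section

section

/-!
# P127: assembly of the final estimates
-/

namespace Vale.Agent.P127.Fin

open MeasureTheory Vale.Agent.P127

/-- the bound for a fixed ambient dimension, by letting `β` decrease to `α` -/
theorem bound {α : ℝ} (hα1 : 1 < α) (hα : α ^ 3 - 4 * α + 2 = 0) {n : ℕ} (hn : 1 ≤ n)
    {K : Set (EuclideanSpace ℝ (Fin n))} (hK : IsKakeya n K) :
    ENNReal.ofReal (((n : ℝ) - 1) / α + 1) ≤ dimH K := by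
  obtain ⟨m, rfl⟩ : ∃ m, n = m + 1 := ⟨n - 1, by (clear * - hn; omega)⟩
  have h1 : ∀ β ∈ Set.Ioi α, ENNReal.ofReal ((m : ℝ) / β + 1) ≤ dimH K := fun β hβ =>
    dimH_ge_of_core (hα1.le.trans (le_of_lt hβ)) (kakeyaCore_of_gt m hα1 hα hβ) hK
  have h2 : Filter.Tendsto (fun β : ℝ => ENNReal.ofReal ((m : ℝ) / β + 1))
      (nhdsWithin α (Set.Ioi α)) (nhds (ENNReal.ofReal ((m : ℝ) / α + 1))) := by
    refine (ENNReal.tendsto_ofReal ?_).mono_left nhdsWithin_le_nhds
    have h3 : ContinuousAt (fun β : ℝ => (m : ℝ) / β + 1) α := by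
      have : α ≠ 0 := by (clear * - hα1; positivity)
      (clear * - this; fun_prop (disch := assumption))
    exact h3.tendsto
  have h3 := le_of_tendsto h2 (Filter.eventually_of_mem self_mem_nhdsWithin h1)
  have h4 : (((m + 1 : ℕ) : ℝ) - 1) = m := by push_cast; ring
  rw [h4]
  exact h3

/-- numerical bounds for the root -/
theorem root_bounds {α : ℝ} (hα1 : 1 < α) (hα : α ^ 3 - 4 * α + 2 = 0) :
    1.67512 < α ∧ α < 1.67514 := by
  constructor
  · by_contra h
    push Not at h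
    nlinarith only [hα1, hα, mul_nonneg (mul_nonneg (sub_nonneg.2 h) (sub_nonneg.2 hα1.le)) (sub_nonneg.2 hα1.le)]
  · by_contra h
    push Not at h
    nlinarith only [hα, mul_nonneg (mul_nonneg (sub_nonneg.2 h) (sub_nonneg.2 h)) (sub_nonneg.2 h)]

/-- the choice of the exponent `β` -/
theorem exists_beta {α : ℝ} (hα1 : 1 < α) (m : ℕ) {ε : ℝ} (hε : 0 < ε) :
    ∃ β : ℝ, α < β ∧ (m : ℝ) * (1 - 1 / β) ≤ m * (1 - 1 / α) + ε := by
  have h1 : Filter.Tendsto (fun β : ℝ => (m : ℝ) * (1 - 1 / β)) (nhdsWithin α (Set.Ioi α))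
      (nhds ((m : ℝ) * (1 - 1 / α))) := by
    refine Filter.Tendsto.mono_left ?_ nhdsWithin_le_nhds
    have h3 : ContinuousAt (fun β : ℝ => (m : ℝ) * (1 - 1 / β)) α := by
      have : α ≠ 0 := by (clear * - hα1; positivity)
      (clear * - this; fun_prop (disch := assumption))
    exact h3.tendsto
  have h2 := h1.eventually (eventually_le_nhds (by linarith only [hε] :
    (m : ℝ) * (1 - 1 / α) < m * (1 - 1 / α) + ε))
  obtain ⟨β, hβ1, hβ2⟩ := (h2.and self_mem_nhdsWithin).exists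
  exact ⟨β, hβ2, hβ1⟩

theorem maximal {α : ℝ} (hα1 : 1 < α) (hα : α ^ 3 - 4 * α + 2 = 0) {n : ℕ} (hn : 1 ≤ n)
    {ε : ℝ} (hε : 0 < ε) :
    ∃ p₀ : ℝ, 1 ≤ p₀ ∧ ∀ p : ℝ, p₀ ≤ p → ∃ C : ℝ, 0 ≤ C ∧
      ∀ δ : ℝ, 0 < δ → δ < 1 → ∀ f : EuclideanSpace ℝ (Fin n) → ENNReal, Measurable f →
        ∃ G : Metric.sphere (0 : EuclideanSpace ℝ (Fin n)) 1 → ENNReal, Measurable G ∧
          (∀ e, kakeyaMax δ f e.1 ≤ G e) ∧
          ∫⁻ e, G e ^ p ∂(volume : Measure (EuclideanSpace ℝ (Fin n))).toSphere ≤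
            ENNReal.ofReal (C * δ ^ (-((n : ℝ) - (((n : ℝ) - 1) / α + 1)) - ε)) *
              ∫⁻ x, f x ^ p := by
  obtain ⟨m, rfl⟩ : ∃ m, n = m + 1 := ⟨n - 1, by omega⟩
  obtain ⟨β, hβ, hβε⟩ := exists_beta hα1 m hε
  have hβ1 : 1 ≤ β := by linarith only [hα1, hβ]
  obtain ⟨C₁, hC₁, h1⟩ := locRWT_of_core hβ1 (kakeyaCore_of_gt m hα1 hα hβ)
  obtain ⟨C₂, hC₂, h2⟩ := rwt_of_locRWT hβ1 hC₁ h1
  obtain ⟨p₀, hp₀, h3⟩ := strong_of_rwt hβ1 hC₂ hn h2
  refine ⟨p₀, hp₀, fun p hp => ?_⟩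
  obtain ⟨C, hC, h4⟩ := h3 p hp
  refine ⟨C, hC, fun δ hδ hδ1 f hf => ?_⟩
  obtain ⟨G, hG, hKG, hint⟩ := h4 δ hδ hδ1 f hf
  refine ⟨G, hG, hKG, hint.trans ?_⟩
  gcongr ?_ * _
  refine ENNReal.ofReal_le_ofReal (mul_le_mul_of_nonneg_left ?_ hC)
  refine Real.rpow_le_rpow_of_exponent_ge hδ hδ1.le ?_
  have e1 : (((m + 1 : ℕ) : ℝ) - 1) = m := by push_cast; ring
  have e2 : ((m + 1 : ℕ) : ℝ) = m + 1 := by push_cast; ring
  rw [e1, e2]
  have e3 : (m : ℝ) * (1 - 1 / α) = m - m / α := by ring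
  rw [e3] at hβε
  linarith only [hβε]

/-- the maximal estimate with the surface measure on the ambient space -/
theorem maximal' {α : ℝ} (hα1 : 1 < α) (hα : α ^ 3 - 4 * α + 2 = 0) {n : ℕ} (hn : 1 ≤ n)
    {ε : ℝ} (hε : 0 < ε) :
    ∃ p₀ : ℝ, 1 ≤ p₀ ∧ ∀ p : ℝ, p₀ ≤ p → ∃ C : ℝ,
      ∀ δ : ℝ, 0 < δ → δ < 1 → ∀ f : EuclideanSpace ℝ (Fin n) → ENNReal, Measurable f →
        ∃ G : EuclideanSpace ℝ (Fin n) → ENNReal, Measurable G ∧
          (∀ e, ‖e‖ = 1 → kakeyaMax δ f e ≤ G e) ∧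
          ∫⁻ e, G e ^ p ∂(surf n) ≤
            ENNReal.ofReal (C * δ ^ (-((n : ℝ) - (((n : ℝ) - 1) / α + 1)) - ε)) *
              ∫⁻ x, f x ^ p := by
  obtain ⟨p₀, hp₀, h1⟩ := maximal hα1 hα hn hε
  refine ⟨p₀, hp₀, fun p hp => ?_⟩
  obtain ⟨C, _, h2⟩ := h1 p hp
  refine ⟨C, fun δ hδ hδ1 f hf => ?_⟩
  obtain ⟨G, hG, hKG, hint⟩ := h2 δ hδ hδ1 f hf
  have hemb : MeasurableEmbedding
      (Subtype.val : Metric.sphere (0 : EuclideanSpace ℝ (Fin n)) 1 → EuclideanSpace ℝ (Fin n)) :=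
    MeasurableEmbedding.subtype_coe Metric.isClosed_sphere.measurableSet
  have hG' : Measurable (Function.extend
      (Subtype.val : Metric.sphere (0 : EuclideanSpace ℝ (Fin n)) 1 → EuclideanSpace ℝ (Fin n))
      G (fun _ => 0)) := hemb.measurable_extend hG measurable_const
  refine ⟨_, hG', fun e he => ?_, ?_⟩
  · have hmem : e ∈ Metric.sphere (0 : EuclideanSpace ℝ (Fin n)) 1 := by simpa only [mem_sphere_iff_norm,
                                                                           sub_zero] using he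
    have h3 := hemb.injective.extend_apply G (fun _ => 0) ⟨e, hmem⟩
    simp only at h3
    rw [h3]
    exact hKG ⟨e, hmem⟩
  · refine le_trans (le_of_eq ?_) hint
    rw [surf, lintegral_map (hG'.pow_const p) hemb.measurable]
    refine lintegral_congr fun e => ?_
    rw [hemb.injective.extend_apply]

theorem compare {α : ℝ} (hα1 : 1 < α) (hα : α ^ 3 - 4 * α + 2 = 0) {n : ℕ} (h36 : 36 ≤ n) :
    (2 - Real.sqrt 2) * n + 4 / 5 < ((n : ℝ) - 1) / α + 1 := by
  have h1 := (root_bounds hα1 hα).2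
  have hnr : (36 : ℝ) ≤ n := by exact_mod_cast h36
  have h2 : ((n : ℝ) - 1) / 1.67514 ≤ ((n : ℝ) - 1) / α :=
    div_le_div_of_nonneg_left (by linarith only [hnr]) (by linarith only [hα1]) h1.le
  have h3 : 1.41421 < Real.sqrt 2 := by
    rw [Real.lt_sqrt (by norm_num)]
    norm_num
  have h4 : (2 - Real.sqrt 2) * n ≤ (2 - 1.41421) * n := by
    refine mul_le_mul_of_nonneg_right (by linarith only [h3]) (by linarith only [])
  have h5 : ((n : ℝ) - 1) / 1.67514 = ((n : ℝ) - 1) * (1 / 1.67514) := by ring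
  have h6 : (0.59696 : ℝ) ≤ 1 / 1.67514 := by norm_num
  have h7 : ((n : ℝ) - 1) * 0.59696 ≤ ((n : ℝ) - 1) * (1 / 1.67514) :=
    mul_le_mul_of_nonneg_left h6 (by linarith only [hnr])
  linarith only [hnr, h2, h4, h5]

theorem exists_root : ∃ α : ℝ, 1 < α ∧ α ^ 3 - 4 * α + 2 = 0 := by
  have hc : ContinuousOn (fun x : ℝ => x ^ 3 - 4 * x + 2) (Set.Icc 1.5 2) := by (clear * -; fun_prop)
  have h := intermediate_value_Icc (by (clear * -; norm_num) : (1.5 : ℝ) ≤ 2) hc
  obtain ⟨α, hα, hα0⟩ := h (show (0 : ℝ) ∈ Set.Icc _ _ by constructor <;> norm_num)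
  exact ⟨α, by linarith only [hα.1, hα], hα0⟩

end Vale.Agent.P127.Fin
end
end

section

/-!
# P127 / Stk : the finite law attached to a family of lines (PROOF.md, section 12)

Common finite lemma of the two extractions.
-/

namespace Vale.Agent.P127.Stk

open Finset Vale.Agent.P127 MeasureTheory

/-- entropy is large if all probabilities are small -/
lemma H_ge_of_pr_le {Ω : Type} [Fintype Ω] {S : Type*} (P : Law Ω) (X : Ω → S) {q : ℝ}
    (h : ∀ ω, 0 < P.w ω → P.pr X (X ω) ≤ q) : -Real.log q ≤ P.H X := by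
  have h1 : P.ex (fun _ => -Real.log q) ≤ P.ex (fun ω => -Real.log (P.pr X (X ω))) := by
    refine P.ex_mono fun ω hω => ?_
    have := Real.log_le_log (P.pr_pos X hω) (h ω hω)
    linarith only [this]
  rwa [P.ex_const] at h1

/-- entropy of a variable with values in a finite set -/
lemma H_le_log_finset {Ω : Type} [Fintype Ω] {S : Type} (P : Law Ω) (X : Ω → S) (F : Finset S)
    (h : ∀ ω, X ω ∈ F) : P.H X ≤ Real.log F.card := by
  classical
  have h1 := P.H_le_log_card (F := {x // x ∈ F}) (fun ω => ⟨X ω, h ω⟩)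
  rw [Fintype.card_coe] at h1
  refine le_trans (P.H_mono fun ω ω' hh => ?_) h1
  exact congrArg Subtype.val hh

/-- the volume of a dyadic cell -/
lemma volume_cell (m N : ℕ) (k : Fin m → ℤ) :
    volume {y : Fin m → ℝ | fl N y = k} = ENNReal.ofReal ((1 / 2 : ℝ) ^ N) ^ m := by
  have h2 : (0 : ℝ) < 2 ^ N := by positivity
  have h1 : {y : Fin m → ℝ | fl N y = k} =
      Set.pi Set.univ (fun i => Set.Ico ((k i : ℝ) / 2 ^ N) (((k i : ℝ) + 1) / 2 ^ N)) := by
    ext y
    simp only [Set.mem_ofPred_eq, Set.mem_pi, Set.mem_univ, true_implies, Set.mem_Ico, fl,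
      funext_iff]
    refine forall_congr' fun i => ?_
    rw [Int.floor_eq_iff, div_le_iff₀ h2, lt_div_iff₀ h2, mul_comm (y i)]
  rw [h1, Real.volume_pi_Ico]
  have h3 : ∀ i : Fin m, ((k i : ℝ) + 1) / 2 ^ N - (k i : ℝ) / 2 ^ N = (1 / 2 : ℝ) ^ N := by
    intro i
    rw [← sub_div, add_sub_cancel_left, one_div, one_div, inv_pow]
  simp only [h3, one_div, inv_pow, Nat.ofNat_pos, pow_pos, ENNReal.ofReal_inv_of_pos, Nat.ofNat_nonneg, ENNReal.ofReal_pow, ENNReal.ofReal_ofNat, prod_const, card_univ, Fintype.card_fin]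

/-- the volume of a dyadic interval -/
lemma volume_cell1 (N : ℕ) (k : ℤ) :
    volume {t : ℝ | fl1 N t = k} = ENNReal.ofReal ((1 / 2 : ℝ) ^ N) := by
  have h2 : (0 : ℝ) < 2 ^ N := by positivity
  have h1 : {t : ℝ | fl1 N t = k} = Set.Ico ((k : ℝ) / 2 ^ N) (((k : ℝ) + 1) / 2 ^ N) := by
    ext y
    simp only [Set.mem_ofPred_eq, Set.mem_Ico, fl1]
    rw [Int.floor_eq_iff, div_le_iff₀ h2, lt_div_iff₀ h2, mul_comm y]
  rw [h1, Real.volume_Ico]
  congr 1
  rw [← sub_div, add_sub_cancel_left, one_div, one_div, inv_pow]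

open Classical in
/-- the dyadic cells meeting a set -/
noncomputable def cellsOf {m : ℕ} (N : ℕ) (Y : Set (Fin m → ℝ)) : Finset (Fin m → ℤ) :=
  (Fintype.piFinset fun _ => Finset.Ico (0 : ℤ) (2 ^ N)).filter fun k => ∃ y ∈ Y, fl N y = k

open Classical in
/-- the dyadic intervals meeting a set -/
noncomputable def cellsOf1 (N : ℕ) (T : Set ℝ) : Finset ℤ :=
  (Finset.Ico (0 : ℤ) (2 ^ N)).filter fun k => ∃ t ∈ T, fl1 N t = k

lemma mem_cellsOf {m N : ℕ} {Y : Set (Fin m → ℝ)} (hY : ∀ y ∈ Y, ∀ i, 0 ≤ y i ∧ y i < 1)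
    {y : Fin m → ℝ} (hy : y ∈ Y) : fl N y ∈ cellsOf N Y := by
  classical
  unfold cellsOf
  rw [Finset.mem_filter, Fintype.mem_piFinset]
  refine ⟨fun i => ?_, y, hy, rfl⟩
  have h1 := hY y hy i
  have h2 : (0 : ℝ) < 2 ^ N := by positivity
  rw [Finset.mem_Ico]
  constructor
  · exact Int.floor_nonneg.2 (mul_nonneg h2.le h1.1)
  · unfold fl
    rw [Int.floor_lt]
    push_cast
    nlinarith [h1.2]

lemma mem_cellsOf1 {N : ℕ} {T : Set ℝ} (hT : T ⊆ Set.Ico 0 1) {t : ℝ} (ht : t ∈ T) :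
    fl1 N t ∈ cellsOf1 N T := by
  classical
  unfold cellsOf1
  rw [Finset.mem_filter, Finset.mem_Ico]
  have h1 := hT ht
  have h2 : (0 : ℝ) < 2 ^ N := by positivity
  refine ⟨⟨?_, ?_⟩, t, ht, rfl⟩
  · exact Int.floor_nonneg.2 (mul_nonneg h2.le h1.1)
  · unfold fl1
    rw [Int.floor_lt]
    push_cast
    nlinarith only [h2, h1.2]

lemma card_cellsOf {m N : ℕ} {Y : Set (Fin m → ℝ)} (hY : ∀ y ∈ Y, ∀ i, 0 ≤ y i ∧ y i < 1)
    {lam : ℝ} (h : ENNReal.ofReal lam ≤ volume Y) :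
    lam * (2 : ℝ) ^ (m * N) ≤ (cellsOf N Y).card := by
  classical
  have h1 : Y ⊆ ⋃ k ∈ cellsOf N Y, {y : Fin m → ℝ | fl N y = k} := by
    intro y hy
    exact Set.mem_iUnion₂.2 ⟨fl N y, mem_cellsOf hY hy, rfl⟩
  have h2 : volume Y ≤ ∑ k ∈ cellsOf N Y, volume {y : Fin m → ℝ | fl N y = k} :=
    (measure_mono h1).trans (measure_biUnion_finset_le _ _)
  simp only [volume_cell, Finset.sum_const, nsmul_eq_mul] at h2
  have h3 : ((cellsOf N Y).card : ENNReal) * ENNReal.ofReal ((1 / 2 : ℝ) ^ N) ^ m =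
      ENNReal.ofReal ((cellsOf N Y).card * ((1 / 2 : ℝ) ^ N) ^ m) := by
    rw [ENNReal.ofReal_mul (by (clear * -; positivity)), ENNReal.ofReal_natCast,
      ENNReal.ofReal_pow (p := (1 / 2 : ℝ) ^ N) (by positivity)]
  rw [h3] at h2
  have h4 := (ENNReal.ofReal_le_ofReal_iff (by (clear * -; positivity))).1 (h.trans h2)
  have h5 : (0 : ℝ) < 2 ^ (m * N) := by positivity
  calc lam * (2 : ℝ) ^ (m * N) ≤ ((cellsOf N Y).card * ((1 / 2 : ℝ) ^ N) ^ m) * 2 ^ (m * N) :=
        mul_le_mul_of_nonneg_right h4 h5.le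
    _ = (cellsOf N Y).card := by
        rw [mul_assoc, ← pow_mul, mul_comm N m, ← mul_pow]
        norm_num

lemma card_cellsOf1 {N : ℕ} {T : Set ℝ} (hT : T ⊆ Set.Ico 0 1)
    {p : ℝ} (h : ENNReal.ofReal p ≤ volume T) :
    p * (2 : ℝ) ^ N ≤ (cellsOf1 N T).card := by
  classical
  have h1 : T ⊆ ⋃ k ∈ cellsOf1 N T, {t : ℝ | fl1 N t = k} := by
    intro y hy
    exact Set.mem_iUnion₂.2 ⟨fl1 N y, mem_cellsOf1 hT hy, rfl⟩
  have h2 : volume T ≤ ∑ k ∈ cellsOf1 N T, volume {t : ℝ | fl1 N t = k} :=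
    (measure_mono h1).trans (measure_biUnion_finset_le _ _)
  simp only [volume_cell1, Finset.sum_const, nsmul_eq_mul] at h2
  have h3 : ((cellsOf1 N T).card : ENNReal) * ENNReal.ofReal ((1 / 2 : ℝ) ^ N) =
      ENNReal.ofReal ((cellsOf1 N T).card * ((1 / 2 : ℝ) ^ N)) := by
    rw [ENNReal.ofReal_mul (by (clear * -; positivity)), ENNReal.ofReal_natCast]
  rw [h3] at h2
  have h4 := (ENNReal.ofReal_le_ofReal_iff (by (clear * -; positivity))).1 (h.trans h2)
  have h5 : (0 : ℝ) < 2 ^ N := by positivity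
  calc p * (2 : ℝ) ^ N ≤ ((cellsOf1 N T).card * ((1 / 2 : ℝ) ^ N)) * 2 ^ N :=
        mul_le_mul_of_nonneg_right h4 h5.le
    _ = (cellsOf1 N T).card := by
        rw [mul_assoc, ← mul_pow]
        norm_num

section fib

variable {K : Type} (D : Finset K) (I : K → Finset ℤ)

/-- the space of pairs -/
abbrev Fib : Type := (k : {k // k ∈ D}) × {j // j ∈ I k.1}

open Classical in
/-- uniform choice of `k`, then uniform choice of `j` -/
noncomputable def fibLaw (hD : D.Nonempty) (hI : ∀ k ∈ D, (I k).Nonempty) : Law (Fib D I) where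
  w := fun ω => 1 / ((D.card : ℝ) * (I ω.1.1).card)
  nn := fun ω => by positivity
  sum_one := by
    classical
    rw [Fintype.sum_sigma]
    have h1 : ∀ k : {k // k ∈ D}, ∑ _j : {j // j ∈ I k.1}, 1 / ((D.card : ℝ) * (I k.1).card) =
        1 / D.card := by
      intro k
      rw [Finset.sum_const, Finset.card_univ, Fintype.card_coe, nsmul_eq_mul]
      have : ((I k.1).card : ℝ) ≠ 0 := by
        have := (hI k.1 k.2).card_pos
        positivity
      field_simp
    simp only [h1]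
    rw [Finset.sum_const, Finset.card_univ, Fintype.card_coe, nsmul_eq_mul]
    have : (D.card : ℝ) ≠ 0 := by
      have := hD.card_pos
      positivity
    field_simp

lemma fibLaw_pr_fst (hD : D.Nonempty) (hI : ∀ k ∈ D, (I k).Nonempty) (ω : Fib D I) :
    (fibLaw D I hD hI).pr (fun ω => ω.1) ω.1 = 1 / D.card := by
  classical
  unfold Law.pr
  have h0 : (Finset.univ.filter fun ω' : Fib D I => ω'.1 = ω.1) =
      Finset.univ.map ⟨fun j : {j // j ∈ I ω.1.1} => (⟨ω.1, j⟩ : Fib D I), by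
        intro a b h
        simpa only [Sigma.mk.injEq, heq_eq_eq, true_and] using h⟩ := by
    ext ω'
    simp only [Finset.mem_filter, Finset.mem_univ, true_and, Finset.mem_map]
    constructor
    · rintro h
      obtain ⟨k, j⟩ := ω'
      simp only at h
      subst h
      exact ⟨j, rfl⟩
    · rintro ⟨j, rfl⟩
      rfl
  have h1 : ∑ ω' ∈ (Finset.univ.filter fun ω' : Fib D I => ω'.1 = ω.1),
      (fibLaw D I hD hI).w ω' = ∑ _j : {j // j ∈ I ω.1.1}, 1 / ((D.card : ℝ) * (I ω.1.1).card) := by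
    rw [h0, Finset.sum_map]
    rfl
  have h2 : ∑ _j : {j // j ∈ I ω.1.1}, 1 / ((D.card : ℝ) * (I ω.1.1).card) = 1 / D.card := by
    rw [Finset.sum_const, Finset.card_univ, Fintype.card_coe, nsmul_eq_mul]
    have : ((I ω.1.1).card : ℝ) ≠ 0 := by
      have := (hI ω.1.1 ω.1.2).card_pos
      positivity
    (clear * - this hD; field_simp)
  rw [← h2, ← h1]
  exact Finset.sum_congr (by ext; simp only [mem_filter, mem_univ, true_and]) fun _ _ => rfl

lemma fibLaw_pr_inj (hD : D.Nonempty) (hI : ∀ k ∈ D, (I k).Nonempty) {S : Type*}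
    (X : Fib D I → S) (hX : Function.Injective X) (ω : Fib D I) :
    (fibLaw D I hD hI).pr X (X ω) = 1 / ((D.card : ℝ) * (I ω.1.1).card) := by
  classical
  unfold Law.pr
  have h0 : (Finset.univ.filter fun ω' : Fib D I => X ω' = X ω) = {ω} := by
    ext ω'
    simp only [Finset.mem_filter, Finset.mem_univ, true_and, Finset.mem_singleton]
    exact ⟨fun h => hX h, fun h => by rw [h]⟩
  have h1 : ∑ ω' ∈ (Finset.univ.filter fun ω' : Fib D I => X ω' = X ω),
      (fibLaw D I hD hI).w ω' = 1 / ((D.card : ℝ) * (I ω.1.1).card) := by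
    rw [h0, Finset.sum_singleton]
    rfl
  rw [← h1]

end fib

/-- COMMON FINITE LEMMA -/
theorem ext_law {m N : ℕ} (Y : Set (Fin m → ℝ)) (x : (Fin m → ℝ) → (Fin m → ℝ))
    (T : (Fin m → ℝ) → Set ℝ) (p lam E : ℝ) (hp : 0 < p) (hlam : 0 < lam)
    (hY01 : ∀ y ∈ Y, ∀ i, 0 ≤ y i ∧ y i < 1) (hx01 : ∀ y ∈ Y, ∀ i, 0 ≤ x y i ∧ x y i < 1)
    (hT01 : ∀ y ∈ Y, T y ⊆ Set.Ico 0 1) (hT : ∀ y ∈ Y, ENNReal.ofReal p ≤ volume (T y))
    (hY : ENNReal.ofReal lam ≤ volume Y)
    (hcell : ∀ s ≤ N, ∃ F : Finset ((Fin m → ℤ) × (Fin m → ℤ)),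
      (F.card : ℝ) ≤ 2 ^ (m * s) * Real.exp E ∧ ∀ y ∈ Y, (fl s (x y), fl s y) ∈ F)
    (F : Finset ((Fin m → ℤ) × ℤ))
    (hF : ∀ y ∈ Y, ∀ t ∈ T y, (fl N (fun i => x y i + t * y i), fl1 N t) ∈ F) :
    ∃ (Ω : Type) (_ : Fintype Ω) (P : Law Ω) (c : Cf Ω m),
      Good P c N (max E (Real.log (1 / lam))) (Real.log (1 / p)) ∧
      hc P (fun ω => fl N (c.pt ω)) (fun ω => (c.t ω, c.A ω)) ≤
        Real.log F.card - N * Real.log 2 + Real.log (1 / p) + m * Real.log 3 := by
  classical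
  have h2N : (0 : ℝ) < 2 ^ N := by positivity
  -- the cells
  obtain ⟨D, hDdef⟩ : ∃ D, D = cellsOf N Y := ⟨_, rfl⟩
  have hDcard : lam * (2 : ℝ) ^ (m * N) ≤ D.card := hDdef ▸ card_cellsOf hY01 hY
  have hDpos : (0 : ℝ) < D.card := lt_of_lt_of_le (by positivity) hDcard
  have hDne : D.Nonempty := Finset.card_pos.1 (by exact_mod_cast hDpos)
  have hex : ∀ k : Fin m → ℤ, ∃ y : Fin m → ℝ, k ∈ D → y ∈ Y ∧ fl N y = k := by
    intro k
    by_cases hk : k ∈ D
    · have : k ∈ cellsOf N Y := hDdef ▸ hk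
      unfold cellsOf at this
      obtain ⟨y, hy, hyk⟩ := (Finset.mem_filter.1 this).2
      exact ⟨y, fun _ => ⟨hy, hyk⟩⟩
    · exact ⟨0, fun h => absurd h hk⟩
  choose yk hyk using hex
  obtain ⟨I, hIdef⟩ : ∃ I : (Fin m → ℤ) → Finset ℤ, ∀ k, I k = cellsOf1 N (T (yk k)) :=
    ⟨fun k => cellsOf1 N (T (yk k)), fun _ => rfl⟩
  have hIcard : ∀ k ∈ D, p * (2 : ℝ) ^ N ≤ (I k).card := by
    intro k hk
    rw [hIdef]
    exact card_cellsOf1 (hT01 _ (hyk k hk).1) (hT _ (hyk k hk).1)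
  have hIne : ∀ k ∈ D, (I k).Nonempty := by
    intro k hk
    have h1 : (0 : ℝ) < (I k).card := lt_of_lt_of_le (by positivity) (hIcard k hk)
    exact Finset.card_pos.1 (by exact_mod_cast h1)
  have hIex : ∀ (k : Fin m → ℤ) (j : ℤ), ∃ t : ℝ, k ∈ D → j ∈ I k →
      t ∈ T (yk k) ∧ fl1 N t = j := by
    intro k j
    by_cases hk : k ∈ D ∧ j ∈ I k
    · have : j ∈ cellsOf1 N (T (yk k)) := hIdef k ▸ hk.2
      unfold cellsOf1 at this
      obtain ⟨t, ht, htj⟩ := (Finset.mem_filter.1 this).2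
      exact ⟨t, fun _ _ => ⟨ht, htj⟩⟩
    · exact ⟨0, fun h h' => absurd ⟨h, h'⟩ hk⟩
  choose ts hts using hIex
  have hI01 : ∀ k ∈ D, ∀ j ∈ I k, 0 ≤ j ∧ j < 2 ^ N := by
    intro k _ j hj
    have : j ∈ cellsOf1 N (T (yk k)) := hIdef k ▸ hj
    unfold cellsOf1 at this
    have := (Finset.mem_filter.1 this).1
    simpa only [mem_Ico] using this
  -- the law and the configuration
  obtain ⟨P, hP⟩ : ∃ P : Law (Fib D I), P = fibLaw D I hDne hIne := ⟨_, rfl⟩
  let c : Cf (Fib D I) m :=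
    { α := Unit
      A := fun _ => ()
      x := fun ω => x (yk ω.1.1)
      y := fun ω => yk ω.1.1
      t := fun ω => (ω.2.1 : ℝ) / 2 ^ N }
  have hYω : ∀ ω : Fib D I, yk ω.1.1 ∈ Y := fun ω => (hyk _ ω.1.2).1
  have hkω : ∀ ω : Fib D I, fl N (yk ω.1.1) = ω.1.1 := fun ω => (hyk _ ω.1.2).2
  have hjω : ∀ ω : Fib D I, fl1 N (c.t ω) = ω.2.1 := by
    intro ω
    show ⌊(2 : ℝ) ^ N * ((ω.2.1 : ℝ) / 2 ^ N)⌋ = ω.2.1
    rw [mul_div_cancel₀ _ h2N.ne']
    exact Int.floor_intCast _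
  have ht01 : ∀ ω : Fib D I, 0 ≤ c.t ω ∧ c.t ω < 1 := by
    intro ω
    have h1 := hI01 ω.1.1 ω.1.2 ω.2.1 ω.2.2
    have h3 : (0 : ℝ) ≤ ω.2.1 := by exact_mod_cast h1.1
    have h4 : (ω.2.1 : ℝ) < 2 ^ N := by exact_mod_cast h1.2
    exact ⟨div_nonneg h3 h2N.le, (div_lt_one h2N).2 h4⟩
  -- the two basic entropies
  have hHfst : P.H (fun ω => ((fun ω => (c.x ω, c.y ω)) ω, c.A ω)) ≤ Real.log D.card := by
    have h1 : P.H (fun ω => ω.1) ≤ Real.log D.card := by
      have := P.H_le_log_card (fun ω => ω.1)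
      rwa [Fintype.card_coe] at this
    refine le_trans (P.H_mono fun ω ω' hh => ?_) h1
    have : yk ω.1.1 = yk ω'.1.1 := by rw [hh]
    show ((x (yk ω.1.1), yk ω.1.1), ()) = ((x (yk ω'.1.1), yk ω'.1.1), ())
    rw [this]
  have hHpair : Real.log D.card + (N * Real.log 2 - Real.log (1 / p)) ≤
      P.H (fun ω => (c.t ω, ((fun ω => (c.x ω, c.y ω)) ω, c.A ω))) := by
    have hinj : Function.Injective
        (fun ω => (c.t ω, ((fun ω => (c.x ω, c.y ω)) ω, c.A ω))) := by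
      intro ω ω' hh
      have h1 : c.t ω = c.t ω' := (Prod.mk.inj hh).1
      have h2 : c.y ω = c.y ω' := (Prod.mk.inj (Prod.mk.inj (Prod.mk.inj hh).2).1).2
      have h3 : ω.1.1 = ω'.1.1 := by
        rw [← hkω ω, ← hkω ω']
        exact congrArg (fl N) h2
      have h4 : ω.2.1 = ω'.2.1 := by rw [← hjω ω, ← hjω ω', h1]
      obtain ⟨⟨k, hk⟩, ⟨j, hj⟩⟩ := ω
      obtain ⟨⟨k', hk'⟩, ⟨j', hj'⟩⟩ := ω'
      simp only at h3 h4
      subst h3
      subst h4
      rfl
    have h1 := H_ge_of_pr_le P (fun ω => (c.t ω, ((fun ω => (c.x ω, c.y ω)) ω, c.A ω)))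
      (q := 1 / ((D.card : ℝ) * (p * 2 ^ N))) (by
        intro ω _
        rw [hP, fibLaw_pr_inj D I hDne hIne _ hinj ω]
        have := hIcard ω.1.1 ω.1.2
        exact one_div_le_one_div_of_le (by (clear E hx01 hcell F hF; positivity)) (mul_le_mul_of_nonneg_left this hDpos.le))
    refine le_trans (le_of_eq ?_) h1
    rw [one_div, one_div, Real.log_inv, Real.log_inv, Real.log_mul hDpos.ne' (by positivity),
      Real.log_mul hp.ne' h2N.ne', Real.log_pow]
    ring
  -- the conditional entropy of the time given the line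
  have hct : N * Real.log 2 - Real.log (1 / p) ≤
      hc P c.t (fun ω => ((fun ω => (c.x ω, c.y ω)) ω, c.A ω)) := by
    unfold hc
    linarith only [hHfst, hHpair]
  have hHt : N * Real.log 2 - Real.log (1 / p) ≤ P.H c.t := hct.trans (hc_le_H P _ _)
  -- entropy of the slope
  have hHy : m * N * Real.log 2 - Real.log (1 / lam) ≤ P.H (fun ω => fl N (c.y ω)) := by
    have h1 : P.H (fun ω => fl N (c.y ω)) = P.H (fun ω => ω.1) := by
      refine P.H_congr fun ω ω' => ?_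
      show fl N (yk ω.1.1) = fl N (yk ω'.1.1) ↔ ω.1 = ω'.1
      rw [hkω, hkω]
      exact ⟨fun h => Subtype.ext h, fun h => by rw [h]⟩
    rw [h1]
    have h3 := H_ge_of_pr_le P (fun ω => ω.1) (q := 1 / (D.card : ℝ)) (by
      intro ω _
      rw [hP, fibLaw_pr_fst])
    refine le_trans ?_ h3
    have h4 := Real.log_le_log (by positivity) hDcard
    rw [Real.log_mul hlam.ne' (by positivity), Real.log_pow] at h4
    rw [one_div, one_div, Real.log_inv, Real.log_inv, neg_neg]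
    push_cast at h4
    linarith only [h4]
  have hA : ∀ {S : Type} (X : Fib D I → S), hc P X c.A = P.H X := by
    intro S X
    have h1 : P.H (fun ω => (X ω, c.A ω)) = P.H X := P.H_congr fun ω ω' => by
      constructor
      · intro h
        exact (Prod.mk.inj h).1
      · intro h
        show (X ω, ()) = (X ω', ())
        rw [h]
    have h3 : P.H c.A = 0 := by
      unfold Law.H
      have : ∀ ω, P.pr c.A (c.A ω) = 1 := by
        intro ω
        unfold Law.pr
        rw [← P.sum_one]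
        refine Finset.sum_congr ?_ fun _ _ => rfl
        ext ω'
        simp only [filter_true, mem_univ, c]
      simp only [this, Real.log_one, neg_zero]
      exact P.ex_const 0
    unfold hc
    rw [h1, h3, sub_zero]
  refine ⟨Fib D I, inferInstance, P, c, ?_, ?_⟩
  · constructor
    · intro ω i
      exact hx01 _ (hYω ω) i
    · intro ω i
      exact hY01 _ (hYω ω) i
    · exact ht01
    · rw [mi_symm]
      unfold mi
      have h1 : hc P c.t c.A ≤ N * Real.log 2 := by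
        refine le_trans (hc_mono_left P (X' := fun ω => fl1 N (c.t ω)) ?_)
          (hc_fl1_le P N c.t c.A fun ω _ => ht01 ω)
        intro ω ω' _ _ hh
        have h3 : fl1 N (c.t ω) = fl1 N (c.t ω') := (Prod.mk.inj hh).1
        rw [hjω, hjω] at h3
        show ((ω.2.1 : ℤ) : ℝ) / 2 ^ N = ((ω'.2.1 : ℤ) : ℝ) / 2 ^ N
        rw [h3]
      linarith only [hct, h1]
    · intro s hs
      have h1 := hc_fl_digits_le P hs (fun ω => c.y ω) c.A
      have h3 := hc_le_add P (fun ω => fl N (c.y ω)) (fun ω => fl s (c.y ω)) c.A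
      rw [hA (fun ω => fl N (c.y ω))] at h3
      have h4 := le_max_right E (Real.log (1 / lam))
      rw [Fintype.card_fin] at h1
      have h5 : ((N - s : ℕ) : ℝ) = (N : ℝ) - s := by
        rw [Nat.cast_sub hs]
      rw [h5] at h1
      nlinarith only [hHy, h1, h3, h4]
    · intro s hs
      obtain ⟨Fs, hFs, hFm⟩ := hcell s hs
      have h1 := hc_le_log P (fun ω => (fl s (c.x ω), fl s (c.y ω))) c.A Fs.card (by
        intro ω _
        exact ⟨Fs, le_rfl, fun ω' _ _ => hFm _ (hYω ω')⟩)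
      have hFpos : (0 : ℝ) < Fs.card := by
        obtain ⟨k, hk⟩ := hDne
        have := Finset.card_pos.2 ⟨_, hFm _ (hyk k hk).1⟩
        exact_mod_cast this
      have h3 := Real.log_le_log hFpos hFs
      rw [Real.log_mul (by positivity) (Real.exp_pos _).ne', Real.log_exp, Real.log_pow] at h3
      have h4 := le_max_left E (Real.log (1 / lam))
      push_cast at h3
      linarith only [h1, h4, h3]
    · intro s hs
      have h1 := hc_fl1_digits_le P hs (fun ω => c.t ω) c.A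
      have h3 := hc_le_add P (fun ω => fl1 N (c.t ω)) (fun ω => fl1 s (c.t ω)) c.A
      have h4 : hc P (fun ω => fl1 N (c.t ω)) c.A = P.H c.t := by
        rw [hA]
        refine P.H_congr fun ω ω' => ?_
        rw [hjω, hjω]
        constructor
        · intro h
          show ((ω.2.1 : ℤ) : ℝ) / 2 ^ N = ((ω'.2.1 : ℤ) : ℝ) / 2 ^ N
          rw [h]
        · intro h
          rw [← hjω, ← hjω, h]
      rw [h4] at h3
      have h5 : ((N - s : ℕ) : ℝ) = (N : ℝ) - s := by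
        rw [Nat.cast_sub hs]
      rw [h5] at h1
      linarith
  · -- the rate
    have h1 := hc_sub_le P (fun ω => fl N (c.pt ω))
      (fun ω => fl N (fun i => x (yk ω.1.1) i + ts ω.1.1 ω.2.1 * yk ω.1.1 i))
      (fun ω => (c.t ω, c.A ω)) 1 (by
        intro ω _ i
        have hy := hY01 _ (hYω ω) i
        have htt := (hts ω.1.1 ω.2.1 ω.1.2 ω.2.2).2
        unfold fl1 at htt
        have h3 := Int.floor_le ((2 : ℝ) ^ N * ts ω.1.1 ω.2.1)
        have h4 := Int.lt_floor_add_one ((2 : ℝ) ^ N * ts ω.1.1 ω.2.1)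
        rw [htt] at h3 h4
        show |⌊(2 : ℝ) ^ N * (x (yk ω.1.1) i + (ω.2.1 : ℝ) / 2 ^ N * yk ω.1.1 i)⌋ -
          ⌊(2 : ℝ) ^ N * (x (yk ω.1.1) i + ts ω.1.1 ω.2.1 * yk ω.1.1 i)⌋| ≤ ((1 : ℕ) : ℤ)
        have e1 : (2 : ℝ) ^ N * (x (yk ω.1.1) i + (ω.2.1 : ℝ) / 2 ^ N * yk ω.1.1 i) =
            (2 : ℝ) ^ N * x (yk ω.1.1) i + (ω.2.1 : ℝ) * yk ω.1.1 i := by
          (clear * -; field_simp)
        have e2 : (2 : ℝ) ^ N * (x (yk ω.1.1) i + ts ω.1.1 ω.2.1 * yk ω.1.1 i) =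
            (2 : ℝ) ^ N * x (yk ω.1.1) i + ((2 : ℝ) ^ N * ts ω.1.1 ω.2.1) * yk ω.1.1 i := by
          ring
        rw [e1, e2]
        have h5 : (ω.2.1 : ℝ) * yk ω.1.1 i ≤ ((2 : ℝ) ^ N * ts ω.1.1 ω.2.1) * yk ω.1.1 i :=
          mul_le_mul_of_nonneg_right h3 hy.1
        have h6 : ((2 : ℝ) ^ N * ts ω.1.1 ω.2.1) * yk ω.1.1 i ≤
            (ω.2.1 : ℝ) * yk ω.1.1 i + 1 := by
          nlinarith only [hy, h4]
        have h7 := Int.floor_le_floor (a := (2 : ℝ) ^ N * x (yk ω.1.1) i + (ω.2.1 : ℝ) * yk ω.1.1 i)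
          (b := (2 : ℝ) ^ N * x (yk ω.1.1) i + ((2 : ℝ) ^ N * ts ω.1.1 ω.2.1) * yk ω.1.1 i)
          (by linarith only [h5])
        have h8 := Int.floor_le_floor
          (a := (2 : ℝ) ^ N * x (yk ω.1.1) i + ((2 : ℝ) ^ N * ts ω.1.1 ω.2.1) * yk ω.1.1 i)
          (b := ((2 : ℝ) ^ N * x (yk ω.1.1) i + (ω.2.1 : ℝ) * yk ω.1.1 i) + 1)
          (by linarith only [h6])
        rw [Int.floor_add_one] at h8
        rw [abs_le]
        constructor
        · push_cast
          linarith only [h8]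
        · push_cast
          linarith only [h7])
    rw [Fintype.card_fin] at h1
    have h3 : P.H (fun ω => ((fun ω => fl N (fun i => x (yk ω.1.1) i +
        ts ω.1.1 ω.2.1 * yk ω.1.1 i)) ω, (c.t ω, c.A ω))) ≤ Real.log F.card := by
      have h4 := H_le_log_finset P (fun ω => (fl N (fun i => x (yk ω.1.1) i +
        ts ω.1.1 ω.2.1 * yk ω.1.1 i), ω.2.1)) F (by
          intro ω
          have htt := hts ω.1.1 ω.2.1 ω.1.2 ω.2.2
          have h5 := hF _ (hYω ω) _ htt.1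
          rw [htt.2] at h5
          exact h5)
      refine le_trans (P.H_mono fun ω ω' hh => ?_) h4
      obtain ⟨h5, h6⟩ := Prod.mk.inj hh
      show (_, ((ω.2.1 : ℝ) / 2 ^ N, ())) = (_, ((ω'.2.1 : ℝ) / 2 ^ N, ()))
      rw [h6]
      exact Prod.ext h5 rfl
    have h4 : P.H c.t ≤ P.H (fun ω => (c.t ω, c.A ω)) :=
      P.H_mono fun ω ω' hh => (Prod.mk.inj hh).1
    have h5 : hc P (fun ω => fl N (fun i => x (yk ω.1.1) i + ts ω.1.1 ω.2.1 * yk ω.1.1 i))
        (fun ω => (c.t ω, c.A ω)) ≤ Real.log F.card - (N * Real.log 2 - Real.log (1 / p)) := by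
      unfold hc
      linarith only [hHt, h3, h4]
    norm_num at h1
    linarith only [h5, h1]

end Vale.Agent.P127.Stk
end

section

end

section

/-!
# P127 / Stk : rescaling of a family of lines to a short dyadic time interval, and covers
-/

namespace Vale.Agent.P127.Stk

open Finset Vale.Agent.P127 MeasureTheory

/-- volume of a rescaled set -/
lemma volume_resc (p : ℕ) (τ : ℝ) (S : Set ℝ) :
    volume {t : ℝ | (t + τ) / 2 ^ p ∈ S} = ENNReal.ofReal (2 ^ p) * volume S := by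
  have h2 : (0 : ℝ) < 2 ^ p := by positivity
  have h1 : {t : ℝ | (t + τ) / 2 ^ p ∈ S} =
      (fun t => t + τ) ⁻¹' ((fun t => (1 / 2 ^ p : ℝ) * t) ⁻¹' S) := by
    ext t
    simp only [Set.mem_preimage, Set.mem_ofPred_eq]
    rw [div_eq_mul_one_div, mul_comm]
  rw [h1, measure_preimage_add_right, Real.volume_preimage_mul_left (by (clear * -; positivity))]
  congr 2
  rw [one_div, inv_inv, abs_of_pos h2]

/-- RESCALING -/
theorem rescale {m N p : ℕ} (hpN : p ≤ N) (τ : ℤ) (hτ : 0 ≤ τ ∧ τ < 2 ^ p) (a : Fin m → ℤ)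
    (Y : Set (Fin m → ℝ)) (x : (Fin m → ℝ) → (Fin m → ℝ)) (T : (Fin m → ℝ) → Set ℝ)
    (c0 lam A η : ℝ) (hc0 : 0 < c0) (hlam : 0 < lam) (hA : 0 < A) (hη : 0 ≤ η)
    (hY01 : ∀ y ∈ Y, ∀ i, 0 ≤ y i ∧ y i < 1)
    (ha : ∀ y ∈ Y, fl p (fun i => x y i + (τ : ℝ) / 2 ^ p * y i) = a)
    (hT : ∀ y ∈ Y, ENNReal.ofReal (c0 * (1 / 2) ^ p) ≤ volume (T y ∩ {t | fl1 p t = τ}))
    (hY : ENNReal.ofReal lam ≤ volume Y)
    (hcell : ∀ s ≤ N, ∃ F : Finset ((Fin m → ℤ) × (Fin m → ℤ)),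
      (F.card : ℝ) ≤ A * 2 ^ ((m + η) * s) ∧ ∀ y ∈ Y, (fl s (x y), fl s y) ∈ F)
    (F0 : Finset ((Fin m → ℤ) × ℤ))
    (hF0 : ∀ y ∈ Y, ∀ t ∈ T y, fl1 p t = τ →
      (fl N (fun i => x y i + t * y i), fl1 N t) ∈ F0) :
    ∃ (Ω : Type) (_ : Fintype Ω) (P : Law Ω) (c : Cf Ω m),
      Good P c (N - p) (max (Real.log (3 ^ m * A) + ((m + η) * p + η * N) * Real.log 2)
        (Real.log (1 / lam))) (Real.log (1 / c0)) ∧
      hc P (fun ω => fl (N - p) (c.pt ω)) (fun ω => (c.t ω, c.A ω)) ≤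
        Real.log F0.card - ((N : ℝ) - p) * Real.log 2 + Real.log (1 / c0) + m * Real.log 3 := by
  classical
  have h2p : (0 : ℝ) < 2 ^ p := by positivity
  obtain ⟨x', hx'⟩ : ∃ x' : (Fin m → ℝ) → (Fin m → ℝ),
      ∀ y i, x' y i = 2 ^ p * (x y i + (τ : ℝ) / 2 ^ p * y i) - a i :=
    ⟨fun y i => 2 ^ p * (x y i + (τ : ℝ) / 2 ^ p * y i) - a i, fun _ _ => rfl⟩
  obtain ⟨T', hT'⟩ : ∃ T' : (Fin m → ℝ) → Set ℝ,
      ∀ y, T' y = {t : ℝ | (t + τ) / 2 ^ p ∈ T y ∩ {t | fl1 p t = τ}} :=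
    ⟨fun y => {t : ℝ | (t + τ) / 2 ^ p ∈ T y ∩ {t | fl1 p t = τ}}, fun _ => rfl⟩
  have hsub : ((N - p : ℕ) : ℝ) = (N : ℝ) - p := Nat.cast_sub hpN
  have hpow : (2 : ℝ) ^ N = 2 ^ (N - p) * 2 ^ p := by
    rw [← pow_add, Nat.sub_add_cancel hpN]
  -- the rescaled points
  have hpt : ∀ (y : Fin m → ℝ) (t : ℝ), fl (N - p) (fun i => x' y i + t * y i) =
      fun i => fl N (fun i => x y i + (t + τ) / 2 ^ p * y i) i - 2 ^ (N - p) * a i := by
    intro y t
    funext i
    show ⌊(2 : ℝ) ^ (N - p) * (x' y i + t * y i)⌋ =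
      ⌊(2 : ℝ) ^ N * (x y i + (t + τ) / 2 ^ p * y i)⌋ - 2 ^ (N - p) * a i
    have e : (2 : ℝ) ^ (N - p) * (x' y i + t * y i) =
        (2 : ℝ) ^ N * (x y i + (t + τ) / 2 ^ p * y i) - ((2 ^ (N - p) * a i : ℤ) : ℝ) := by
      rw [hx', hpow]
      push_cast
      field_simp
      ring
    rw [e, Int.floor_sub_intCast]
  have htt : ∀ t : ℝ, fl1 (N - p) t = fl1 N ((t + τ) / 2 ^ p) - 2 ^ (N - p) * τ := by
    intro t
    show ⌊(2 : ℝ) ^ (N - p) * t⌋ = ⌊(2 : ℝ) ^ N * ((t + τ) / 2 ^ p)⌋ - 2 ^ (N - p) * τ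
    have e : (2 : ℝ) ^ (N - p) * t =
        (2 : ℝ) ^ N * ((t + τ) / 2 ^ p) - ((2 ^ (N - p) * τ : ℤ) : ℝ) := by
      rw [hpow]
      push_cast
      field_simp
      ring
    rw [e, Int.floor_sub_intCast]
  obtain ⟨F1, hF1⟩ : ∃ F1 : Finset ((Fin m → ℤ) × ℤ),
      F1 = F0.image (fun q => ((fun i => q.1 i - 2 ^ (N - p) * a i), q.2 - 2 ^ (N - p) * τ)) :=
    ⟨_, rfl⟩
  have hx01' : ∀ y ∈ Y, ∀ i, 0 ≤ x' y i ∧ x' y i < 1 := by
    intro y hy i
    have h1 : ⌊(2 : ℝ) ^ p * (x y i + (τ : ℝ) / 2 ^ p * y i)⌋ = a i := congrFun (ha y hy) i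
    rw [Int.floor_eq_iff] at h1
    rw [hx']
    constructor <;> (clear * - h1; linarith [h1.1, h1.2])
  have hT01' : ∀ y ∈ Y, T' y ⊆ Set.Ico 0 1 := by
    intro y _ t ht
    rw [hT'] at ht
    have h1 : ⌊(2 : ℝ) ^ p * ((t + τ) / 2 ^ p)⌋ = τ := ht.2
    rw [mul_div_cancel₀ _ h2p.ne', Int.floor_eq_iff] at h1
    constructor <;> linarith only [h1]
  have hTv : ∀ y ∈ Y, ENNReal.ofReal c0 ≤ volume (T' y) := by
    intro y hy
    rw [hT', volume_resc]
    calc ENNReal.ofReal c0 = ENNReal.ofReal (2 ^ p) * ENNReal.ofReal (c0 * (1 / 2) ^ p) := by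
          rw [← ENNReal.ofReal_mul h2p.le]
          congr 1
          rw [mul_comm, mul_assoc, ← mul_pow]
          norm_num
      _ ≤ _ := by
          gcongr
          exact hT y hy
  have hcell' : ∀ s ≤ N - p, ∃ F : Finset ((Fin m → ℤ) × (Fin m → ℤ)),
      (F.card : ℝ) ≤ 2 ^ (m * s) *
        Real.exp (Real.log (3 ^ m * A) + ((m + η) * p + η * N) * Real.log 2) ∧
      ∀ y ∈ Y, (fl s (x' y), fl s y) ∈ F := by
    intro s hs
    obtain ⟨F, hFc, hFm⟩ := hcell (s + p) (by (clear * - hpN hs; omega))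
    -- the possible cells
    obtain ⟨lo, hlo⟩ : ∃ lo : (Fin m → ℤ) × (Fin m → ℤ) → Fin m → ℤ, ∀ q i,
        lo q i = ⌊(q.1 i : ℝ) + (τ : ℝ) * (q.2 i : ℝ) / 2 ^ p⌋ - 2 ^ s * a i :=
      ⟨fun q i => ⌊(q.1 i : ℝ) + (τ : ℝ) * (q.2 i : ℝ) / 2 ^ p⌋ - 2 ^ s * a i, fun _ _ => rfl⟩
    refine ⟨F.biUnion fun q => (Fintype.piFinset fun i => Finset.Icc (lo q i) (lo q i + 2)) ×ˢ
      {fun i => q.2 i / 2 ^ p}, ?_, ?_⟩
    · have h1 : (F.biUnion fun q => (Fintype.piFinset fun i =>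
          Finset.Icc (lo q i) (lo q i + 2)) ×ˢ
          ({fun i => q.2 i / 2 ^ p} : Finset (Fin m → ℤ))).card ≤ F.card * 3 ^ m := by
        refine Finset.card_biUnion_le_card_mul _ _ _ fun q _ => ?_
        rw [Finset.card_product, Fintype.card_piFinset, Finset.card_singleton, mul_one]
        have : ∀ i, (Finset.Icc (lo q i) (lo q i + 2)).card = 3 := by
          intro i
          rw [Int.card_Icc]
          (clear * -; omega)
        simp only [this, prod_const, card_univ, Fintype.card_fin, Std.le_refl]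
      have h3 : ((F.biUnion fun q => (Fintype.piFinset fun i =>
          Finset.Icc (lo q i) (lo q i + 2)) ×ˢ
          ({fun i => q.2 i / 2 ^ p} : Finset (Fin m → ℤ))).card : ℝ) ≤ F.card * 3 ^ m := by
        exact_mod_cast h1
      refine h3.trans ?_
      have h4 : (0 : ℝ) < 3 ^ m * A := by positivity
      rw [Real.exp_add, Real.exp_log h4]
      have h5 : Real.exp (((m + η) * p + η * N) * Real.log 2) =
          (2 : ℝ) ^ ((m + η) * p + η * N) := by
        rw [Real.rpow_def_of_pos (by norm_num), mul_comm]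
      rw [h5]
      have h6 : (2 : ℝ) ^ ((m + η) * ((s + p : ℕ) : ℝ)) ≤
          2 ^ (m * s) * 2 ^ ((m + η) * p + η * N) := by
        rw [← Real.rpow_natCast, ← Real.rpow_add (by norm_num)]
        refine Real.rpow_le_rpow_of_exponent_le (by norm_num) ?_
        have h7 : (s : ℝ) ≤ N := by exact_mod_cast (hs.trans (Nat.sub_le _ _))
        push_cast
        nlinarith only [hη, h7]
      calc (F.card : ℝ) * 3 ^ m ≤ (A * 2 ^ ((m + η) * ((s + p : ℕ) : ℝ))) * 3 ^ m :=
            mul_le_mul_of_nonneg_right hFc (by positivity)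
        _ ≤ (A * (2 ^ (m * s) * 2 ^ ((m + η) * p + η * N))) * 3 ^ m := by
            (clear * - h6 hA; gcongr)
        _ = _ := by ring
    · intro y hy
      have hq := hFm y hy
      refine Finset.mem_biUnion.2 ⟨_, hq, ?_⟩
      rw [Finset.mem_product, Fintype.mem_piFinset, Finset.mem_singleton]
      constructor
      · intro i
        rw [Finset.mem_Icc, hlo]
        show ⌊((⌊(2 : ℝ) ^ (s + p) * x y i⌋ : ℤ) : ℝ) +
            (τ : ℝ) * ((⌊(2 : ℝ) ^ (s + p) * y i⌋ : ℤ) : ℝ) / 2 ^ p⌋ - 2 ^ s * a i ≤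
            ⌊(2 : ℝ) ^ s * x' y i⌋ ∧ ⌊(2 : ℝ) ^ s * x' y i⌋ ≤
            ⌊((⌊(2 : ℝ) ^ (s + p) * x y i⌋ : ℤ) : ℝ) +
            (τ : ℝ) * ((⌊(2 : ℝ) ^ (s + p) * y i⌋ : ℤ) : ℝ) / 2 ^ p⌋ - 2 ^ s * a i + 2
        have e : (2 : ℝ) ^ s * x' y i = ((2 : ℝ) ^ (s + p) * x y i +
            (τ : ℝ) * ((2 : ℝ) ^ (s + p) * y i) / 2 ^ p) - ((2 ^ s * a i : ℤ) : ℝ) := by
          rw [hx', pow_add]
          push_cast
          (clear * -; field_simp)
        rw [e, Int.floor_sub_intCast]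
        obtain ⟨u, hu⟩ : ∃ u : ℝ, u = (2 : ℝ) ^ (s + p) * x y i := ⟨_, rfl⟩
        obtain ⟨v, hv⟩ : ∃ v : ℝ, v = (2 : ℝ) ^ (s + p) * y i := ⟨_, rfl⟩
        rw [← hu, ← hv]
        have hu1 := Int.floor_le u
        have hu2 := Int.lt_floor_add_one u
        have hv1 := Int.floor_le v
        have hv2 := Int.lt_floor_add_one v
        have ht0 : (0 : ℝ) ≤ τ := by exact_mod_cast hτ.1
        have ht1 : (τ : ℝ) < 2 ^ p := by exact_mod_cast hτ.2
        have h3 : (τ : ℝ) * (⌊v⌋ : ℝ) / 2 ^ p ≤ τ * v / 2 ^ p :=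
          div_le_div_of_nonneg_right (mul_le_mul_of_nonneg_left hv1 ht0) h2p.le
        have h4 : (τ : ℝ) * v / 2 ^ p ≤ τ * (⌊v⌋ : ℝ) / 2 ^ p + 1 := by
          rw [div_add_one h2p.ne']
          refine div_le_div_of_nonneg_right ?_ h2p.le
          nlinarith only [h2p, hv2, hv1, ht1]
        have h5 := Int.floor_le_floor (a := (⌊u⌋ : ℝ) + τ * (⌊v⌋ : ℝ) / 2 ^ p)
          (b := u + τ * v / 2 ^ p) (by linarith only [hu1, h3])
        have h6 := Int.floor_le_floor (a := u + τ * v / 2 ^ p)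
          (b := ((⌊u⌋ : ℝ) + τ * (⌊v⌋ : ℝ) / 2 ^ p) + ((2 : ℤ) : ℝ)) (by push_cast; linarith only [hu2, h4])
        rw [Int.floor_add_intCast] at h6
        constructor <;> linarith only [h5, h6]
      · funext i
        show ⌊(2 : ℝ) ^ s * y i⌋ = ⌊(2 : ℝ) ^ (s + p) * y i⌋ / 2 ^ p
        have e : (2 : ℝ) ^ s * y i = ((2 : ℝ) ^ (s + p) * y i) / ((2 ^ p : ℕ) : ℝ) := by
          rw [pow_add]
          push_cast
          (clear * -; field_simp)
        rw [e, Int.floor_div_natCast]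
        push_cast
        rfl
  have hmain := ext_law Y x' T' c0 lam
    (Real.log (3 ^ m * A) + ((m + η) * p + η * N) * Real.log 2) hc0 hlam hY01 hx01' hT01' hTv hY
    hcell' F1 (by
      intro y hy t ht
      rw [hT'] at ht
      rw [hF1]
      refine Finset.mem_image.2 ⟨_, hF0 y hy _ ht.1 ht.2, ?_⟩
      rw [hpt, htt])
  obtain ⟨Ω, inst, P, c, hgood, hrate⟩ := hmain
  refine ⟨Ω, inst, P, c, hgood, hrate.trans ?_⟩
  have hF01 : Real.log F1.card ≤ Real.log F0.card := by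
    have h1 : F1.card ≤ F0.card := by
      rw [hF1]
      exact Finset.card_image_le
    rcases Nat.eq_zero_or_pos F1.card with h0 | h0
    · rw [h0]
      simp only [Nat.cast_zero, Real.log_zero]
      exact Real.log_natCast_nonneg _
    · exact Real.log_le_log (by exact_mod_cast h0) (by exact_mod_cast h1)
  rw [hsub]
  linarith only [hF01]

end Vale.Agent.P127.Stk
end

section

end

section

/-!
# P127 / Stk : covers by balls and dyadic cells; pigeonhole; growth
-/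

namespace Vale.Agent.P127.Stk

open Finset Vale.Agent.P127 MeasureTheory

/-- the balls of one block form a small finite set -/
theorem exists_block {ρ : ℕ → ℝ} {s : ℝ} (hs : 0 < s)
    (hsum : ∀ F : Finset ℕ, ∑ i ∈ F, ρ i ^ s ≤ 1) (a b : ℕ) :
    ∃ Cl : Finset ℕ, (∀ n, n ∈ Cl ↔ (1 / 2 : ℝ) ^ b < ρ n ∧ ρ n ≤ (1 / 2) ^ a) ∧
      (Cl.card : ℝ) ≤ (2 : ℝ) ^ ((b : ℝ) * s) := by
  classical
  have hlow : ∀ F : Finset ℕ, (∀ n ∈ F, (1 / 2 : ℝ) ^ b < ρ n) →
      (F.card : ℝ) ≤ (2 : ℝ) ^ ((b : ℝ) * s) := by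
    intro F hF
    have h1 : ∀ n ∈ F, ((1 / 2 : ℝ) ^ b) ^ s ≤ ρ n ^ s := fun n hn =>
      Real.rpow_le_rpow (by positivity) (hF n hn).le hs.le
    have h2 := (Finset.sum_le_sum h1).trans (hsum F)
    rw [Finset.sum_const, nsmul_eq_mul] at h2
    have h3 : ((1 / 2 : ℝ) ^ b) ^ s = ((2 : ℝ) ^ ((b : ℝ) * s))⁻¹ := by
      rw [one_div, inv_pow, Real.inv_rpow (by positivity), ← Real.rpow_natCast,
        ← Real.rpow_mul (by norm_num)]
    rw [h3, ← div_eq_mul_inv, div_le_one (by positivity)] at h2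
    exact h2
  have hfin : {n : ℕ | (1 / 2 : ℝ) ^ b < ρ n ∧ ρ n ≤ (1 / 2) ^ a}.Finite := by
    by_contra hinf
    obtain ⟨F, hF1, hF2⟩ := Set.Infinite.exists_subset_card_eq hinf
      (⌈(2 : ℝ) ^ ((b : ℝ) * s)⌉₊ + 1)
    have h1 := hlow F (fun n hn => (hF1 hn).1)
    rw [hF2] at h1
    push_cast at h1
    have h2 := Nat.le_ceil ((2 : ℝ) ^ ((b : ℝ) * s))
    linarith only [h1, h2]
  refine ⟨hfin.toFinset, fun n => by simp only [one_div, inv_pow, Set.Finite.mem_toFinset, Set.mem_ofPred_eq], hlow _ fun n hn => ?_⟩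
  have := hfin.mem_toFinset.1 hn
  exact this.1

/-- the cells of the points in a finite union of balls -/
theorem cover_cells {m : ℕ} (Cl : Finset ℕ) (xc : ℕ → EuclideanSpace ℝ (Fin (m + 1)))
    (ρ : ℕ → ℝ) (N : ℕ) (hρ : ∀ i ∈ Cl, ρ i ≤ (1 / 2 : ℝ) ^ N) :
    ∃ F0 : Finset ((Fin m → ℤ) × ℤ), (F0.card : ℝ) ≤ Cl.card * 9 ^ (m + 1) ∧
      ∀ (x y : Fin m → ℝ) (t t' : ℝ), (∀ i, 0 ≤ y i ∧ y i < 1) → fl1 N t = fl1 N t' →
        (∃ i ∈ Cl, pt x y t' ∈ Metric.closedBall (xc i) (2 * ρ i)) →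
        (fl N (fun i => x i + t * y i), fl1 N t) ∈ F0 := by
  classical
  have h2N : (0 : ℝ) < 2 ^ N := by positivity
  refine ⟨Cl.biUnion fun n => (Fintype.piFinset fun i : Fin m =>
    Finset.Icc (⌊(2 : ℝ) ^ N * (xc n).ofLp i.castSucc⌋ - 4)
      (⌊(2 : ℝ) ^ N * (xc n).ofLp i.castSucc⌋ + 4)) ×ˢ
    Finset.Icc (⌊(2 : ℝ) ^ N * (xc n).ofLp (Fin.last m)⌋ - 4)
      (⌊(2 : ℝ) ^ N * (xc n).ofLp (Fin.last m)⌋ + 4), ?_, ?_⟩
  · have h1 := Finset.card_biUnion_le_card_mul Cl (fun n => (Fintype.piFinset fun i : Fin m =>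
      Finset.Icc (⌊(2 : ℝ) ^ N * (xc n).ofLp i.castSucc⌋ - 4)
      (⌊(2 : ℝ) ^ N * (xc n).ofLp i.castSucc⌋ + 4)) ×ˢ
      Finset.Icc (⌊(2 : ℝ) ^ N * (xc n).ofLp (Fin.last m)⌋ - 4)
      (⌊(2 : ℝ) ^ N * (xc n).ofLp (Fin.last m)⌋ + 4)) (9 ^ (m + 1)) (by
        intro n _
        rw [Finset.card_product, Fintype.card_piFinset]
        have h9 : ∀ z : ℤ, (Finset.Icc (z - 4) (z + 4)).card = 9 := by
          intro z
          rw [Int.card_Icc]
          omega
        simp only [h9, Finset.prod_const, Finset.card_univ, Fintype.card_fin]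
        rw [pow_succ])
    exact_mod_cast h1
  · rintro x y t t' hy htt ⟨n, hn, hball⟩
    refine Finset.mem_biUnion.2 ⟨n, hn, ?_⟩
    have hρn := hρ n hn
    rw [Metric.mem_closedBall] at hball
    have hdist : dist (pt x y t') (xc n) ≤ 2 * (1 / 2 : ℝ) ^ N := hball.trans (by linarith only [hρn])
    have hpow : (2 : ℝ) ^ N * (1 / 2) ^ N = 1 := by
      rw [← mul_pow]
      norm_num
    -- times
    have htc : |(2 : ℝ) ^ N * t - (2 : ℝ) ^ N * t'| ≤ 1 := by
      have h1 : ⌊(2 : ℝ) ^ N * t⌋ = ⌊(2 : ℝ) ^ N * t'⌋ := htt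
      have h3 := Int.floor_le ((2 : ℝ) ^ N * t)
      have h4 := Int.lt_floor_add_one ((2 : ℝ) ^ N * t)
      have h5 := Int.floor_le ((2 : ℝ) ^ N * t')
      have h6 := Int.lt_floor_add_one ((2 : ℝ) ^ N * t')
      rw [h1] at h3 h4
      rw [abs_le]
      constructor <;> linarith only [h3, h6, h4, h5]
    have hcl : ∀ (k : Fin (m + 1)) (u : ℝ), |u - (2 : ℝ) ^ N * (pt x y t').ofLp k| ≤ 1 →
        |⌊u⌋ - ⌊(2 : ℝ) ^ N * (xc n).ofLp k⌋| ≤ 4 := by
      intro k u hu
      have h1 : |(pt x y t').ofLp k - (xc n).ofLp k| ≤ 2 * (1 / 2 : ℝ) ^ N :=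
        (coord_le _ _ k).trans hdist
      have h3 : |(2 : ℝ) ^ N * (pt x y t').ofLp k - (2 : ℝ) ^ N * (xc n).ofLp k| ≤ 2 := by
        rw [← mul_sub, abs_mul, abs_of_pos h2N]
        calc (2 : ℝ) ^ N * |(pt x y t').ofLp k - (xc n).ofLp k|
            ≤ 2 ^ N * (2 * (1 / 2 : ℝ) ^ N) := mul_le_mul_of_nonneg_left h1 h2N.le
          _ = 2 * (2 ^ N * (1 / 2) ^ N) := by ring
          _ = 2 := by rw [hpow, mul_one]
      have h4 : |u - (2 : ℝ) ^ N * (xc n).ofLp k| ≤ ((3 : ℕ) : ℝ) := by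
        have h5 := abs_sub_le u ((2 : ℝ) ^ N * (pt x y t').ofLp k) ((2 : ℝ) ^ N * (xc n).ofLp k)
        push_cast
        linarith only [hu, h3, h5]
      have h5 := floor_close_aux h4
      push_cast at h5
      linarith only [h5]
    rw [Finset.mem_product, Fintype.mem_piFinset]
    constructor
    · intro i
      have h1 := hcl i.castSucc ((2 : ℝ) ^ N * (x i + t * y i)) (by
        rw [pt_castSucc]
        have e : (2 : ℝ) ^ N * (x i + t * y i) - (2 : ℝ) ^ N * (x i + t' * y i) =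
            ((2 : ℝ) ^ N * t - (2 : ℝ) ^ N * t') * y i := by ring
        rw [e, abs_mul, abs_of_nonneg (hy i).1]
        calc |(2 : ℝ) ^ N * t - (2 : ℝ) ^ N * t'| * y i ≤ 1 * 1 :=
              mul_le_mul htc (hy i).2.le (hy i).1 (by norm_num)
          _ = 1 := by norm_num)
      rw [Finset.mem_Icc]
      rw [abs_le] at h1
      show _ ≤ ⌊(2 : ℝ) ^ N * (x i + t * y i)⌋ ∧ ⌊(2 : ℝ) ^ N * (x i + t * y i)⌋ ≤ _
      constructor <;> linarith only [h1]
    · have h1 := hcl (Fin.last m) ((2 : ℝ) ^ N * t) (by rw [pt_last]; exact htc)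
      rw [Finset.mem_Icc]
      rw [abs_le] at h1
      show _ ≤ ⌊(2 : ℝ) ^ N * t⌋ ∧ ⌊(2 : ℝ) ^ N * t⌋ ≤ _
      constructor <;> linarith only [h1]

/-- finite pigeonhole principle for an outer measure -/
theorem pigeon_fin {X I : Type*} [MeasurableSpace X] (μ : Measure X) (S : Set X) (Q : Finset I)
    (T : I → Set X) (hS : S ⊆ ⋃ q ∈ Q, T q) {w : ℝ} (hw : 0 < w)
    (hwS : ENNReal.ofReal w ≤ μ S) :
    ∃ q ∈ Q, ENNReal.ofReal (w / Q.card) ≤ μ (T q) := by
  classical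
  have h1 : μ S ≤ ∑ q ∈ Q, μ (T q) := (measure_mono hS).trans (measure_biUnion_finset_le _ _)
  have hne : Q.Nonempty := by
    by_contra h
    rw [Finset.not_nonempty_iff_eq_empty] at h
    rw [h] at h1
    simp only [Finset.sum_empty, nonpos_iff_eq_zero] at h1
    rw [h1] at hwS
    have := ENNReal.ofReal_pos.2 hw
    exact absurd hwS (not_le.2 this)
  have hc : (0 : ℝ) < Q.card := by exact_mod_cast hne.card_pos
  by_contra hcon
  push Not at hcon
  have h2 : ∑ q ∈ Q, μ (T q) < ∑ _q ∈ Q, ENNReal.ofReal (w / Q.card) :=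
    ENNReal.sum_lt_sum_of_nonempty hne hcon
  rw [Finset.sum_const, nsmul_eq_mul, ← ENNReal.ofReal_natCast, ← ENNReal.ofReal_mul hc.le,
    mul_div_cancel₀ _ hc.ne'] at h2
  exact absurd (hwS.trans h1) (not_le.2 h2)

/-- exponentials beat powers -/
lemma choose_u (a : ℝ) (n : ℕ) (M0 : ℝ) :
    ∃ u : ℕ, 1 ≤ u ∧ a * (u : ℝ) ^ n ≤ 2 ^ u ∧ M0 ≤ 2 ^ u := by
  have h1 := tendsto_pow_const_div_const_pow_of_one_lt n (by norm_num : (1 : ℝ) < 2)
  have h2 : ∀ᶠ u : ℕ in Filter.atTop, (u : ℝ) ^ n / 2 ^ u < 1 / (|a| + 1) :=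
    h1.eventually_lt_const (by (clear * -; positivity))
  have h3 : ∀ᶠ u : ℕ in Filter.atTop, M0 ≤ (2 : ℝ) ^ u :=
    (tendsto_pow_atTop_atTop_of_one_lt (by norm_num : (1 : ℝ) < 2)).eventually_ge_atTop M0
  obtain ⟨u, hu1, hu2, hu3⟩ := (h2.and (h3.and (Filter.eventually_ge_atTop 1))).exists
  refine ⟨u, hu3, ?_, hu2⟩
  have h4 : (0 : ℝ) < 2 ^ u := by positivity
  rw [div_lt_div_iff₀ h4 (by (clear * -; positivity))] at hu1
  have h5 : a * (u : ℝ) ^ n ≤ (|a| + 1) * (u : ℝ) ^ n :=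
    mul_le_mul_of_nonneg_right (by linarith only [le_abs_self a]) (by (clear * - hu3; positivity))
  linarith only [hu1, h5]

/-- distance of two points of one line -/
lemma dist_pt {m : ℕ} (x y : Fin m → ℝ) (hy : ∀ i, 0 ≤ y i ∧ y i < 1) (t t' : ℝ) :
    dist (pt x y t) (pt x y t') ≤ Real.sqrt (m + 1) * |t - t'| := by
  rw [EuclideanSpace.dist_eq]
  refine Real.sqrt_le_iff.2 ⟨by (clear * -; positivity), ?_⟩
  rw [Fin.sum_univ_castSucc, mul_pow, Real.sq_sqrt (by (clear * -; positivity)), sq_abs]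
  simp only [pt_castSucc, pt_last, Real.dist_eq]
  have h1 : ∀ i : Fin m, |x i + t * y i - (x i + t' * y i)| ^ 2 ≤ (t - t') ^ 2 := by
    intro i
    rw [sq_abs]
    have e : x i + t * y i - (x i + t' * y i) = (t - t') * y i := by ring
    rw [e, mul_pow]
    have h3 : y i ^ 2 ≤ 1 := by
      have := hy i
      nlinarith only [this]
    nlinarith only [h3]
  have h2 := Finset.sum_le_sum fun i (_ : i ∈ (Finset.univ : Finset (Fin m))) => h1 i
  rw [Finset.sum_const, Finset.card_univ, Fintype.card_fin, nsmul_eq_mul] at h2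
  rw [sq_abs]
  linarith

end Vale.Agent.P127.Stk
end

section

/-!
# P127 / Stk : a geometric sequence of scales
-/

namespace Vale.Agent.P127.Stk

open Finset

/-- the sequence of scales -/
def scSeq (q k0 : ℕ) : ℕ → ℕ
  | 0 => k0
  | j + 1 => scSeq q k0 j + scSeq q k0 j / q

theorem scSeq_ge (q k0 : ℕ) (j : ℕ) : k0 ≤ scSeq q k0 j := by
  induction j with
  | zero => exact le_rfl
  | succ j ih => exact ih.trans (Nat.le_add_right _ _)

theorem scSeq_strictMono {q k0 : ℕ} (hq : 1 ≤ q) (hk : q ≤ k0) : StrictMono (scSeq q k0) := by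
  refine strictMono_nat_of_lt_succ fun j => ?_
  have h1 : q ≤ scSeq q k0 j := hk.trans (scSeq_ge q k0 j)
  have h2 : 0 < scSeq q k0 j / q := Nat.div_pos h1 hq
  show scSeq q k0 j < scSeq q k0 j + scSeq q k0 j / q
  omega

theorem scSeq_le {q k0 : ℕ} (j : ℕ) :
    (scSeq q k0 (j + 1) : ℝ) ≤ (1 + 1 / (q : ℝ)) * scSeq q k0 j := by
  show ((scSeq q k0 j + scSeq q k0 j / q : ℕ) : ℝ) ≤ _
  have h : ((scSeq q k0 j / q : ℕ) : ℝ) ≤ (scSeq q k0 j : ℝ) / q := Nat.cast_div_le
  push_cast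
  have : (1 + 1 / (q : ℝ)) * scSeq q k0 j = scSeq q k0 j + (scSeq q k0 j : ℝ) / q := by ring
  rw [this]
  linarith

theorem scSeq_succ_ge {q k0 : ℕ} (hq : 1 ≤ q) (hk : 2 * q ≤ k0) (j : ℕ) :
    (1 + 1 / (2 * q : ℝ)) * scSeq q k0 j ≤ scSeq q k0 (j + 1) := by
  show _ ≤ ((scSeq q k0 j + scSeq q k0 j / q : ℕ) : ℝ)
  set a := scSeq q k0 j with ha
  have h1 : 2 * q ≤ a := hk.trans (scSeq_ge q k0 j)
  have h2 : a < q * (a / q + 1) := Nat.lt_mul_div_succ a hq
  have h3 : (a : ℝ) < q * ((a / q : ℕ) + 1) := by exact_mod_cast h2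
  have h4 : (2 : ℝ) * q ≤ a := by exact_mod_cast h1
  have hq0 : (0 : ℝ) < q := by exact_mod_cast hq
  have h5 : (a : ℝ) / (2 * q) ≤ (a / q : ℕ) := by
    rw [div_le_iff₀ (by (clear * - hq; positivity))]
    linarith
  push_cast
  have : (1 + 1 / (2 * q : ℝ)) * a = a + (a : ℝ) / (2 * q) := by ring
  rw [this]
  linarith only [h5]

theorem scSeq_pow_le {q k0 : ℕ} (hq : 1 ≤ q) (hk : 2 * q ≤ k0) (j i : ℕ) :
    (1 + 1 / (2 * q : ℝ)) ^ i * scSeq q k0 j ≤ scSeq q k0 (j + i) := by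
  induction i with
  | zero => simp only [one_div, mul_inv_rev, pow_zero, one_mul, add_zero, Std.le_refl]
  | succ i ih =>
    have h1 := scSeq_succ_ge hq hk (j + i)
    have h2 : (0 : ℝ) ≤ 1 + 1 / (2 * q : ℝ) := by (clear * - hq; positivity)
    calc (1 + 1 / (2 * q : ℝ)) ^ (i + 1) * scSeq q k0 j
        = (1 + 1 / (2 * q : ℝ)) * ((1 + 1 / (2 * q : ℝ)) ^ i * scSeq q k0 j) := by ring
      _ ≤ (1 + 1 / (2 * q : ℝ)) * scSeq q k0 (j + i) := mul_le_mul_of_nonneg_left ih h2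
      _ ≤ scSeq q k0 (j + i + 1) := h1

/-- the number of scales in a window of ratio `M` -/
theorem scSeq_card {q M k0 : ℕ} (hq : 1 ≤ q) (hM : 1 ≤ M) (hk : 2 * q ≤ k0) (j : ℕ) :
    (((Finset.range j).filter fun j' => scSeq q k0 j / M < scSeq q k0 j').card : ℝ) ≤
      3 * q * Real.log M := by
  set S := (Finset.range j).filter fun j' => scSeq q k0 j / M < scSeq q k0 j' with hS
  have hq1 : (1 : ℝ) ≤ q := by exact_mod_cast hq
  have hM1 : (1 : ℝ) ≤ M := by exact_mod_cast hM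
  have hlog : 0 ≤ Real.log M := Real.log_nonneg hM1
  rcases S.eq_empty_or_nonempty with h | h
  · rw [h]
    simp only [Finset.card_empty, Nat.cast_zero]
    (clear * - hq; positivity)
  · obtain ⟨j0, hj0, hmin⟩ := S.exists_min_image id h
    have hj0' := hj0
    rw [hS, Finset.mem_filter, Finset.mem_range] at hj0'
    obtain ⟨hlt, hgt⟩ := hj0'
    have hsub : S ⊆ Finset.Ico j0 j := by
      intro i hi
      have h1 : j0 ≤ i := hmin i hi
      rw [hS, Finset.mem_filter, Finset.mem_range] at hi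
      exact Finset.mem_Ico.2 ⟨h1, hi.1⟩
    have hcard : S.card ≤ j - j0 := by
      have := Finset.card_le_card hsub
      rwa [Nat.card_Ico] at this
    have hcard' : (S.card : ℝ) ≤ ((j - j0 : ℕ) : ℝ) := by exact_mod_cast hcard
    refine hcard'.trans ?_
    set i := j - j0 with hi
    have hji : j = j0 + i := by omega
    have hpow := scSeq_pow_le (k0 := k0) hq hk j0 i
    rw [← hji] at hpow
    have hN : scSeq q k0 j < M * scSeq q k0 j0 := by
      have := (Nat.div_lt_iff_lt_mul (by omega : 0 < M)).1 hgt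
      rwa [mul_comm] at this
    have hN' : (scSeq q k0 j : ℝ) < M * scSeq q k0 j0 := by exact_mod_cast hN
    have hpos : (0 : ℝ) < scSeq q k0 j0 := by
      have : 0 < scSeq q k0 j0 := by
        have := scSeq_ge q k0 j0
        omega
      exact_mod_cast this
    have hlt2 : (1 + 1 / (2 * q : ℝ)) ^ i < M := by
      have h1 : (1 + 1 / (2 * q : ℝ)) ^ i * scSeq q k0 j0 < M * scSeq q k0 j0 :=
        lt_of_le_of_lt hpow hN'
      exact lt_of_mul_lt_mul_right h1 hpos.le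
    have hb : (0 : ℝ) < 1 + 1 / (2 * q : ℝ) := by (clear * - hq; positivity)
    have hlog2 : (i : ℝ) * Real.log (1 + 1 / (2 * q : ℝ)) ≤ Real.log M := by
      rw [← Real.log_pow]
      exact Real.log_le_log (pow_pos hb _) hlt2.le
    have hlog3 : 1 / (3 * q : ℝ) ≤ Real.log (1 + 1 / (2 * q : ℝ)) := by
      have h1 := Real.one_sub_inv_le_log_of_pos hb
      refine le_trans ?_ h1
      have h2 : (1 + 1 / (2 * q : ℝ))⁻¹ = 2 * q / (2 * q + 1) := by
        (clear * - hq; field_simp)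
      rw [h2]
      have h3 : 1 - 2 * (q : ℝ) / (2 * q + 1) = 1 / (2 * q + 1) := by
        field_simp
        ring
      rw [h3]
      exact one_div_le_one_div_of_le (by (clear * - hq; positivity)) (by linarith only [hq1])
    have hi0 : (0 : ℝ) ≤ i := Nat.cast_nonneg i
    have h4 : (i : ℝ) * (1 / (3 * q : ℝ)) ≤ Real.log M :=
      (mul_le_mul_of_nonneg_left hlog3 hi0).trans hlog2
    rw [mul_one_div, div_le_iff₀ (by positivity)] at h4
    linarith only [h4]

/-- a geometric sequence of scales with ratio at most `1 + 1/q`; a window of ratio `M` contains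
at most `3 q log M` scales -/
theorem scales (q M k0 : ℕ) (hq : 1 ≤ q) (hM : 1 ≤ M) (hk0 : 2 * q ≤ k0) :
    ∃ N : ℕ → ℕ, N 0 = k0 ∧ StrictMono N ∧ (∀ j, (N (j + 1) : ℝ) ≤ (1 + 1 / q) * N j) ∧
      ∀ j, (((Finset.range j).filter fun j' => N j / M < N j').card : ℝ) ≤
        3 * q * Real.log M :=
  ⟨scSeq q k0, rfl, scSeq_strictMono hq (by omega), fun j => scSeq_le j,
    fun j => scSeq_card hq hM hk0 j⟩

end Vale.Agent.P127.Stk
end

section

/-!
# P127 / Stk : the normalised Hausdorff extraction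
-/

namespace Vale.Agent.P127.Stk

open Finset Vale.Agent.P127 MeasureTheory

/-- the selection lemma, as a proposition -/
def SelProp : Prop := ∀ (N p : ℕ → ℕ), StrictMono N → (∀ j, p j ≤ N j) → ∀ B : ℕ,
  (∀ j, ((Finset.range j).filter fun j' => p j < N j').card ≤ B) → ∀ T : ℕ → Set ℝ,
  (∀ j, ∀ t ∈ Set.Ico (0 : ℝ) 1, ∀ t' ∈ Set.Ico (0 : ℝ) 1,
    fl1 (N j) t = fl1 (N j) t' → t ∈ T j → t' ∈ T j) →
  (∀ t ∈ Set.Icc (0 : ℝ) 1, ∃ j, ∃ δ > 0, ∀ t' ∈ Set.Ico (0 : ℝ) 1, |t' - t| < δ → t' ∈ T j) →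
  ∃ j, ∃ i : ℤ, 0 ≤ i ∧ i < 2 ^ p j ∧
    ENNReal.ofReal ((1 / 2) ^ (p j) / (4 * (B + 1))) ≤
      volume (T j ∩ {t | t ∈ Set.Ico (0 : ℝ) 1 ∧ fl1 (p j) t = i})

/-- growth of the dyadic scale beats the logarithmic losses -/
lemma growth' (ε M K0 : ℝ) (hε : 0 < ε) (hM : 0 ≤ M) :
    ∃ k0 : ℕ, ∀ k : ℕ, k0 ≤ k → K0 + M * (-Real.log (aw k)) < ε * k := by
  set U : ℝ := (4 * M + |K0| + 2 * ε + 1) / ε + 1 with hU
  have hU1 : 1 ≤ U := by
    have : 0 ≤ (4 * M + |K0| + 2 * ε + 1) / ε := by (clear * - hM hε; positivity)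
    linarith only [this]
  refine ⟨⌈U ^ 2⌉₊, fun k hk => ?_⟩
  have hk' : U ^ 2 ≤ k := (Nat.le_ceil _).trans (by exact_mod_cast hk)
  set u := Real.sqrt ((k : ℝ) + 2) with hu
  have hu2 : u ^ 2 = k + 2 := Real.sq_sqrt (by (clear * -; positivity))
  have huU : U ≤ u := Real.le_sqrt_of_sq_le (by linarith only [hk'])
  have hu0 : 0 < u := by linarith only [hU1, huU]
  have h1 : -Real.log (aw k) ≤ 4 * u := by
    unfold aw
    rw [one_div, Real.log_inv, neg_neg, Real.log_mul (by (clear * -; positivity)) (by (clear * -; positivity))]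
    have h2 : Real.log ((k : ℝ) + 1) ≤ Real.log (k + 2) :=
      Real.log_le_log (by (clear * -; positivity)) (by linarith only [])
    have h3 : Real.log ((k : ℝ) + 2) ≤ 2 * u := by
      have h4 := Real.log_le_sub_one_of_pos hu0
      have h5 : Real.log ((k : ℝ) + 2) = 2 * Real.log u := by
        rw [← hu2, Real.log_pow]
        norm_num
      linarith only [h4, h5]
    linarith only [h2, h3]
  have h2 : M * (-Real.log (aw k)) ≤ M * (4 * u) := mul_le_mul_of_nonneg_left h1 hM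
  have h3 : (k : ℝ) = u ^ 2 - 2 := by linarith only [hu2]
  have h4 : (4 * M + |K0| + 2 * ε + 1) < ε * u := by
    have : (4 * M + |K0| + 2 * ε + 1) / ε < u := by linarith only [huU]
    rw [div_lt_iff₀ hε] at this
    linarith only [this]
  have h5 : (4 * M + |K0| + 2 * ε + 1) * u ≤ ε * u * u := by
    exact mul_le_mul_of_nonneg_right h4.le hu0.le
  have h6 : |K0| ≤ |K0| * u := le_mul_of_one_le_right (abs_nonneg _) (by linarith only [hU1, huU])
  have h7 : K0 ≤ |K0| := le_abs_self _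
  have h8 : 2 * ε ≤ 2 * ε * u := le_mul_of_one_le_right (by positivity) (by linarith only [hU1, huU])
  rw [h3]
  linarith

/-- ONE SCALE: choice of a class of balls and of a short time interval, and the law -/
theorem one_scale_stk (hsel : SelProp) {m : ℕ} {K' : Set (EuclideanSpace ℝ (Fin (m + 1)))}
    {Y : Set (Fin m → ℝ)} {x : (Fin m → ℝ) → Fin m → ℝ}
    (hY01 : ∀ y ∈ Y, ∀ i, 0 ≤ y i ∧ y i < 1) (hx01 : ∀ y ∈ Y, ∀ i, 0 ≤ x y i ∧ x y i < 1)
    {w : ℝ} (hw : 0 < w) (hwY : ENNReal.ofReal w ≤ volume Y)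
    (hline : ∀ y ∈ Y, ∀ t ∈ Set.Icc (0 : ℝ) 1, pt (x y) y t ∈ K') {A η : ℝ} (hA : 0 < A)
    (hη : 0 ≤ η)
    (hcell : ∀ s : ℕ, ∃ F : Finset ((Fin m → ℤ) × (Fin m → ℤ)),
      (F.card : ℝ) ≤ A * 2 ^ ((m + η) * s) ∧ ∀ y ∈ Y, (fl s (x y), fl s y) ∈ F)
    {s : NNReal} (hs : dimH K' < s) (q M k0 B : ℕ) (hq : 1 ≤ q) (hM : 1 ≤ M) (hk0 : 2 * q ≤ k0)
    (hB : 3 * q * Real.log M ≤ B) :
    ∃ (j N N' : ℕ), k0 ≤ N ∧ j ≤ N ∧ (N' : ℝ) ≤ (1 + 1 / q) * N ∧
    ∃ (Ω : Type) (_ : Fintype Ω) (P : Law Ω) (c : Cf Ω m),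
      Good P c (N - N / M)
        (max (Real.log (3 ^ m * A) + ((m + η) * ((N / M : ℕ) : ℝ) + η * N) * Real.log 2)
          (Real.log (1 / (w / 2 * aw j /
            ((2 : ℝ) ^ (N / M) * ((2 : ℝ) ^ (N / M + 1)) ^ m)))))
        (Real.log (1 / (1 / (4 * ((B : ℝ) + 1))))) ∧
      hc P (fun ω => fl (N - N / M) (c.pt ω)) (fun ω => (c.t ω, c.A ω)) ≤
        (s * N' * Real.log 2 + (m + 1) * Real.log 9) - ((N : ℝ) - ((N / M : ℕ) : ℝ)) * Real.log 2 +
          Real.log (1 / (1 / (4 * ((B : ℝ) + 1)))) + m * Real.log 3 := by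
  classical
  obtain ⟨N, hN0, hNm, hNq, hNB⟩ := scales q M k0 hq hM hk0
  obtain ⟨xc, ρ, hρ0, hρr, hKc, hsum⟩ := exists_cover hs (r := (1 / 2) ^ k0) (by positivity)
  have hs0 : (0 : ℝ) < s := by
    have : (0 : ENNReal) < s := lt_of_le_of_lt zero_le hs
    exact_mod_cast this
  choose Cl hCl hClc using fun j => exists_block hs0 hsum (N j) (N (j + 1))
  -- every ball belongs to a class
  have hclass : ∀ i, ∃ j, i ∈ Cl j := by
    intro i
    have hex : ∃ j, (1 / 2 : ℝ) ^ (N j) < ρ i := by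
      obtain ⟨k, hk⟩ := exists_pow_lt_of_lt_one (hρ0 i) (by (clear * -; norm_num) : (1 / 2 : ℝ) < 1)
      exact ⟨k, lt_of_le_of_lt (pow_le_pow_of_le_one (by norm_num) (by norm_num)
        hNm.le_apply) hk⟩
    classical
    have h1 := Nat.find_spec hex
    have h0 : Nat.find hex ≠ 0 := by
      intro h0
      rw [h0, hN0] at h1
      exact absurd (hρr i) (not_le.2 h1)
    obtain ⟨j, hj⟩ := Nat.exists_eq_succ_of_ne_zero h0
    refine ⟨j, (hCl j i).2 ⟨?_, ?_⟩⟩
    · rw [hj] at h1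
      exact h1
    · have := Nat.find_min hex (m := j) (by omega)
      exact not_lt.1 this
  have hk0N : ∀ j, k0 ≤ N j := fun j => by
    rw [← hN0]
    exact hNm.monotone (Nat.zero_le j)
  -- the times
  set T : ℕ → (Fin m → ℝ) → Set ℝ := fun j y =>
    {t | t ∈ Set.Ico (0 : ℝ) 1 ∧ ∃ t' ∈ Set.Ico (0 : ℝ) 1, fl1 (N j) t = fl1 (N j) t' ∧
      ∃ i ∈ Cl j, pt (x y) y t' ∈ Metric.closedBall (xc i) (2 * ρ i)} with hT
  have hc0 : (0 : ℝ) < 1 / (4 * ((B : ℝ) + 1)) := by (clear * -; positivity)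
  -- selection
  have hselY : ∀ y ∈ Y, ∃ j, ∃ i : ℤ, 0 ≤ i ∧ i < 2 ^ (N j / M) ∧
      ENNReal.ofReal (1 / (4 * ((B : ℝ) + 1)) * (1 / 2) ^ (N j / M)) ≤
        volume (T j y ∩ {t | fl1 (N j / M) t = i}) := by
    intro y hy
    obtain ⟨j, i, hi0, hi1, hv⟩ := hsel N (fun j => N j / M) hNm
      (fun j => Nat.div_le_self _ _) B
      (fun j => by
        have h1 := (hNB j).trans hB
        exact_mod_cast h1) (fun j => T j y)
      (by
        intro j t _ t' ht' htt hmem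
        obtain ⟨_, t2, ht2, hf, hb⟩ := hmem
        exact ⟨ht', t2, ht2, htt.symm.trans hf, hb⟩)
      (by
        intro t ht
        obtain ⟨i, hi⟩ := Set.mem_iUnion.1 (hKc (hline y hy t ht))
        obtain ⟨j, hj⟩ := hclass i
        have hsq : 0 < Real.sqrt ((m : ℝ) + 1) := Real.sqrt_pos.2 (by (clear * -; positivity))
        refine ⟨j, ρ i / Real.sqrt (m + 1), div_pos (hρ0 i) hsq, ?_⟩
        intro t' ht' htt
        refine ⟨ht', t', ht', rfl, i, hj, ?_⟩
        rw [Metric.mem_closedBall] at hi ⊢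
        have h1 := dist_pt (x y) y (hY01 y hy) t' t
        have h2 : Real.sqrt (m + 1) * |t' - t| ≤ ρ i := by
          rw [lt_div_iff₀ hsq] at htt
          linarith only [htt]
        have h3 := dist_triangle (pt (x y) y t') (pt (x y) y t) (xc i)
        linarith only [hi, h1, h2, h3])
    refine ⟨j, i, hi0, hi1, ?_⟩
    refine le_trans (le_of_eq ?_) (hv.trans (measure_mono ?_))
    · congr 1
      ring
    · rintro t ⟨h1, h2⟩
      exact ⟨h1, h2.2⟩
  -- pigeonhole on the class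
  have hcov : Y ⊆ ⋃ j, {y | y ∈ Y ∧ ∃ i : ℤ, 0 ≤ i ∧ i < 2 ^ (N j / M) ∧
      ENNReal.ofReal (1 / (4 * ((B : ℝ) + 1)) * (1 / 2) ^ (N j / M)) ≤
        volume (T j y ∩ {t | fl1 (N j / M) t = i})} := by
    intro y hy
    obtain ⟨j, hj⟩ := hselY y hy
    exact Set.mem_iUnion.2 ⟨j, hy, hj⟩
  obtain ⟨j, hj⟩ := pigeon volume _ _ hcov hw hwY
  have hw' : 0 < w / 2 * aw j := mul_pos (by (clear * - hw; positivity)) (aw_pos j)
  -- pigeonhole on the interval and on the cell
  obtain ⟨Q, hQ⟩ : ∃ Q : Finset (ℤ × (Fin m → ℤ)), Q = Finset.Ico (0 : ℤ) (2 ^ (N j / M)) ×ˢ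
    (Fintype.piFinset fun _ : Fin m => Finset.Ico (0 : ℤ) (2 ^ (N j / M + 1))) := ⟨_, rfl⟩
  have hQc : (Q.card : ℝ) = (2 : ℝ) ^ (N j / M) * ((2 : ℝ) ^ (N j / M + 1)) ^ m := by
    rw [hQ, Finset.card_product, Fintype.card_piFinset]
    simp only [Int.card_Ico, sub_zero, Finset.prod_const, Finset.card_univ, Fintype.card_fin,
      toNat_pow_aux]
    push_cast
    ring
  obtain ⟨z, hzQ, hz⟩ := pigeon_fin volume _ Q
    (fun z => {y | y ∈ Y ∧
      ENNReal.ofReal (1 / (4 * ((B : ℝ) + 1)) * (1 / 2) ^ (N j / M)) ≤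
        volume (T j y ∩ {t | fl1 (N j / M) t = z.1}) ∧
      fl (N j / M) (fun i => x y i + (z.1 : ℝ) / 2 ^ (N j / M) * y i) = z.2}) (by
      rintro y ⟨hy, i, hi0, hi1, hv⟩
      refine Set.mem_iUnion₂.2 ⟨(i, fl (N j / M) (fun k => x y k +
        (i : ℝ) / 2 ^ (N j / M) * y k)), ?_, hy, hv, rfl⟩
      rw [hQ, Finset.mem_product, Fintype.mem_piFinset, Finset.mem_Ico]
      refine ⟨⟨hi0, hi1⟩, fun k => ?_⟩
      rw [Finset.mem_Ico]
      have h2p : (0 : ℝ) < 2 ^ (N j / M) := by (clear * -; positivity)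
      have h1 := hx01 y hy k
      have h2 := hY01 y hy k
      have h3 : (0 : ℝ) ≤ i := by exact_mod_cast hi0
      have h4 : (i : ℝ) < 2 ^ (N j / M) := by exact_mod_cast hi1
      have h5 : 0 ≤ (i : ℝ) / 2 ^ (N j / M) := by (clear * - hi0; positivity)
      have h6 : (i : ℝ) / 2 ^ (N j / M) ≤ 1 := by
        rw [div_le_one h2p]
        exact h4.le
      have h7 : (i : ℝ) / 2 ^ (N j / M) * y k ≤ 1 := by nlinarith only [h2, h6]
      have h8 : 0 ≤ (i : ℝ) / 2 ^ (N j / M) * y k := mul_nonneg h5 h2.1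
      constructor
      · exact Int.floor_nonneg.2 (mul_nonneg h2p.le (by linarith only [h1, h8]))
      · show ⌊(2 : ℝ) ^ (N j / M) * (x y k + (i : ℝ) / 2 ^ (N j / M) * y k)⌋ < 2 ^ (N j / M + 1)
        rw [Int.floor_lt]
        push_cast
        rw [pow_succ]
        refine mul_lt_mul_of_pos_left ?_ h2p
        linarith only [h1, h7]) hw' hj
  rw [hQ, Finset.mem_product, Finset.mem_Ico] at hzQ
  rw [hQc] at hz
  -- the covering cells
  obtain ⟨F0, hF0c, hF0⟩ := cover_cells (Cl j) xc ρ (N j) (fun i hi => ((hCl j i).1 hi).2)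
  have hres := rescale (m := m) (N := N j) (p := N j / M) (Nat.div_le_self _ _) z.1 hzQ.1 z.2
    _ x (T j) (1 / (4 * ((B : ℝ) + 1)))
    (w / 2 * aw j / ((2 : ℝ) ^ (N j / M) * ((2 : ℝ) ^ (N j / M + 1)) ^ m)) A η hc0
    (by (clear * - hw'; positivity)) hA hη (fun y hy => hY01 y hy.1) (fun y hy => hy.2.2) (fun y hy => hy.2.1) hz
    (fun s _ => by
      obtain ⟨F, h1, h2⟩ := hcell s
      exact ⟨F, h1, fun y hy => h2 y hy.1⟩) F0 (by
      intro y hy t ht _
      obtain ⟨_, t', _, hf, hb⟩ := ht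
      exact hF0 (x y) y t t' (hY01 y hy.1) hf hb)
  obtain ⟨Ω, inst, P, c, hgood, hrate⟩ := hres
  refine ⟨j, N j, N (j + 1), hk0N j, hNm.le_apply, hNq j, Ω, inst, P, c, hgood, hrate.trans ?_⟩
  have h1 : Real.log F0.card ≤ s * N (j + 1) * Real.log 2 + (m + 1) * Real.log 9 := by
    have h2 : (F0.card : ℝ) ≤ (2 : ℝ) ^ ((N (j + 1) : ℝ) * s) * 9 ^ (m + 1) :=
      hF0c.trans (mul_le_mul_of_nonneg_right (hClc j) (by positivity))
    have h3 : Real.log ((2 : ℝ) ^ ((N (j + 1) : ℝ) * s) * 9 ^ (m + 1)) =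
        s * N (j + 1) * Real.log 2 + (m + 1) * Real.log 9 := by
      rw [Real.log_mul (by positivity) (by positivity), Real.log_rpow (by norm_num),
        Real.log_pow]
      push_cast
      ring
    rcases Nat.eq_zero_or_pos F0.card with h0 | h0
    · rw [h0]
      simp only [Nat.cast_zero, Real.log_zero]
      have := Real.log_nonneg (by norm_num : (1 : ℝ) ≤ 2)
      have := Real.log_nonneg (by norm_num : (1 : ℝ) ≤ 9)
      (clear * - hs0; positivity)
    · rw [← h3]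
      exact Real.log_le_log (by exact_mod_cast h0) h2
  (clear * - h1; linarith)

/-- the lower bound of the entropy rate in the growth class `GrP`, unfolded -/
lemma lb_unfold {m : ℕ} {h : ℝ} (hLB : LB GrP m h) {ι : ℝ} (hι : 0 < ι) :
    ∃ n : ℕ, ∀ (L : ℕ) (e C D : ℝ), 1 ≤ D → C ≤ D → e ≤ Real.exp (-(n * D)) * L →
      Real.exp (n * D) ≤ L → ∀ (Ω : Type) [Fintype Ω] (P : Law Ω) (c : Cf Ω m), Good P c L e C →
      (h - ι) * L * Real.log 2 ≤ hc P (fun ω => fl L (c.pt ω)) (fun ω => (c.t ω, c.A ω)) := by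
  obtain ⟨n, hn⟩ := hLB ι hι ()
  refine ⟨n, ?_⟩
  intro L e C D h1 h2 h3 h4 Ω _ P c hg
  exact hn L e C ⟨D, h1, h2, h3, h4⟩ Ω P c hg

/-- the numerics of the error -/
lemma err_num {m p : ℕ} {N A w G η aj aN K1 : ℝ} (hG : 0 < G) (hη : η = 1 / (8 * G))
    (hη0 : 0 < η) (hη1 : η ≤ 1) (hN : 0 < N) (hw : 0 < w) (haj : 0 < aj)
    (hK1 : K1 = |Real.log (3 ^ m * A)| + |Real.log (2 / w)| + m)
    (hNG : K1 + 1 * (-Real.log aN) < 1 / (4 * G) * N) (haw : -Real.log aj ≤ -Real.log aN)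
    (hlogs : 0 ≤ -Real.log aN) (hsmall : ((m : ℝ) + 1) * (p : ℝ) ≤ 1 / (8 * G) * N) :
    max (Real.log (3 ^ m * A) + ((m + η) * (p : ℝ) + η * N) * Real.log 2)
      (Real.log (1 / (w / 2 * aj / ((2 : ℝ) ^ p * ((2 : ℝ) ^ (p + 1)) ^ m)))) ≤
      1 / (2 * G) * N := by
  have hm0 : (0 : ℝ) ≤ m := Nat.cast_nonneg m
  have hp0 : (0 : ℝ) ≤ p := Nat.cast_nonneg p
  have hl2 : 0 < Real.log 2 := Real.log_pos (by norm_num)
  have hl21 : Real.log 2 ≤ 1 := by
    have := Real.log_two_lt_d9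
    (clear * - hl2 this; linarith)
  have hsum : 1 / (4 * G) * N + 1 / (8 * G) * N + 1 / (8 * G) * N = 1 / (2 * G) * N := by
    field_simp
    norm_num
  have hηN : η * N = 1 / (8 * G) * N := by rw [hη]
  have h6 : 0 ≤ 1 / (8 * G) * N := by (clear * - hG hN; positivity)
  have h4 := le_abs_self (Real.log (3 ^ m * A))
  have h5 := abs_nonneg (Real.log (2 / w))
  have h4' := le_abs_self (Real.log (2 / w))
  have h5' := abs_nonneg (Real.log (3 ^ m * A))
  refine max_le ?_ ?_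
  · have h0 : 0 ≤ (m + η) * (p : ℝ) + η * N := by (clear * - hη0 hN; positivity)
    have h1 : ((m + η) * (p : ℝ) + η * N) * Real.log 2 ≤ (m + η) * (p : ℝ) + η * N :=
      mul_le_of_le_one_right h0 hl21
    have h3 : (m + η) * (p : ℝ) ≤ ((m : ℝ) + 1) * p :=
      mul_le_mul_of_nonneg_right (by linarith only [hη1]) hp0
    linarith only [hK1, hNG, hlogs, hsmall, hsum, hηN, h4, h5, h1, h3]
  · have h1 : Real.log (1 / (w / 2 * aj / ((2 : ℝ) ^ p * ((2 : ℝ) ^ (p + 1)) ^ m))) =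
        Real.log (2 / w) - Real.log aj + ((p : ℝ) + m * ((p : ℝ) + 1)) * Real.log 2 := by
      have e : 1 / (w / 2 * aj / ((2 : ℝ) ^ p * ((2 : ℝ) ^ (p + 1)) ^ m)) =
          (2 / w) * aj⁻¹ * ((2 : ℝ) ^ p * ((2 : ℝ) ^ (p + 1)) ^ m) := by
        (clear * - haj hw; field_simp)
      rw [e, Real.log_mul (by (clear * - hw haj; positivity)) (by positivity),
        Real.log_mul (by positivity) (by positivity),
        Real.log_mul (by positivity) (by positivity), Real.log_inv, Real.log_pow, Real.log_pow,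
        Real.log_pow]
      push_cast
      ring
    rw [h1]
    have h0 : 0 ≤ (p : ℝ) + m * ((p : ℝ) + 1) := by (clear * -; positivity)
    have h3 : ((p : ℝ) + m * ((p : ℝ) + 1)) * Real.log 2 ≤ (p : ℝ) + m * ((p : ℝ) + 1) :=
      mul_le_of_le_one_right h0 hl21
    have h7 : (p : ℝ) + m * ((p : ℝ) + 1) = ((m : ℝ) + 1) * p + m := by ring
    linarith only [hK1, hNG, haw, hsmall, hsum, h6, h4', h5', h3]

/-- the numerics of the contradiction -/
lemma final_num {m p : ℕ} {N N' s ε0 ι q M K3 D R : ℝ} (hε : 0 < ε0) (hι0 : 0 < ι)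
    (hι2 : ι ≤ ε0 / 4) (hq : 0 < q) (hM : 0 < M) (hN : 0 < N) (hs0 : 0 < s)
    (hsm : s < m + 1 - ε0) (hqr : 4 * ((m : ℝ) + 1) / ε0 ≤ q)
    (hMr : 4 * ((m : ℝ) + 1) / ε0 ≤ M) (hN' : N' ≤ (1 + 1 / q) * N) (hpN : (p : ℝ) ≤ N / M)
    (hK3 : K3 = ((m : ℝ) + 1) * Real.log 9 + D + m * Real.log 3)
    (h3N : 4 * K3 / (ε0 * Real.log 2) < N)
    (h1 : (m - ι) * (N - p) * Real.log 2 ≤ R)
    (h2 : R ≤ (s * N' * Real.log 2 + (m + 1) * Real.log 9) - (N - p) * Real.log 2 + D +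
      m * Real.log 3) : False := by
  have hm0 : (0 : ℝ) ≤ m := Nat.cast_nonneg m
  have hp0 : (0 : ℝ) ≤ p := Nat.cast_nonneg p
  have hl2 : 0 < Real.log 2 := Real.log_pos (by norm_num)
  have hq4 : ((m : ℝ) + 1) / q ≤ ε0 / 4 := by
    rw [div_le_iff₀ hε] at hqr
    rw [div_le_div_iff₀ hq (by norm_num)]
    linarith only [hqr]
  have hM4 : ((m : ℝ) + 1) / M ≤ ε0 / 4 := by
    rw [div_le_iff₀ hε] at hMr
    rw [div_le_div_iff₀ hM (by norm_num)]
    linarith only [hMr]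
  rw [div_lt_iff₀ (by (clear * - hε; positivity))] at h3N
  have h5 : ((m : ℝ) + 1 - ι) * p ≤ ε0 / 4 * N := by
    calc ((m : ℝ) + 1 - ι) * p ≤ ((m : ℝ) + 1) * p := mul_le_mul_of_nonneg_right (by linarith only [hι0]) hp0
      _ ≤ ((m : ℝ) + 1) * (N / M) := mul_le_mul_of_nonneg_left hpN (by linarith only [])
      _ = (((m : ℝ) + 1) / M) * N := by ring
      _ ≤ ε0 / 4 * N := mul_le_mul_of_nonneg_right hM4 hN.le
  have h8 : s * (1 / q) ≤ ε0 / 4 := by
    refine le_trans ?_ hq4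
    rw [mul_one_div]
    exact div_le_div_of_nonneg_right (by linarith only [hι0, hι2, hsm]) hq.le
  have h6 : s * N' ≤ (s + ε0 / 4) * N := by
    calc s * N' ≤ s * ((1 + 1 / q) * N) := mul_le_mul_of_nonneg_left hN' hs0.le
      _ = (s + s * (1 / q)) * N := by ring
      _ ≤ (s + ε0 / 4) * N := mul_le_mul_of_nonneg_right (by linarith only [h8]) hN.le
  have h7 : (((m : ℝ) + 1 - ι) * (N - p) - s * N') * Real.log 2 ≤ K3 := by
    rw [hK3]
    linarith only [h1, h2]
  have h9 : ε0 / 4 * N ≤ ((m : ℝ) + 1 - ι) * (N - p) - s * N' := by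
    have h10 : ((m : ℝ) + 1 - ι) * (N - p) = ((m : ℝ) + 1 - ι) * N - ((m : ℝ) + 1 - ι) * p := by
      ring
    have h11 : (s + ε0 / 4) * N ≤ (((m : ℝ) + 1 - ι) - ε0 / 4 - ε0 / 4) * N :=
      mul_le_mul_of_nonneg_right (by linarith only [hι2, hsm]) hN.le
    linarith only [h5, h6, h11]
  have h12 := mul_le_mul_of_nonneg_right h9 hl2.le
  have h13 : ε0 / 4 * N * Real.log 2 = (N * (ε0 * Real.log 2)) / 4 := by ring
  linarith only [hK3, h3N, h1, h2, h12]

/-- the numerics of the parameters -/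
lemma par_num {q u n B : ℕ} (hq : 1 ≤ q) (hu : 1 ≤ u) (hB : B = 3 * q * u) {D : ℝ}
    (hD : D = Real.log (1 / (1 / (4 * ((B : ℝ) + 1))))) :
    1 ≤ D ∧ Real.exp (n * D) ≤ (16 * (q : ℝ) * u) ^ n ∧
      3 * (q : ℝ) * Real.log ((2 ^ u : ℕ) : ℝ) ≤ B := by
  have h1q : (1 : ℝ) ≤ q := by exact_mod_cast hq
  have h1u : (1 : ℝ) ≤ u := by exact_mod_cast hu
  have hqu1 : (1 : ℝ) ≤ (q : ℝ) * u := one_le_mul_of_one_le_of_one_le h1q h1u
  have hBr : (B : ℝ) = 3 * (q * u) := by rw [hB]; push_cast; ring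
  have hD' : D = Real.log (4 * ((B : ℝ) + 1)) := by rw [hD, one_div_one_div]
  have hl21 : Real.log 2 ≤ 1 := by
    have := Real.log_two_lt_d9
    linarith only [this]
  refine ⟨?_, ?_, ?_⟩
  · rw [hD', Real.le_log_iff_exp_le (by (clear * -; positivity))]
    have h3 := Real.exp_one_lt_d9
    rw [hBr]
    linarith only [hqu1, h3]
  · rw [mul_comm, Real.exp_mul, hD', Real.exp_log (by (clear * -; positivity)), Real.rpow_natCast]
    refine pow_le_pow_left₀ (by (clear * -; positivity)) ?_ n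
    rw [hBr]
    linarith only [hqu1]
  · push_cast
    rw [Real.log_pow, hBr]
    have h1 : (u : ℝ) * Real.log 2 ≤ u := mul_le_of_le_one_right (by positivity) hl21
    have h2 := mul_le_mul_of_nonneg_left h1 (by positivity : (0 : ℝ) ≤ 3 * q)
    linarith only [h2]

/-- NORMALISED HAUSDORFF THEOREM -/
theorem haus_norm (hsel : SelProp) {m : ℕ} (hLB : LB GrP m m) {ε0 : ℝ} (hε : 0 < ε0) :
    ∃ η : ℝ, 0 < η ∧ ∀ (K' : Set (EuclideanSpace ℝ (Fin (m + 1)))) (Y : Set (Fin m → ℝ))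
      (x : (Fin m → ℝ) → Fin m → ℝ), (∀ y ∈ Y, ∀ i, 0 ≤ y i ∧ y i < 1) →
      (∀ y ∈ Y, ∀ i, 0 ≤ x y i ∧ x y i < 1) → volume Y ≠ 0 →
      (∀ y ∈ Y, ∀ t ∈ Set.Icc (0 : ℝ) 1, pt (x y) y t ∈ K') →
      (∃ A : ℝ, ∀ s : ℕ, ∃ F : Finset ((Fin m → ℤ) × (Fin m → ℤ)),
        (F.card : ℝ) ≤ A * 2 ^ ((m + η) * s) ∧ ∀ y ∈ Y, (fl s (x y), fl s y) ∈ F) →
      ENNReal.ofReal (m + 1 - ε0) ≤ dimH K' := by
  -- parameters
  have hm0 : (0 : ℝ) ≤ m := Nat.cast_nonneg m
  obtain ⟨ι, hιdef⟩ : ∃ ι : ℝ, ι = min (ε0 / 4) 1 := ⟨_, rfl⟩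
  have hι : 0 < ι := by rw [hιdef]; exact lt_min (by linarith) one_pos
  have hι1 : ι ≤ 1 := by rw [hιdef]; exact min_le_right _ _
  have hι2 : ι ≤ ε0 / 4 := by rw [hιdef]; exact min_le_left _ _
  obtain ⟨n, hn⟩ := lb_unfold hLB hι
  obtain ⟨q0, hq0⟩ := exists_nat_ge (4 * ((m : ℝ) + 1) / ε0)
  obtain ⟨q, hqdef⟩ : ∃ q : ℕ, q = max q0 1 := ⟨_, rfl⟩
  have hq1 : 1 ≤ q := by rw [hqdef]; exact le_max_right _ _
  have hqr : 4 * ((m : ℝ) + 1) / ε0 ≤ q := hq0.trans (by
    rw [hqdef]; exact_mod_cast le_max_left _ _)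
  have hqpos : (0 : ℝ) < q := by exact_mod_cast hq1
  obtain ⟨u, hu1, hu2, hu3⟩ := choose_u (8 * ((m : ℝ) + 1) * (16 * (q : ℝ)) ^ n) n
    (4 * ((m : ℝ) + 1) / ε0)
  have hupos : (0 : ℝ) < u := by exact_mod_cast hu1
  obtain ⟨G, hG⟩ : ∃ G : ℝ, G = (16 * (q : ℝ) * u) ^ n := ⟨_, rfl⟩
  have hG1 : 1 ≤ G := by
    rw [hG]
    refine one_le_pow₀ ?_
    have h1 : (1 : ℝ) ≤ q := by exact_mod_cast hq1
    have h2 : (1 : ℝ) ≤ u := by exact_mod_cast hu1
    have h3 := one_le_mul_of_one_le_of_one_le h1 h2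
    linarith only [h3]
  have hG0 : 0 < G := by linarith only [hG1]
  have hGM : 8 * ((m : ℝ) + 1) * G ≤ 2 ^ u := by
    refine le_trans (le_of_eq ?_) hu2
    rw [hG, mul_pow (16 * (q : ℝ))]
    ring
  have h2u : (0 : ℝ) < 2 ^ u := by positivity
  refine ⟨1 / (8 * G), by (clear * - hG1; positivity), ?_⟩
  obtain ⟨η, hη⟩ : ∃ η : ℝ, η = 1 / (8 * G) := ⟨_, rfl⟩
  have hη0 : 0 < η := by rw [hη]; (clear * - hG1; positivity)
  have hη1 : η ≤ 1 := by
    rw [hη, div_le_one (by (clear * - hG1; positivity))]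
    linarith only [hG1]
  rw [← hη]
  intro K' Y x hY01 hx01 hYvol hline hcells
  by_contra hlt
  push Not at hlt
  obtain ⟨s, hs1, hs2⟩ := ENNReal.lt_iff_exists_nnreal_btwn.1 hlt
  have hs0 : (0 : ℝ) < s := by
    have : (0 : ENNReal) < s := lt_of_le_of_lt zero_le hs1
    exact_mod_cast this
  have hsm : (s : ℝ) < (m : ℝ) + 1 - ε0 := by
    rw [← ENNReal.ofReal_coe_nnreal] at hs2
    by_contra hcon
    exact absurd hs2 (not_lt.2 (ENNReal.ofReal_le_ofReal (not_lt.1 hcon)))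
  -- the measure of `Y`
  have hYfin : volume Y ≠ ⊤ := by
    have h1 : Y ⊆ Set.Icc (0 : Fin m → ℝ) 1 := fun y hy =>
      ⟨fun i => (hY01 y hy i).1, fun i => (hY01 y hy i).2.le⟩
    refine ne_top_of_le_ne_top ?_ (measure_mono h1)
    rw [Real.volume_Icc_pi]
    simp only [Pi.one_apply, Pi.zero_apply, sub_zero, ENNReal.ofReal_one, prod_const_one, ne_eq, ENNReal.one_ne_top, not_false_eq_true]
  obtain ⟨w, hwdef⟩ : ∃ w : ℝ, w = (volume Y).toReal := ⟨_, rfl⟩
  have hw : 0 < w := by rw [hwdef]; exact ENNReal.toReal_pos hYvol hYfin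
  have hwY : ENNReal.ofReal w ≤ volume Y := by
    rw [hwdef]; exact (ENNReal.ofReal_toReal hYfin).le
  obtain ⟨A0, hA0⟩ := hcells
  obtain ⟨A, hAdef⟩ : ∃ A : ℝ, A = max A0 1 := ⟨_, rfl⟩
  have hA1 : 1 ≤ A := by rw [hAdef]; exact le_max_right _ _
  have hAA : A0 ≤ A := by rw [hAdef]; exact le_max_left _ _
  -- the constants
  obtain ⟨B, hBdef⟩ : ∃ B : ℕ, B = 3 * q * u := ⟨_, rfl⟩
  obtain ⟨D, hDdef⟩ : ∃ D : ℝ, D = Real.log (1 / (1 / (4 * ((B : ℝ) + 1)))) := ⟨_, rfl⟩
  obtain ⟨hD1, hexpD, hBM⟩ := par_num (n := n) hq1 hu1 hBdef hDdef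
  rw [← hG] at hexpD
  have hexpD' : 1 / G ≤ Real.exp (-(n * D)) := by
    rw [Real.exp_neg, ← one_div]
    exact one_div_le_one_div_of_le (Real.exp_pos _) hexpD
  obtain ⟨K1, hK1⟩ : ∃ K1 : ℝ, K1 = |Real.log (3 ^ m * A)| + |Real.log (2 / w)| + m := ⟨_, rfl⟩
  obtain ⟨K3, hK3⟩ : ∃ K3 : ℝ, K3 = ((m : ℝ) + 1) * Real.log 9 + D + m * Real.log 3 := ⟨_, rfl⟩
  obtain ⟨k1, hk1⟩ := growth' (1 / (4 * G)) 1 K1 (by (clear * - hG1; positivity)) zero_le_one
  obtain ⟨k2, hk2⟩ := exists_nat_ge (2 * G)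
  obtain ⟨k3, hk3⟩ := exists_nat_gt (4 * K3 / (ε0 * Real.log 2))
  obtain ⟨k0, hk0def⟩ : ∃ k0 : ℕ, k0 = max (max k1 k2) (max k3 (2 * q)) := ⟨_, rfl⟩
  have hk01 : k1 ≤ k0 := by rw [hk0def]; exact (le_max_left _ _).trans (le_max_left _ _)
  have hk02 : k2 ≤ k0 := by rw [hk0def]; exact (le_max_right _ _).trans (le_max_left _ _)
  have hk03 : k3 ≤ k0 := by rw [hk0def]; exact (le_max_left _ _).trans (le_max_right _ _)
  have hk04 : 2 * q ≤ k0 := by rw [hk0def]; exact (le_max_right _ _).trans (le_max_right _ _)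
  have hMr : (((2 ^ u : ℕ) : ℕ) : ℝ) = 2 ^ u := by push_cast; rfl
  obtain ⟨j, N, N', hN0, hjN, hN', Ω, inst, P, c, hgood, hrate⟩ :=
    one_scale_stk hsel hY01 hx01 hw hwY hline (A := A) (η := η) (by linarith only [hA1]) hη0.le (by
      intro s
      obtain ⟨F, h1, h2⟩ := hA0 s
      exact ⟨F, h1.trans (mul_le_mul_of_nonneg_right hAA (by positivity)), h2⟩)
      hs1 q (2 ^ u) k0 B hq1 Nat.one_le_two_pow hk04 hBM
  rw [← hDdef] at hgood hrate
  -- the short notation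
  obtain ⟨p, hp⟩ : ∃ p : ℕ, p = N / 2 ^ u := ⟨_, rfl⟩
  rw [← hp] at hgood hrate
  have hNr : (0 : ℝ) < N := by
    have : 2 * q ≤ N := hk04.trans hN0
    have : 1 ≤ N := by omega
    exact_mod_cast this
  have hpN : (p : ℝ) ≤ N / 2 ^ u := by
    rw [hp]
    have := Nat.cast_div_le (α := ℝ) (m := N) (n := 2 ^ u)
    rwa [hMr] at this
  have hMbig : 8 ≤ (2 : ℝ) ^ u := by
    refine le_trans ?_ hGM
    have h1 : (1 : ℝ) ≤ ((m : ℝ) + 1) * G :=
      one_le_mul_of_one_le_of_one_le (by linarith only []) hG1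
    linarith only [h1]
  have hpN' : p ≤ N := by rw [hp]; exact Nat.div_le_self _ _
  have hLr : ((N - p : ℕ) : ℝ) = (N : ℝ) - p := Nat.cast_sub hpN'
  have hp2 : (p : ℝ) ≤ N / 2 := by
    refine hpN.trans ?_
    exact div_le_div_of_nonneg_left hNr.le (by norm_num) (by linarith only [hMbig])
  have hL2 : (N : ℝ) / 2 ≤ (N - p : ℕ) := by rw [hLr]; linarith only [hp2]
  -- the error
  have hNG := hk1 N (hk01.trans hN0)
  have haw : -Real.log (aw j) ≤ -Real.log (aw N) := by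
    have h1 : aw N ≤ aw j := by
      unfold aw
      have h2 : (j : ℝ) ≤ N := by exact_mod_cast hjN
      have h3 : (0 : ℝ) ≤ j := Nat.cast_nonneg j
      exact one_div_le_one_div_of_le (by (clear * -; positivity))
        (mul_le_mul (by linarith only [h2]) (by linarith only [h2]) (by (clear * -; positivity)) (by (clear * - hNr; positivity)))
    have := Real.log_le_log (aw_pos N) h1
    linarith only [this]
  have hsmall : ((m : ℝ) + 1) * (p : ℝ) ≤ 1 / (8 * G) * N := by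
    calc ((m : ℝ) + 1) * (p : ℝ) ≤ ((m : ℝ) + 1) * (N / 2 ^ u) :=
          mul_le_mul_of_nonneg_left hpN (by linarith only [])
      _ = (((m : ℝ) + 1) / 2 ^ u) * N := by ring
      _ ≤ 1 / (8 * G) * N := by
          refine mul_le_mul_of_nonneg_right ?_ hNr.le
          rw [div_le_div_iff₀ h2u (by positivity)]
          linarith only [hGM]
  have hp0 : (0 : ℝ) ≤ p := Nat.cast_nonneg p
  have he : max (Real.log (3 ^ m * A) + ((m + η) * (p : ℝ) + η * N) * Real.log 2)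
      (Real.log (1 / (w / 2 * aw j / ((2 : ℝ) ^ p * ((2 : ℝ) ^ (p + 1)) ^ m)))) ≤
      1 / (2 * G) * N := by
    refine err_num hG0 hη hη0 hη1 hNr hw (aw_pos j) hK1 hNG haw ?_ hsmall
    have := Real.log_nonpos (aw_pos N).le (aw_le N)
    linarith only [this]
  -- the contradiction
  have hLBi := hn (N - p) _ D D hD1 le_rfl (he.trans (by
    calc 1 / (2 * G) * (N : ℝ) = 1 / G * (N / 2) := by ring
      _ ≤ Real.exp (-(n * D)) * ((N - p : ℕ) : ℝ) :=
        mul_le_mul hexpD' hL2 (by (clear * - hNr; positivity)) (Real.exp_pos _).le)) (by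
    have h1 : (k2 : ℝ) ≤ N := by exact_mod_cast hk02.trans hN0
    linarith only [hexpD, hk2, hLr, hp2, h1]) Ω P c hgood
  have h3N : 4 * K3 / (ε0 * Real.log 2) < N := by
    refine hk3.trans_le ?_
    exact_mod_cast hk03.trans hN0
  rw [hLr] at hLBi
  exact final_num hε hι hι2 hqpos h2u hNr hs0 hsm hqr hu3 hN' hpN hK3 h3N hLBi hrate

end Vale.Agent.P127.Stk
end

section

/-!
# P127 / Stk : the selection lemma for the Hausdorff extraction

If sets `T j` of times, unions of dyadic intervals of level `N j`, cover `[0,1]` (with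
neighbourhoods), then some `T j` has density at least `1 / (4 (B + 1))` in a dyadic interval of
level `p j`, where `B` bounds the number of the earlier levels `N j'` which are finer than `p j`.
-/

namespace Vale.Agent.P127.Stk

open Finset Vale.Agent.P127 MeasureTheory

section selection

/-- the dyadic interval of level `p` and number `i` -/
def dcell (p : ℕ) (i : ℤ) : Set ℝ := {t | t ∈ Set.Ico (0 : ℝ) 1 ∧ fl1 p t = i}

lemma measurable_fl1 (p : ℕ) : Measurable (fl1 p) := by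
  unfold fl1
  exact Int.measurable_floor.comp (measurable_const_mul _)

lemma measurableSet_dcell (p : ℕ) (i : ℤ) : MeasurableSet (dcell p i) :=
  measurableSet_Ico.inter (measurable_fl1 p (measurableSet_singleton i))

lemma volume_dcell {p : ℕ} {i : ℤ} (h0 : 0 ≤ i) (h1 : i < 2 ^ p) :
    volume (dcell p i) = ENNReal.ofReal ((1 / 2 : ℝ) ^ p) := by
  rw [← volume_cell1 p i]
  congr 1
  ext t
  simp only [dcell, Set.mem_ofPred_eq]
  refine ⟨fun h => h.2, fun h => ⟨?_, h⟩⟩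
  have h2 : (0 : ℝ) < 2 ^ p := by positivity
  have h3 := h
  unfold fl1 at h3
  rw [Int.floor_eq_iff] at h3
  have h4 : (0 : ℝ) ≤ i := by exact_mod_cast h0
  have h5 : (i : ℝ) + 1 ≤ 2 ^ p := by exact_mod_cast h1
  constructor
  · by_contra hneg
    push Not at hneg
    nlinarith only [h3, h4, h2, hneg]
  · by_contra hneg
    push Not at hneg
    nlinarith only [h3, h5, hneg, h2]

lemma fl1_mem_range {p : ℕ} {t : ℝ} (ht : t ∈ Set.Ico (0 : ℝ) 1) :
    0 ≤ fl1 p t ∧ fl1 p t < 2 ^ p := by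
  have h2 : (0 : ℝ) < 2 ^ p := by positivity
  constructor
  · exact Int.floor_nonneg.2 (mul_nonneg h2.le ht.1)
  · unfold fl1
    rw [Int.floor_lt]
    push_cast
    nlinarith only [h2, ht.2]

/-- a subset of `[0,1)` which is a union of dyadic intervals of level `p` -/
def Dy (p : ℕ) (S : Set ℝ) : Prop :=
  ∀ t ∈ Set.Ico (0:ℝ) 1, ∀ t' ∈ Set.Ico (0:ℝ) 1, fl1 p t = fl1 p t' → t ∈ S → t' ∈ S

lemma Dy.measurable {p : ℕ} {S : Set ℝ} (h : Dy p S) (hS : S ⊆ Set.Ico 0 1) :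
    MeasurableSet S := by
  have h1 : S = ⋃ i ∈ fl1 p '' S, dcell p i := by
    ext t
    simp only [Set.mem_iUnion, dcell, Set.mem_ofPred_eq]
    constructor
    · intro ht
      exact ⟨fl1 p t, ⟨t, ht, rfl⟩, hS ht, rfl⟩
    · rintro ⟨i, ⟨s, hs, rfl⟩, ht, hst⟩
      exact h s (hS hs) t ht hst.symm hs
  rw [h1]
  exact MeasurableSet.biUnion (Set.to_countable _) fun i _ => measurableSet_dcell p i

lemma Dy.fine {p p' : ℕ} {S : Set ℝ} (h : Dy p S) (hp : p ≤ p') : Dy p' S := by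
  intro t ht t' ht' he hS
  refine h t ht t' ht' ?_ hS
  have := fl_of_fl hp (fun _ : Unit => t) (fun _ : Unit => t') (funext fun _ => he)
  exact congrFun this ()

/-- summation over the dyadic intervals of level `p` -/
lemma volume_sum_dcell {p : ℕ} {S : Set ℝ} (hS : S ⊆ Set.Ico 0 1) (hm : MeasurableSet S) :
    volume S = ∑ i ∈ Finset.Ico (0 : ℤ) (2 ^ p), volume (S ∩ dcell p i) := by
  have h1 : S = ⋃ i ∈ Finset.Ico (0 : ℤ) (2 ^ p), S ∩ dcell p i := by
    ext t
    simp only [Set.mem_iUnion, Set.mem_inter_iff, dcell, Set.mem_ofPred_eq, Finset.mem_Ico,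
      exists_prop]
    constructor
    · intro ht
      exact ⟨fl1 p t, fl1_mem_range (hS ht), ht, hS ht, rfl⟩
    · rintro ⟨i, _, ht, _⟩
      exact ht
  conv_lhs => rw [h1]
  refine measure_biUnion_finset ?_ fun i _ => hm.inter (measurableSet_dcell p i)
  intro i _ j _ hij
  refine Set.disjoint_left.2 fun t ht ht' => hij ?_
  exact ht.2.2.symm.trans ht'.2.2

/-- density in a union of dyadic intervals -/
lemma density_union {p : ℕ} {T S : Set ℝ} {η : ℝ} (hη : 0 ≤ η) (hS : S ⊆ Set.Ico 0 1)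
    (hSp : Dy p S) (hm : MeasurableSet (T ∩ S))
    (hT : ∀ i : ℤ, 0 ≤ i → i < 2 ^ p →
      volume (T ∩ dcell p i) ≤ ENNReal.ofReal ((1 / 2 : ℝ) ^ p * η)) :
    volume (T ∩ S) ≤ ENNReal.ofReal η * volume S := by
  rw [volume_sum_dcell (p := p) hS (hSp.measurable hS),
    volume_sum_dcell (p := p) (fun t ht => hS ht.2) hm, Finset.mul_sum]
  refine Finset.sum_le_sum fun i hi => ?_
  rw [Finset.mem_Ico] at hi
  by_cases hne : (S ∩ dcell p i).Nonempty
  · obtain ⟨s, hs, hsi⟩ := hne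
    have hsub : dcell p i ⊆ S := fun t ht =>
      hSp s hsi.1 t ht.1 (hsi.2.trans ht.2.symm) hs
    have h1 : S ∩ dcell p i = dcell p i := Set.inter_eq_right.2 hsub
    rw [h1, volume_dcell hi.1 hi.2, ← ENNReal.ofReal_mul hη, mul_comm η]
    have h2 : T ∩ S ∩ dcell p i ⊆ T ∩ dcell p i := fun t ht => ⟨ht.1.1, ht.2⟩
    exact (measure_mono h2).trans (hT i hi.1 hi.2)
  · rw [Set.not_nonempty_iff_eq_empty] at hne
    have h1 : T ∩ S ∩ dcell p i = ∅ := by rw [Set.inter_assoc, hne, Set.inter_empty]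
    rw [h1, measure_empty]
    exact zero_le

/-- the times which are not covered by the sets with index less than `j` -/
def unc (T : ℕ → Set ℝ) (j : ℕ) : Set ℝ := {t | t ∈ Set.Ico (0 : ℝ) 1 ∧ ∀ j' < j, t ∉ T j'}

lemma unc_sub (T : ℕ → Set ℝ) (j : ℕ) : unc T j ⊆ Set.Ico 0 1 := fun _ h => h.1

lemma unc_anti (T : ℕ → Set ℝ) {j j' : ℕ} (h : j ≤ j') : unc T j' ⊆ unc T j :=
  fun _ ht => ⟨ht.1, fun k hk => ht.2 k (hk.trans_le h)⟩

lemma unc_zero (T : ℕ → Set ℝ) : unc T 0 = Set.Ico 0 1 := by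
  ext t
  simp only [unc, Set.mem_Ico, not_lt_zero, IsEmpty.forall_iff, implies_true, and_true, Set.mem_ofPred_eq]

lemma unc_succ (T : ℕ → Set ℝ) (j : ℕ) : unc T (j + 1) = unc T j \ (T j ∩ unc T j) := by
  ext t
  simp only [unc, Set.mem_ofPred_eq, Set.mem_sdiff, Set.mem_inter_iff]
  constructor
  · rintro ⟨h1, h2⟩
    exact ⟨⟨h1, fun k hk => h2 k (by omega)⟩, fun h => h2 j (by omega) h.1⟩
  · rintro ⟨⟨h1, h2⟩, h3⟩
    refine ⟨h1, fun k hk hkt => ?_⟩
    rcases Nat.lt_succ_iff_lt_or_eq.1 hk with h | h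
    · exact h2 k h hkt
    · subst h
      exact h3 ⟨hkt, h1, h2⟩

lemma unc_dy {T : ℕ → Set ℝ} {N : ℕ → ℕ} (hT : ∀ j, Dy (N j) (T j)) {p j : ℕ}
    (h : ∀ j' < j, N j' ≤ p) : Dy p (unc T j) := by
  intro t ht t' ht' he hU
  refine ⟨ht', fun k hk hkt => hU.2 k hk ?_⟩
  exact (hT k).fine (h k hk) t' ht' t ht he.symm hkt

lemma measurable_inter_Ico {T : Set ℝ} {N : ℕ} (h : Dy N T) :
    MeasurableSet (T ∩ Set.Ico 0 1) := by
  refine Dy.measurable (p := N) ?_ Set.inter_subset_right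
  intro t ht t' ht' he hS
  exact ⟨h t ht t' ht' he hS.1, ht'⟩

lemma unc_measurable {T : ℕ → Set ℝ} {N : ℕ → ℕ} (hT : ∀ j, Dy (N j) (T j)) (j : ℕ) :
    MeasurableSet (unc T j) := by
  induction j with
  | zero =>
    rw [unc_zero]
    exact measurableSet_Ico
  | succ j ih =>
    rw [unc_succ]
    have h1 : T j ∩ unc T j = (T j ∩ Set.Ico 0 1) ∩ unc T j := by
      ext t
      simp only [Set.mem_inter_iff]
      exact ⟨fun h => ⟨⟨h.1, unc_sub T j h.2⟩, h.2⟩, fun h => ⟨h.1.1, h.2⟩⟩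
    rw [h1]
    exact ih.diff ((measurable_inter_Ico (hT j)).inter ih)

/-- SELECTION LEMMA -/
theorem sel (N p : ℕ → ℕ) (hN : StrictMono N) (_hp : ∀ j, p j ≤ N j) (B : ℕ)
    (hB : ∀ j, ((Finset.range j).filter fun j' => p j < N j').card ≤ B)
    (T : ℕ → Set ℝ)
    (hT : ∀ j, ∀ t ∈ Set.Ico (0:ℝ) 1, ∀ t' ∈ Set.Ico (0:ℝ) 1, fl1 (N j) t = fl1 (N j) t' →
      t ∈ T j → t' ∈ T j)
    (hcov : ∀ t ∈ Set.Icc (0:ℝ) 1, ∃ j, ∃ δ > 0, ∀ t' ∈ Set.Ico (0:ℝ) 1, |t' - t| < δ →
      t' ∈ T j) :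
    ∃ j, ∃ i : ℤ, 0 ≤ i ∧ i < 2 ^ p j ∧
      ENNReal.ofReal ((1/2)^(p j) / (4 * (B + 1))) ≤
        volume (T j ∩ {t | t ∈ Set.Ico (0:ℝ) 1 ∧ fl1 (p j) t = i}) := by
  classical
  by_contra hcon
  push Not at hcon
  obtain ⟨η, hη⟩ : ∃ η : ℝ, η = 1 / (4 * (B + 1)) := ⟨_, rfl⟩
  have hB0 : (0 : ℝ) ≤ B := Nat.cast_nonneg B
  have hη0 : 0 < η := by rw [hη]; (clear * -; positivity)
  have hηB : 2 * η * B ≤ 1 / 2 := by
    rw [hη, mul_one_div, div_mul_eq_mul_div, div_le_div_iff₀ (by positivity) (by norm_num)]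
    linarith only []
  have hη4 : η ≤ 1 / 4 := by
    rw [hη, div_le_div_iff₀ (by (clear * -; positivity)) (by norm_num)]
    linarith only []
  have hdens : ∀ (j : ℕ) (S : Set ℝ), S ⊆ Set.Ico 0 1 → Dy (p j) S →
      volume (T j ∩ S) ≤ ENNReal.ofReal η * volume S := by
    intro j S hS hSp
    have hm : MeasurableSet (T j ∩ S) := by
      have h1 : T j ∩ S = (T j ∩ Set.Ico 0 1) ∩ S := by
        ext t
        simp only [Set.mem_inter_iff]
        exact ⟨fun h => ⟨⟨h.1, hS h.2⟩, h.2⟩, fun h => ⟨h.1.1, h.2⟩⟩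
      rw [h1]
      exact (measurable_inter_Ico (hT j)).inter (hSp.measurable hS)
    refine density_union hη0.le hS hSp hm fun i h0 h1 => ?_
    have h2 := hcon j i h0 h1
    have h3 : (1 / 2 : ℝ) ^ p j * η = (1/2)^(p j) / (4 * (B + 1)) := by
      rw [hη]
      ring
    rw [h3]
    exact h2.le
  obtain ⟨u, hu⟩ : ∃ u : ℕ → ℝ, ∀ j, u j = (volume (unc T j)).toReal := ⟨_, fun _ => rfl⟩
  have hfin : ∀ (S : Set ℝ), S ⊆ Set.Ico 0 1 → volume S ≠ ⊤ := by
    intro S hS
    refine ne_top_of_le_ne_top ?_ (measure_mono hS)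
    simp only [Real.volume_Ico, sub_zero, ENNReal.ofReal_one, ne_eq, ENNReal.one_ne_top, not_false_eq_true]
  have hu0 : u 0 = 1 := by
    rw [hu, unc_zero]
    simp only [Real.volume_Ico, sub_zero, ENNReal.ofReal_one, ENNReal.toReal_one]
  have hmU := unc_measurable (N := N) hT
  -- the step
  have hstep : ∀ j, 0 < u j ∧ (1 - 2 * η) * u j ≤ u (j + 1) := by
    intro j
    induction j using Nat.strong_induction_on with
    | _ j ih =>
    have hpos : 0 < u j := by
      rcases Nat.eq_zero_or_pos j with h | h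
      · rw [h, hu0]
        exact one_pos
      · obtain ⟨k, rfl⟩ := Nat.exists_eq_succ_of_ne_zero h.ne'
        have h1 := ih k (Nat.lt_succ_self k)
        exact lt_of_lt_of_le (mul_pos (by linarith only [hη4]) h1.1) h1.2
    refine ⟨hpos, ?_⟩
    -- the old sets
    obtain ⟨j1, hj1⟩ : ∃ j1, j1 = ((Finset.range j).filter fun j' => N j' ≤ p j).card := ⟨_, rfl⟩
    have hj1j : j1 ≤ j := by
      rw [hj1]
      exact (Finset.card_filter_le _ _).trans (le_of_eq (Finset.card_range j))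
    have hold : ∀ j' < j1, N j' ≤ p j := by
      intro j' hj'
      by_contra hlt
      push Not at hlt
      have h1 : (Finset.range j).filter (fun k => N k ≤ p j) ⊆ Finset.range j' := by
        intro k hk
        rw [Finset.mem_filter] at hk
        rw [Finset.mem_range]
        by_contra hge
        push Not at hge
        have := hN.monotone hge
        omega
      have h2 := Finset.card_le_card h1
      rw [Finset.card_range, ← hj1] at h2
      omega
    have hrec : j - j1 ≤ B := by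
      have h1 := Finset.card_filter_add_card_filter_not (s := Finset.range j)
        (fun j' => N j' ≤ p j)
      rw [← hj1, Finset.card_range] at h1
      have h2 : ((Finset.range j).filter fun j' => ¬ N j' ≤ p j).card ≤ B := by
        refine le_trans (le_of_eq ?_) (hB j)
        congr 1
        ext k
        simp only [not_le, mem_filter, mem_range]
      omega
    -- from `j1` to `j`
    have hpow : ∀ k, j1 + k ≤ j → (1 - 2 * η) ^ k * u j1 ≤ u (j1 + k) := by
      intro k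
      induction k with
      | zero => intro _; simp
      | succ k ihk =>
        intro hk
        have h1 := ihk (by omega)
        have h2 := (ih (j1 + k) (by omega)).2
        calc (1 - 2 * η) ^ (k + 1) * u j1 = (1 - 2 * η) * ((1 - 2 * η) ^ k * u j1) := by ring
          _ ≤ (1 - 2 * η) * u (j1 + k) := mul_le_mul_of_nonneg_left h1 (by linarith only [hη4])
          _ ≤ u (j1 + (k + 1)) := h2
    have huj1 : 0 ≤ u j1 := by
      rw [hu]
      exact ENNReal.toReal_nonneg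
    have hhalf : u j1 / 2 ≤ u j := by
      have h1 := hpow (j - j1) (by omega)
      rw [Nat.add_sub_cancel' hj1j] at h1
      have h2 : (1 : ℝ) + ((j - j1 : ℕ) : ℝ) * (-(2 * η)) ≤ (1 + -(2 * η)) ^ (j - j1) :=
        one_add_mul_le_pow (by linarith only [hη4]) _
      have h3 : ((j - j1 : ℕ) : ℝ) ≤ B := by exact_mod_cast hrec
      have h4 : (1 : ℝ) / 2 ≤ (1 - 2 * η) ^ (j - j1) := by
        have h5 : (1 : ℝ) - 2 * η = 1 + -(2 * η) := by ring
        rw [h5]
        refine le_trans ?_ h2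
        have h6 : ((j - j1 : ℕ) : ℝ) * (2 * η) ≤ 1 / 2 := by
          calc ((j - j1 : ℕ) : ℝ) * (2 * η) ≤ B * (2 * η) :=
                mul_le_mul_of_nonneg_right h3 (by linarith only [hη0])
            _ ≤ 1 / 2 := by linarith only [hηB]
        (clear * - h6; linarith)
      calc u j1 / 2 = 1 / 2 * u j1 := by ring
        _ ≤ (1 - 2 * η) ^ (j - j1) * u j1 := mul_le_mul_of_nonneg_right h4 huj1
        _ ≤ u j := h1
    -- the new set
    have hd := hdens j (unc T j1) (unc_sub T j1) (unc_dy hT hold)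
    have hsub : T j ∩ unc T j ⊆ T j ∩ unc T j1 := fun t ht => ⟨ht.1, unc_anti T hj1j ht.2⟩
    have h1 : (volume (T j ∩ unc T j)).toReal ≤ η * u j1 := by
      have h2 := (measure_mono hsub).trans hd
      have h3 := ENNReal.toReal_mono
        (ENNReal.mul_ne_top ENNReal.ofReal_ne_top (hfin _ (unc_sub T j1))) h2
      rwa [ENNReal.toReal_mul, ENNReal.toReal_ofReal hη0.le, ← hu] at h3
    have h4 : u j - (volume (T j ∩ unc T j)).toReal ≤ u (j + 1) := by
      rw [hu, hu, unc_succ]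
      have h5 : MeasurableSet (T j ∩ unc T j) := by
        have h6 : T j ∩ unc T j = (T j ∩ Set.Ico 0 1) ∩ unc T j := by
          ext t
          simp only [Set.mem_inter_iff]
          exact ⟨fun h => ⟨⟨h.1, unc_sub T j h.2⟩, h.2⟩, fun h => ⟨h.1.1, h.2⟩⟩
        rw [h6]
        exact (measurable_inter_Ico (hT j)).inter (hmU j)
      rw [measure_sdiff Set.inter_subset_right h5.nullMeasurableSet
        (hfin _ (fun t ht => unc_sub T j ht.2)),
        ENNReal.toReal_sub_of_le (measure_mono Set.inter_subset_right)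
          (hfin _ (unc_sub T j))]
    (clear * - h1 h4 hη0 hhalf; nlinarith)
  -- compactness
  choose! jj δ hδ hjj using hcov
  obtain ⟨F, hF, hcover⟩ := isCompact_Icc.elim_nhds_subcover (s := Set.Icc (0 : ℝ) 1)
    (fun t => Metric.ball t (δ t)) (fun t ht => Metric.ball_mem_nhds t (hδ t ht))
  have hempty : unc T (F.sup jj + 1) = ∅ := by
    rw [Set.eq_empty_iff_forall_notMem]
    rintro t ⟨ht, hun⟩
    have h1 := hcover ⟨ht.1, ht.2.le⟩
    rw [Set.mem_iUnion₂] at h1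
    obtain ⟨s, hs, hst⟩ := h1
    refine hun (jj s) (Nat.lt_succ_of_le (Finset.le_sup hs)) (hjj s (hF s hs) t ht ?_)
    rw [Metric.mem_ball, Real.dist_eq] at hst
    exact hst
  have h1 := (hstep (F.sup jj + 1)).1
  rw [hu, hempty] at h1
  simp at h1

end selection

end Vale.Agent.P127.Stk
end

section

end

section

/-!
# P127 / Stk : the affine reduction

From a Kakeya set with a family of lines covered by countably many small pieces to normalised
coordinates.
-/

namespace Vale.Agent.P127.Stk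

open Finset MeasureTheory Vale.Agent.P127

/-! ### Cells from covers -/

section cells

variable {X : Type*} [PseudoMetricSpace X] {m : ℕ}

open Classical in
/-- the images of a set covered by few balls under Lipschitz maps meet few dyadic cells -/
theorem cells_of_cover {s : ℕ} {T : Set X} (u v : X → Fin m → ℝ) (N : ℕ)
    (hu : ∀ p ∈ T, ∀ q ∈ T, ∀ i, 2 * |u p i - u q i| ≤ N * dist p q)
    (hv : ∀ p ∈ T, ∀ q ∈ T, ∀ i, 2 * |v p i - v q i| ≤ N * dist p q)
    (C : Finset X) (hC : T ⊆ ⋃ c ∈ C, Metric.closedBall c ((1 / 2 : ℝ) ^ s)) :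
    ∃ F : Finset ((Fin m → ℤ) × (Fin m → ℤ)),
      (F.card : ℝ) ≤ (2 * N + 3) ^ (2 * m) * C.card ∧ ∀ p ∈ T, (fl s (u p), fl s (v p)) ∈ F := by
  have hch : ∀ c : X, ∃ p : X, (∃ q ∈ T, q ∈ Metric.closedBall c ((1 / 2 : ℝ) ^ s)) →
      p ∈ T ∧ p ∈ Metric.closedBall c ((1 / 2 : ℝ) ^ s) := by
    intro c
    by_cases h : ∃ q ∈ T, q ∈ Metric.closedBall c ((1 / 2 : ℝ) ^ s)
    · obtain ⟨q, hq⟩ := h
      exact ⟨q, fun _ => hq⟩
    · exact ⟨c, fun h' => absurd h' h⟩
  choose r hr using hch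
  set D : Finset (Fin m → ℤ) := Fintype.piFinset fun _ : Fin m =>
    Finset.Icc (-((N : ℤ) + 1)) ((N : ℤ) + 1) with hD
  have hDcard : (D.card : ℝ) = (2 * N + 3) ^ m := by
    have h1 : D.card = (2 * N + 3) ^ m := by
      rw [hD, Fintype.card_piFinset]
      simp only [Int.card_Icc, Finset.prod_const, Finset.card_univ, Fintype.card_fin]
      congr 1
      omega
    rw [h1]
    push_cast
    ring
  refine ⟨(C ×ˢ (D ×ˢ D)).image (fun z => (fl s (u (r z.1)) + z.2.1, fl s (v (r z.1)) + z.2.2)),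
    ?_, ?_⟩
  · have h1 : (((C ×ˢ (D ×ˢ D)).image
        (fun z => (fl s (u (r z.1)) + z.2.1, fl s (v (r z.1)) + z.2.2))).card : ℝ) ≤
        (C ×ˢ (D ×ˢ D)).card := by exact_mod_cast Finset.card_image_le
    refine h1.trans (le_of_eq ?_)
    rw [Finset.card_product, Finset.card_product]
    push_cast
    rw [hDcard]
    ring
  · intro p hp
    obtain ⟨c, hc, hpc⟩ := Set.mem_iUnion₂.1 (hC hp)
    have hrc := hr c ⟨p, hp, hpc⟩
    have hd : dist p (r c) ≤ 2 * (1 / 2 : ℝ) ^ s := by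
      have h1 := Metric.mem_closedBall.1 hpc
      have h2 := Metric.mem_closedBall'.1 hrc.2
      have h3 := dist_triangle p c (r c)
      linarith only [h1, h2, h3]
    have key : ∀ (g : X → Fin m → ℝ), (∀ p ∈ T, ∀ q ∈ T, ∀ i, 2 * |g p i - g q i| ≤ N * dist p q) →
        (fun i => fl s (g p) i - fl s (g (r c)) i) ∈ D := by
      intro g hg
      rw [hD, Fintype.mem_piFinset]
      intro i
      have h1 : ∀ i, |g p i - g (r c) i| ≤ N * (1 / 2 : ℝ) ^ s := by
        intro i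
        have h2 := hg p hp (r c) hrc.1 i
        have h3 : (N : ℝ) * dist p (r c) ≤ N * (2 * (1 / 2 : ℝ) ^ s) :=
          mul_le_mul_of_nonneg_left hd (Nat.cast_nonneg _)
        (clear * - h2 h3; linarith)
      have h2 := fl_sub_le h1 i
      rw [abs_le] at h2
      rw [Finset.mem_Icc]
      exact h2
    rw [Finset.mem_image]
    refine ⟨(c, (fun i => fl s (u p) i - fl s (u (r c)) i,
      fun i => fl s (v p) i - fl s (v (r c)) i)), ?_, ?_⟩
    · rw [Finset.mem_product, Finset.mem_product]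
      exact ⟨hc, key u hu, key v hv⟩
    · simp only [Prod.mk.injEq]
      constructor
      · funext i
        simp only [Pi.add_apply]
        ring
      · funext i
        simp only [Pi.add_apply]
        ring

end cells

/-! ### Slopes and positions as functions of the projection and the foot point -/

section geom

variable {m : ℕ}

/-- the space of pairs (projection, foot point) -/
abbrev LS (m : ℕ) : Type :=
  (EuclideanSpace ℝ (Fin (m + 1)) →L[ℝ] EuclideanSpace ℝ (Fin (m + 1))) ×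
    EuclideanSpace ℝ (Fin (m + 1))

/-- the last coordinate vector -/
noncomputable def elast (m : ℕ) : EuclideanSpace ℝ (Fin (m + 1)) :=
  EuclideanSpace.single (Fin.last m) 1

lemma norm_elast (m : ℕ) : ‖elast m‖ = 1 := by simp [elast]

/-- the slope -/
noncomputable def slp (p : LS m) (i : Fin m) : ℝ :=
  (p.1 (elast m)).ofLp (Fin.castSucc i) / (p.1 (elast m)).ofLp (Fin.last m)

/-- the position at the height `0` -/
noncomputable def ps0 (p : LS m) (i : Fin m) : ℝ :=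
  p.2.ofLp (Fin.castSucc i) - p.2.ofLp (Fin.last m) * slp p i

lemma coord_le {n : ℕ} (z : EuclideanSpace ℝ (Fin n)) (i : Fin n) : |z.ofLp i| ≤ ‖z‖ := by
  have := PiLp.norm_apply_le z i
  rwa [Real.norm_eq_abs] at this

lemma clm_coord (A : EuclideanSpace ℝ (Fin (m + 1)) →L[ℝ] EuclideanSpace ℝ (Fin (m + 1)))
    (i : Fin (m + 1)) : |(A (elast m)).ofLp i| ≤ ‖A‖ := by
  refine (coord_le _ i).trans ?_
  have := A.le_opNorm (elast m)
  rwa [norm_elast, mul_one] at this

lemma clm_coord_sub (p q : LS m) (i : Fin (m + 1)) :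
    |(p.1 (elast m)).ofLp i - (q.1 (elast m)).ofLp i| ≤ dist p q := by
  have h1 := clm_coord (p.1 - q.1) i
  rw [sub_apply, WithLp.ofLp_sub, Pi.sub_apply] at h1
  refine h1.trans ?_
  rw [← dist_eq_norm, Prod.dist_eq]
  exact le_max_left _ _

lemma foot_coord_sub (p q : LS m) (i : Fin (m + 1)) :
    |p.2.ofLp i - q.2.ofLp i| ≤ dist p q := by
  have h1 := coord_le (p.2 - q.2) i
  rw [WithLp.ofLp_sub, Pi.sub_apply] at h1
  refine h1.trans ?_
  rw [← dist_eq_norm, Prod.dist_eq]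
  exact le_max_right _ _

/-- the region of lines with bounded slopes and positions -/
def Reg (m : ℕ) (γ R : ℝ) : Set (LS m) :=
  {p | γ ≤ (p.1 (elast m)).ofLp (Fin.last m) ∧ (∀ i, |slp p i| ≤ 1) ∧ ‖p.2‖ ≤ R}

theorem slp_lip {γ R : ℝ} (hγ : 0 < γ) {p q : LS m} (hp : p ∈ Reg m γ R) (hq : q ∈ Reg m γ R)
    (i : Fin m) : |slp p i - slp q i| ≤ 2 / γ * dist p q := by
  set a := (p.1 (elast m)).ofLp (Fin.castSucc i) with ha
  set b := (p.1 (elast m)).ofLp (Fin.last m) with hb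
  set a' := (q.1 (elast m)).ofLp (Fin.castSucc i) with ha'
  set b' := (q.1 (elast m)).ofLp (Fin.last m) with hb'
  have h1 : |a - a'| ≤ dist p q := clm_coord_sub p q _
  have h2 : |b - b'| ≤ dist p q := clm_coord_sub p q _
  have hb0 : γ ≤ b := hp.1
  have hb0' : γ ≤ b' := hq.1
  have hs : |a' / b'| ≤ 1 := hq.2.1 i
  have e : slp p i - slp q i = ((a - a') + (a' / b') * (b' - b)) / b := by
    unfold slp
    rw [← ha, ← hb, ← ha', ← hb']
    have h3 : b ≠ 0 := by linarith only [hγ, hb0]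
    have h4 : b' ≠ 0 := by linarith only [hγ, hb0']
    field_simp
    ring
  rw [e, abs_div, abs_of_pos (by linarith only [hγ, hb0] : 0 < b), div_le_iff₀ (by linarith only [hγ, hb0])]
  have h5 : |(a - a') + (a' / b') * (b' - b)| ≤ 2 * dist p q := by
    refine (abs_add_le _ _).trans ?_
    rw [abs_mul, abs_sub_comm b' b]
    have h6 : |a' / b'| * |b - b'| ≤ 1 * dist p q :=
      mul_le_mul hs h2 (abs_nonneg _) (by norm_num)
    linarith only [h1, h6]
  have h7 : 2 * dist p q ≤ 2 / γ * dist p q * b := by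
    have h8 : 2 / γ * dist p q * b = 2 * dist p q * (b / γ) := by ring
    rw [h8]
    have h9 : 1 ≤ b / γ := by rwa [one_le_div hγ]
    exact le_mul_of_one_le_right (by (clear * -; positivity)) h9
  exact h5.trans h7

theorem ps0_lip {γ R : ℝ} (hγ : 0 < γ) {p q : LS m} (hp : p ∈ Reg m γ R) (hq : q ∈ Reg m γ R)
    (i : Fin m) : |ps0 p i - ps0 q i| ≤ (2 + R * (2 / γ)) * dist p q := by
  have h1 := foot_coord_sub p q (Fin.castSucc i)
  have h2 := foot_coord_sub p q (Fin.last m)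
  have h3 := slp_lip hγ hp hq i
  have h4 : |q.2.ofLp (Fin.last m)| ≤ R := (coord_le _ _).trans hq.2.2
  have h5 := hp.2.1 i
  have hR : 0 ≤ R := (abs_nonneg _).trans h4
  have e : ps0 p i - ps0 q i = (p.2.ofLp (Fin.castSucc i) - q.2.ofLp (Fin.castSucc i)) +
      ((q.2.ofLp (Fin.last m) - p.2.ofLp (Fin.last m)) * slp p i +
        q.2.ofLp (Fin.last m) * (slp q i - slp p i)) := by
    unfold ps0
    ring
  rw [e]
  refine (abs_add_le _ _).trans ?_
  have h6 := abs_add_le ((q.2.ofLp (Fin.last m) - p.2.ofLp (Fin.last m)) * slp p i)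
    (q.2.ofLp (Fin.last m) * (slp q i - slp p i))
  rw [abs_mul, abs_mul, abs_sub_comm (q.2.ofLp (Fin.last m)), abs_sub_comm (slp q i)] at h6
  have h7 : |p.2.ofLp (Fin.last m) - q.2.ofLp (Fin.last m)| * |slp p i| ≤ dist p q * 1 :=
    mul_le_mul h2 h5 (abs_nonneg _) dist_nonneg
  have h8 : |q.2.ofLp (Fin.last m)| * |slp p i - slp q i| ≤ R * (2 / γ * dist p q) :=
    mul_le_mul h4 h3 (abs_nonneg _) hR
  linarith

end geom

/-! ### The reduction -/

section red

variable {m : ℕ}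

/-- the vector with slope `y` and last coordinate `1` -/
noncomputable def dv (y : Fin m → ℝ) : EuclideanSpace ℝ (Fin (m + 1)) :=
  WithLp.toLp 2 (Fin.snoc (α := fun _ => ℝ) y 1)

lemma dv_cast (y : Fin m → ℝ) (i : Fin m) : (dv y).ofLp (Fin.castSucc i) = y i := by simp [dv]

lemma dv_last (y : Fin m → ℝ) : (dv y).ofLp (Fin.last m) = 1 := by simp [dv]

lemma dv_sq (y : Fin m → ℝ) : ‖dv y‖ ^ 2 = ∑ i, y i ^ 2 + 1 := by
  rw [EuclideanSpace.norm_eq, Real.sq_sqrt (Finset.sum_nonneg fun i _ => by (clear * -; positivity)),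
    Fin.sum_univ_castSucc]
  simp only [dv_cast, Real.norm_eq_abs, sq_abs, dv_last, norm_one, one_pow]

lemma dv_one_le (y : Fin m → ℝ) : 1 ≤ ‖dv y‖ := by
  have h1 := dv_sq y
  have h2 : 0 ≤ ∑ i, y i ^ 2 := Finset.sum_nonneg fun i _ => by (clear * -; positivity)
  nlinarith only [h1, h2, norm_nonneg (dv y)]

lemma dv_le (y : Fin m → ℝ) (hy : ∀ i, 0 ≤ y i ∧ y i < 1) : ‖dv y‖ ^ 2 ≤ m + 1 := by
  rw [dv_sq]
  have : ∑ i, y i ^ 2 ≤ m := by
    calc ∑ i, y i ^ 2 ≤ ∑ _i : Fin m, (1 : ℝ) := by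
          refine Finset.sum_le_sum fun i _ => ?_
          have := hy i
          nlinarith [this.1, this.2]
      _ = m := by simp only [sum_const, card_univ, Fintype.card_fin, nsmul_eq_mul, mul_one]
  linarith only [this]

/-- the unit vector with slope `y` -/
noncomputable def uv (y : Fin m → ℝ) : EuclideanSpace ℝ (Fin (m + 1)) := ‖dv y‖⁻¹ • dv y

lemma uv_norm (y : Fin m → ℝ) : ‖uv y‖ = 1 := by
  have h := dv_one_le y
  unfold uv
  rw [norm_smul, norm_inv, norm_norm, inv_mul_cancel₀ (by linarith only [h])]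

lemma uv_cast (y : Fin m → ℝ) (i : Fin m) :
    (uv y).ofLp (Fin.castSucc i) = ‖dv y‖⁻¹ * y i := by
  simp only [uv, PiLp.smul_apply, dv_cast, smul_eq_mul]

lemma uv_last (y : Fin m → ℝ) : (uv y).ofLp (Fin.last m) = ‖dv y‖⁻¹ := by
  simp [uv, dv_last]

/-- `p` is the pair (projection, foot point) of the line through `a` with direction `e` -/
def IsLn (p : LS m) (a e : EuclideanSpace ℝ (Fin (m + 1))) : Prop :=
  (∀ u, p.1 u = inner ℝ e u • e) ∧ p.2 = a - inner ℝ e a • e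

lemma ln_elast {p : LS m} {a : EuclideanSpace ℝ (Fin (m + 1))} {y : Fin m → ℝ}
    (h : IsLn p a (uv y)) : p.1 (elast m) = ‖dv y‖⁻¹ • uv y := by
  rw [h.1]
  congr 1
  unfold elast
  rw [EuclideanSpace.inner_single_right]
  simp [uv_last]

lemma ln_slp {p : LS m} {a : EuclideanSpace ℝ (Fin (m + 1))} {y : Fin m → ℝ}
    (h : IsLn p a (uv y)) (i : Fin m) : slp p i = y i := by
  have h0 : ‖dv y‖ ≠ 0 := by linarith only [dv_one_le y]
  unfold slp
  rw [ln_elast h, WithLp.ofLp_smul, Pi.smul_apply, Pi.smul_apply, uv_cast, uv_last]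
  simp only [smul_eq_mul]
  field_simp

lemma ln_ps0 {p : LS m} {a : EuclideanSpace ℝ (Fin (m + 1))} {y : Fin m → ℝ}
    (h : IsLn p a (uv y)) (i : Fin m) :
    ps0 p i = a.ofLp (Fin.castSucc i) - a.ofLp (Fin.last m) * y i := by
  unfold ps0
  rw [ln_slp h, h.2]
  simp only [WithLp.ofLp_sub, WithLp.ofLp_smul, Pi.sub_apply, Pi.smul_apply, smul_eq_mul,
    uv_cast, uv_last]
  ring

lemma ln_reg {p : LS m} {a : EuclideanSpace ℝ (Fin (m + 1))} {y : Fin m → ℝ}
    (h : IsLn p a (uv y)) (hy : ∀ i, 0 ≤ y i ∧ y i < 1) {R : ℝ} (hR : ‖p.2‖ ≤ R) :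
    p ∈ Reg m (1 / ((m : ℝ) + 1)) R := by
  have h0 := dv_one_le y
  refine ⟨?_, fun i => ?_, hR⟩
  · rw [ln_elast h, WithLp.ofLp_smul, Pi.smul_apply, uv_last, smul_eq_mul, ← mul_inv, ← pow_two,
      one_div]
    exact inv_anti₀ (by (clear * - h0; positivity)) (dv_le y hy)
  · rw [ln_slp h, abs_of_nonneg (hy i).1]
    exact (hy i).2.le

/-- the points of the line -/
lemma ln_pt {p : LS m} {a : EuclideanSpace ℝ (Fin (m + 1))} {y : Fin m → ℝ}
    (h : IsLn p a (uv y)) (r : ℝ) :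
    pt (ps0 p) y r = a + ((r - a.ofLp (Fin.last m)) * ‖dv y‖) • uv y := by
  have h0 := dv_one_le y
  have h1 : ‖dv y‖ ≠ 0 := by linarith
  ext i
  refine Fin.lastCases ?_ (fun i => ?_) i
  · rw [pt_last]
    simp only [WithLp.ofLp_add, WithLp.ofLp_smul, Pi.add_apply, Pi.smul_apply, smul_eq_mul,
      uv_last]
    field_simp
    ring
  · rw [pt_castSucc, ln_ps0 h]
    simp only [WithLp.ofLp_add, WithLp.ofLp_smul, Pi.add_apply, Pi.smul_apply, smul_eq_mul,
      uv_cast]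
    field_simp
    ring

/-- the class of slopes belonging to the piece `i`, the heights `[h₁, h₂]`, the cell `kk` and the
bound `R` -/
def Ycl (K : Set (EuclideanSpace ℝ (Fin (m + 1)))) (l : EuclideanSpace ℝ (Fin (m + 1)) → LS m)
    (S : ℕ → Set (LS m)) (q : ℕ × ℚ × ℚ × (Fin m → ℤ) × ℕ) : Set (Fin m → ℝ) :=
  {y | (∀ i, 0 ≤ y i ∧ y i < 1) ∧ l (uv y) ∈ S q.1 ∧ (q.2.1 : ℝ) < q.2.2.1 ∧
    (∀ r ∈ Set.Icc (q.2.1 : ℝ) q.2.2.1, pt (ps0 (l (uv y))) y r ∈ K) ∧
    (∀ i, 0 ≤ (ps0 (l (uv y)) i + q.2.1 * y i) / (q.2.2.1 - q.2.1) - q.2.2.2.1 i ∧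
      (ps0 (l (uv y)) i + q.2.1 * y i) / (q.2.2.1 - q.2.1) - q.2.2.2.1 i < 1) ∧
    ‖(l (uv y)).2‖ ≤ q.2.2.2.2}

theorem exists_Ycl {K : Set (EuclideanSpace ℝ (Fin (m + 1)))}
    {a : EuclideanSpace ℝ (Fin (m + 1)) → EuclideanSpace ℝ (Fin (m + 1))}
    (hK : ∀ e, ‖e‖ = 1 → ∀ t ∈ Set.Icc (0 : ℝ) 1, a e + t • e ∈ K)
    {l : EuclideanSpace ℝ (Fin (m + 1)) → LS m} (hl : ∀ e, ‖e‖ = 1 → IsLn (l e) (a e) e)
    {S : ℕ → Set (LS m)} (hS : ∀ e, ‖e‖ = 1 → ∃ i, l e ∈ S i) :
    ∃ q, volume (Ycl K l S q) ≠ 0 := by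
  have hcov : {y : Fin m → ℝ | ∀ i, 0 ≤ y i ∧ y i < 1} ⊆ ⋃ q, Ycl K l S q := by
    intro y hy
    have hy' : ∀ i, 0 ≤ y i ∧ y i < 1 := hy
    have hu := uv_norm y
    obtain ⟨i, hi⟩ := hS _ hu
    have h0 := dv_one_le y
    have hinv : (0 : ℝ) < ‖dv y‖⁻¹ := inv_pos.2 (by linarith only [h0])
    have hL := hl _ hu
    set al := (a (uv y)).ofLp (Fin.last m) with hal
    obtain ⟨h₁, h11, h12⟩ := exists_rat_btwn (show al < al + ‖dv y‖⁻¹ by linarith only [hinv])
    obtain ⟨h₂, h21, h22⟩ := exists_rat_btwn h12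
    obtain ⟨R, hR⟩ := exists_nat_ge ‖(l (uv y)).2‖
    refine Set.mem_iUnion.2 ⟨(i, h₁, h₂, fun i =>
      ⌊(ps0 (l (uv y)) i + h₁ * y i) / (h₂ - h₁)⌋, R), hy', hi, by exact_mod_cast h21, ?_, ?_, hR⟩
    · intro r hr
      rw [ln_pt hL]
      refine hK _ hu _ ⟨?_, ?_⟩
      · have : 0 ≤ r - al := by
          have := hr.1
          simp only at this
          linarith only [h11, this]
        (clear * - this h0; positivity)
      · have h3 : r - al ≤ ‖dv y‖⁻¹ := by
          have := hr.2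
          simp only at this
          linarith only [h22, this]
        calc (r - al) * ‖dv y‖ ≤ ‖dv y‖⁻¹ * ‖dv y‖ :=
              mul_le_mul_of_nonneg_right h3 (norm_nonneg _)
          _ = 1 := inv_mul_cancel₀ (by linarith only [h0])
    · intro i
      simp only
      constructor
      · linarith only [Int.floor_le ((ps0 (l (uv y)) i + h₁ * y i) / (h₂ - h₁))]
      · linarith only [Int.lt_floor_add_one ((ps0 (l (uv y)) i + h₁ * y i) / (h₂ - h₁))]
  have hvol : volume (⋃ q, Ycl K l S q) ≠ 0 := by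
    intro h0
    have h1 := measure_mono_null hcov h0
    have h2 : {y : Fin m → ℝ | ∀ i, 0 ≤ y i ∧ y i < 1} =
        Set.pi Set.univ (fun _ => Set.Ico (0 : ℝ) 1) := by
      ext y
      simp only [Set.mem_ofPred_eq, Set.mem_pi, Set.mem_univ, Set.mem_Ico, forall_const]
    rw [h2, Real.volume_pi_Ico] at h1
    simp only [sub_zero, ENNReal.ofReal_one, prod_const_one, one_ne_zero] at h1
  obtain ⟨q, hpos⟩ := exists_measure_pos_of_not_measure_iUnion_null hvol
  exact ⟨q, hpos.ne'⟩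

/-- the affine reduction -/
theorem red {K : Set (EuclideanSpace ℝ (Fin (m + 1)))}
    {a : EuclideanSpace ℝ (Fin (m + 1)) → EuclideanSpace ℝ (Fin (m + 1))}
    (hK : ∀ e, ‖e‖ = 1 → ∀ t ∈ Set.Icc (0 : ℝ) 1, a e + t • e ∈ K)
    {l : EuclideanSpace ℝ (Fin (m + 1)) → LS m} (hl : ∀ e, ‖e‖ = 1 → IsLn (l e) (a e) e)
    {S : ℕ → Set (LS m)} (hS : ∀ e, ‖e‖ = 1 → ∃ i, l e ∈ S i) {η : ℝ}
    (hbox : ∀ i, ∃ A : ℝ, ∀ s : ℕ, ∃ C : Finset (LS m), (C.card : ℝ) ≤ A * 2 ^ ((m + η) * s) ∧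
      S i ⊆ ⋃ c ∈ C, Metric.closedBall c ((1 / 2 : ℝ) ^ s)) :
    ∃ (K' : Set (EuclideanSpace ℝ (Fin (m + 1)))) (Y : Set (Fin m → ℝ))
      (x : (Fin m → ℝ) → Fin m → ℝ), dimH K' ≤ dimH K ∧
      (∀ y ∈ Y, ∀ i, 0 ≤ y i ∧ y i < 1) ∧ (∀ y ∈ Y, ∀ i, 0 ≤ x y i ∧ x y i < 1) ∧
      volume Y ≠ 0 ∧ (∀ y ∈ Y, ∀ t ∈ Set.Icc (0 : ℝ) 1, pt (x y) y t ∈ K') ∧
      ∃ A : ℝ, ∀ s : ℕ, ∃ F : Finset ((Fin m → ℤ) × (Fin m → ℤ)),
        (F.card : ℝ) ≤ A * 2 ^ ((m + η) * s) ∧ ∀ y ∈ Y, (fl s (x y), fl s y) ∈ F := by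
  obtain ⟨⟨i, h₁, h₂, kk, R⟩, hvol⟩ := exists_Ycl hK hl hS
  set Y := Ycl K l S (i, h₁, h₂, kk, R) with hY
  have hYne : Y.Nonempty := nonempty_of_measure_ne_zero hvol
  have hlt : (h₁ : ℝ) < h₂ := by
    obtain ⟨y, hy⟩ := hYne
    exact hy.2.2.1
  set lam : ℝ := h₂ - h₁ with hlam
  have hlam0 : 0 < lam := by linarith only [hlt]
  set x : (Fin m → ℝ) → Fin m → ℝ := fun y i =>
    (ps0 (l (uv y)) i + h₁ * y i) / lam - kk i with hx
  set b : EuclideanSpace ℝ (Fin (m + 1)) :=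
    WithLp.toLp 2 (Fin.snoc (α := fun _ => ℝ) (fun i => (kk i : ℝ)) (h₁ / lam)) with hb
  have hbc : ∀ i : Fin m, b.ofLp (Fin.castSucc i) = kk i := fun i => by simp [hb]
  have hbl : b.ofLp (Fin.last m) = h₁ / lam := by simp [hb]
  set L : EuclideanSpace ℝ (Fin (m + 1)) → EuclideanSpace ℝ (Fin (m + 1)) := fun p =>
    lam⁻¹ • p - b with hL
  have hLip : LipschitzWith (Real.toNNReal lam⁻¹) L := by
    refine LipschitzWith.of_dist_le_mul fun p q => ?_
    rw [Real.coe_toNNReal _ (by (clear * - hlt; positivity)), hL]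
    simp only
    rw [dist_sub_right, dist_smul₀, Real.norm_eq_abs, abs_of_pos (by (clear * - hlt; positivity))]
  refine ⟨L '' K, Y, x, hLip.dimH_image_le K, fun y hy => hy.1, fun y hy => hy.2.2.2.2.1, hvol,
    ?_, ?_⟩
  · intro y hy t ht
    have hr : (h₁ : ℝ) + lam * t ∈ Set.Icc (h₁ : ℝ) h₂ := by
      constructor
      · have := mul_nonneg hlam0.le ht.1
        linarith only [this]
      · have := mul_le_mul_of_nonneg_left ht.2 hlam0.le
        linarith only [this]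
    refine ⟨_, hy.2.2.2.1 _ hr, ?_⟩
    ext j
    refine Fin.lastCases ?_ (fun j => ?_) j
    · rw [pt_last, hL]
      simp only [WithLp.ofLp_sub, WithLp.ofLp_smul, Pi.sub_apply, Pi.smul_apply, smul_eq_mul,
        hbl, pt_last]
      field_simp
      ring
    · rw [pt_castSucc, hL]
      simp only [WithLp.ofLp_sub, WithLp.ofLp_smul, Pi.sub_apply, Pi.smul_apply, smul_eq_mul,
        hbc, pt_castSucc, hx]
      field_simp
      ring
  · obtain ⟨A, hA⟩ := hbox i
    set γ : ℝ := 1 / ((m : ℝ) + 1) with hγ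
    have hγ0 : 0 < γ := by (clear * -; positivity)
    set c1 : ℝ := (2 + (R : ℝ) * (2 / γ) + |(h₁ : ℝ)| * (2 / γ)) / lam with hc1
    obtain ⟨N, hN⟩ := exists_nat_ge (max (2 * c1) (2 * (2 / γ)))
    have hN1 : 2 * c1 ≤ N := (le_max_left _ _).trans hN
    have hN2 : 2 * (2 / γ) ≤ N := (le_max_right _ _).trans hN
    refine ⟨(2 * N + 3) ^ (2 * m) * A, fun s => ?_⟩
    obtain ⟨C, hC, hCS⟩ := hA s
    set T : Set (LS m) := (fun y => l (uv y)) '' Y with hT
    have hTreg : ∀ p ∈ T, p ∈ Reg m γ R := by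
      rintro _ ⟨y, hy, rfl⟩
      exact ln_reg (hl _ (uv_norm y)) hy.1 hy.2.2.2.2.2
    have hTS : T ⊆ S i := by
      rintro _ ⟨y, hy, rfl⟩
      exact hy.2.1
    obtain ⟨F, hF, hF'⟩ := cells_of_cover (T := T) (s := s)
      (fun p i => (ps0 p i + h₁ * slp p i) / lam - kk i) slp N (by
        intro p hp q hq j
        have e : (ps0 p j + h₁ * slp p j) / lam - kk j - ((ps0 q j + h₁ * slp q j) / lam - kk j) =
            ((ps0 p j - ps0 q j) + h₁ * (slp p j - slp q j)) / lam := by ring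
        rw [e, abs_div, abs_of_pos hlam0]
        have h3 := ps0_lip hγ0 (hTreg p hp) (hTreg q hq) j
        have h4 := slp_lip hγ0 (hTreg p hp) (hTreg q hq) j
        have h5 := abs_add_le (ps0 p j - ps0 q j) (h₁ * (slp p j - slp q j))
        rw [abs_mul] at h5
        have h6 : |(h₁ : ℝ)| * |slp p j - slp q j| ≤ |(h₁ : ℝ)| * (2 / γ * dist p q) :=
          mul_le_mul_of_nonneg_left h4 (abs_nonneg _)
        have h7 : |(ps0 p j - ps0 q j) + h₁ * (slp p j - slp q j)| / lam ≤ c1 * dist p q := by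
          rw [hc1, div_mul_eq_mul_div]
          refine div_le_div_of_nonneg_right ?_ hlam0.le
          nlinarith only [h3, h5, h6]
        have h8 : 2 * c1 * dist p q ≤ N * dist p q :=
          mul_le_mul_of_nonneg_right hN1 dist_nonneg
        linarith only [h7, h8]) (by
        intro p hp q hq j
        have h4 := slp_lip hγ0 (hTreg p hp) (hTreg q hq) j
        have h8 : 2 * (2 / γ) * dist p q ≤ N * dist p q :=
          mul_le_mul_of_nonneg_right hN2 dist_nonneg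
        linarith only [h4, h8]) C (hTS.trans hCS)
    refine ⟨F, hF.trans ?_, fun y hy => ?_⟩
    · rw [mul_assoc]
      exact mul_le_mul_of_nonneg_left hC (by (clear * -; positivity))
    · have h3 := hF' _ ⟨y, hy, rfl⟩
      have h4 : slp (l (uv y)) = y := funext fun i => ln_slp (hl _ (uv_norm y)) i
      simp only [h4] at h3
      exact h3

end red

end Vale.Agent.P127.Stk
end

section

/-!
# P127 / Stk : the final theorem from the normalised Hausdorff theorem
-/

namespace Vale.Agent.P127.Stk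

open MeasureTheory Vale.Agent.P127

/-- The final statement with accuracy `ε`: sets which contain a unit segment of each line of a
family of lines (one for each direction) of packing dimension at most `n - 1 + η` have Hausdorff
dimension at least `n - ε`. -/
def NearSticky (n : ℕ) : Prop :=
  ∀ ε : ℝ, 0 < ε → ∃ η : ℝ, 0 < η ∧
    ∀ (K : Set (EuclideanSpace ℝ (Fin n))) (a : EuclideanSpace ℝ (Fin n) → EuclideanSpace ℝ (Fin n)),
      (∀ e : EuclideanSpace ℝ (Fin n), ‖e‖ = 1 → ∀ t ∈ Set.Icc (0 : ℝ) 1, a e + t • e ∈ K) →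
      packingDim {p | ∃ e : EuclideanSpace ℝ (Fin n), ‖e‖ = 1 ∧ p = toLine (a e) e} ≤
        (((n : ℝ) - 1 + η : ℝ) : EReal) →
      ENNReal.ofReal ((n : ℝ) - ε) ≤ dimH K

/-- A sticky Kakeya set: for every unit vector `e` it contains the unit segment
`{a e + t e : 0 ≤ t ≤ 1}`, and the set of the lines `a e + ℝ e` has packing dimension (at most)
`n - 1` in the space of affine lines. -/
def IsStickyKakeya {n : ℕ} (K : Set (EuclideanSpace ℝ (Fin n))) : Prop :=
  ∃ a : EuclideanSpace ℝ (Fin n) → EuclideanSpace ℝ (Fin n),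
    (∀ e : EuclideanSpace ℝ (Fin n), ‖e‖ = 1 → ∀ t ∈ Set.Icc (0 : ℝ) 1, a e + t • e ∈ K) ∧
    packingDim {p | ∃ e : EuclideanSpace ℝ (Fin n), ‖e‖ = 1 ∧ p = toLine (a e) e} ≤
      (((n : ℝ) - 1 : ℝ) : EReal)

/-- the normalised Hausdorff theorem (helper37, `haus_norm`) -/
def HausNorm (m : ℕ) : Prop :=
  ∀ ε0 : ℝ, 0 < ε0 → ∃ η > 0, ∀ (K' : Set (EuclideanSpace ℝ (Fin (m + 1))))
    (Y : Set (Fin m → ℝ)) (x : (Fin m → ℝ) → Fin m → ℝ),
    (∀ y ∈ Y, ∀ i, 0 ≤ y i ∧ y i < 1) → (∀ y ∈ Y, ∀ i, 0 ≤ x y i ∧ x y i < 1) →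
    volume Y ≠ 0 → (∀ y ∈ Y, ∀ t ∈ Set.Icc (0 : ℝ) 1, pt (x y) y t ∈ K') →
    (∃ A : ℝ, ∀ s : ℕ, ∃ F : Finset ((Fin m → ℤ) × (Fin m → ℤ)),
      (F.card : ℝ) ≤ A * 2 ^ (((m : ℝ) + η) * s) ∧ ∀ y ∈ Y, (fl s (x y), fl s y) ∈ F) →
    ENNReal.ofReal ((m : ℝ) + 1 - ε0) ≤ dimH K'

/-- finite covers from covering numbers -/
theorem exists_finite_cover {X : Type*} [PseudoMetricSpace X] {δ : ℝ} (hδ : 0 ≤ δ) {S : Set X}
    {B : ℝ} (hB : 0 ≤ B) (h : cov δ S ≤ ENNReal.ofReal B) :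
    ∃ C : Finset X, (C.card : ℝ) ≤ B ∧ S ⊆ ⋃ c ∈ C, Metric.closedBall c δ := by
  classical
  rcases isEmpty_or_nonempty {C : Set X // Metric.IsCover δ.toNNReal S C} with hE | hN
  · exact hE.elim ⟨S, Metric.IsCover.refl _ _⟩
  obtain ⟨C, hC⟩ := ENat.exists_eq_iInf
    (fun C : {C : Set X // Metric.IsCover δ.toNNReal S C} => (C : Set X).encard)
  have hC' : Metric.externalCoveringNumber δ.toNNReal S = (C : Set X).encard := by
    rw [Metric.externalCoveringNumber, hC, iInf_subtype]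
  unfold cov at h
  rw [hC'] at h
  have hfin : (C : Set X).Finite := by
    by_contra hinf
    rw [Set.Infinite.encard_eq hinf, ENat.toENNReal_top, top_le_iff] at h
    exact ENNReal.ofReal_ne_top h
  refine ⟨hfin.toFinset, ?_, ?_⟩
  · rw [hfin.encard_eq_coe_toFinset_card] at h
    have h1 : ((hfin.toFinset.card : ℕ) : ENNReal) ≤ ENNReal.ofReal B := by
      simpa only [ENat.toENNReal_coe] using h
    rw [← ENNReal.ofReal_natCast, ENNReal.ofReal_le_ofReal_iff hB] at h1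
    exact h1
  · intro x hx
    obtain ⟨c, hc, hd⟩ := C.2 hx
    refine Set.mem_iUnion₂.2 ⟨c, hfin.mem_toFinset.2 hc, ?_⟩
    have h1 : edist x c ≤ (δ.toNNReal : ENNReal) := hd
    rw [edist_nndist, ENNReal.coe_le_coe] at h1
    have h2 : (nndist x c : ℝ) ≤ (δ.toNNReal : ℝ) := by exact_mod_cast h1
    rwa [coe_nndist, Real.coe_toNNReal _ hδ] at h2

theorem isLn_toLine {m : ℕ} (a e : EuclideanSpace ℝ (Fin (m + 1))) (he : ‖e‖ = 1) :
    IsLn (toLine a e) a e := by
  constructor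
  · intro u
    exact Submodule.starProjection_unit_singleton ℝ he u
  · show a - (Submodule.span ℝ {e}).starProjection a = _
    rw [Submodule.starProjection_unit_singleton ℝ he]

/-- the near-sticky theorem -/
theorem nearSticky_of {n : ℕ} (hn : 2 ≤ n) (h : HausNorm (n - 1)) : NearSticky n := by
  obtain ⟨m, rfl⟩ : ∃ m, n = m + 1 := ⟨n - 1, by omega⟩
  simp only [Nat.add_sub_cancel] at h
  intro ε hε
  obtain ⟨η, hη, hmain⟩ := h ε hε
  refine ⟨η / 2, by (clear * - hη; positivity), fun K a hK hp => ?_⟩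
  have h1 : packingDim {p | ∃ e : EuclideanSpace ℝ (Fin (m + 1)), ‖e‖ = 1 ∧
      p = toLine (a e) e} < (((m : ℝ) + η : ℝ) : EReal) := by
    refine hp.trans_lt (EReal.coe_lt_coe_iff.2 ?_)
    push_cast
    linarith only [hη]
  unfold packingDim at h1
  simp only [iInf_lt_iff] at h1
  obtain ⟨S, hS, hSd⟩ := h1
  obtain ⟨K', Y, x, hdim, hY, hx, hvol, hK', hcells⟩ := red hK
    (l := fun e => toLine (a e) e) (fun e he => isLn_toLine (a e) e he) (S := S)
    (fun e he => Set.mem_iUnion.1 (hS ⟨e, he, rfl⟩)) (η := η) (fun i => by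
      obtain ⟨C, hC, hcov⟩ := cov_le_of_upper
        ((le_iSup (fun i => upperMinkowskiDim (S i)) i).trans_lt hSd)
      refine ⟨C, fun s => ?_⟩
      exact exists_finite_cover (by (clear * -; positivity)) (by (clear * - hC; positivity)) (hcov s))
  have h2 := hmain K' Y x hY hx hvol hK' hcells
  refine le_trans (le_of_eq ?_) (h2.trans hdim)
  congr 1
  push_cast
  ring

/-- the sticky case -/
theorem dimH_of_nearSticky {n : ℕ} (h : NearSticky n) {K : Set (EuclideanSpace ℝ (Fin n))}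
    (hK : IsStickyKakeya K) : dimH K = n := by
  refine le_antisymm ?_ ?_
  · refine (dimH_mono (Set.subset_univ K)).trans (le_of_eq ?_)
    rw [Real.dimH_univ_eq_finrank, finrank_euclideanSpace, Fintype.card_fin]
  · obtain ⟨a, ha, hp⟩ := hK
    refine le_of_forall_lt_imp_le_of_dense fun b hb => ?_
    have hbt : b ≠ ⊤ := hb.ne_top
    obtain ⟨r, rfl⟩ : ∃ r : NNReal, b = r := ⟨b.toNNReal, (ENNReal.coe_toNNReal hbt).symm⟩
    have hr : (r : ℝ) < n := by
      have : r < (n : NNReal) := by exact_mod_cast hb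
      exact_mod_cast this
    obtain ⟨η, hη, hmain⟩ := h (n - r) (by linarith only [hr])
    have h1 := hmain K a ha (hp.trans (EReal.coe_le_coe_iff.2 (by linarith only [hη])))
    refine le_trans (le_of_eq ?_) h1
    rw [sub_sub_cancel, ENNReal.ofReal_coe_nnreal]

end Vale.Agent.P127.Stk
end

section

/-!
# P127 / Stk : the final theorems from the entropic lower bound `LB GrP m m`
-/

namespace Vale.Agent.P127.Stk

open MeasureTheory Vale.Agent.P127

/-- the selection lemma, in the form used by `haus_norm` -/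
theorem selProp : SelProp := fun N p hN hp B hB T hT hcov => sel N p hN hp B hB T hT hcov

/-- the normalised Hausdorff theorem from the entropic lower bound -/
theorem hausNorm_of {m : ℕ} (hLB : LB GrP m m) : HausNorm m := by
  intro ε0 hε
  obtain ⟨η, hη, h⟩ := haus_norm selProp hLB hε
  exact ⟨η, hη, h⟩

/-- the near-sticky theorem from the entropic lower bound -/
theorem nearSticky_of_LB (hLB : ∀ m : ℕ, LB GrP m m) (n : ℕ) (hn : 2 ≤ n) : NearSticky n :=
  nearSticky_of hn (hausNorm_of (hLB (n - 1)))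

/-- the Hausdorff dimension of sticky Kakeya sets, from the entropic lower bound -/
theorem dimH_of_LB (hLB : ∀ m : ℕ, LB GrP m m) (n : ℕ) (hn : 2 ≤ n)
    (K : Set (EuclideanSpace ℝ (Fin n))) (hK : IsStickyKakeya K) : dimH K = n :=
  dimH_of_nearSticky (nearSticky_of_LB hLB n hn) hK

end Vale.Agent.P127.Stk
end
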