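import Vale.Agent.P127.Bdl.B1

set_option linter.all false

section

/-!
# P127 / Stk : section 6, the displacement argument
-/

namespace Vale.Agent.P127.Stk.Bs

open Finset Vale.Agent.P127 Vale.Agent.P127.Stk

variable {m : ℕ} {Ω : Type} [Fintype Ω] {τ α : Type*}

/-- the data of the displacement argument, on the support of the law `Q` -/
structure DD (Q : Law Ω) (κ : ℕ) (x y : Ω → Fin m → ℝ) (t0 t1 : Ω → ℝ)
    (g0 g1 : Ω → Fin m → Fin m → ℝ) (T : Ω → τ) (J : Finset (Fin m)) (i0 j0 : Fin m)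
    (a β W : ℕ) : Prop where
  card : J.card = κ
  hi0 : i0 ∉ J
  hj0 : j0 ∈ J
  hx : ∀ w, 0 < Q.w w → ∀ i, 0 ≤ x w i ∧ x w i < 1
  hy : ∀ w, 0 < Q.w w → ∀ i, 0 ≤ y w i ∧ y w i < 1
  ht0 : ∀ w, 0 < Q.w w → 0 ≤ t0 w ∧ t0 w < 1
  ht1 : ∀ w, 0 < Q.w w → 0 ≤ t1 w ∧ t1 w < 1
  htt : ∀ w, 0 < Q.w w → |t0 w - t1 w| ≤ (1 / 2 : ℝ) ^ a
  hg0 : ∀ w, 0 < Q.w w → ∀ i j, |g0 w i j| ≤ 3 ^ κ
  hg1 : ∀ w, 0 < Q.w w → ∀ i j, |g1 w i j| ≤ 3 ^ κ
  hmx : ∀ w, 0 < Q.w w → ∀ i, i ∉ J → |g1 w i j0 - g0 w i j0| ≤ |g1 w i0 j0 - g0 w i0 j0|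
  hup : ∀ w, 0 < Q.w w → |g1 w i0 j0 - g0 w i0 j0| ≤ (2 * 3 ^ κ) * (1 / 2 : ℝ) ^ β
  hlo : ∀ w, 0 < Q.w w → (1 / 2 : ℝ) ^ (β + W) ≤ |g1 w i0 j0 - g0 w i0 j0|
  hfn : Fn Q (fun w => (t0 w, t1 w, g0 w, g1 w)) T

/-- the point at the time `t` -/
def pnt (x y : Ω → Fin m → ℝ) (t : Ω → ℝ) (w : Ω) : Fin m → ℝ := fun i => x w i + t w * y w i

open Classical in
/-- the normalised direction -/
noncomputable def vv (g0 g1 : Ω → Fin m → Fin m → ℝ) (J : Finset (Fin m)) (i0 j0 : Fin m)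
    (w : Ω) : Fin m → ℝ := fun i =>
  if i ∈ J then 0 else (g1 w i j0 - g0 w i j0) / (g1 w i0 j0 - g0 w i0 j0)

open Classical in
/-- the direction of the displacement -/
noncomputable def dv (g1 : Ω → Fin m → Fin m → ℝ) (J : Finset (Fin m)) (j0 : Fin m)
    (w : Ω) : Fin m → ℝ := fun i => if i ∈ J then (if i = j0 then 1 else 0) else g1 w i j0

open Classical in
/-- the projected displacement -/
noncomputable def Dv (g0 g1 : Ω → Fin m → Fin m → ℝ) (J : Finset (Fin m)) (j0 : Fin m)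
    (w : Ω) : Fin m → ℝ := fun i => if i ∈ J then 0 else g1 w i j0 - g0 w i j0

/-- the projected point -/
noncomputable def FF (x y : Ω → Fin m → ℝ) (t : Ω → ℝ) (g : Ω → Fin m → Fin m → ℝ)
    (J : Finset (Fin m)) (w : Ω) : Fin m → ℝ := ap J (g w) (pnt x y t w)

/-- the size of the displacement -/
noncomputable def mu (L : ℕ) (p : Ω × Fin (2 ^ L)) : ℝ := ((p.2 : ℕ) : ℝ) / ((2 ^ L : ℕ) : ℝ)

/-- the displaced point -/
noncomputable def cpt (L : ℕ) (x y : Ω → Fin m → ℝ) (t : Ω → ℝ) (g1 : Ω → Fin m → Fin m → ℝ)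
    (J : Finset (Fin m)) (j0 : Fin m) (p : Ω × Fin (2 ^ L)) : Fin m → ℝ := fun i =>
  pnt x y t p.1 i + mu L p * dv g1 J j0 p.1 i

/-- the displaced projected point -/
noncomputable def Yt (L : ℕ) (x y : Ω → Fin m → ℝ) (t : Ω → ℝ)
    (g0 g1 : Ω → Fin m → Fin m → ℝ)
    (J : Finset (Fin m)) (j0 : Fin m) (p : Ω × Fin (2 ^ L)) : Fin m → ℝ := fun i =>
  FF x y t g0 J p.1 i + mu L p * Dv g0 g1 J j0 p.1 i

open Classical in
/-- the coordinates in `J` -/
noncomputable def cJt (L : ℕ) (x y : Ω → Fin m → ℝ) (t : Ω → ℝ) (g1 : Ω → Fin m → Fin m → ℝ)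
    (J : Finset (Fin m)) (j0 : Fin m) (p : Ω × Fin (2 ^ L)) : Fin m → ℝ := fun i =>
  if i ∈ J then cpt L x y t g1 J j0 p i else 0

/-- the final projection -/
noncomputable def ZZ (x y : Ω → Fin m → ℝ) (t : Ω → ℝ) (g0 g1 : Ω → Fin m → Fin m → ℝ)
    (J : Finset (Fin m)) (i0 j0 : Fin m) (w : Ω) : Fin m → ℝ := fun i =>
  FF x y t g0 J w i - FF x y t g0 J w i0 * vv g0 g1 J i0 j0 w i

/-- the constant in the closeness estimates -/
def NN (κ : ℕ) : ℕ := 10 * (κ + 1) * 3 ^ κ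

theorem NN_eq (κ : ℕ) : (NN κ : ℝ) = 10 * (κ * 3 ^ κ) + 10 * 3 ^ κ := by
  unfold NN
  push_cast
  ring

theorem pow3 (κ : ℕ) : (1 : ℝ) ≤ 3 ^ κ := one_le_pow₀ (by norm_num)

theorem NN_mul (κ : ℕ) {δ A B : ℝ} (hδ : 0 ≤ δ) (hA : 0 ≤ A) (hB : 0 ≤ B) (hA' : A ≤ 10)
    (hB' : B ≤ 10) : (A * (κ * 3 ^ κ) + B * 3 ^ κ) * δ ≤ (NN κ : ℝ) * δ := by
  rw [NN_eq]
  refine mul_le_mul_of_nonneg_right ?_ hδ
  have h1 : (0 : ℝ) ≤ κ * 3 ^ κ := by (clear * -; positivity)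
  have h2 := pow3 κ
  nlinarith only [hB', hA', h1, h2]

theorem one_NN (κ : ℕ) {δ : ℝ} (hδ : 0 ≤ δ) : δ ≤ (NN κ : ℝ) * δ := by
  have h1 := NN_mul κ hδ (le_refl (0 : ℝ)) zero_le_one (by norm_num) (by norm_num)
  have h2 := pow3 κ
  refine le_trans ?_ h1
  nlinarith only [hδ, h2]

variable {Q : Law Ω} {κ : ℕ} {x y : Ω → Fin m → ℝ} {t0 t1 : Ω → ℝ}
    {g0 g1 : Ω → Fin m → Fin m → ℝ} {T : Ω → τ} {J : Finset (Fin m)} {i0 j0 : Fin m}
    {a β W L : ℕ}

theorem mu0 (p : Ω × Fin (2 ^ L)) : 0 ≤ mu L p := by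
  unfold mu
  (clear * -; positivity)

theorem mu1 (p : Ω × Fin (2 ^ L)) : mu L p ≤ 1 := by
  unfold mu
  have hMr : (0 : ℝ) < ((2 ^ L : ℕ) : ℝ) := by positivity
  rw [div_le_one hMr]
  exact_mod_cast p.2.2.le

namespace DD

theorem hT (h : DD Q κ x y t0 t1 g0 g1 T J i0 j0 a β W) {w w' : Ω} (hw : 0 < Q.w w)
    (hw' : 0 < Q.w w') (hT : T w = T w') :
    t0 w = t0 w' ∧ t1 w = t1 w' ∧ g0 w = g0 w' ∧ g1 w = g1 w' := by
  have := h.hfn w w' hw hw' hT
  simpa only [Prod.mk.injEq] using this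

theorem hdT (h : DD Q κ x y t0 t1 g0 g1 T J i0 j0 a β W) {w w' : Ω} (hw : 0 < Q.w w)
    (hw' : 0 < Q.w w') (hT : T w = T w') : dv g1 J j0 w = dv g1 J j0 w' := by
  obtain ⟨_, _, _, h4⟩ := h.hT hw hw' hT
  unfold dv
  rw [h4]

theorem hDT (h : DD Q κ x y t0 t1 g0 g1 T J i0 j0 a β W) {w w' : Ω} (hw : 0 < Q.w w)
    (hw' : 0 < Q.w w') (hT : T w = T w') : Dv g0 g1 J j0 w = Dv g0 g1 J j0 w' := by
  obtain ⟨_, _, h3, h4⟩ := h.hT hw hw' hT
  unfold Dv
  rw [h3, h4]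

theorem hvT (h : DD Q κ x y t0 t1 g0 g1 T J i0 j0 a β W) {w w' : Ω} (hw : 0 < Q.w w)
    (hw' : 0 < Q.w w') (hT : T w = T w') : vv g0 g1 J i0 j0 w = vv g0 g1 J i0 j0 w' := by
  obtain ⟨_, _, h3, h4⟩ := h.hT hw hw' hT
  unfold vv
  rw [h3, h4]

theorem hD0 (h : DD Q κ x y t0 t1 g0 g1 T J i0 j0 a β W) {w : Ω} (hw : 0 < Q.w w) :
    g1 w i0 j0 - g0 w i0 j0 ≠ 0 := by
  intro h0
  have h1 := h.hlo w hw
  rw [h0, abs_zero] at h1
  have : (0 : ℝ) < (1 / 2 : ℝ) ^ (β + W) := by (clear * -; positivity)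
  linarith only [h1, this]

theorem Dv_i0 (h : DD Q κ x y t0 t1 g0 g1 T J i0 j0 a β W) (w : Ω) :
    Dv g0 g1 J j0 w i0 = g1 w i0 j0 - g0 w i0 j0 := by
  simp [Dv, h.hi0]

theorem hDv (h : DD Q κ x y t0 t1 g0 g1 T J i0 j0 a β W) {w : Ω} (hw : 0 < Q.w w) (i : Fin m) :
    Dv g0 g1 J j0 w i = Dv g0 g1 J j0 w i0 * vv g0 g1 J i0 j0 w i := by
  have h0 := h.hD0 hw
  rw [h.Dv_i0]
  by_cases hi : i ∈ J
  · simp [Dv, vv, hi]
  · simp only [Dv, vv, if_neg hi]
    rw [mul_div_cancel₀ _ h0]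

theorem hv1 (h : DD Q κ x y t0 t1 g0 g1 T J i0 j0 a β W) {w : Ω} (hw : 0 < Q.w w) (i : Fin m) :
    |vv g0 g1 J i0 j0 w i| ≤ 1 := by
  have h0 := h.hD0 hw
  by_cases hi : i ∈ J
  · simp only [vv, hi, ↓reduceIte, abs_zero, zero_le_one]
  · simp only [vv, if_neg hi, abs_div]
    rw [div_le_one (abs_pos.2 h0)]
    exact h.hmx w hw i hi

theorem hDβ (h : DD Q κ x y t0 t1 g0 g1 T J i0 j0 a β W) {w : Ω} (hw : 0 < Q.w w) (i : Fin m) :
    |Dv g0 g1 J j0 w i| ≤ (2 * 3 ^ κ) * (1 / 2 : ℝ) ^ β := by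
  by_cases hi : i ∈ J
  · simp only [Dv, if_pos hi, abs_zero]
    positivity
  · simp only [Dv, if_neg hi]
    exact (h.hmx w hw i hi).trans (h.hup w hw)

theorem hgd (h : DD Q κ x y t0 t1 g0 g1 T J i0 j0 a β W) (g : Fin m → Fin m → ℝ) (w : Ω)
    {i : Fin m} (hi : i ∉ J) : ap J g (dv g1 J j0 w) i = g1 w i j0 - g i j0 := by
  classical
  rw [ap_nmem _ _ hi]
  have : ∑ j ∈ J, g i j * dv g1 J j0 w j = g i j0 := by
    rw [Finset.sum_eq_single j0]
    · simp [dv, h.hj0]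
    · intro j hj hjj
      simp [dv, hj, hjj]
    · intro hcon
      exact absurd h.hj0 hcon
  rw [this]
  simp [dv, hi]

theorem hg1d (h : DD Q κ x y t0 t1 g0 g1 T J i0 j0 a β W) (w : Ω) (i : Fin m) :
    ap J (g1 w) (dv g1 J j0 w) i = 0 := by
  by_cases hi : i ∈ J
  · exact ap_mem _ _ hi
  · rw [h.hgd _ _ hi, sub_self]

theorem hYZ (h : DD Q κ x y t0 t1 g0 g1 T J i0 j0 a β W) {p : Ω × Fin (2 ^ L)}
    (hp : 0 < Q.w p.1) (i : Fin m) : ZZ x y t0 g0 g1 J i0 j0 p.1 i =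
      Yt L x y t0 g0 g1 J j0 p i - Yt L x y t0 g0 g1 J j0 p i0 * vv g0 g1 J i0 j0 p.1 i := by
  simp only [Yt, ZZ]
  have h1 := h.hDv hp i
  rw [h1]
  ring

theorem hY0 (h : DD Q κ x y t0 t1 g0 g1 T J i0 j0 a β W) (p : Ω × Fin (2 ^ L)) (i : Fin m) :
    Yt L x y t0 g0 g1 J j0 p i = ap J (g0 p.1) (cpt L x y t0 g1 J j0 p) i := by
  have h1 : ap J (g0 p.1) (cpt L x y t0 g1 J j0 p) i =
      ap J (g0 p.1) (pnt x y t0 p.1) i + mu L p * ap J (g0 p.1) (dv g1 J j0 p.1) i := by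
    unfold cpt
    rw [ap_add J (g0 p.1) (pnt x y t0 p.1) (fun i => mu L p * dv g1 J j0 p.1 i) i, ap_smul]
  rw [h1]
  simp only [Yt, FF]
  congr 2
  by_cases hi : i ∈ J
  · rw [ap_mem _ _ hi]
    simp [Dv, hi]
  · rw [h.hgd _ _ hi]
    simp [Dv, hi]

variable (A : Ω → α)

theorem hpos {p : Ω × Fin (2 ^ L)} (hp : 0 < (pu Q (2 ^ L) (Nat.two_pow_pos L)).w p) :
    0 < Q.w p.1 := (pu_pos Q (2 ^ L) _).1 hp

/-- the displaced point given the displacement -/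
theorem sA1 (h : DD Q κ x y t0 t1 g0 g1 T J i0 j0 a β W) :
    hc Q (fun w => fl a (pnt x y t0 w)) (fun w => (T w, A w)) - m * Real.log (2 * NN κ + 3) ≤
      hc (pu Q (2 ^ L) (Nat.two_pow_pos L)) (fun p => fl a (cpt L x y t0 g1 J j0 p))
        (fun p => (p.2, T p.1, A p.1)) := by
  have hM := Nat.two_pow_pos L
  rw [← pu_hc_cond Q (2 ^ L) hM (fun w => fl a (pnt x y t0 w)) (fun w => (T w, A w))]
  have h1 := hc_le_add (pu Q (2 ^ L) hM) (fun p => fl a (pnt x y t0 p.1))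
    (fun p => fl a (cpt L x y t0 g1 J j0 p)) (fun p => (p.2, T p.1, A p.1))
  have h2 := hc_fl_diam (pu Q (2 ^ L) hM) a (NN κ) (fun p => pnt x y t0 p.1)
    (fun p => (fl a (cpt L x y t0 g1 J j0 p), p.2, T p.1, A p.1)) ?_
  · rw [Fintype.card_fin] at h2
    linarith only [h1, h2]
  · intro p p' hp hp' hpp i
    simp only [Prod.mk.injEq] at hpp
    obtain ⟨e1, e2, e3, _⟩ := hpp
    have h4 := fl_close e1 i
    have h5 : mu L p = mu L p' := by simp only [mu, e2]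
    have h6 := h.hdT (hpos hp) (hpos hp') e3
    have h7 : pnt x y t0 p.1 i - pnt x y t0 p'.1 i =
        cpt L x y t0 g1 J j0 p i - cpt L x y t0 g1 J j0 p' i := by
      simp only [cpt, h5, h6]
      ring
    rw [h7]
    exact h4.trans (one_NN κ (by positivity))

theorem cJt_H (h : DD Q κ x y t0 t1 g0 g1 T J i0 j0 a β W) :
    hc (pu Q (2 ^ L) (Nat.two_pow_pos L)) (fun p => fl a (cJt L x y t0 g1 J j0 p))
      (fun p => (fl a (FF x y t1 g1 J p.1), T p.1, A p.1)) ≤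
      κ * (a * Real.log 2 + Real.log 3) := by
  classical
  have h1 := hc_le_log (pu Q (2 ^ L) (Nat.two_pow_pos L)) (fun p => fl a (cJt L x y t0 g1 J j0 p))
    (fun p => (fl a (FF x y t1 g1 J p.1), T p.1, A p.1))
    ((3 * 2 ^ a) ^ κ) ?_
  · refine h1.trans (le_of_eq ?_)
    push_cast
    rw [Real.log_pow, Real.log_mul (by norm_num) (by positivity), Real.log_pow]
    ring
  · intro p hp
    refine ⟨Fintype.piFinset fun i =>
      if i ∈ J then Finset.Ico (0 : ℤ) ((3 * 2 ^ a : ℕ) : ℤ) else {0}, ?_, ?_⟩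
    · rw [Fintype.card_piFinset]
      have h2 : ∀ i, (if i ∈ J then Finset.Ico (0 : ℤ) ((3 * 2 ^ a : ℕ) : ℤ) else {0}).card =
          if i ∈ J then 3 * 2 ^ a else 1 := by
        intro i
        split_ifs
        · rw [Int.card_Ico, sub_zero, Int.toNat_natCast]
        · simp
      simp only [h2]
      rw [Finset.prod_ite_mem, Finset.univ_inter, Finset.prod_const, h.card]
    · intro p' hp' _
      rw [Fintype.mem_piFinset]
      intro i
      by_cases hi : i ∈ J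
      · have hx := h.hx p'.1 (hpos hp') i
        have hy := h.hy p'.1 (hpos hp') i
        have ht := h.ht0 p'.1 (hpos hp')
        have hm0 := mu0 p'
        have hm1 := mu1 p'
        have h3 : 0 ≤ dv g1 J j0 p'.1 i ∧ dv g1 J j0 p'.1 i ≤ 1 := by
          simp only [dv, if_pos hi]
          split_ifs <;> norm_num
        have h4 : 0 ≤ cpt L x y t0 g1 J j0 p' i ∧ cpt L x y t0 g1 J j0 p' i < 3 := by
          simp only [cpt, pnt]
          constructor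
          · have := mul_nonneg ht.1 hy.1
            have := mul_nonneg hm0 h3.1
            (clear hp hm1; linarith)
          · have := mul_le_mul ht.2.le hy.2.le hy.1 zero_le_one
            have := mul_le_mul hm1 h3.2 h3.1 zero_le_one
            linarith
        rw [if_pos hi, Finset.mem_Ico]
        simp only [fl, cJt, if_pos hi]
        constructor
        · exact Int.floor_nonneg.2 (mul_nonneg (by positivity) h4.1)
        · rw [Int.floor_lt]
          push_cast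
          have : (0 : ℝ) < 2 ^ a := by positivity
          nlinarith only [h4, this]
      · simp only [hi, ↓reduceIte, fl, cJt, mul_zero, Int.floor_zero, mem_singleton]

theorem key1 (h : DD Q κ x y t0 t1 g0 g1 T J i0 j0 a β W) {p : Ω × Fin (2 ^ L)}
    (hp : 0 < Q.w p.1) {i : Fin m} (hi : i ∉ J) :
    ∃ r : ℝ, |r| ≤ (1 + κ * 3 ^ κ) * (1 / 2 : ℝ) ^ a ∧
        cpt L x y t0 g1 J j0 p i = FF x y t1 g1 J p.1 i + r +
          ∑ j ∈ J, g1 p.1 i j * cpt L x y t0 g1 J j0 p j := by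
  have hy := h.hy p.1 hp
  refine ⟨ap J (g1 p.1) (fun i => (t0 p.1 - t1 p.1) * y p.1 i) i, ?_, ?_⟩
  · have := ap_le (J := J) (g := g1 p.1) (v := fun i => (t0 p.1 - t1 p.1) * y p.1 i)
      (G := 3 ^ κ) (M := (1 / 2 : ℝ) ^ a) (by positivity) (by positivity) (h.hg1 p.1 hp) ?_ i
    · rwa [h.card] at this
    · intro i
      rw [abs_mul, abs_of_nonneg (hy i).1]
      have h1 := h.htt p.1 hp
      have h2 := abs_nonneg (t0 p.1 - t1 p.1)
      have h3 := (hy i).2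
      have h4 := (hy i).1
      nlinarith
  · have h1 : ap J (g1 p.1) (cpt L x y t0 g1 J j0 p) i = cpt L x y t0 g1 J j0 p i -
        ∑ j ∈ J, g1 p.1 i j * cpt L x y t0 g1 J j0 p j := ap_nmem _ _ hi
    have h2 : ap J (g1 p.1) (cpt L x y t0 g1 J j0 p) i = ap J (g1 p.1) (pnt x y t0 p.1) i := by
      unfold cpt
      rw [ap_add J (g1 p.1) (pnt x y t0 p.1) (fun i => mu L p * dv g1 J j0 p.1 i) i, ap_smul,
        h.hg1d, mul_zero, add_zero]
    have h3 : ap J (g1 p.1) (pnt x y t0 p.1) i = FF x y t1 g1 J p.1 i +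
        ap J (g1 p.1) (fun i => (t0 p.1 - t1 p.1) * y p.1 i) i := by
      unfold FF
      rw [← ap_add]
      congr 1
      funext i
      simp only [pnt]
      ring
    linarith

theorem key2 (h : DD Q κ x y t0 t1 g0 g1 T J i0 j0 a β W) {p p' : Ω × Fin (2 ^ L)}
    (hp : 0 < Q.w p.1) (hp' : 0 < Q.w p'.1)
    (q1 : fl a (FF x y t1 g1 J p.1) = fl a (FF x y t1 g1 J p'.1))
    (q2 : fl a (cJt L x y t0 g1 J j0 p) = fl a (cJt L x y t0 g1 J j0 p'))
    (q3 : T p.1 = T p'.1) (i : Fin m) :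
    |cpt L x y t0 g1 J j0 p i - cpt L x y t0 g1 J j0 p' i| ≤ NN κ * (1 / 2 : ℝ) ^ a := by
  classical
  have hδa : (0 : ℝ) < (1 / 2 : ℝ) ^ a := by positivity
  have hJc : ∀ j ∈ J, |cpt L x y t0 g1 J j0 p j - cpt L x y t0 g1 J j0 p' j| ≤
      (1 / 2 : ℝ) ^ a := by
    intro j hj
    have := fl_close q2 j
    simpa only [cJt, if_pos hj] using this
  by_cases hi : i ∈ J
  · exact (hJc i hi).trans (one_NN κ hδa.le)
  · obtain ⟨r, hr, hr'⟩ := h.key1 (p := p) hp hi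
    obtain ⟨r', hr1, hr1'⟩ := h.key1 (p := p') hp' hi
    have hg : g1 p'.1 = g1 p.1 := (h.hT hp' hp q3.symm).2.2.2
    rw [hg] at hr1'
    have h1 : cpt L x y t0 g1 J j0 p i - cpt L x y t0 g1 J j0 p' i =
        (FF x y t1 g1 J p.1 i - FF x y t1 g1 J p'.1 i) + r - r' +
        ∑ j ∈ J, g1 p.1 i j * (cpt L x y t0 g1 J j0 p j - cpt L x y t0 g1 J j0 p' j) := by
      rw [hr', hr1']
      simp only [mul_sub, Finset.sum_sub_distrib]
      ring
    have h2 : |∑ j ∈ J, g1 p.1 i j * (cpt L x y t0 g1 J j0 p j - cpt L x y t0 g1 J j0 p' j)| ≤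
        J.card * (3 ^ κ * (1 / 2 : ℝ) ^ a) := by
      refine (Finset.abs_sum_le_sum_abs _ _).trans ?_
      rw [← nsmul_eq_mul]
      refine Finset.sum_le_card_nsmul _ _ _ fun j hj => ?_
      rw [abs_mul]
      exact mul_le_mul (h.hg1 p.1 hp i j) (hJc j hj) (abs_nonneg _) (by positivity)
    rw [h.card] at h2
    have h3' := fl_close q1 i
    rw [h1]
    have h4 : ∀ u r r' s : ℝ, |u + r - r' + s| ≤ |u| + |r| + |r'| + |s| := by
      intro u r r' s
      refine (abs_add_le _ _).trans ?_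
      have := abs_sub (u + r) r'
      have := abs_add_le u r
      linarith
    refine (h4 _ _ _ _).trans ?_
    refine le_trans ?_ (NN_mul κ hδa.le (by norm_num : (0 : ℝ) ≤ 3) (by norm_num : (0 : ℝ) ≤ 3)
      (by norm_num) (by norm_num))
    have h5 := pow3 κ
    (clear * - hr hr1 h2 h3' hδa h5; nlinarith)

/-- the displaced point has small entropy -/
theorem sA2 (h : DD Q κ x y t0 t1 g0 g1 T J i0 j0 a β W) :
    hc (pu Q (2 ^ L) (Nat.two_pow_pos L)) (fun p => fl a (cpt L x y t0 g1 J j0 p))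
        (fun p => (T p.1, A p.1)) ≤
      hc Q (fun w => fl a (FF x y t1 g1 J w)) (fun w => (T w, A w)) +
        κ * (a * Real.log 2 + Real.log 3) + m * Real.log (2 * NN κ + 3) := by
  have hM := Nat.two_pow_pos L
  have e1 := hc_le_add (pu Q (2 ^ L) hM) (fun p => fl a (cpt L x y t0 g1 J j0 p))
    (fun p => (fl a (FF x y t1 g1 J p.1), fl a (cJt L x y t0 g1 J j0 p)))
    (fun p => (T p.1, A p.1))
  have e2 := hc_pair (pu Q (2 ^ L) hM) (fun p => fl a (FF x y t1 g1 J p.1))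
    (fun p => fl a (cJt L x y t0 g1 J j0 p)) (fun p => (T p.1, A p.1))
  have e3 : hc (pu Q (2 ^ L) hM) (fun p => fl a (FF x y t1 g1 J p.1))
      (fun p => (T p.1, A p.1)) =
      hc Q (fun w => fl a (FF x y t1 g1 J w)) (fun w => (T w, A w)) :=
    pu_hc_fst Q (2 ^ L) hM (fun w => fl a (FF x y t1 g1 J w)) (fun w => (T w, A w))
  have e4 := h.cJt_H (L := L) A
  have e5 := hc_fl_diam (pu Q (2 ^ L) hM) a (NN κ) (cpt L x y t0 g1 J j0)
    (fun p => ((fl a (FF x y t1 g1 J p.1), fl a (cJt L x y t0 g1 J j0 p)), T p.1, A p.1)) ?_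
  · rw [Fintype.card_fin] at e5
    linarith only [e1, e2, e3, e4, e5]
  · intro p p' hp hp' hpp i
    simp only [Prod.mk.injEq] at hpp
    obtain ⟨⟨q1, q2⟩, q3, _⟩ := hpp
    exact h.key2 (hpos hp) (hpos hp') q1 q2 q3 i

/-- the displaced projected point has small entropy -/
theorem sB (h : DD Q κ x y t0 t1 g0 g1 T J i0 j0 a β W) :
    hc (pu Q (2 ^ L) (Nat.two_pow_pos L)) (fun p => fl a (Yt L x y t0 g0 g1 J j0 p))
      (fun p => (T p.1, A p.1)) ≤
      hc Q (fun w => fl a (FF x y t0 g0 J w)) (fun w => (T w, A w)) +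
      (hc (pu Q (2 ^ L) (Nat.two_pow_pos L)) (fun p => fl a (cpt L x y t0 g1 J j0 p))
        (fun p => (T p.1, A p.1)) -
        hc (pu Q (2 ^ L) (Nat.two_pow_pos L)) (fun p => fl a (cpt L x y t0 g1 J j0 p))
        (fun p => (p.2, T p.1, A p.1))) + 2 * (m * Real.log (2 * NN κ + 3)) := by
  have hM := Nat.two_pow_pos L
  set Q2 := pu Q (2 ^ L) hM with hQ2
  have b1 := mi_mono_right Q2 (fun p : Ω × Fin (2 ^ L) => p.2)
    (Y := fun p => fl a (Yt L x y t0 g0 g1 J j0 p))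
    (Y' := fun p => (fl a (cpt L x y t0 g1 J j0 p), fl a (Yt L x y t0 g0 g1 J j0 p)))
    (Z := fun p => (T p.1, A p.1)) (by
      intro p p' _ _ hpp
      simp only [Prod.mk.injEq] at hpp
      exact hpp.1.2)
  have b2 := mi_pair Q2 (fun p : Ω × Fin (2 ^ L) => p.2)
    (fun p => fl a (cpt L x y t0 g1 J j0 p))
    (fun p => fl a (Yt L x y t0 g0 g1 J j0 p)) (fun p => (T p.1, A p.1))
  have b3 := mi_le_hc' Q2 (fun p : Ω × Fin (2 ^ L) => p.2)
    (fun p => fl a (Yt L x y t0 g0 g1 J j0 p))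
    (fun p => (fl a (cpt L x y t0 g1 J j0 p), T p.1, A p.1))
  have b4 := hc_fl_diam Q2 a (NN κ) (Yt L x y t0 g0 g1 J j0)
    (fun p => (fl a (cpt L x y t0 g1 J j0 p), T p.1, A p.1)) ?_
  · have b5 := mi_symm Q2 (fun p : Ω × Fin (2 ^ L) => p.2)
      (fun p => fl a (cpt L x y t0 g1 J j0 p)) (fun p => (T p.1, A p.1))
    have b6 := mi_symm Q2 (fun p : Ω × Fin (2 ^ L) => p.2)
      (fun p => fl a (Yt L x y t0 g0 g1 J j0 p)) (fun p => (T p.1, A p.1))
    have b5' : mi Q2 (fun p => fl a (cpt L x y t0 g1 J j0 p))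
        (fun p : Ω × Fin (2 ^ L) => p.2) (fun p => (T p.1, A p.1)) =
        hc Q2 (fun p => fl a (cpt L x y t0 g1 J j0 p)) (fun p => (T p.1, A p.1)) -
        hc Q2 (fun p => fl a (cpt L x y t0 g1 J j0 p)) (fun p => (p.2, T p.1, A p.1)) := rfl
    have b6' : mi Q2 (fun p => fl a (Yt L x y t0 g0 g1 J j0 p))
        (fun p : Ω × Fin (2 ^ L) => p.2) (fun p => (T p.1, A p.1)) =
        hc Q2 (fun p => fl a (Yt L x y t0 g0 g1 J j0 p)) (fun p => (T p.1, A p.1)) -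
        hc Q2 (fun p => fl a (Yt L x y t0 g0 g1 J j0 p)) (fun p => (p.2, T p.1, A p.1)) := rfl
    have b7 := hc_le_add Q2 (fun p => fl a (Yt L x y t0 g0 g1 J j0 p))
      (fun p => fl a (FF x y t0 g0 J p.1)) (fun p => (p.2, T p.1, A p.1))
    have b8 : hc Q2 (fun p => fl a (FF x y t0 g0 J p.1)) (fun p => (p.2, T p.1, A p.1)) =
        hc Q (fun w => fl a (FF x y t0 g0 J w)) (fun w => (T w, A w)) :=
      pu_hc_cond Q (2 ^ L) hM (fun w => fl a (FF x y t0 g0 J w)) (fun w => (T w, A w))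
    have b9 := hc_fl_diam Q2 a (NN κ) (Yt L x y t0 g0 g1 J j0)
      (fun p => (fl a (FF x y t0 g0 J p.1), p.2, T p.1, A p.1)) ?_
    · rw [Fintype.card_fin] at b4 b9
      linarith
    · intro p p' hp hp' hpp i
      simp only [Prod.mk.injEq] at hpp
      obtain ⟨q1, q2, q3, _⟩ := hpp
      have h5 : mu L p = mu L p' := by simp only [mu, q2]
      have h6 := h.hDT (hpos hp) (hpos hp') q3
      have h7 : Yt L x y t0 g0 g1 J j0 p i - Yt L x y t0 g0 g1 J j0 p' i =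
          FF x y t0 g0 J p.1 i - FF x y t0 g0 J p'.1 i := by
        simp only [Yt, h5, h6]
        ring
      rw [h7]
      exact (fl_close q1 i).trans (one_NN κ (by positivity))
  · intro p p' hp hp' hpp i
    simp only [Prod.mk.injEq] at hpp
    obtain ⟨q1, q3, _⟩ := hpp
    have hg := (h.hT (hpos hp) (hpos hp') q3).2.2.1
    rw [h.hY0, h.hY0, ← hg, ← ap_sub]
    have := ap_le (J := J) (g := g0 p.1)
      (v := fun i => cpt L x y t0 g1 J j0 p i - cpt L x y t0 g1 J j0 p' i)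
      (G := 3 ^ κ) (M := (1 / 2 : ℝ) ^ a) (by positivity) (by positivity)
      (h.hg0 p.1 (hpos hp)) (fun i => fl_close q1 i) i
    refine this.trans ?_
    rw [h.card]
    refine le_trans ?_ (NN_mul κ (by positivity) (by norm_num : (0 : ℝ) ≤ 1)
      (by norm_num : (0 : ℝ) ≤ 1) (by norm_num) (by norm_num))
    refine mul_le_mul_of_nonneg_right ?_ (by positivity)
    have := pow3 κ
    linarith only [this]

/-- subtracting the first digits -/
theorem sC (h : DD Q κ x y t0 t1 g0 g1 T J i0 j0 a β W) (hβ : β ≤ a) :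
    hc (pu Q (2 ^ L) (Nat.two_pow_pos L)) (fun p => fl a (Yt L x y t0 g0 g1 J j0 p))
      (fun p => (fl β (FF x y t0 g0 J p.1), T p.1, A p.1)) ≤
      hc (pu Q (2 ^ L) (Nat.two_pow_pos L)) (fun p => fl a (Yt L x y t0 g0 g1 J j0 p))
      (fun p => (T p.1, A p.1)) + m * Real.log (2 * NN κ + 3) -
        hc Q (fun w => fl β (FF x y t0 g0 J w)) (fun w => (T w, A w)) := by
  have hM := Nat.two_pow_pos L
  set Q2 := pu Q (2 ^ L) hM with hQ2
  have hδ : (1 / 2 : ℝ) ^ a ≤ (1 / 2 : ℝ) ^ β :=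
    pow_le_pow_of_le_one (by norm_num) (by norm_num) hβ
  have c1 := hc_pair Q2 (fun p => fl β (FF x y t0 g0 J p.1))
    (fun p => fl a (Yt L x y t0 g0 g1 J j0 p)) (fun p => (T p.1, A p.1))
  have c2 := hc_pair Q2 (fun p => fl a (Yt L x y t0 g0 g1 J j0 p))
    (fun p => fl β (FF x y t0 g0 J p.1)) (fun p => (T p.1, A p.1))
  have c3 := hc_mono_left Q2
    (X := fun p => (fl β (FF x y t0 g0 J p.1), fl a (Yt L x y t0 g0 g1 J j0 p)))
    (X' := fun p => (fl a (Yt L x y t0 g0 g1 J j0 p), fl β (FF x y t0 g0 J p.1)))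
    (Y := fun p => (T p.1, A p.1)) (by
      intro p p' _ _ hpp
      simp only [Prod.mk.injEq] at hpp ⊢
      (clear * - hpp; tauto))
  have c5 : hc Q2 (fun p => fl β (FF x y t0 g0 J p.1)) (fun p => (T p.1, A p.1)) =
      hc Q (fun w => fl β (FF x y t0 g0 J w)) (fun w => (T w, A w)) :=
    pu_hc_fst Q (2 ^ L) hM (fun w => fl β (FF x y t0 g0 J w)) (fun w => (T w, A w))
  have c4 := hc_fl_diam Q2 β (NN κ) (fun p => FF x y t0 g0 J p.1)
    (fun p => (fl a (Yt L x y t0 g0 g1 J j0 p), T p.1, A p.1)) ?_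
  · rw [Fintype.card_fin] at c4
    linarith only [c1, c2, c3, c5, c4]
  · intro p p' hp hp' hpp i
    simp only [Prod.mk.injEq] at hpp
    obtain ⟨q1, q3, _⟩ := hpp
    have h6 := h.hDT (hpos hp) (hpos hp') q3
    have h7 : FF x y t0 g0 J p.1 i - FF x y t0 g0 J p'.1 i =
        (Yt L x y t0 g0 g1 J j0 p i - Yt L x y t0 g0 g1 J j0 p' i) -
        (mu L p - mu L p') * Dv g0 g1 J j0 p.1 i := by
      simp only [Yt, h6]
      ring
    have h8 := fl_close q1 i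
    have h9 : |(mu L p - mu L p') * Dv g0 g1 J j0 p.1 i| ≤
        1 * ((2 * 3 ^ κ) * (1 / 2 : ℝ) ^ β) := by
      rw [abs_mul]
      refine mul_le_mul ?_ (h.hDβ (hpos hp) i) (abs_nonneg _) zero_le_one
      rw [abs_le]
      have := mu0 p
      have := mu1 p
      have := mu0 p'
      have := mu1 p'
      constructor <;> linarith
    rw [h7]
    refine (abs_sub _ _).trans ?_
    refine le_trans ?_ (NN_mul κ (by positivity) (le_refl (0 : ℝ))
      (by norm_num : (0 : ℝ) ≤ 3) (by norm_num) (by norm_num))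
    have := pow3 κ
    have hδβ : (0 : ℝ) < (1 / 2 : ℝ) ^ β := by positivity
    nlinarith only [hδ, h8, h9, this, hδβ]

/-- the counting of the displacements -/
theorem cnt (h : DD Q κ x y t0 t1 g0 g1 T J i0 j0 a β W) (haL : a ≤ L) {p p' : Ω × Fin (2 ^ L)}
    (hp : 0 < Q.w p.1)
    (q1 : fl a (Yt L x y t0 g0 g1 J j0 p') i0 = fl a (Yt L x y t0 g0 g1 J j0 p) i0)
    (q2 : p'.1 = p.1) :
    |((p'.2 : ℕ) : ℤ) - ((p.2 : ℕ) : ℤ)| ≤ (2 ^ (L - a + β + W) : ℕ) := by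
  have hMr : (0 : ℝ) < ((2 ^ L : ℕ) : ℝ) := by positivity
  have h1 : |Yt L x y t0 g0 g1 J j0 p' i0 - Yt L x y t0 g0 g1 J j0 p i0| ≤ (1 / 2 : ℝ) ^ a :=
    fl1_close (s := a) q1
  have h2 : Yt L x y t0 g0 g1 J j0 p' i0 - Yt L x y t0 g0 g1 J j0 p i0 =
      (((p'.2 : ℕ) : ℝ) - ((p.2 : ℕ) : ℝ)) / ((2 ^ L : ℕ) : ℝ) * Dv g0 g1 J j0 p.1 i0 := by
    simp only [Yt, mu, q2]
    ring
  have h3 := h.hlo p.1 hp
  have h4 := h.Dv_i0 p.1
  rw [h2, abs_mul, abs_div, abs_of_pos hMr, h4] at h1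
  have hK0 : 0 ≤ |((p'.2 : ℕ) : ℝ) - ((p.2 : ℕ) : ℝ)| := abs_nonneg _
  have h5 : |((p'.2 : ℕ) : ℝ) - ((p.2 : ℕ) : ℝ)| / ((2 ^ L : ℕ) : ℝ) *
      (1 / 2 : ℝ) ^ (β + W) ≤ (1 / 2 : ℝ) ^ a :=
    (mul_le_mul_of_nonneg_left h3 (by positivity)).trans h1
  have h6 : ∀ K : ℝ, K / ((2 ^ L : ℕ) : ℝ) * (1 / 2 : ℝ) ^ (β + W) ≤ (1 / 2 : ℝ) ^ a →
      K ≤ 2 ^ (L - a + β + W) := by
    intro K h5
    have e1 : (2 : ℝ) ^ (L - a + β + W) * 2 ^ a = 2 ^ L * 2 ^ (β + W) := by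
      rw [← pow_add, ← pow_add]
      congr 1
      (clear * - haL; omega)
    have e2 : (1 / 2 : ℝ) ^ a * 2 ^ a = 1 := by
      rw [← mul_pow]; norm_num
    have e3 : (1 / 2 : ℝ) ^ (β + W) * 2 ^ (β + W) = 1 := by
      rw [← mul_pow]; norm_num
    have p1' : (0 : ℝ) < 2 ^ a := by positivity
    have e4 : K / ((2 ^ L : ℕ) : ℝ) * (1 / 2 : ℝ) ^ (β + W) * (2 ^ L * 2 ^ (β + W) * 2 ^ a)
        = K * 2 ^ a := by
      calc K / ((2 ^ L : ℕ) : ℝ) * (1 / 2 : ℝ) ^ (β + W) * (2 ^ L * 2 ^ (β + W) * 2 ^ a)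
          = K * 2 ^ a * ((1 / 2 : ℝ) ^ (β + W) * 2 ^ (β + W)) *
            (2 ^ L / ((2 ^ L : ℕ) : ℝ)) := by ring
        _ = K * 2 ^ a := by
          rw [e3]
          push_cast
          rw [div_self (by positivity)]
          ring
    have e5 : (1 / 2 : ℝ) ^ a * (2 ^ L * 2 ^ (β + W) * 2 ^ a) = 2 ^ L * 2 ^ (β + W) := by
      calc (1 / 2 : ℝ) ^ a * (2 ^ L * 2 ^ (β + W) * 2 ^ a)
          = ((1 / 2 : ℝ) ^ a * 2 ^ a) * (2 ^ L * 2 ^ (β + W)) := by ring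
        _ = _ := by rw [e2, one_mul]
    have e6 := mul_le_mul_of_nonneg_right h5
      (by positivity : (0 : ℝ) ≤ 2 ^ L * 2 ^ (β + W) * 2 ^ a)
    rw [e4, e5, ← e1] at e6
    exact le_of_mul_le_mul_right e6 p1'
  have h7 : ((|((p'.2 : ℕ) : ℤ) - ((p.2 : ℕ) : ℤ)| : ℤ) : ℝ) ≤
      (((2 ^ (L - a + β + W) : ℕ) : ℤ) : ℝ) := by
    push_cast
    exact h6 _ h5
  exact_mod_cast h7

theorem sD1 (h : DD Q κ x y t0 t1 g0 g1 T J i0 j0 a β W) (haL : a ≤ L) :
    ((a : ℝ) - β - W - 2) * Real.log 2 ≤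
      hc (pu Q (2 ^ L) (Nat.two_pow_pos L)) (fun p => fl a (Yt L x y t0 g0 g1 J j0 p) i0)
        (fun p => p.1) := by
  have hM := Nat.two_pow_pos L
  set Q2 := pu Q (2 ^ L) hM with hQ2
  have d1 := hc_le_add Q2 (fun p : Ω × Fin (2 ^ L) => p.2)
    (fun p => fl a (Yt L x y t0 g0 g1 J j0 p) i0) (fun p => p.1)
  have d2 : hc Q2 (fun p : Ω × Fin (2 ^ L) => p.2) (fun p => p.1) =
      Real.log ((2 ^ L : ℕ) : ℝ) := pu_hc_snd Q (2 ^ L) hM (fun w => w)
  have d3 := hc_le_log Q2 (fun p : Ω × Fin (2 ^ L) => p.2)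
    (fun p => (fl a (Yt L x y t0 g0 g1 J j0 p) i0, p.1)) (2 ^ (L - a + β + W + 2)) ?_
  · push_cast at d2 d3
    rw [Real.log_pow] at d2 d3
    push_cast [Nat.cast_sub haL] at d3
    linarith
  · intro p hp
    refine ⟨Finset.univ.filter (fun k : Fin (2 ^ L) =>
      |(k : ℤ) - (p.2 : ℕ)| ≤ (2 ^ (L - a + β + W) : ℕ)), ?_, ?_⟩
    · have h1 : (Finset.univ.filter (fun k : Fin (2 ^ L) =>
          |(k : ℤ) - (p.2 : ℕ)| ≤ (2 ^ (L - a + β + W) : ℕ))).card ≤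
          (Finset.Icc ((p.2 : ℕ) - (2 ^ (L - a + β + W) : ℕ) : ℤ)
            ((p.2 : ℕ) + (2 ^ (L - a + β + W) : ℕ))).card := by
        refine Finset.card_le_card_of_injOn (fun k => ((k : ℕ) : ℤ)) ?_ ?_
        · intro k hk
          simp only [Finset.coe_filter, Finset.mem_univ, true_and, Set.mem_ofPred_eq] at hk
          rw [Finset.mem_coe, Finset.mem_Icc]
          rw [abs_le] at hk
          constructor <;> linarith only [hk]
        · intro k _ k' _ hkk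
          simp only [Nat.cast_inj] at hkk
          exact Fin.ext hkk
      refine h1.trans ?_
      rw [Int.card_Icc]
      have h2 : 1 ≤ 2 ^ (L - a + β + W) := Nat.one_le_two_pow
      have h3 : 2 ^ (L - a + β + W + 2) = 4 * 2 ^ (L - a + β + W) := by ring
      rw [h3]
      omega
    · intro p' hp' hpp
      simp only [Prod.mk.injEq] at hpp
      obtain ⟨q1, q2⟩ := hpp
      rw [Finset.mem_filter]
      exact ⟨Finset.mem_univ _, h.cnt haL (hpos hp) q1 q2⟩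

theorem sD (h : DD Q κ x y t0 t1 g0 g1 T J i0 j0 a β W) (haL : a ≤ L) :
    hc (pu Q (2 ^ L) (Nat.two_pow_pos L)) (fun p => fl a (ZZ x y t0 g0 g1 J i0 j0 p.1))
      (fun p => (fl β (FF x y t0 g0 J p.1), T p.1, A p.1)) ≤
      hc (pu Q (2 ^ L) (Nat.two_pow_pos L)) (fun p => fl a (Yt L x y t0 g0 g1 J j0 p))
      (fun p => (fl β (FF x y t0 g0 J p.1), T p.1, A p.1)) + m * Real.log (2 * NN κ + 3) -
        ((a : ℝ) - β - W - 2) * Real.log 2 := by
  have hM := Nat.two_pow_pos L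
  have d0 := h.sD1 (L := L) haL
  set Q2 := pu Q (2 ^ L) hM with hQ2
  have d1 := hc_pair Q2 (fun p => fl a (ZZ x y t0 g0 g1 J i0 j0 p.1))
    (fun p => fl a (Yt L x y t0 g0 g1 J j0 p) i0)
    (fun p => (fl β (FF x y t0 g0 J p.1), T p.1, A p.1))
  have d2 := hc_le_add Q2
    (fun p => (fl a (ZZ x y t0 g0 g1 J i0 j0 p.1), fl a (Yt L x y t0 g0 g1 J j0 p) i0))
    (fun p => fl a (Yt L x y t0 g0 g1 J j0 p))
    (fun p => (fl β (FF x y t0 g0 J p.1), T p.1, A p.1))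
  have d3 := hc_mono_left Q2
    (X := fun p => (fl a (ZZ x y t0 g0 g1 J i0 j0 p.1), fl a (Yt L x y t0 g0 g1 J j0 p) i0))
    (X' := fun p => fl a (ZZ x y t0 g0 g1 J i0 j0 p.1))
    (Y := fun p => (fl a (Yt L x y t0 g0 g1 J j0 p), fl β (FF x y t0 g0 J p.1), T p.1, A p.1))
    (by
      intro p p' _ _ hpp
      simp only [Prod.mk.injEq] at hpp ⊢
      exact ⟨hpp.1, by rw [hpp.2.1]⟩)
  have d5 := hc_mono_right Q2 (fun p => fl a (Yt L x y t0 g0 g1 J j0 p) i0)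
    (Y := fun p => (fl a (ZZ x y t0 g0 g1 J i0 j0 p.1), fl β (FF x y t0 g0 J p.1),
      T p.1, A p.1)) (Y' := fun p => p.1) (by
      intro p p' _ _ hpp
      simp only at hpp ⊢
      rw [hpp])
  have d4 := hc_fl_diam Q2 a (NN κ) (fun p => ZZ x y t0 g0 g1 J i0 j0 p.1)
    (fun p => (fl a (Yt L x y t0 g0 g1 J j0 p), fl β (FF x y t0 g0 J p.1), T p.1, A p.1)) ?_
  · rw [Fintype.card_fin] at d4
    linarith only [d0, d1, d2, d3, d5, d4]
  · intro p p' hp hp' hpp i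
    simp only [Prod.mk.injEq] at hpp
    obtain ⟨q1, _, q3, _⟩ := hpp
    have h1 := h.hvT (hpos hp) (hpos hp') q3
    have h2 : ZZ x y t0 g0 g1 J i0 j0 p.1 i - ZZ x y t0 g0 g1 J i0 j0 p'.1 i =
        (Yt L x y t0 g0 g1 J j0 p i - Yt L x y t0 g0 g1 J j0 p' i) -
        (Yt L x y t0 g0 g1 J j0 p i0 - Yt L x y t0 g0 g1 J j0 p' i0) *
          vv g0 g1 J i0 j0 p.1 i := by
      rw [h.hYZ (hpos hp) i, h.hYZ (hpos hp') i, ← h1]
      ring
    have h3 : |(Yt L x y t0 g0 g1 J j0 p i0 - Yt L x y t0 g0 g1 J j0 p' i0) *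
        vv g0 g1 J i0 j0 p.1 i| ≤ (1 / 2 : ℝ) ^ a * 1 := by
      rw [abs_mul]
      exact mul_le_mul (fl_close q1 i0) (h.hv1 (hpos hp) i) (abs_nonneg _) (by positivity)
    have h4 := fl_close q1 i
    rw [h2]
    refine (abs_sub _ _).trans ?_
    refine le_trans ?_ (NN_mul κ (by positivity) (le_refl (0 : ℝ))
      (by norm_num : (0 : ℝ) ≤ 2) (by norm_num) (by norm_num))
    have := pow3 κ
    have hδa : (0 : ℝ) < (1 / 2 : ℝ) ^ a := by positivity
    nlinarith only [h3, h4, this, hδa]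

theorem sF (h : DD Q κ x y t0 t1 g0 g1 T J i0 j0 a β W) :
    hc Q (fun w => fl a (ZZ x y t0 g0 g1 J i0 j0 w))
      (fun w => ((fl β (x w), fl β (y w)), T w, A w)) ≤
      hc Q (fun w => fl a (ZZ x y t0 g0 g1 J i0 j0 w))
        (fun w => (fl β (FF x y t0 g0 J w), T w, A w)) + m * Real.log (2 * NN κ + 3) := by
  have f1 := hc_le_add' Q (fun w => fl a (ZZ x y t0 g0 g1 J i0 j0 w))
    (fun w => fl β (FF x y t0 g0 J w)) (fun w => ((fl β (x w), fl β (y w)), T w, A w))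
  have f2 := hc_mono_right Q (fun w => fl a (ZZ x y t0 g0 g1 J i0 j0 w))
    (Y := fun w => (fl β (FF x y t0 g0 J w), T w, A w))
    (Y' := fun w => (fl β (FF x y t0 g0 J w), (fl β (x w), fl β (y w)), T w, A w)) (by
      intro p p' _ _ hpp
      simp only [Prod.mk.injEq] at hpp ⊢
      tauto)
  have f3 := hc_fl_diam Q β (NN κ) (FF x y t0 g0 J)
    (fun w => ((fl β (x w), fl β (y w)), T w, A w)) ?_
  · rw [Fintype.card_fin] at f3
    linarith
  · intro w w' hw hw' hww i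
    simp only [Prod.mk.injEq] at hww
    obtain ⟨⟨q1, q2⟩, q3, _⟩ := hww
    obtain ⟨r1, _, r3, _⟩ := h.hT hw hw' q3
    simp only [FF]
    rw [← r3, ← ap_sub]
    have := ap_le (J := J) (g := g0 w) (v := fun i => pnt x y t0 w i - pnt x y t0 w' i)
      (G := 3 ^ κ) (M := 2 * (1 / 2 : ℝ) ^ β) (by positivity) (by positivity) (h.hg0 w hw) ?_ i
    · refine this.trans ?_
      rw [h.card]
      refine le_trans ?_ (NN_mul κ (by positivity) (by norm_num : (0 : ℝ) ≤ 2)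
        (by norm_num : (0 : ℝ) ≤ 2) (by norm_num) (by norm_num))
      have := pow3 κ
      have hδβ : (0 : ℝ) < (1 / 2 : ℝ) ^ β := by positivity
      nlinarith only [this, hδβ]
    · intro i
      have h1 : pnt x y t0 w i - pnt x y t0 w' i =
          (x w i - x w' i) + t0 w * (y w i - y w' i) := by
        simp only [pnt, ← r1]
        ring
      rw [h1]
      refine (abs_add_le _ _).trans ?_
      rw [abs_mul, abs_of_nonneg (h.ht0 w hw).1]
      have h2 := fl_close q1 i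
      have h3 := fl_close q2 i
      have h4 := mul_le_mul (h.ht0 w hw).2.le h3 (abs_nonneg _) zero_le_one
      linarith only [h2, h4]

/-- the displacement argument -/
theorem disp (h : DD Q κ x y t0 t1 g0 g1 T J i0 j0 a β W) (L : ℕ) (hβ : β ≤ a)
    (haL : a ≤ L) :
    hc Q (fun w => fl a (ZZ x y t0 g0 g1 J i0 j0 w))
      (fun w => ((fl β (x w), fl β (y w)), T w, A w)) ≤
    hc Q (fun w => fl a (FF x y t0 g0 J w)) (fun w => (T w, A w)) +
    hc Q (fun w => fl a (FF x y t1 g1 J w)) (fun w => (T w, A w)) -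
    hc Q (fun w => fl a (pnt x y t0 w)) (fun w => (T w, A w)) -
    hc Q (fun w => fl β (FF x y t0 g0 J w)) (fun w => (T w, A w)) +
    κ * a * Real.log 2 - ((a : ℝ) - β - W) * Real.log 2 +
    (κ * Real.log 3 + 2 * Real.log 2 + 7 * (m * Real.log (2 * NN κ + 3))) := by
  have h1 := h.sA1 (L := L) A
  have h2 := h.sA2 (L := L) A
  have h3 := h.sB (L := L) A
  have h4 := h.sC (L := L) A hβ
  have h5 := h.sD (L := L) A haL
  have h6 := h.sF A
  have h7 : hc (pu Q (2 ^ L) (Nat.two_pow_pos L)) (fun p => fl a (ZZ x y t0 g0 g1 J i0 j0 p.1))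
      (fun p => (fl β (FF x y t0 g0 J p.1), T p.1, A p.1)) =
      hc Q (fun w => fl a (ZZ x y t0 g0 g1 J i0 j0 w))
        (fun w => (fl β (FF x y t0 g0 J w), T w, A w)) :=
    pu_hc_fst Q (2 ^ L) (Nat.two_pow_pos L) (fun w => fl a (ZZ x y t0 g0 g1 J i0 j0 w))
      (fun w => (fl β (FF x y t0 g0 J w), T w, A w))
  (clear * - h1 h2 h3 h4 h5 h6 h7; linarith)

end DD

end Vale.Agent.P127.Stk.Bs
end

section

/-!
# P127 / Stk : rates (sections 1 and 2), definitions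

`Rate Q c o L h e` collects all consequences of extremality for the configuration `c` with the
object `o` under the law `Q`, with the absolute error `e`.
-/

namespace Vale.Agent.P127.Stk

open Finset Vale.Agent.P127

/-- the cell of the line at the scale `2^{-s}` -/
noncomputable def Cf.q {Ω : Type} {m : ℕ} (c : Cf Ω m) (s : ℕ) (ω : Ω) :
    (Fin m → ℤ) × (Fin m → ℤ) := (fl s (c.x ω), fl s (c.y ω))

/-- the line -/
def Cf.l {Ω : Type} {m : ℕ} (c : Cf Ω m) (ω : Ω) : (Fin m → ℝ) × (Fin m → ℝ) := (c.x ω, c.y ω)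

/-- the digits of the coordinates in `J` of the point -/
noncomputable def Ob.pJ {Ω : Type} {m κ : ℕ} (o : Ob Ω m κ) (c : Cf Ω m) (s : ℕ) (ω : Ω) :
    {j // j ∈ o.J} → ℤ := fl s (fun j : {j // j ∈ o.J} => c.pt ω j)

/-- all the rates of an extremal pair, with error `e`; always `s ≤ s' ≤ L` -/
structure Rate {Ω : Type} [Fintype Ω] {m κ : ℕ} (Q : Law Ω) (c : Cf Ω m) (o : Ob Ω m κ) (L : ℕ)
    (h e : ℝ) : Prop where
  x01 : ∀ ω i, 0 ≤ c.x ω i ∧ c.x ω i < 1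
  y01 : ∀ ω i, 0 ≤ c.y ω i ∧ c.y ω i < 1
  t01 : ∀ ω, 0 ≤ c.t ω ∧ c.t ω < 1
  nn : 0 ≤ e
  /-- the cost of the time and the object -/
  cost : mi Q c.l (fun ω => (c.t ω, o.G ω)) c.A ≤ e
  /-- entropy of the cell -/
  q_up : ∀ s ≤ L, hc Q (c.q s) c.A ≤ m * s * Real.log 2 + e
  y_lo : ∀ s ≤ L, m * s * Real.log 2 - e ≤
    hc Q (fun ω => fl s (c.y ω)) (fun ω => (c.t ω, o.G ω, c.A ω))
  /-- the cell is determined by the direction -/
  q_y : ∀ s ≤ L, hc Q (c.q s) (fun ω => (fl s (c.y ω), c.A ω)) ≤ e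
  /-- lower bound for the point -/
  pt : ∀ s s', s ≤ s' → s' ≤ L → h * ((s' : ℝ) - s) * Real.log 2 - e ≤
    hc Q (fun ω => fl s' (c.pt ω)) (fun ω => (c.q s ω, c.t ω, o.G ω, c.A ω))
  /-- R1 -/
  lo : ∀ s s', s ≤ s' → s' ≤ L → (h - κ) * ((s' : ℝ) - s) * Real.log 2 - e ≤
    hc Q (fun ω => fl s' (o.F c ω)) (fun ω => (c.q s ω, c.t ω, o.G ω, c.A ω))
  /-- R1 with `s = 0` -/
  lo0 : ∀ s ≤ L, (h - κ) * s * Real.log 2 - e ≤
    hc Q (fun ω => fl s (o.F c ω)) (fun ω => (c.t ω, o.G ω, c.A ω))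
  /-- R2 -/
  up0 : ∀ s ≤ L, hc Q (fun ω => fl s (o.F c ω)) (fun ω => (c.t ω, o.G ω, c.A ω)) ≤
      (h - κ) * s * Real.log 2 + e
  /-- R3, lower bound -/
  lo' : ∀ s s', s ≤ s' → s' ≤ L → (h - κ) * ((s' : ℝ) - s) * Real.log 2 - e ≤
    hc Q (fun ω => fl s' (o.F c ω)) (fun ω => (fl s (o.F c ω), c.t ω, o.G ω, c.A ω))
  /-- R3, upper bound -/
  up : ∀ s s', s ≤ s' → s' ≤ L →
    hc Q (fun ω => fl s' (o.F c ω)) (fun ω => (fl s (o.F c ω), c.t ω, o.G ω, c.A ω)) ≤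
      (h - κ) * ((s' : ℝ) - s) * Real.log 2 + e
  /-- R4 -/
  cJ : ∀ s s', s ≤ s' → s' ≤ L → κ * s * Real.log 2 - e ≤
    hc Q (o.pJ c s) (fun ω => (fl s' (o.F c ω), c.t ω, o.G ω, c.A ω))
  /-- R5 -/
  q_lo' : ∀ s s', s ≤ s' → s' ≤ L → (m - (h - κ)) * s * Real.log 2 - e ≤
    hc Q (c.q s) (fun ω => (fl s' (o.F c ω), c.t ω, o.G ω, c.A ω))
  q_up' : ∀ s s', s ≤ s' → s' ≤ L →
    hc Q (c.q s) (fun ω => (fl s' (o.F c ω), c.t ω, o.G ω, c.A ω)) ≤
      (m - (h - κ)) * s * Real.log 2 + e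

/-- the constant for counting arguments -/
noncomputable def cst (m κ : ℕ) : ℝ := m * Real.log (8 * (1 + κ * 3 ^ κ) + 9)

end Vale.Agent.P127.Stk
end

section

/-!
# P127 / Stk : rates, tools
-/

namespace Vale.Agent.P127.Stk

open Finset Vale.Agent.P127

/-! ### Tools -/

section tools

variable {Ω : Type} [Fintype Ω] {ι : Type} [Fintype ι] {S S' T T' U V : Type*}

/-- counting: if `Z` determines `2^s v` up to `B`, the digits cost only `O(1)` -/
theorem hc_fl_det (P : Law Ω) {s : ℕ} (B : ℕ) (v : Ω → ι → ℝ) (Z : Ω → T)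
    (h : ∀ ω ω', 0 < P.w ω → 0 < P.w ω' → Z ω = Z ω' → ∀ i,
      |(2 : ℝ) ^ s * v ω i - 2 ^ s * v ω' i| ≤ B) :
    hc P (fun ω => fl s (v ω)) Z ≤ Fintype.card ι * Real.log (2 * B + 3) := by
  classical
  have h1 := hc_le_log P (fun ω => fl s (v ω)) Z ((2 * B + 3) ^ Fintype.card ι) (fun ω hω => by
    refine ⟨Fintype.piFinset fun i : ι =>
      Finset.Icc (fl s (v ω) i - (B + 1)) (fl s (v ω) i + (B + 1)), ?_, ?_⟩
    · rw [Fintype.card_piFinset]
      simp only [Int.card_Icc]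
      rw [Finset.prod_congr rfl (fun i _ => (by
        congr 1
        push_cast
        ring : (fl s (v ω) i + ((B : ℤ) + 1) + 1 - (fl s (v ω) i - ((B : ℤ) + 1))).toNat =
          (((2 * B + 3 : ℕ) : ℤ)).toNat))]
      · rw [Finset.prod_const, Int.toNat_natCast, Finset.card_univ]
    · intro ω' hω' hZ
      rw [Fintype.mem_piFinset]
      intro i
      have h2 : |⌊(2 : ℝ) ^ s * v ω' i⌋ - ⌊(2 : ℝ) ^ s * v ω i⌋| ≤ (B : ℤ) + 1 :=
        floor_close_aux (h ω' ω hω' hω hZ i)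
      have h3 := abs_le.1 h2
      rw [Finset.mem_Icc]
      have e1 : fl s (v ω') i = ⌊(2 : ℝ) ^ s * v ω' i⌋ := rfl
      have e2 : fl s (v ω) i = ⌊(2 : ℝ) ^ s * v ω i⌋ := rfl
      rw [e1, e2]
      constructor <;> linarith only [h3])
  refine h1.trans (le_of_eq ?_)
  push_cast
  rw [Real.log_pow]

/-- subtracting costs: `Y` is a function of `(base, D, V)`, where `D` has small information about
`X` and `V` has small entropy -/
theorem hc_ge_of (P : Law Ω) {X : Ω → S} {B : Ω → T} {D : Ω → U} {W : Ω → V} {Y : Ω → T'}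
    {e1 e2 : ℝ} (hY : Fn P Y (fun ω => (B ω, D ω, W ω))) (hD : mi P X D B ≤ e1)
    (hW : hc P W (fun ω => (B ω, D ω)) ≤ e2) : hc P X B - e1 - e2 ≤ hc P X Y := by
  have h1 : hc P X (fun ω => (W ω, (B ω, D ω))) ≤ hc P X Y := by
    refine hc_mono_right P X ?_
    intro ω ω' p p' e
    simp only [Prod.mk.injEq] at e
    exact hY ω ω' p p' (by simp only [Prod.mk.injEq]; exact ⟨e.2.1, e.2.2, e.1⟩)
  have h2 := hc_le_add' P X W (fun ω => (B ω, D ω))
  have h3 : hc P X (fun ω => (D ω, B ω)) = hc P X (fun ω => (B ω, D ω)) := by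
    refine hc_congr P (fun ω ω' _ _ e => congrArg Prod.fst e)
      (fun ω ω' _ _ e => congrArg Prod.fst e) ?_ ?_
    · intro ω ω' _ _ e
      simp only [Prod.mk.injEq] at e ⊢
      exact ⟨e.2, e.1⟩
    · intro ω ω' _ _ e
      simp only [Prod.mk.injEq] at e ⊢
      exact ⟨e.2, e.1⟩
  unfold mi at hD
  rw [h3] at hD
  linarith

/-- the information of `D` about a function of the line is at most the cost: `X` is a function of
`(l, Z, B')`, `B'` is a function of `(l, Z)` -/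
theorem mi_le_cost (P : Law Ω) {X : Ω → S} {l : Ω → S'} {D : Ω → U} {Z : Ω → T} {B' : Ω → T'}
    (hX : Fn P X (fun ω => (l ω, Z ω))) (hB : Fn P B' (fun ω => (l ω, Z ω))) :
    mi P X D (fun ω => (B' ω, Z ω)) ≤ mi P l D Z := by
  refine (mi_mono_left P (X' := l) D ?_).trans (mi_cond_le P (X := l) D (W := B') Z hB)
  intro ω ω' p p' e
  simp only [Prod.mk.injEq] at e
  exact hX ω ω' p p' (by simp only [Prod.mk.injEq]; exact ⟨e.1, e.2.2⟩)

end tools

/-! ### Relations between the digits (G3) -/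

section geom0

variable {Ω : Type} {m κ : ℕ} {T : Type*}

theorem abs_sub_lt_of_floor {x y : ℝ} (h : ⌊x⌋ = ⌊y⌋) : |x - y| ≤ 1 := by
  have a1 := Int.floor_le x
  have a2 := Int.lt_floor_add_one x
  have b1 := Int.floor_le y
  have b2 := Int.lt_floor_add_one y
  rw [h] at a1 a2
  rw [abs_le]
  constructor <;> linarith only [a1, b2, a2, b1]

theorem app_bdd (o : Ob Ω m κ) (ω : Ω) (v : Fin m → ℝ) {B : ℝ} (hB : 0 ≤ B)
    (hv : ∀ i, |v i| ≤ B) (i : Fin m) : |o.app ω v i| ≤ B * (1 + κ * 3 ^ κ) := by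
  classical
  have h3 : (0 : ℝ) ≤ 3 ^ κ := by positivity
  unfold Ob.app
  split_ifs with hi
  · rw [abs_zero]
    (clear * - hB; positivity)
  · have h1 : |∑ j ∈ o.J, o.Γ ω i j * v j| ≤ ∑ j ∈ o.J, (3 ^ κ * B) := by
      refine (Finset.abs_sum_le_sum_abs _ _).trans (Finset.sum_le_sum fun j _ => ?_)
      rw [abs_mul]
      exact mul_le_mul (o.bd ω i j) (hv j) (abs_nonneg _) h3
    rw [Finset.sum_const, o.card, nsmul_eq_mul] at h1
    have h2 := abs_sub (v i) (∑ j ∈ o.J, o.Γ ω i j * v j)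
    have h4 := hv i
    calc |v i - ∑ j ∈ o.J, o.Γ ω i j * v j|
        ≤ |v i| + |∑ j ∈ o.J, o.Γ ω i j * v j| := h2
      _ ≤ B + κ * (3 ^ κ * B) := add_le_add h4 h1
      _ = B * (1 + κ * 3 ^ κ) := by ring

theorem app_diff (o : Ob Ω m κ) {ω ω' : Ω} (hG : o.G ω = o.G ω') (v v' : Fin m → ℝ) (c : ℝ)
    (i : Fin m) :
    c * o.app ω v i - c * o.app ω' v' i = o.app ω (fun i => c * v i - c * v' i) i := by
  classical
  have hΓ := o.fn ω ω' hG
  unfold Ob.app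
  split_ifs with hi
  · ring
  · rw [← hΓ]
    have h1 : ∑ j ∈ o.J, o.Γ ω i j * (c * v j - c * v' j) =
        c * ∑ j ∈ o.J, o.Γ ω i j * v j - c * ∑ j ∈ o.J, o.Γ ω i j * v' j := by
      rw [Finset.mul_sum, Finset.mul_sum, ← Finset.sum_sub_distrib]
      exact Finset.sum_congr rfl fun j _ => by ring
    rw [h1]
    ring

theorem pt_diff_of_q (c : Cf Ω m) (s : ℕ) {ω ω' : Ω} (ht : 0 ≤ c.t ω ∧ c.t ω < 1)
    (hq : c.q s ω = c.q s ω') (htt : c.t ω = c.t ω') (i : Fin m) :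
    |(2 : ℝ) ^ s * c.pt ω i - 2 ^ s * c.pt ω' i| ≤ 2 := by
  have hx : |(2 : ℝ) ^ s * c.x ω i - 2 ^ s * c.x ω' i| ≤ 1 :=
    abs_sub_lt_of_floor (congrFun (congrArg Prod.fst hq) i)
  have hy : |(2 : ℝ) ^ s * c.y ω i - 2 ^ s * c.y ω' i| ≤ 1 :=
    abs_sub_lt_of_floor (congrFun (congrArg Prod.snd hq) i)
  have e : (2 : ℝ) ^ s * c.pt ω i - 2 ^ s * c.pt ω' i =
      ((2 : ℝ) ^ s * c.x ω i - 2 ^ s * c.x ω' i) +
        c.t ω * ((2 : ℝ) ^ s * c.y ω i - 2 ^ s * c.y ω' i) := by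
    unfold Cf.pt
    rw [← htt]
    ring
  rw [e]
  refine (abs_add_le _ _).trans ?_
  rw [abs_mul, abs_of_nonneg ht.1]
  have h1 : c.t ω * |(2 : ℝ) ^ s * c.y ω i - 2 ^ s * c.y ω' i| ≤ 1 * 1 :=
    mul_le_mul ht.2.le hy (abs_nonneg _) zero_le_one
  (clear * - hx h1; linarith)

theorem cst_mono {B : ℝ} (m κ : ℕ) (hB0 : 0 ≤ B) (hB : B ≤ 2 * (1 + κ * 3 ^ κ)) :
    (m : ℝ) * Real.log (2 * B + 3) ≤ cst m κ := by
  unfold cst
  refine mul_le_mul_of_nonneg_left (Real.log_le_log (by linarith) ?_) (Nat.cast_nonneg m)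
  have h3 : (0 : ℝ) ≤ κ * 3 ^ κ := by positivity
  linarith only [hB, h3]

end geom0

section geom

variable {Ω : Type} [Fintype Ω] {m κ : ℕ} {T : Type*}

theorem pt_sub_diff (c : Cf Ω m) (r s : ℕ) {ω ω' : Ω}
    (hq : c.q r ω = c.q r ω') (htt : c.t ω = c.t ω') (i : Fin m) :
    (2 : ℝ) ^ (r + s) * c.pt ω i - 2 ^ (r + s) * c.pt ω' i =
      2 ^ s * (c.sub r).pt ω i - 2 ^ s * (c.sub r).pt ω' i := by
  have h1 := pt_sub c r ω i
  have h2 := pt_sub c r ω' i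
  have hx : fl r (c.x ω) i = fl r (c.x ω') i := congrFun (congrArg Prod.fst hq) i
  have hy : fl r (c.y ω) i = fl r (c.y ω') i := congrFun (congrArg Prod.snd hq) i
  rw [hx, hy, htt] at h1
  have e1 : (2 : ℝ) ^ (r + s) * c.pt ω i = 2 ^ s * (2 ^ r * c.pt ω i) := by
    rw [pow_add]
    ring
  have e2 : (2 : ℝ) ^ (r + s) * c.pt ω' i = 2 ^ s * (2 ^ r * c.pt ω' i) := by
    rw [pow_add]
    ring
  rw [e1, e2, h1, h2]
  ring

/-- `[F]_s` is a function of `(Q_s, t, G)` up to `O(1)` values -/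
theorem hc_F_of_q (P : Law Ω) (c : Cf Ω m) (o : Ob Ω m κ) (s : ℕ) (Z : Ω → T)
    (h : ∀ ω, 0 < P.w ω → 0 ≤ c.t ω ∧ c.t ω < 1)
    (hZ : Fn P (fun ω => (c.q s ω, c.t ω, o.G ω)) Z) :
    hc P (fun ω => fl s (o.F c ω)) Z ≤ cst m κ := by
  have h1 := hc_fl_det P (s := s) (2 * (1 + κ * 3 ^ κ)) (fun ω => o.F c ω) Z (by
    intro ω ω' p p' e i
    have h2 := hZ ω ω' p p' e
    simp only [Prod.mk.injEq] at h2
    unfold Ob.F
    rw [app_diff o h2.2.2]
    have h3 := app_bdd o ω (fun i => (2 : ℝ) ^ s * c.pt ω i - 2 ^ s * c.pt ω' i)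
      (B := 2) (by norm_num) (fun j => pt_diff_of_q c s (h ω p) h2.1 h2.2.1 j) i
    push_cast
    exact h3)
  refine h1.trans ?_
  rw [Fintype.card_fin]
  refine cst_mono m κ (by (clear * -; positivity)) ?_
  push_cast
  exact le_rfl

/-- `[c_t]_s` is a function of `([F]_s, [(c_t)_J]_s, G)` up to `O(1)` values -/
theorem hc_pt_of_F (P : Law Ω) (c : Cf Ω m) (o : Ob Ω m κ) (s : ℕ) (Z : Ω → T)
    (hZ : Fn P (fun ω => (fl s (o.F c ω), o.pJ c s ω, o.G ω)) Z) :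
    hc P (fun ω => fl s (c.pt ω)) Z ≤ cst m κ := by
  classical
  have h1 := hc_fl_det P (s := s) (1 + κ * 3 ^ κ) (fun ω => c.pt ω) Z (by
    intro ω ω' p p' e i
    have h2 := hZ ω ω' p p' e
    simp only [Prod.mk.injEq] at h2
    obtain ⟨hF, hJ, hG⟩ := h2
    have hJ' : ∀ j ∈ o.J, |(2 : ℝ) ^ s * c.pt ω j - 2 ^ s * c.pt ω' j| ≤ 1 := by
      intro j hj
      exact abs_sub_lt_of_floor (congrFun hJ ⟨j, hj⟩)
    have h30 : (0 : ℝ) ≤ κ * 3 ^ κ := by (clear * -; positivity)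
    push_cast
    by_cases hi : i ∈ o.J
    · exact (hJ' i hi).trans (by linarith only [h30])
    · have hF' : |(2 : ℝ) ^ s * o.F c ω i - 2 ^ s * o.F c ω' i| ≤ 1 :=
        abs_sub_lt_of_floor (congrFun hF i)
      unfold Ob.F at hF'
      rw [app_diff o hG] at hF'
      unfold Ob.app at hF'
      rw [if_neg hi] at hF'
      have h4 : |∑ j ∈ o.J, o.Γ ω i j * ((2 : ℝ) ^ s * c.pt ω j - 2 ^ s * c.pt ω' j)| ≤
          ∑ j ∈ o.J, ((3 : ℝ) ^ κ * 1) := by
        refine (Finset.abs_sum_le_sum_abs _ _).trans (Finset.sum_le_sum fun j hj => ?_)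
        rw [abs_mul]
        exact mul_le_mul (o.bd ω i j) (hJ' j hj) (abs_nonneg _) (by positivity)
      rw [Finset.sum_const, o.card, nsmul_eq_mul, mul_one] at h4
      have h5 := abs_le.1 hF'
      have h6 := abs_le.1 h4
      rw [abs_le]
      constructor <;> linarith only [h5, h6])
  refine h1.trans ?_
  rw [Fintype.card_fin]
  refine cst_mono m κ (by positivity) ?_
  push_cast
  have h30 : (0 : ℝ) ≤ κ * 3 ^ κ := by positivity
  linarith only [h30]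

theorem cst_one (m κ : ℕ) : (m : ℝ) * Real.log (2 * ((1 : ℕ) : ℝ) + 3) ≤ cst m κ := by
  refine cst_mono m κ (by norm_num) ?_
  have h30 : (0 : ℝ) ≤ κ * 3 ^ κ := by positivity
  push_cast
  linarith only [h30]

/-- `[c'_t]_s` from `[c_t]_{r+s}` -/
theorem hc_sub_of_pt (P : Law Ω) (c : Cf Ω m) (r s : ℕ) (Z : Ω → T)
    (hZ : Fn P (fun ω => (fl (r + s) (c.pt ω), c.q r ω, c.t ω)) Z) :
    hc P (fun ω => fl s ((c.sub r).pt ω)) Z ≤ cst m 0 := by
  have h1 := hc_fl_det P (s := s) 1 (fun ω => (c.sub r).pt ω) Z (by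
    intro ω ω' p p' e i
    have h2 := hZ ω ω' p p' e
    simp only [Prod.mk.injEq] at h2
    obtain ⟨hF, hq, ht⟩ := h2
    rw [← pt_sub_diff c r s hq ht]
    rw [Nat.cast_one]
    exact abs_sub_lt_of_floor (congrFun hF i))
  refine h1.trans ?_
  rw [Fintype.card_fin]
  exact cst_one m 0

end geom

end Vale.Agent.P127.Stk
end

section

/-!
# P127 / Stk : rates, the inequalities for one law
-/

namespace Vale.Agent.P127.Stk

open Finset Vale.Agent.P127

/-- what is needed for the lower bounds -/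
structure Pre {Ω : Type} [Fintype Ω] {m κ : ℕ} (Q : Law Ω) (c : Cf Ω m) (o : Ob Ω m κ) (L : ℕ)
    (h e : ℝ) : Prop where
  good : Good Q c L e e
  lb : ∀ s s', s ≤ s' → s' ≤ L → h * ((s' : ℝ) - s) * Real.log 2 - e ≤
    hc Q (fun ω => fl (s' - s) ((c.sub s).pt ω)) (fun ω => (c.t ω, (c.sub s).A ω))
  cost : mi Q (fun ω => (c.x ω, c.y ω)) o.G (fun ω => (c.t ω, c.A ω)) ≤ e
  k1 : cst m κ ≤ e
  k2 : cst m 0 ≤ e
  k3 : κ * Real.log 7 ≤ e

namespace Pre

variable {Ω : Type} [Fintype Ω] {m κ : ℕ} {Q : Law Ω} {c : Cf Ω m} {o : Ob Ω m κ} {L : ℕ}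
  {h e : ℝ}

theorem nn (H : Pre Q c o L h e) : 0 ≤ e := by
  have h1 := H.k3
  have h2 : (0 : ℝ) ≤ κ * Real.log 7 := mul_nonneg (Nat.cast_nonneg _) (Real.log_nonneg (by norm_num))
  linarith

/-- total cost -/
theorem cost2 (H : Pre Q c o L h e) : mi Q c.l (fun ω => (c.t ω, o.G ω)) c.A ≤ 2 * e := by
  rw [mi_pair]
  have h1 := H.good.ind
  have h2 := H.cost
  have h3 : mi Q c.l c.t c.A ≤ e := h1
  have h4 : mi Q c.l o.G (fun ω => (c.t ω, c.A ω)) ≤ e := h2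
  linarith

theorem q_up (H : Pre Q c o L h e) {s : ℕ} (hs : s ≤ L) :
    hc Q (c.q s) c.A ≤ m * s * Real.log 2 + e := H.good.lin s hs

theorem y_lo (H : Pre Q c o L h e) {s : ℕ} (hs : s ≤ L) :
    m * s * Real.log 2 - 3 * e ≤
      hc Q (fun ω => fl s (c.y ω)) (fun ω => (c.t ω, o.G ω, c.A ω)) := by
  have h1 := H.good.dir s hs
  have h2 := H.cost2
  have h3 : mi Q (fun ω => fl s (c.y ω)) (fun ω => (c.t ω, o.G ω)) c.A ≤
      mi Q c.l (fun ω => (c.t ω, o.G ω)) c.A := by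
    refine mi_mono_left Q _ ?_
    intro ω ω' _ _ h
    simp only [Prod.mk.injEq, Cf.l] at h
    show fl s (c.y ω) = fl s (c.y ω')
    rw [h.1.2]
  have h4 := hc_ge_of Q (X := fun ω => fl s (c.y ω)) (B := c.A) (D := fun ω => (c.t ω, o.G ω))
    (W := fun _ => ()) (Y := fun ω => (c.t ω, o.G ω, c.A ω)) (e1 := 2 * e) (e2 := 0)
    (by
      intro ω ω' _ _ h
      simp only [Prod.mk.injEq] at h ⊢
      (clear * - h; tauto)) (h3.trans h2)
    (by
      rw [hc_zero]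
      intro ω ω' _ _ _
      rfl)
  linarith only [h1, h4]

theorem q_y (H : Pre Q c o L h e) {s : ℕ} (hs : s ≤ L) :
    hc Q (c.q s) (fun ω => (fl s (c.y ω), c.A ω)) ≤ 2 * e := by
  have h1 := H.good.dir s hs
  have h2 := H.good.lin s hs
  have h3 := hc_pair Q (fun ω => fl s (c.y ω)) (c.q s) c.A
  have h4 : hc Q (fun ω => (fl s (c.y ω), c.q s ω)) c.A = hc Q (c.q s) c.A := by
    refine hc_congr Q ?_ ?_ ?_ ?_
    · intro ω ω' _ _ h
      simp only [Prod.mk.injEq, Cf.q] at h ⊢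
      (clear * - h; tauto)
    · intro ω ω' _ _ h
      simp only [Prod.mk.injEq] at h ⊢
      (clear * - h; tauto)
    · intro ω ω' _ _ h
      exact h
    · intro ω ω' _ _ h
      exact h
  have h5 : hc Q (c.q s) c.A ≤ (m * s : ℝ) * Real.log 2 + e := h2
  linarith only [h1, h3, h4, h5]

theorem pt (H : Pre Q c o L h e) {s s' : ℕ} (hs : s ≤ s') (hL : s' ≤ L) :
    h * ((s' : ℝ) - s) * Real.log 2 - 3 * e ≤
      hc Q (fun ω => fl s' (c.pt ω)) (fun ω => (c.q s ω, c.t ω, o.G ω, c.A ω)) := by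
  have h1 := H.lb s s' hs hL
  have h2 : mi Q (fun ω => fl (s' - s) ((c.sub s).pt ω)) o.G
      (fun ω => (c.t ω, (c.sub s).A ω)) ≤ e := by
    rw [mi_congr_cond Q _ _ (Z' := fun ω => (c.q s ω, c.t ω, c.A ω))]
    · refine (mi_le_cost Q (l := fun ω => (c.x ω, c.y ω)) ?_ ?_).trans H.cost
      · intro ω ω' _ _ h
        simp only [Prod.mk.injEq] at h
        obtain ⟨⟨hx, hy⟩, ht, hA⟩ := h
        have : (c.sub s).pt ω = (c.sub s).pt ω' := by
          funext i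
          simp only [Cf.pt, Cf.sub, hx, hy, ht]
        show fl (s' - s) ((c.sub s).pt ω) = fl (s' - s) ((c.sub s).pt ω')
        rw [this]
      · intro ω ω' _ _ h
        simp only [Prod.mk.injEq] at h
        obtain ⟨⟨hx, hy⟩, ht, hA⟩ := h
        simp only [Cf.q, hx, hy]
    · intro ω ω' _ _ h
      simp only [Prod.mk.injEq, Cf.q, Cf.sub] at h ⊢
      (clear * - h; tauto)
    · intro ω ω' _ _ h
      simp only [Prod.mk.injEq, Cf.q, Cf.sub] at h ⊢
      (clear * - h; tauto)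
  have h3 := hc_ge_of Q (X := fun ω => fl (s' - s) ((c.sub s).pt ω))
    (B := fun ω => (c.t ω, (c.sub s).A ω)) (D := o.G)
    (W := fun _ => ()) (Y := fun ω => (c.q s ω, c.t ω, o.G ω, c.A ω)) (e1 := e) (e2 := 0)
    (by
      intro ω ω' _ _ h
      simp only [Prod.mk.injEq, Cf.q, Cf.sub] at h ⊢
      (clear * - h; tauto)) h2
    (by
      rw [hc_zero]
      intro ω ω' _ _ _
      rfl)
  have h4 := hc_le_add Q (fun ω => fl (s' - s) ((c.sub s).pt ω)) (fun ω => fl s' (c.pt ω))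
    (fun ω => (c.q s ω, c.t ω, o.G ω, c.A ω))
  have h5 := hc_sub_of_pt Q c s (s' - s)
    (fun ω => (fl s' (c.pt ω), c.q s ω, c.t ω, o.G ω, c.A ω)) (by
      rw [Nat.add_sub_cancel' hs]
      intro ω ω' _ _ h
      simp only [Prod.mk.injEq] at h ⊢
      (clear * - h; tauto))
  have h6 := H.k2
  linarith only [h1, h3, h4, h5, h6]

theorem pJ_digits (H : Pre Q c o L h e) {T : Type*} {s s' : ℕ} (hs : s ≤ s') (Z : Ω → T)
    (hZ : Fn Q (fun ω => (c.q s ω, c.t ω)) Z) :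
    hc Q (o.pJ c s') Z ≤ κ * ((s' : ℝ) - s) * Real.log 2 + e := by
  have hcard : (Fintype.card {j // j ∈ o.J} : ℝ) = κ := by
    rw [Fintype.card_coe, o.card]
  have h1 : hc Q (o.pJ c s) Z ≤ e := by
    refine le_trans ?_ H.k3
    have := hc_fl_det Q (s := s) 2 (fun ω => fun j : {j // j ∈ o.J} => c.pt ω j) Z (by
      intro ω ω' hω hω' h j
      have h2 := hZ ω ω' hω hω' h
      simp only [Prod.mk.injEq, Cf.q] at h2
      obtain ⟨⟨hx, hy⟩, ht⟩ := h2
      have hx' := congrFun hx j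
      have hy' := congrFun hy j
      simp only [fl] at hx' hy'
      have h3 := Int.abs_sub_lt_one_of_floor_eq_floor hx'
      have h4 := Int.abs_sub_lt_one_of_floor_eq_floor hy'
      have ht0 := H.good.t01 ω
      simp only [Cf.pt, ← ht]
      have e1 : (2 : ℝ) ^ s * (c.x ω j + c.t ω * c.y ω j) -
          2 ^ s * (c.x ω' j + c.t ω * c.y ω' j) =
          (2 ^ s * c.x ω j - 2 ^ s * c.x ω' j) +
            c.t ω * (2 ^ s * c.y ω j - 2 ^ s * c.y ω' j) := by ring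
      rw [e1]
      refine (abs_add_le _ _).trans ?_
      rw [abs_mul, abs_of_nonneg ht0.1]
      have h5 : c.t ω * |2 ^ s * c.y ω j - 2 ^ s * c.y ω' j| ≤ 1 * 1 :=
        mul_le_mul ht0.2.le h4.le (abs_nonneg _) (by norm_num)
      push_cast
      linarith only [h3, h5])
    rw [hcard] at this
    refine this.trans (le_of_eq ?_)
    norm_num
  have h2 := hc_le_add Q (o.pJ c s') (o.pJ c s) Z
  have h3 := hc_fl_digits_le Q hs (fun ω => fun j : {j // j ∈ o.J} => c.pt ω j) Z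
  rw [hcard, Nat.cast_sub hs] at h3
  have h4 : hc Q (o.pJ c s') (fun ω => (o.pJ c s ω, Z ω)) ≤
      κ * ((s' : ℝ) - s) * Real.log 2 := h3
  linarith only [h1, h2, h4]

theorem lo (H : Pre Q c o L h e) {s s' : ℕ} (hs : s ≤ s') (hL : s' ≤ L) :
    (h - κ) * ((s' : ℝ) - s) * Real.log 2 - 5 * e ≤
      hc Q (fun ω => fl s' (o.F c ω)) (fun ω => (c.q s ω, c.t ω, o.G ω, c.A ω)) := by
  have h1 := H.pt hs hL
  set Y : Ω → _ := fun ω => (c.q s ω, c.t ω, o.G ω, c.A ω) with hY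
  have h2 := hc_le_add Q (fun ω => fl s' (c.pt ω)) (fun ω => (fl s' (o.F c ω), o.pJ c s' ω)) Y
  have h3 := hc_pt_of_F Q c o s' (fun ω => ((fl s' (o.F c ω), o.pJ c s' ω), Y ω)) (by
    intro ω ω' _ _ h
    simp only [Prod.mk.injEq, hY] at h ⊢
    (clear * - h; tauto))
  have h4 := hc_pair Q (fun ω => fl s' (o.F c ω)) (o.pJ c s') Y
  have h5 := H.pJ_digits hs (fun ω => (fl s' (o.F c ω), Y ω)) (by
    intro ω ω' _ _ h
    simp only [Prod.mk.injEq, hY] at h ⊢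
    (clear * - h; tauto))
  have h6 := H.k1
  linarith only [h1, h2, h3, h4, h5, h6]

theorem lo0 (H : Pre Q c o L h e) {s : ℕ} (hL : s ≤ L) :
    (h - κ) * s * Real.log 2 - 5 * e ≤
      hc Q (fun ω => fl s (o.F c ω)) (fun ω => (c.t ω, o.G ω, c.A ω)) := by
  have h1 := H.lo (Nat.zero_le s) hL
  have h2 := hc_mono_right Q (fun ω => fl s (o.F c ω)) (Y := fun ω => (c.t ω, o.G ω, c.A ω))
    (Y' := fun ω => (c.q 0 ω, c.t ω, o.G ω, c.A ω)) (by
      intro ω ω' _ _ h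
      simp only [Prod.mk.injEq] at h ⊢
      tauto)
  have h3 : (h - κ) * (((s : ℕ) : ℝ) - ((0 : ℕ) : ℝ)) * Real.log 2 =
      (h - κ) * s * Real.log 2 := by
    push_cast
    ring
  linarith only [h1, h2, h3]

theorem lo' (H : Pre Q c o L h e) {s s' : ℕ} (hs : s ≤ s') (hL : s' ≤ L) :
    (h - κ) * ((s' : ℝ) - s) * Real.log 2 - 6 * e ≤
      hc Q (fun ω => fl s' (o.F c ω)) (fun ω => (fl s (o.F c ω), c.t ω, o.G ω, c.A ω)) := by
  have h1 := H.lo hs hL
  have h2 := hc_ge_of Q (X := fun ω => fl s' (o.F c ω))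
    (B := fun ω => (c.q s ω, c.t ω, o.G ω, c.A ω)) (D := fun _ => ())
    (W := fun ω => fl s (o.F c ω)) (Y := fun ω => (fl s (o.F c ω), c.t ω, o.G ω, c.A ω))
    (e1 := 0) (e2 := e)
    (by
      intro ω ω' _ _ h
      simp only [Prod.mk.injEq] at h ⊢
      (clear * - h; tauto))
    (by
      refine (mi_le_hc' Q _ _ _).trans ?_
      rw [hc_zero]
      intro ω ω' _ _ _
      rfl)
    (by
      refine le_trans ?_ H.k1
      refine hc_F_of_q Q c o s _ (fun ω _ => H.good.t01 ω) ?_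
      intro ω ω' _ _ h
      simp only [Prod.mk.injEq] at h ⊢
      (clear * - h; tauto))
  linarith only [h1, h2]

end Pre

end Vale.Agent.P127.Stk
end

section

/-!
# P127 / Stk : rates, the upper bounds for one law
-/

namespace Vale.Agent.P127.Stk

open Finset Vale.Agent.P127

namespace Pre

variable {Ω : Type} [Fintype Ω] {m κ : ℕ} {Q : Law Ω} {c : Cf Ω m} {o : Ob Ω m κ} {L : ℕ}
  {h e u : ℝ}

theorem up0 (H : Pre Q c o L h e)
    (hu : hc Q (fun ω => fl L (o.F c ω)) (fun ω => (c.t ω, o.G ω, c.A ω)) ≤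
      (h - κ) * L * Real.log 2 + u) {s : ℕ} (hL : s ≤ L) :
    hc Q (fun ω => fl s (o.F c ω)) (fun ω => (c.t ω, o.G ω, c.A ω)) ≤
      (h - κ) * s * Real.log 2 + u + 6 * e := by
  have h1 := H.lo' hL le_rfl
  have h2 := hc_pair Q (fun ω => fl s (o.F c ω)) (fun ω => fl L (o.F c ω))
    (fun ω => (c.t ω, o.G ω, c.A ω))
  have h3 := hc_mono_left Q (X := fun ω => (fl s (o.F c ω), fl L (o.F c ω)))
    (X' := fun ω => fl L (o.F c ω)) (Y := fun ω => (c.t ω, o.G ω, c.A ω)) (by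
      intro ω ω' _ _ h
      simp only [Prod.mk.injEq] at h ⊢
      exact ⟨fl_of_fl hL _ _ h.1, h.1⟩)
  have e1 : (h - κ) * ((L : ℝ) - s) * Real.log 2 =
    (h - κ) * L * Real.log 2 - (h - κ) * s * Real.log 2 := by ring
  linarith only [hu, h1, h2, h3]

theorem up (H : Pre Q c o L h e)
    (hu : hc Q (fun ω => fl L (o.F c ω)) (fun ω => (c.t ω, o.G ω, c.A ω)) ≤
      (h - κ) * L * Real.log 2 + u) {s s' : ℕ} (hs : s ≤ s') (hL : s' ≤ L) :
    hc Q (fun ω => fl s' (o.F c ω)) (fun ω => (fl s (o.F c ω), c.t ω, o.G ω, c.A ω)) ≤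
      (h - κ) * ((s' : ℝ) - s) * Real.log 2 + u + 11 * e := by
  have h1 := H.up0 hu hL
  have h0 := H.lo0 (hs.trans hL)
  have h2 := hc_pair Q (fun ω => fl s (o.F c ω)) (fun ω => fl s' (o.F c ω))
    (fun ω => (c.t ω, o.G ω, c.A ω))
  have h3 := hc_mono_left Q (X := fun ω => (fl s (o.F c ω), fl s' (o.F c ω)))
    (X' := fun ω => fl s' (o.F c ω)) (Y := fun ω => (c.t ω, o.G ω, c.A ω)) (by
      intro ω ω' _ _ h
      simp only [Prod.mk.injEq] at h ⊢
      exact ⟨fl_of_fl hs _ _ h.1, h.1⟩)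
  have e1 : (h - κ) * ((s' : ℝ) - s) * Real.log 2 =
    (h - κ) * s' * Real.log 2 - (h - κ) * s * Real.log 2 := by ring
  linarith only [h1, h0, h2, h3]

theorem cJ (H : Pre Q c o L h e)
    (hu : hc Q (fun ω => fl L (o.F c ω)) (fun ω => (c.t ω, o.G ω, c.A ω)) ≤
      (h - κ) * L * Real.log 2 + u) {s s' : ℕ} (hs : s ≤ s') (hL : s' ≤ L) :
    κ * s * Real.log 2 - (u + 17 * e) ≤
      hc Q (o.pJ c s) (fun ω => (fl s' (o.F c ω), c.t ω, o.G ω, c.A ω)) := by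
  set Z : Ω → _ := fun ω => (c.t ω, o.G ω, c.A ω) with hZ
  -- the chain rules
  have h1 := hc_pair Q (fun ω => fl s' (o.F c ω)) (o.pJ c s) Z
  have h2 := hc_pair Q (fun ω => (o.pJ c s ω, fl s (o.F c ω))) (fun ω => fl s' (o.F c ω)) Z
  have h3 : hc Q (fun ω => ((o.pJ c s ω, fl s (o.F c ω)), fl s' (o.F c ω))) Z ≤
      hc Q (fun ω => (fl s' (o.F c ω), o.pJ c s ω)) Z := by
    refine hc_mono_left Q ?_
    intro ω ω' _ _ h
    simp only [Prod.mk.injEq] at h ⊢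
    exact ⟨⟨h.1.2, fl_of_fl hs _ _ h.1.1⟩, h.1.1⟩
  -- the point at the scale `s`
  have h4 : h * s * Real.log 2 - 4 * e ≤ hc Q (fun ω => (o.pJ c s ω, fl s (o.F c ω))) Z := by
    have a1 := H.pt (Nat.zero_le s) (hs.trans hL)
    have a2 := hc_mono_right Q (fun ω => fl s (c.pt ω)) (Y := Z)
      (Y' := fun ω => (c.q 0 ω, c.t ω, o.G ω, c.A ω)) (by
        intro ω ω' _ _ h
        simp only [Prod.mk.injEq, hZ] at h ⊢
        (clear * - h; tauto))
    have a3 := hc_le_add Q (fun ω => fl s (c.pt ω)) (fun ω => (o.pJ c s ω, fl s (o.F c ω))) Z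
    have a4 := hc_pt_of_F Q c o s (fun ω => ((o.pJ c s ω, fl s (o.F c ω)), Z ω)) (by
      intro ω ω' _ _ h
      simp only [Prod.mk.injEq, hZ] at h ⊢
      (clear * - h; tauto))
    have a5 := H.k1
    have a6 : h * (((s : ℕ) : ℝ) - ((0 : ℕ) : ℝ)) * Real.log 2 = h * s * Real.log 2 := by
      push_cast
      ring
    linarith only [a1, a2, a3, a4, a5, a6]
  -- the remaining digits
  have h5 : (h - κ) * ((s' : ℝ) - s) * Real.log 2 - 7 * e ≤
      hc Q (fun ω => fl s' (o.F c ω)) (fun ω => ((o.pJ c s ω, fl s (o.F c ω)), Z ω)) := by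
    have a1 := H.lo hs hL
    have a2 := hc_ge_of Q (X := fun ω => fl s' (o.F c ω))
      (B := fun ω => (c.q s ω, c.t ω, o.G ω, c.A ω)) (D := fun _ => ())
      (W := fun ω => (o.pJ c s ω, fl s (o.F c ω)))
      (Y := fun ω => ((o.pJ c s ω, fl s (o.F c ω)), Z ω))
      (e1 := 0) (e2 := 2 * e)
      (by
        intro ω ω' _ _ h
        simp only [Prod.mk.injEq, hZ] at h ⊢
        (clear * - h; tauto))
      (by
        refine (mi_le_hc' Q _ _ _).trans ?_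
        rw [hc_zero]
        intro ω ω' _ _ _
        rfl)
      (by
        rw [hc_pair]
        have b1 := H.pJ_digits (le_refl s)
          (fun ω => ((c.q s ω, c.t ω, o.G ω, c.A ω), ())) (by
            intro ω ω' _ _ h
            simp only [Prod.mk.injEq] at h ⊢
            (clear * - h; tauto))
        have b2 := hc_F_of_q Q c o s
          (fun ω => (o.pJ c s ω, ((c.q s ω, c.t ω, o.G ω, c.A ω), ())))
          (fun ω _ => H.good.t01 ω) (by
            intro ω ω' _ _ h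
            simp only [Prod.mk.injEq] at h ⊢
            (clear * - h; tauto))
        have b3 := H.k1
        have b4 : (κ : ℝ) * ((s : ℝ) - s) * Real.log 2 = 0 := by ring
        linarith only [b1, b2, b3])
    linarith only [a1, a2]
  have h6 := H.up0 hu hL
  have h7 : hc Q (o.pJ c s) (fun ω => (fl s' (o.F c ω), Z ω)) =
      hc Q (o.pJ c s) (fun ω => (fl s' (o.F c ω), c.t ω, o.G ω, c.A ω)) := rfl
  have e1 : (h - κ) * ((s' : ℝ) - s) * Real.log 2 =
    (h - κ) * s' * Real.log 2 - (h - κ) * s * Real.log 2 := by ring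
  have e2 : (h - κ) * s * Real.log 2 = h * s * Real.log 2 - κ * s * Real.log 2 := by ring
  linarith only [h1, h2, h3, h4, h5, h6]

theorem q_lo' (H : Pre Q c o L h e)
    (hu : hc Q (fun ω => fl L (o.F c ω)) (fun ω => (c.t ω, o.G ω, c.A ω)) ≤
      (h - κ) * L * Real.log 2 + u) {s s' : ℕ} (hs : s ≤ s') (hL : s' ≤ L) :
    (m - (h - κ)) * s * Real.log 2 - (u + 14 * e) ≤
      hc Q (c.q s) (fun ω => (fl s' (o.F c ω), c.t ω, o.G ω, c.A ω)) := by
  set Z : Ω → _ := fun ω => (c.t ω, o.G ω, c.A ω) with hZ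
  have h1 := hc_pair Q (fun ω => fl s' (o.F c ω)) (c.q s) Z
  have h2 := hc_pair Q (c.q s) (fun ω => fl s' (o.F c ω)) Z
  have h3 : hc Q (fun ω => (c.q s ω, fl s' (o.F c ω))) Z ≤
      hc Q (fun ω => (fl s' (o.F c ω), c.q s ω)) Z := by
    refine hc_mono_left Q ?_
    intro ω ω' _ _ h
    simp only [Prod.mk.injEq] at h ⊢
    (clear * - h; tauto)
  have h4 : m * s * Real.log 2 - 3 * e ≤ hc Q (c.q s) Z := by
    refine (H.y_lo (hs.trans hL)).trans ?_
    refine hc_mono_left Q ?_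
    intro ω ω' _ _ h
    simp only [Prod.mk.injEq, Cf.q] at h ⊢
    (clear * - h; tauto)
  have h5 : (h - κ) * ((s' : ℝ) - s) * Real.log 2 - 5 * e ≤
      hc Q (fun ω => fl s' (o.F c ω)) (fun ω => (c.q s ω, Z ω)) := H.lo hs hL
  have h6 := H.up0 hu hL
  have h7 : hc Q (c.q s) (fun ω => (fl s' (o.F c ω), Z ω)) =
      hc Q (c.q s) (fun ω => (fl s' (o.F c ω), c.t ω, o.G ω, c.A ω)) := rfl
  have e1 : (h - κ) * ((s' : ℝ) - s) * Real.log 2 =
    (h - κ) * s' * Real.log 2 - (h - κ) * s * Real.log 2 := by ring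
  have e2 : (m - (h - κ)) * s * Real.log 2 = m * s * Real.log 2 - (h - κ) * s * Real.log 2 := by
    ring
  linarith only [h1, h2, h3, h4, h5, h6]

theorem q_up' (H : Pre Q c o L h e)
    (hu : hc Q (fun ω => fl L (o.F c ω)) (fun ω => (c.t ω, o.G ω, c.A ω)) ≤
      (h - κ) * L * Real.log 2 + u) {s s' : ℕ} (hs : s ≤ s') (hL : s' ≤ L) :
    hc Q (c.q s) (fun ω => (fl s' (o.F c ω), c.t ω, o.G ω, c.A ω)) ≤
      (m - (h - κ)) * s * Real.log 2 + (u + 18 * e) := by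
  set Z : Ω → _ := fun ω => (c.t ω, o.G ω, c.A ω) with hZ
  have h1 := hc_pair Q (fun ω => fl s' (o.F c ω)) (c.q s) Z
  have h2 := hc_pair Q (c.q s) (fun ω => fl s' (o.F c ω)) Z
  have h3 : hc Q (fun ω => (fl s' (o.F c ω), c.q s ω)) Z ≤
      hc Q (fun ω => (c.q s ω, fl s' (o.F c ω))) Z := by
    refine hc_mono_left Q ?_
    intro ω ω' _ _ h
    simp only [Prod.mk.injEq] at h ⊢
    (clear * - h; tauto)
  have h4 : hc Q (c.q s) Z ≤ m * s * Real.log 2 + e := by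
    refine le_trans ?_ (H.q_up (hs.trans hL))
    refine hc_mono_right Q _ ?_
    intro ω ω' _ _ h
    simp only [Prod.mk.injEq, hZ] at h
    exact h.2.2
  have h5 : hc Q (fun ω => fl s' (o.F c ω)) (fun ω => (c.q s ω, Z ω)) ≤
      (h - κ) * ((s' : ℝ) - s) * Real.log 2 + u + 12 * e := by
    have a1 := hc_le_add Q (fun ω => fl s' (o.F c ω)) (fun ω => fl s (o.F c ω))
      (fun ω => (c.q s ω, Z ω))
    have a2 := hc_F_of_q Q c o s (fun ω => (c.q s ω, Z ω)) (fun ω _ => H.good.t01 ω) (by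
      intro ω ω' _ _ h
      simp only [Prod.mk.injEq, hZ] at h ⊢
      (clear * - h; tauto))
    have a3 := H.up hu hs hL
    have a4 := hc_mono_right Q (fun ω => fl s' (o.F c ω))
      (Y := fun ω => (fl s (o.F c ω), c.t ω, o.G ω, c.A ω))
      (Y' := fun ω => (fl s (o.F c ω), c.q s ω, Z ω)) (by
        intro ω ω' _ _ h
        simp only [Prod.mk.injEq, hZ] at h ⊢
        (clear * - h; tauto))
    have a5 := H.k1
    linarith only [a1, a2, a3, a4, a5]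
  have h6 := H.lo0 hL
  have h7 : hc Q (c.q s) (fun ω => (fl s' (o.F c ω), Z ω)) =
      hc Q (c.q s) (fun ω => (fl s' (o.F c ω), c.t ω, o.G ω, c.A ω)) := rfl
  have e1 : (h - κ) * ((s' : ℝ) - s) * Real.log 2 =
    (h - κ) * s' * Real.log 2 - (h - κ) * s * Real.log 2 := by ring
  have e2 : (m - (h - κ)) * s * Real.log 2 = m * s * Real.log 2 - (h - κ) * s * Real.log 2 := by
    ring
  linarith only [h1, h2, h3, h4, h5, h6]

/-- all the rates -/
theorem rate (H : Pre Q c o L h e) (hu0 : 0 ≤ u)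
    (hu : hc Q (fun ω => fl L (o.F c ω)) (fun ω => (c.t ω, o.G ω, c.A ω)) ≤
      (h - κ) * L * Real.log 2 + u) : Rate Q c o L h (u + 18 * e) := by
  have he := H.nn
  refine ⟨H.good.x01, H.good.y01, H.good.t01, by linarith only [hu0, he], ?_, ?_, ?_, ?_, ?_, ?_, ?_, ?_, ?_, ?_,
    ?_, ?_, ?_⟩
  · have := H.cost2
    linarith only [hu0, he, this]
  · intro s hs
    have := H.q_up hs
    linarith only [hu0, he, this]
  · intro s hs
    have := H.y_lo hs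
    linarith only [hu0, he, this]
  · intro s hs
    have := H.q_y hs
    linarith only [hu0, he, this]
  · intro s s' hs hL
    have := H.pt hs hL
    linarith only [hu0, he, this]
  · intro s s' hs hL
    have := H.lo hs hL
    linarith only [hu0, he, this]
  · intro s hL
    have := H.lo0 hL
    linarith only [hu0, he, this]
  · intro s hL
    have := H.up0 hu hL
    linarith only [he, this]
  · intro s s' hs hL
    have := H.lo' hs hL
    linarith only [hu0, he, this]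
  · intro s s' hs hL
    have := H.up hu hs hL
    linarith only [he, this]
  · intro s s' hs hL
    have := H.cJ hu hs hL
    linarith only [he, this]
  · intro s s' hs hL
    have := H.q_lo' hu hs hL
    linarith only [he, this]
  · intro s s' hs hL
    have := H.q_up' hu hs hL
    linarith only [this]

end Pre

end Vale.Agent.P127.Stk
end

section

/-!
# P127 / Stk : rates (sections 1 and 2), final statements
-/

namespace Vale.Agent.P127.Stk

open Finset Vale.Agent.P127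

/-! ### The rates -/

theorem Rate.mono {Ω : Type} [Fintype Ω] {m κ : ℕ} {Q : Law Ω} {c : Cf Ω m} {o : Ob Ω m κ}
    {L : ℕ} {h e e' : ℝ} (H : Rate Q c o L h e) (he : e ≤ e') : Rate Q c o L h e' := by
  have h0 := H.nn
  refine ⟨H.x01, H.y01, H.t01, h0.trans he, H.cost.trans he, ?_, ?_, ?_, ?_, ?_, ?_, ?_, ?_, ?_,
    ?_, ?_, ?_⟩
  · intro s hs
    have := H.q_up s hs
    linarith only [he, this]
  · intro s hs
    have := H.y_lo s hs
    linarith only [he, this]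
  · intro s hs
    have := H.q_y s hs
    linarith only [he, this]
  · intro s s' hs hL
    have := H.pt s s' hs hL
    linarith only [he, this]
  · intro s s' hs hL
    have := H.lo s s' hs hL
    linarith only [he, this]
  · intro s hL
    have := H.lo0 s hL
    linarith only [he, this]
  · intro s hL
    have := H.up0 s hL
    linarith only [he, this]
  · intro s s' hs hL
    have := H.lo' s s' hs hL
    linarith only [he, this]
  · intro s s' hs hL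
    have := H.up s s' hs hL
    linarith only [he, this]
  · intro s s' hs hL
    have := H.cJ s s' hs hL
    linarith only [he, this]
  · intro s s' hs hL
    have := H.q_lo' s s' hs hL
    linarith only [he, this]
  · intro s s' hs hL
    have := H.q_up' s s' hs hL
    linarith only [he, this]

theorem Good.e_nn {Ω : Type} [Fintype Ω] {m : ℕ} {P : Law Ω} {c : Cf Ω m} {L : ℕ} {e C : ℝ}
    (h : Good P c L e C) : 0 ≤ e := by
  have h1 := h.lin 0 (Nat.zero_le _)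
  have h2 := hc_nonneg P (fun ω => (fl 0 (c.x ω), fl 0 (c.y ω))) c.A
  have h3 : ((m : ℝ) * ((0 : ℕ) : ℝ)) * Real.log 2 = 0 := by simp
  linarith

theorem Good.C_nn {Ω : Type} [Fintype Ω] {m : ℕ} {P : Law Ω} {c : Cf Ω m} {L : ℕ} {e C : ℝ}
    (h : Good P c L e C) : 0 ≤ C :=
  (mi_nonneg P _ _ _).trans h.ind

theorem pre_exists (R : Gr) {m : ℕ} {h : ℝ} (κ : ℕ) (hLB : LB R m h) (ε K : ℝ) (hε : 0 < ε)
    (hK : 2 ≤ K) : ∀ g : R.G, ∃ n : ℕ, ∀ (L : ℕ) (e C : ℝ), R.ok g n L e C →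
      2 * (K * Real.log 2) ≤ ε * L ∧
      ∀ (Ω Ω' : Type) [Fintype Ω] [Fintype Ω'] (P : Law Ω) (c : Cf Ω m)
        (Q : Law Ω') (π : Ω' → Ω), Good P c L e C → Dom Q π P K → ∀ o : Ob Ω' m κ,
        mi Q (fun ω => (c.x (π ω), c.y (π ω))) o.G (fun ω => (c.t (π ω), c.A (π ω))) ≤ ε * L →
        Pre Q (c.comp π) o L h (ε * L) := by
  intro g
  have hb : 0 < Real.log 2 := Real.log_pos (by norm_num)
  have hb1 : Real.log 2 ≤ 1 := by
    have := Real.log_le_sub_one_of_pos (show (0 : ℝ) < 2 by norm_num)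
    linarith only [this]
  obtain ⟨g1, hg1⟩ := R.dom g (8 * K) (by linarith only [hK])
  have hη : 0 < ε / (|h| + 1) := by (clear * - hε; positivity)
  obtain ⟨g2, hg2⟩ := R.sub g1 (ε / (|h| + 1)) hη
  obtain ⟨n2, hn2⟩ := hLB ε hε g2
  obtain ⟨n1, hn1⟩ := hg2 n2
  obtain ⟨na, hna⟩ := hg1 n1
  obtain ⟨n3, hn3⟩ := R.small g1 ε hε
  obtain ⟨nb, hnb⟩ := hg1 n3
  set M : ℝ := |cst m κ| + |cst m 0| + κ * Real.log 7 + 2 * (K * Real.log 2) + 1 with hM
  have h7 : (0 : ℝ) ≤ κ * Real.log 7 :=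
    mul_nonneg (Nat.cast_nonneg _) (Real.log_nonneg (by norm_num))
  have hKb : 0 ≤ K * Real.log 2 := by positivity
  have hM0 : 0 < M := by
    have := abs_nonneg (cst m κ)
    have := abs_nonneg (cst m 0)
    (clear R h hLB ε hε g hb hb1 g1 hg1 hη g2 hg2 n2 hn2 n1 hn1 na hna n3 hn3 nb hnb hM; linarith)
  obtain ⟨nc, hnc⟩ := R.small g (ε / M) (by (clear * - hε hK; positivity))
  refine ⟨max na (max nb nc), ?_⟩
  intro L e C hok
  have oka := hna L e C (R.anti g na _ L e C (le_max_left _ _) hok)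
  have okb := hnb L e C (R.anti g nb _ L e C ((le_max_left _ _).trans (le_max_right _ _)) hok)
  have okc := R.anti g nc _ L e C ((le_max_right _ _).trans (le_max_right _ _)) hok
  have hML : M ≤ ε * L := by
    have h1 := (hnc L e C okc).1
    rw [div_mul_eq_mul_div, le_div_iff₀ hM0] at h1
    linarith only [h1]
  have hs1 := hn3 L _ _ okb
  have hL0 : (0 : ℝ) ≤ L := Nat.cast_nonneg _
  refine ⟨?_, ?_⟩
  · have := abs_nonneg (cst m κ)
    have := abs_nonneg (cst m 0)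
    (clear h hLB hε hb hb1 g1 hg1 hη g2 hg2 n2 hn2 n1 hn1 hna n3 hn3 hnb hM oka okb hs1 hL0; linarith)
  intro Ω Ω' _ _ P c Q π hG hD o ho
  have he := hG.e_nn
  have hC := hG.C_nn
  have hG1 := hG.comp hK hD
  have m1 : 4 * K * (e + 1) ≤ 8 * K * (e + 1) := by
    have : 0 ≤ K * (e + 1) := mul_nonneg (by linarith only [hK]) (by linarith only [he])
    linarith only [this]
  have m2 : 2 * K * (C + 1) ≤ 8 * K * (C + 1) := by
    have : 0 ≤ K * (C + 1) := mul_nonneg (by linarith only [hK]) (by linarith only [hC])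
    linarith only [this]
  refine ⟨hG1.mono le_rfl (m1.trans hs1.2.1) (m2.trans hs1.2.2), ?_, ho, ?_, ?_, ?_⟩
  · intro s s' hs hL
    have hcast : ((s' - s : ℕ) : ℝ) = (s' : ℝ) - s := Nat.cast_sub hs
    have hle : ((s' - s : ℕ) : ℝ) ≤ L := by exact_mod_cast (Nat.sub_le s' s).trans hL
    by_cases hη2 : ε / (|h| + 1) * L ≤ ((s' - s : ℕ) : ℝ)
    · have ok2 := hn1 L (s' - s) _ _ oka hη2 ((Nat.sub_le s' s).trans hL)
      have hG2 := (hG1.sub s (s' - s) (by (clear * - hs hL; omega))).mono (le_refl (s' - s))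
        (e' := 8 * K * (e + 1)) (C' := 8 * K * (C + 1)) (by linarith only []) (by linarith only [m2])
      have h1 := hn2 (s' - s) _ _ ok2 Ω' Q ((c.comp π).sub s) hG2
      have h2 : (h - ε) * ((s' - s : ℕ) : ℝ) * Real.log 2 ≤
        hc Q (fun ω => fl (s' - s) (((c.comp π).sub s).pt ω))
          (fun ω => ((c.comp π).t ω, ((c.comp π).sub s).A ω)) := h1
      have h3 : h * ((s' : ℝ) - s) * Real.log 2 - ε * L ≤
          (h - ε) * ((s' - s : ℕ) : ℝ) * Real.log 2 := by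
        rw [hcast] at hle ⊢
        have h4 : 0 ≤ (s' : ℝ) - s := by
          have : (s : ℝ) ≤ s' := by exact_mod_cast hs
          linarith only [hcast]
        have h5 : ε * ((s' : ℝ) - s) * Real.log 2 ≤ ε * L * 1 :=
          mul_le_mul (mul_le_mul_of_nonneg_left hle hε.le) hb1 hb.le (by (clear * - hε; positivity))
        have h6 : (h - ε) * ((s' : ℝ) - s) * Real.log 2 =
          h * ((s' : ℝ) - s) * Real.log 2 - ε * ((s' : ℝ) - s) * Real.log 2 := by ring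
        linarith only [h5]
      exact h3.trans h2
    · push Not at hη2
      have h0 := hc_nonneg Q (fun ω => fl (s' - s) (((c.comp π).sub s).pt ω))
          (fun ω => ((c.comp π).t ω, ((c.comp π).sub s).A ω))
      refine le_trans ?_ h0
      rw [hcast] at hη2
      have h4 : 0 ≤ (s' : ℝ) - s := by
        have : (s : ℝ) ≤ s' := by exact_mod_cast hs
        linarith only [hcast]
      have h5 : h * ((s' : ℝ) - s) * Real.log 2 ≤ |h| * ((s' : ℝ) - s) * Real.log 2 :=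
        mul_le_mul_of_nonneg_right (mul_le_mul_of_nonneg_right (le_abs_self h) h4) hb.le
      have h6 : |h| * ((s' : ℝ) - s) * Real.log 2 ≤ (|h| + 1) * (ε / (|h| + 1) * L) * 1 :=
        mul_le_mul (mul_le_mul (by linarith only []) hη2.le h4 (by (clear * -; positivity))) hb1 hb.le (by (clear * - hε; positivity))
      have h7 : (|h| + 1) * (ε / (|h| + 1) * L) * 1 = ε * L := by
        (clear * - hε; field_simp)
      linarith only [h5, h6, h7]
  · have := le_abs_self (cst m κ)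
    have := abs_nonneg (cst m 0)
    (clear h hLB hε hb hb1 g1 hg1 hη g2 hg2 n2 hn2 n1 hn1 hna n3 hn3 hnb hM oka okb hs1 hL0 P c Q π hG hD o ho he hC hG1 m1 m2; linarith)
  · have := abs_nonneg (cst m κ)
    have := le_abs_self (cst m 0)
    (clear h hLB hε hb hb1 g1 hg1 hη g2 hg2 n2 hn2 n1 hn1 hna n3 hn3 hnb hM oka okb hs1 hL0 P c Q π hG hD o ho he hC hG1 m1 m2; linarith)
  · have := abs_nonneg (cst m κ)
    have := abs_nonneg (cst m 0)
    (clear h hLB hε hb hb1 g1 hg1 hη g2 hg2 n2 hn2 n1 hn1 hna n3 hn3 hnb hM oka okb hs1 hL0 P c Q π hG hD o ho he hC hG1 m1 m2; linarith)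

/-- the rates of the extremal pairs (PROOF.md, section 2) -/
theorem rates_main (R : Gr) {m : ℕ} {h : ℝ} {κ : ℕ} (hLB : LB R m h) (ε K : ℝ) (hε : 0 < ε) :
    ∃ ι : ℝ, 0 < ι ∧ ∀ g : R.G, ∃ n : ℕ, ∀ (L : ℕ) (e C : ℝ), R.ok g n L e C →
      ∀ (Ω Ω' : Type) [Fintype Ω] [Fintype Ω'] (P : Law Ω) (c : Cf Ω m) (o : Ob Ω m κ)
        (Q : Law Ω') (π : Ω' → Ω), Good P c L e C →
        mi P (fun ω => (c.x ω, c.y ω)) o.G (fun ω => (c.t ω, c.A ω)) ≤ ι * L →
        hc P (fun ω => fl L (o.F c ω)) (fun ω => (c.t ω, o.G ω, c.A ω)) ≤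
          (h - κ + ι) * L * Real.log 2 →
        Dom Q π P K → Rate Q (c.comp π) (o.comp π) L h (ε * L) := by
  have hb : 0 < Real.log 2 := Real.log_pos (by norm_num)
  have hb1 : Real.log 2 ≤ 1 := by
    have := Real.log_le_sub_one_of_pos (show (0 : ℝ) < 2 by norm_num)
    linarith
  set K1 : ℝ := max K 2 with hK1
  have hK2 : 2 ≤ K1 := le_max_right _ _
  have hKK : K ≤ K1 := le_max_left _ _
  set ε1 : ℝ := ε / (2 * (5 * K1 + 18)) with hε1
  have hε1p : 0 < ε1 := by positivity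
  have hε1e : ε1 * (5 * K1 + 18) = ε / 2 := by
    rw [hε1]
    (clear * - hK2 hε; field_simp)
  refine ⟨min (ε / (4 * K1)) (ε1 / (2 * K1)), by (clear * - hε; positivity), ?_⟩
  intro g
  obtain ⟨n, hn⟩ := pre_exists R κ hLB ε1 K1 hε1p hK2 g
  refine ⟨n, ?_⟩
  intro L e C hok Ω Ω' _ _ P c o Q π hG hcost hrate hD
  set ι : ℝ := min (ε / (4 * K1)) (ε1 / (2 * K1)) with hι
  have hι1 : K1 * ι ≤ ε / 4 := by
    have h1 : ι ≤ ε / (4 * K1) := min_le_left _ _
    calc K1 * ι ≤ K1 * (ε / (4 * K1)) := mul_le_mul_of_nonneg_left h1 (by linarith only [hK2])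
      _ = ε / 4 := by field_simp
  have hι2 : K1 * ι ≤ ε1 / 2 := by
    have h1 : ι ≤ ε1 / (2 * K1) := min_le_right _ _
    calc K1 * ι ≤ K1 * (ε1 / (2 * K1)) := mul_le_mul_of_nonneg_left h1 (by linarith only [hK2])
      _ = ε1 / 2 := by (clear * - hK2 hε1p; field_simp)
  have hι0 : 0 < ι := by (clear * - hε; positivity)
  have hL0 : (0 : ℝ) ≤ L := Nat.cast_nonneg _
  obtain ⟨hKL, hpre⟩ := hn L e C hok
  have hD1 : Dom Q π P K1 := hD.mono hKK
  have hc1 : mi Q (fun ω => (c.x (π ω), c.y (π ω))) (o.comp π).G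
      (fun ω => (c.t (π ω), c.A (π ω))) ≤ ε1 * L := by
    have h1 := hD1.mi_le (fun ω => (c.x ω, c.y ω)) o.G (fun ω => (c.t ω, c.A ω))
    have h2 : mi Q (fun ω => (c.x (π ω), c.y (π ω))) (o.comp π).G
      (fun ω => (c.t (π ω), c.A (π ω))) ≤
        K1 * (mi P (fun ω => (c.x ω, c.y ω)) o.G (fun ω => (c.t ω, c.A ω)) + Real.log 2) := h1
    have h3 : K1 * mi P (fun ω => (c.x ω, c.y ω)) o.G (fun ω => (c.t ω, c.A ω)) ≤
        K1 * (ι * L) := mul_le_mul_of_nonneg_left hcost (by linarith only [hK2])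
    have h4 : K1 * (ι * L) ≤ ε1 / 2 * L := by
      rw [← mul_assoc]
      exact mul_le_mul_of_nonneg_right hι2 hL0
    linarith only [hKL, h2, h3, h4]
  have hp := hpre Ω Ω' P c Q π hG hD1 (o.comp π) hc1
  -- the complementary law
  obtain ⟨R', hR', hmix⟩ := Dom.split hK2 hD1
  have hR1 : Dom R' id P K1 := hR'.mono hK2
  have hc2 : mi R' (fun ω => (c.x (id ω), c.y (id ω))) o.G
      (fun ω => (c.t (id ω), c.A (id ω))) ≤ ε1 * L := by
    have h1 := hR1.mi_le (fun ω => (c.x ω, c.y ω)) o.G (fun ω => (c.t ω, c.A ω))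
    have h2 : mi R' (fun ω => (c.x (id ω), c.y (id ω))) o.G
      (fun ω => (c.t (id ω), c.A (id ω))) ≤
        K1 * (mi P (fun ω => (c.x ω, c.y ω)) o.G (fun ω => (c.t ω, c.A ω)) + Real.log 2) := h1
    have h3 : K1 * mi P (fun ω => (c.x ω, c.y ω)) o.G (fun ω => (c.t ω, c.A ω)) ≤
        K1 * (ι * L) := mul_le_mul_of_nonneg_left hcost (by linarith only [hK2])
    have h4 : K1 * (ι * L) ≤ ε1 / 2 * L := by
      rw [← mul_assoc]
      exact mul_le_mul_of_nonneg_right hι2 hL0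
    linarith only [hKL, h2, h3, h4]
  have hpR := hpre Ω Ω P c R' id hG hR1 o hc2
  have hloR : (h - κ) * L * Real.log 2 - 5 * (ε1 * L) ≤
      hc R' (fun ω => fl L (o.F c ω)) (fun ω => (c.t ω, o.G ω, c.A ω)) := hpR.lo0 le_rfl
  have hm := (mix_hc (a := 1 / K1) (by (clear * -; positivity)) (by
    rw [div_le_one (by linarith only [hK2])]
    linarith only [hK2]) hmix (fun ω => fl L (o.F c ω)) (fun ω => (c.t ω, o.G ω, c.A ω))).1
  have hm' : 1 / K1 * hc Q (fun ω => fl L ((o.comp π).F (c.comp π) ω))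
      (fun ω => ((c.comp π).t ω, (o.comp π).G ω, (c.comp π).A ω)) +
      (1 - 1 / K1) * hc R' (fun ω => fl L (o.F c ω)) (fun ω => (c.t ω, o.G ω, c.A ω)) ≤
      hc P (fun ω => fl L (o.F c ω)) (fun ω => (c.t ω, o.G ω, c.A ω)) := hm
  set XQ := hc Q (fun ω => fl L ((o.comp π).F (c.comp π) ω))
      (fun ω => ((c.comp π).t ω, (o.comp π).G ω, (c.comp π).A ω)) with hXQ
  set XR := hc R' (fun ω => fl L (o.F c ω)) (fun ω => (c.t ω, o.G ω, c.A ω)) with hXR
  set XP := hc P (fun ω => fl L (o.F c ω)) (fun ω => (c.t ω, o.G ω, c.A ω)) with hXP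
  have hKpos : 0 < K1 := by linarith only [hK2]
  have h1K : 0 ≤ 1 - 1 / K1 := by
    rw [sub_nonneg, div_le_one hKpos]
    linarith only [hK2]
  have hu : XQ ≤ (h - κ) * L * Real.log 2 + (K1 * ι * L + 5 * K1 * (ε1 * L)) := by
    have h1 : (1 - 1 / K1) * ((h - κ) * L * Real.log 2 - 5 * (ε1 * L)) ≤ (1 - 1 / K1) * XR :=
      mul_le_mul_of_nonneg_left hloR h1K
    have h2 : 1 / K1 * XQ ≤ (h - κ + ι) * L * Real.log 2 -
        (1 - 1 / K1) * ((h - κ) * L * Real.log 2 - 5 * (ε1 * L)) := by linarith only [hrate, hm', h1]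
    have h3 : XQ ≤ K1 * ((h - κ + ι) * L * Real.log 2 -
        (1 - 1 / K1) * ((h - κ) * L * Real.log 2 - 5 * (ε1 * L))) := by
      have h4 := mul_le_mul_of_nonneg_left h2 hKpos.le
      have h5 : K1 * (1 / K1 * XQ) = XQ := by (clear * - hK2; field_simp)
      (clear * - h4 h5; linarith)
    have h4 : K1 * ((h - κ + ι) * L * Real.log 2 -
        (1 - 1 / K1) * ((h - κ) * L * Real.log 2 - 5 * (ε1 * L))) =
        (h - κ) * L * Real.log 2 + K1 * ι * L * Real.log 2 + 5 * (K1 - 1) * (ε1 * L) := by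
      field_simp
      ring
    have h5 : K1 * ι * L * Real.log 2 ≤ K1 * ι * L * 1 :=
      mul_le_mul_of_nonneg_left hb1 (by (clear * - hε; positivity))
    have h6 : 0 ≤ ε1 * L := by (clear * - hε; positivity)
    linarith only [h3, h4, h5, h6]
  have hfin := hp.rate (u := K1 * ι * L + 5 * K1 * (ε1 * L)) (by (clear * - hε; positivity)) hu
  refine hfin.mono ?_
  have h1 : K1 * ι * L ≤ ε / 4 * L := mul_le_mul_of_nonneg_right hι1 hL0
  have h2 : 5 * K1 * (ε1 * L) + 18 * (ε1 * L) = (ε1 * (5 * K1 + 18)) * L := by ring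
  rw [hε1e] at h2
  have h3 : 0 ≤ ε * L := by (clear * - hε; positivity)
  linarith only [h1, h2, h3]

end Vale.Agent.P127.Stk
end

section

/-!
# P127 / Stk : section 6, `CK 0`
-/

namespace Vale.Agent.P127.Stk.Bs

open Finset Vale.Agent.P127 Vale.Agent.P127.Stk

/-- the killing lemma as used in section 6 -/
def KillG (R : Gr) (m : ℕ) (h : ℝ) (κ : ℕ) : Prop :=
  ∀ η : ℝ, 0 < η → ∃ δ : ℝ, 0 < δ ∧ ∀ (K : ℝ) (g : R.G), ∃ n : ℕ, ∀ (L : ℕ) (e C : ℝ),
    R.ok g n L e C →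
      ∀ (Ω : Type) [Fintype Ω] (P : Law Ω) (c : Cf Ω m) (o : Ob Ω m κ), Good P c L e C →
      ∀ (Ω' : Type) [Fintype Ω'] (Q : Law Ω') (π : Ω' → Ω), Dom Q π P K →
      ∀ (σ : Type) (D : Ω' → σ) (r r' : ℕ) (v : Ω' → Fin m → ℝ) (i0 : Fin m),
        r ≤ r' → r' ≤ L → η * L ≤ (r' : ℝ) - r → i0 ∉ o.J →
        Fn Q (fun ω => o.Γ (π ω)) D → Fn Q v D →
        (∀ ω, 0 < Q.w ω → (∀ j ∈ o.J, v ω j = 0) ∧ v ω i0 = 1 ∧ ∀ i, |v ω i| ≤ 1) →
        mi Q (fun ω => (c.x (π ω), c.y (π ω))) D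
          (fun ω => (c.t (π ω), c.A (π ω), fl r (c.x (π ω)), fl r (c.y (π ω)))) ≤ δ * L →
        (h - κ - 1) * ((r' : ℝ) - r) * Real.log 2 + δ * L <
          hc Q (fun ω => fl r' (fun i => o.F c (π ω) i - o.F c (π ω) i0 * v ω i))
            (fun ω => ((fl r (c.x (π ω)), fl r (c.y (π ω))), c.t (π ω), D ω, c.A (π ω)))

section bins

/-- dyadic blocks -/
theorem bin {B : ℝ} (hB : 1 ≤ B) {W : ℕ} (hW : 0 < W) {M : ℝ} (hM0 : 0 < M) (hMB : M ≤ B) :
    ∃ k : ℕ, (1 / 2 : ℝ) ^ (k * W + W) ≤ M ∧ M ≤ B * (1 / 2 : ℝ) ^ (k * W) := by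
  have hex : ∃ k : ℕ, B * (1 / 2 : ℝ) ^ (k * W) < M := by
    obtain ⟨n, hn⟩ := exists_pow_lt_of_lt_one (show (0 : ℝ) < M / B by positivity)
      (show (1 / 2 : ℝ) < 1 by norm_num)
    refine ⟨n, ?_⟩
    have h1 : (1 / 2 : ℝ) ^ (n * W) ≤ (1 / 2 : ℝ) ^ n :=
      pow_le_pow_of_le_one (by norm_num) (by norm_num) (Nat.le_mul_of_pos_right n hW)
    have h2 := h1.trans_lt hn
    rw [lt_div_iff₀ (by linarith only [hB])] at h2
    linarith only [h2]
  classical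
  obtain ⟨k', hk', hmin⟩ : ∃ k, B * (1 / 2 : ℝ) ^ (k * W) < M ∧
      ∀ j < k, ¬ B * (1 / 2 : ℝ) ^ (j * W) < M :=
    ⟨Nat.find hex, Nat.find_spec hex, fun j hj => Nat.find_min hex hj⟩
  rcases Nat.eq_zero_or_pos k' with h0 | h0
  · subst h0
    simp at hk'
    linarith only [hMB, hk']
  · obtain ⟨k, rfl⟩ := Nat.exists_eq_succ_of_ne_zero h0.ne'
    refine ⟨k, ?_, not_lt.1 (hmin k (Nat.lt_succ_self k))⟩
    have h1 : (k + 1) * W = k * W + W := by ring
    rw [Nat.succ_eq_add_one, h1] at hk'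
    have h2 : (0 : ℝ) < (1 / 2 : ℝ) ^ (k * W + W) := by positivity
    nlinarith only [hk', hB, h2]

/-- the index of the block is bounded -/
theorem bin_le {κ a L W k : ℕ} {ε M : ℝ} (hk : M ≤ (2 * 3 ^ κ) * (1 / 2 : ℝ) ^ (k * W))
    (hM : (2 : ℝ) ^ (-(a : ℝ) + ε * L) < M) (hL : (1 + 2 * κ : ℝ) ≤ ε / 2 * L) :
    ((k * W : ℕ) : ℝ) ≤ a - ε / 2 * L := by
  have h1 : (2 * 3 ^ κ : ℝ) ≤ (2 : ℝ) ^ ((1 + 2 * κ : ℝ)) := by
    have h2 : (3 : ℝ) ^ κ ≤ 4 ^ κ := pow_le_pow_left₀ (by norm_num) (by norm_num) κ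
    have h3 : (2 : ℝ) ^ ((1 + 2 * κ : ℝ)) = 2 * 4 ^ κ := by
      rw [Real.rpow_add (by norm_num), Real.rpow_one, Real.rpow_mul (by norm_num)]
      (clear * -; norm_num)
    rw [h3]
    linarith only [h2]
  have h4 : (1 / 2 : ℝ) ^ (k * W) = (2 : ℝ) ^ (-((k * W : ℕ) : ℝ)) := by
    rw [Real.rpow_neg (by norm_num), Real.rpow_natCast, one_div, inv_pow]
  have h5 : (2 : ℝ) ^ (-(a : ℝ) + ε * L) < (2 : ℝ) ^ ((1 + 2 * κ : ℝ) + -((k * W : ℕ) : ℝ)) := by
    rw [Real.rpow_add (by norm_num) (1 + 2 * κ : ℝ)]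
    refine hM.trans_le (hk.trans ?_)
    rw [h4]
    exact mul_le_mul_of_nonneg_right h1 (by positivity)
  have h6 := (Real.rpow_lt_rpow_left_iff (by norm_num : (1 : ℝ) < 2)).1 h5
  linarith only [hL, h6]

end bins

section events

variable {Ω : Type} [Fintype Ω]

theorem prE_mono' {P : Law Ω} {E E' : Ω → Prop} (h : ∀ ω, 0 < P.w ω → E ω → E' ω) :
    prE P E ≤ prE P E' := by
  classical
  unfold prE
  rw [Finset.sum_filter, Finset.sum_filter]
  refine Finset.sum_le_sum fun ω _ => ?_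
  rcases (P.nn ω).eq_or_lt with h0 | h0
  · simp [← h0]
  · by_cases h1 : E ω
    · rw [if_pos h1, if_pos (h ω h0 h1)]
    · rw [if_neg h1]
      split_ifs
      · exact P.nn ω
      · exact le_rfl

/-- union bound and pigeonhole -/
theorem pigeon {P : Law Ω} {ι : Type} [Fintype ι] {E : Ω → Prop} {F : ι → Ω → Prop}
    (h : ∀ ω, 0 < P.w ω → E ω → ∃ i, F i ω) {ε : ℝ} (hε : 0 < ε) (hE : ε < prE P E) :
    ∃ i, ε / Fintype.card ι ≤ prE P (F i) := by
  classical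
  by_contra hcon
  push Not at hcon
  have h1 : prE P E ≤ ∑ i, prE P (F i) := by
    refine (prE_mono' (E' := fun ω => ∃ i, F i ω) h).trans ?_
    unfold prE
    simp only [Finset.sum_filter]
    rw [Finset.sum_comm]
    refine Finset.sum_le_sum fun ω _ => ?_
    by_cases h2 : ∃ i, F i ω
    · obtain ⟨i, hi⟩ := h2
      rw [if_pos ⟨i, hi⟩]
      have h3 : (if F i ω then P.w ω else 0) = P.w ω := if_pos hi
      refine h3.ge.trans (Finset.single_le_sum (f := fun i => if F i ω then P.w ω else 0)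
        (fun i _ => ?_) (Finset.mem_univ i))
      show 0 ≤ if F i ω then P.w ω else 0
      split_ifs
      · exact P.nn ω
      · exact le_rfl
    · rw [if_neg h2]
      exact Finset.sum_nonneg fun i _ => by
        split_ifs
        · exact P.nn ω
        · exact le_rfl
  rcases isEmpty_or_nonempty ι with hι | hι
  · simp only [univ_eq_empty, sum_empty] at h1
    linarith
  · have h2 : ∑ i, prE P (F i) ≤ ∑ _i : ι, ε / Fintype.card ι :=
      Finset.sum_le_sum fun i _ => (hcon i).le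
    rw [Finset.sum_const, Finset.card_univ, nsmul_eq_mul, mul_div_cancel₀] at h2
    · linarith only [hE, h1, h2]
    · have : 0 < Fintype.card ι := Fintype.card_pos
      positivity

end events

theorem lag_zero {Ω : Type} (t : Ω → ℝ) (w : Fin (0 + 2) → Ω) (l : Fin (0 + 1)) :
    lag t w l = 1 := by
  unfold lag
  have : (Finset.univ : Finset (Fin (0 + 1))).erase l = ∅ := by
    ext i
    simp only [Finset.mem_erase, Finset.mem_univ, and_true, Finset.notMem_empty, iff_false,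
      not_not]
    exact Fin.ext (by have := i.2; have := l.2; omega)
  rw [this, Finset.prod_empty]

/-- the difference matrix -/
theorem lag_sum {Ω : Type} (t : Ω → ℝ) (w : Fin (0 + 2) → Ω) (G : Ω → ℝ) :
    G (w (Fin.last (0 + 1))) - ∑ l : Fin (0 + 1), lag t w l * G (w l.castSucc) =
      G (w 1) - G (w 0) := by
  simp only [lag_zero, one_mul]
  rw [Fin.sum_univ_succ]
  simp only [Nat.reduceAdd, Fin.reduceLast, Fin.isValue, Fin.castSucc_zero, univ_eq_empty, Fin.castSucc_succ, sum_empty, add_zero]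

end Vale.Agent.P127.Stk.Bs
end

section

/-!
# P127 / Stk : section 6, `CK 0`, the contradiction
-/

namespace Vale.Agent.P127.Stk.Bs

open Finset Vale.Agent.P127 Vale.Agent.P127.Stk

section gen

variable {Ω : Type} [Fintype Ω] {S S' τ U V : Type*}

/-- the information of a function of the line is at most the cost -/
theorem mi_drop {P : Law Ω} {l : Ω → S} {T : Ω → τ} {A : Ω → U} {W : Ω → V} (hW : Fn P W T) :
    mi P l T (fun ω => (W ω, A ω)) ≤ mi P l T A := by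
  rw [mi_symm P l T (fun ω => (W ω, A ω)), mi_symm P l T A]
  exact mi_cond_le P l A fun ω ω' h1 h2 h3 => hW ω ω' h1 h2 (Prod.mk.inj h3).1

theorem drop_T {P : Law Ω} {X : Ω → S'} {l : Ω → S} {T : Ω → τ} {A : Ω → U} {W : Ω → V}
    (hW : Fn P W T) (hX : Fn P X (fun ω => (l ω, W ω, A ω))) :
    hc P X (fun ω => (W ω, A ω)) - mi P l T A ≤ hc P X (fun ω => (T ω, A ω)) := by
  have h1 : mi P X T (fun ω => (W ω, A ω)) = hc P X (fun ω => (W ω, A ω)) -
      hc P X (fun ω => (T ω, W ω, A ω)) := rfl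
  have h2 : hc P X (fun ω => (T ω, W ω, A ω)) ≤ hc P X (fun ω => (T ω, A ω)) :=
    hc_mono_right P X fun ω ω' _ _ h => by
      simp only [Prod.mk.injEq] at h ⊢
      exact ⟨h.1, h.2.2⟩
  have h3 : mi P X T (fun ω => (W ω, A ω)) ≤ mi P l T (fun ω => (W ω, A ω)) :=
    mi_mono_left P T fun ω ω' h1 h2 h => hX ω ω' h1 h2 h
  have h4 := mi_drop (P := P) (l := l) (T := T) (A := A) (W := W) hW
  linarith

end gen

section rate

variable {Ω Ω' : Type} [Fintype Ω] [Fintype Ω'] {m κ : ℕ} {Q' : Law Ω'} {c : Cf Ω m}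
  {o : Ob Ω m κ} {L : ℕ} {h e1 : ℝ} {π : Ω' → Ω}

theorem rate_up0 (r : Rate Q' (c.comp π) (o.comp π) L h e1) {s : ℕ} (hs : s ≤ L) :
    hc Q' (fun w => fl s (o.F c (π w))) (fun w => (c.t (π w), o.G (π w), c.A (π w))) ≤
      (h - κ) * s * Real.log 2 + e1 := r.up0 s hs

theorem rate_lo0 (r : Rate Q' (c.comp π) (o.comp π) L h e1) {s : ℕ} (hs : s ≤ L) :
    (h - κ) * s * Real.log 2 - e1 ≤
    hc Q' (fun w => fl s (o.F c (π w))) (fun w => (c.t (π w), o.G (π w), c.A (π w))) :=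
  r.lo0 s hs

theorem rate_pt (r : Rate Q' (c.comp π) (o.comp π) L h e1) {s : ℕ} (hs : s ≤ L) :
    h * s * Real.log 2 - e1 ≤
    hc Q' (fun w => fl s (c.pt (π w))) (fun w => (c.t (π w), o.G (π w), c.A (π w))) := by
  have h1 := r.pt 0 s (Nat.zero_le _) hs
  rw [Nat.cast_zero, sub_zero] at h1
  refine h1.trans ?_
  refine hc_mono_right Q' (fun w => fl s (c.pt (π w))) fun w w' _ _ h3 => ?_
  exact (Prod.mk.inj h3).2

end rate

variable {Ω : Type} [Fintype Ω] {m κ : ℕ}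

/-- the cost of a pair of copies -/
theorem cost_fam {P : Law Ω} {c : Cf Ω m} {o : Ob Ω m κ} {a : ℕ} {Q : Law (Fin 2 → Ω)}
    (hQ : ∀ w, Q.w w = cw P (key c a) 1 w) {C I : ℝ}
    (h1 : mi P (fun ω => (c.x ω, c.y ω)) c.t c.A ≤ C)
    (h2 : mi P (fun ω => (c.x ω, c.y ω)) o.G (fun ω => (c.t ω, c.A ω)) ≤ I)
    {Q' : Law (Fin 2 → Ω)} {K : ℝ} (hD : Dom Q' id Q K) :
    mi Q' (fun w => (c.x (w 0), c.y (w 0))) (fun w i => (c.t (w i), o.G (w i)))
      (fun w => c.A (w 0)) ≤ K * (3 * (C + I) + Real.log 2) := by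
  have e1 := cw_cost hQ (fun ω => (c.x ω, c.y ω)) c.A (fun ω => (c.t ω, o.G ω))
    (fun ω => fl1 a (c.t ω)) (fun ω ω' _ _ h => by
      simp only [Prod.mk.injEq] at h
      simp only [h.1]) (fun ω ω' _ _ h => by
      simp only [Prod.mk.injEq] at h
      simp only [key, h.1.1, h.1.2, h.2.1, h.2.2]) (fun ω ω' _ _ h => by
      simp only [key, Prod.mk.injEq] at h
      simp only [h.1, h.2.1, h.2.2.1, h.2.2.2]) 0
  have e2 := mi_pair P (fun ω => (c.x ω, c.y ω)) c.t o.G c.A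
  have e3 := hD.mi_le (fun w => (c.x (w 0), c.y (w 0))) (fun w i => (c.t (w i), o.G (w i)))
      (fun w => c.A (w 0))
  have hK := hD.one_le
  refine e3.trans (mul_le_mul_of_nonneg_left ?_ (by linarith only [hK]))
  have e4 : mi Q (fun w => (c.x (w 0), c.y (w 0))) (fun w i => (c.t (w i), o.G (w i)))
      (fun w => c.A (w 0)) ≤ 3 * (C + I) := by
    refine e1.trans ?_
    push_cast
    linarith only [h1, h2, e2]
  linarith only [e4]

section

variable {Q' : Law (Fin 2 → Ω)} {c : Cf Ω m} {o : Ob Ω m κ} {L a β W : ℕ} {h e1 : ℝ}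
    {i0 j0 : Fin m}

/-- the data of both times -/
def TT (c : Cf Ω m) (o : Ob Ω m κ) (w : Fin 2 → Ω) : Fin 2 → ℝ × o.γ :=
  fun i => (c.t (w i), o.G (w i))

theorem TT_i {w w' : Fin 2 → Ω} (h : TT c o w = TT c o w') (i : Fin 2) :
    c.t (w i) = c.t (w' i) ∧ o.G (w i) = o.G (w' i) := by
  have h1 := congrFun h i
  simpa only [TT, Prod.mk.injEq] using h1

theorem c_u0 (r0 : Rate Q' (c.comp fun w => w 0) (o.comp fun w => w 0) L h e1)
    (haL : a ≤ L) :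
    hc Q' (fun w => fl a (o.F c (w 0))) (fun w => (TT c o w, c.A (w 0))) ≤
      (h - κ) * a * Real.log 2 + e1 := by
  refine le_trans ?_ (rate_up0 r0 haL)
  refine hc_mono_right Q' _ fun w w' h1 h2 h3 => ?_
  have h4 := TT_i (Prod.mk.inj h3).1 0
  rw [h4.1, h4.2, (Prod.mk.inj h3).2]

theorem c_u1 (r1 : Rate Q' (c.comp fun w => w 1) (o.comp fun w => w 1) L h e1)
    (hkey : ∀ w, 0 < Q'.w w → c.x (w 1) = c.x (w 0) ∧ c.y (w 1) = c.y (w 0) ∧
      c.A (w 1) = c.A (w 0)) (haL : a ≤ L) :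
    hc Q' (fun w => fl a (o.F c (w 1))) (fun w => (TT c o w, c.A (w 0))) ≤
      (h - κ) * a * Real.log 2 + e1 := by
  refine le_trans ?_ (rate_up0 r1 haL)
  refine hc_mono_right Q' _ fun w w' h1 h2 h3 => ?_
  have h4 := TT_i (Prod.mk.inj h3).1 1
  have h5 := (Prod.mk.inj h3).2
  rw [h4.1, h4.2, (hkey w h1).2.2, (hkey w' h2).2.2, h5]

/-- the projected point at the time one, written with the line at the time zero -/
theorem FF1_eq {w : Fin 2 → Ω} (hw : c.x (w 1) = c.x (w 0) ∧ c.y (w 1) = c.y (w 0)) :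
    FF (fun w => c.x (w 0)) (fun w => c.y (w 0)) (fun w => c.t (w 1)) (fun w => o.Γ (w 1))
      o.J w = o.F c (w 1) := by
  show ap o.J (o.Γ (w 1)) (fun i => c.x (w 0) i + c.t (w 1) * c.y (w 0) i) =
    ap o.J (o.Γ (w 1)) (fun i => c.x (w 1) i + c.t (w 1) * c.y (w 1) i)
  rw [hw.1, hw.2]

theorem c_u1' (r1 : Rate Q' (c.comp fun w => w 1) (o.comp fun w => w 1) L h e1)
    (hkey : ∀ w, 0 < Q'.w w → c.x (w 1) = c.x (w 0) ∧ c.y (w 1) = c.y (w 0) ∧
      c.A (w 1) = c.A (w 0)) (haL : a ≤ L) :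
    hc Q' (fun w => fl a (FF (fun w => c.x (w 0)) (fun w => c.y (w 0)) (fun w => c.t (w 1))
      (fun w => o.Γ (w 1)) o.J w)) (fun w => (TT c o w, c.A (w 0))) ≤
      (h - κ) * a * Real.log 2 + e1 := by
  refine le_trans ?_ (c_u1 r1 hkey haL)
  refine hc_mono_left Q' fun w w' h1 h2 h3 => ?_
  have h4 := hkey w h1
  have h5 := hkey w' h2
  rw [FF1_eq ⟨h4.1, h4.2.1⟩, FF1_eq ⟨h5.1, h5.2.1⟩]
  exact (Prod.mk.inj h3).1

theorem c_n1 (r0 : Rate Q' (c.comp fun w => w 0) (o.comp fun w => w 0) L h e1)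
    (haL : a ≤ L) :
    h * a * Real.log 2 - e1 - mi Q' (fun w => (c.x (w 0), c.y (w 0))) (TT c o)
      (fun w => c.A (w 0)) ≤
      hc Q' (fun w => fl a (c.pt (w 0))) (fun w => (TT c o w, c.A (w 0))) := by
  have e2 := drop_T (P := Q') (X := fun w => fl a (c.pt (w 0)))
    (l := fun w => (c.x (w 0), c.y (w 0))) (T := TT c o) (A := fun w => c.A (w 0))
    (W := fun w => (c.t (w 0), o.G (w 0))) (fun w w' _ _ h3 => congrFun h3 0) (by
      intro w w' _ _ h3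
      simp only [Prod.mk.injEq] at h3
      obtain ⟨⟨q1, q2⟩, ⟨q3, _⟩, _⟩ := h3
      have : c.pt (w 0) = c.pt (w' 0) := by
        unfold Cf.pt
        rw [q1, q2, q3]
      simp only [this])
  have e3 := rate_pt r0 haL
  have e4 : hc Q' (fun w => fl a (c.pt (w 0)))
      (fun w => (c.t (w 0), o.G (w 0), c.A (w 0))) ≤
      hc Q' (fun w => fl a (c.pt (w 0))) (fun w => ((c.t (w 0), o.G (w 0)), c.A (w 0))) := by
    refine hc_mono_right Q' _ fun w w' _ _ h3 => ?_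
    simp only [Prod.mk.injEq] at h3 ⊢
    exact ⟨⟨h3.1, h3.2.1⟩, h3.2.2⟩
  linarith

theorem c_l0 (r0 : Rate Q' (c.comp fun w => w 0) (o.comp fun w => w 0) L h e1)
    (haL : β ≤ L) :
    (h - κ) * β * Real.log 2 - e1 - mi Q' (fun w => (c.x (w 0), c.y (w 0))) (TT c o)
      (fun w => c.A (w 0)) ≤
      hc Q' (fun w => fl β (o.F c (w 0))) (fun w => (TT c o w, c.A (w 0))) := by
  have e2 := drop_T (P := Q') (X := fun w => fl β (o.F c (w 0)))
    (l := fun w => (c.x (w 0), c.y (w 0))) (T := TT c o) (A := fun w => c.A (w 0))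
    (W := fun w => (c.t (w 0), o.G (w 0))) (fun w w' _ _ h3 => congrFun h3 0) (by
      intro w w' _ _ h3
      simp only [Prod.mk.injEq] at h3
      obtain ⟨⟨q1, q2⟩, ⟨q3, q4⟩, _⟩ := h3
      have : o.F c (w 0) = o.F c (w' 0) := by
        unfold Ob.F Ob.app Cf.pt
        rw [q1, q2, q3, o.fn _ _ q4]
      simp only [this])
  have e3 := rate_lo0 r0 haL
  have e4 : hc Q' (fun w => fl β (o.F c (w 0)))
      (fun w => (c.t (w 0), o.G (w 0), c.A (w 0))) ≤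
      hc Q' (fun w => fl β (o.F c (w 0))) (fun w => ((c.t (w 0), o.G (w 0)), c.A (w 0))) := by
    refine hc_mono_right Q' _ fun w w' _ _ h3 => ?_
    simp only [Prod.mk.injEq] at h3 ⊢
    exact ⟨⟨h3.1, h3.2.1⟩, h3.2.2⟩
  linarith

/-- the cost in the form needed for the killing lemma -/
theorem c_mi (β : ℕ) : mi Q' (fun w => (c.x (w 0), c.y (w 0))) (TT c o)
      (fun w => (c.t (w 0), c.A (w 0), fl β (c.x (w 0)), fl β (c.y (w 0)))) ≤
      mi Q' (fun w => (c.x (w 0), c.y (w 0))) (TT c o) (fun w => c.A (w 0)) := by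
  have h1 := mi_drop (P := Q') (l := fun w => (c.x (w 0), c.y (w 0))) (T := TT c o)
    (A := fun w => (c.A (w 0), fl β (c.x (w 0)), fl β (c.y (w 0))))
    (W := fun w => c.t (w 0)) (fun w w' _ _ h3 => (TT_i h3 0).1)
  have h2 := mi_congr_cond Q' (fun w => (c.x (w 0), c.y (w 0))) (TT c o)
    (Z := fun w => (c.A (w 0), fl β (c.x (w 0)), fl β (c.y (w 0))))
    (Z' := fun w => ((fl β (c.x (w 0)), fl β (c.y (w 0))), c.A (w 0)))
    (fun w w' _ _ h3 => by
      simp only [Prod.mk.injEq] at h3 ⊢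
      (clear * - h3; tauto)) (fun w w' _ _ h3 => by
      simp only [Prod.mk.injEq] at h3 ⊢
      tauto)
  have h3 := mi_cond_le Q' (X := fun w => (c.x (w 0), c.y (w 0))) (TT c o)
    (W := fun w => (fl β (c.x (w 0)), fl β (c.y (w 0)))) (fun w => c.A (w 0))
    (fun w w' _ _ h3 => by
      simp only [Prod.mk.injEq] at h3 ⊢
      rw [h3.1.1, h3.1.2]
      exact ⟨rfl, rfl⟩)
  linarith only [h1, h2, h3]

/-- the upper bound which contradicts the killing lemma -/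
theorem contra
    (hDD : DD Q' κ (fun w => c.x (w 0)) (fun w => c.y (w 0)) (fun w => c.t (w 0))
      (fun w => c.t (w 1)) (fun w => o.Γ (w 0)) (fun w => o.Γ (w 1)) (TT c o) o.J i0 j0 a β W)
    (hkey : ∀ w, 0 < Q'.w w → c.x (w 1) = c.x (w 0) ∧ c.y (w 1) = c.y (w 0) ∧
      c.A (w 1) = c.A (w 0))
    (r0 : Rate Q' (c.comp fun w => w 0) (o.comp fun w => w 0) L h e1)
    (r1 : Rate Q' (c.comp fun w => w 1) (o.comp fun w => w 1) L h e1)
    (hβ : β ≤ a) (haL : a ≤ L) :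
    hc Q' (fun w => fl a (fun i => o.F c (w 0) i -
        o.F c (w 0) i0 * vv (fun w => o.Γ (w 0)) (fun w => o.Γ (w 1)) o.J i0 j0 w i))
      (fun w => ((fl β (c.x (w 0)), fl β (c.y (w 0))), c.t (w 0), TT c o w, c.A (w 0))) ≤
      (h - κ - 1) * ((a : ℝ) - β) * Real.log 2 + (W * Real.log 2 + 4 * e1 +
        2 * mi Q' (fun w => (c.x (w 0), c.y (w 0))) (TT c o) (fun w => c.A (w 0)) +
        (κ * Real.log 3 + 2 * Real.log 2 + 7 * (m * Real.log (2 * NN κ + 3)))) := by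
  have hd := hDD.disp (fun w => c.A (w 0)) L hβ haL
  have u0 : hc Q' (fun w => fl a (FF (fun w => c.x (w 0)) (fun w => c.y (w 0))
      (fun w => c.t (w 0)) (fun w => o.Γ (w 0)) o.J w)) (fun w => (TT c o w, c.A (w 0))) ≤
      (h - κ) * a * Real.log 2 + e1 := c_u0 r0 haL
  have u1 := c_u1' r1 hkey haL
  have n1 : h * a * Real.log 2 - e1 -
      mi Q' (fun w => (c.x (w 0), c.y (w 0))) (TT c o) (fun w => c.A (w 0)) ≤
      hc Q' (fun w => fl a (pnt (fun w => c.x (w 0))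
      (fun w => c.y (w 0)) (fun w => c.t (w 0)) w)) (fun w => (TT c o w, c.A (w 0))) :=
    c_n1 r0 haL
  have l0 : (h - κ) * β * Real.log 2 - e1 -
      mi Q' (fun w => (c.x (w 0), c.y (w 0))) (TT c o) (fun w => c.A (w 0)) ≤
      hc Q' (fun w => fl β (FF (fun w => c.x (w 0)) (fun w => c.y (w 0))
      (fun w => c.t (w 0)) (fun w => o.Γ (w 0)) o.J w)) (fun w => (TT c o w, c.A (w 0))) :=
    c_l0 r0 (hβ.trans haL)
  have hlast : hc Q' (fun w => fl a (fun i => o.F c (w 0) i -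
        o.F c (w 0) i0 * vv (fun w => o.Γ (w 0)) (fun w => o.Γ (w 1)) o.J i0 j0 w i))
      (fun w => ((fl β (c.x (w 0)), fl β (c.y (w 0))), c.t (w 0), TT c o w, c.A (w 0))) ≤
      hc Q' (fun w => fl a (ZZ (fun w => c.x (w 0)) (fun w => c.y (w 0)) (fun w => c.t (w 0))
        (fun w => o.Γ (w 0)) (fun w => o.Γ (w 1)) o.J i0 j0 w))
      (fun w => ((fl β (c.x (w 0)), fl β (c.y (w 0))), TT c o w, c.A (w 0))) :=
    hc_mono_right Q' _ fun w w' _ _ h3 => by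
      simp only [Prod.mk.injEq] at h3 ⊢
      exact ⟨h3.1, h3.2.2.1, h3.2.2.2⟩
  refine hlast.trans (hd.trans ?_)
  linarith only [u0, u1, n1, l0]

end

end Vale.Agent.P127.Stk.Bs
end

section

/-!
# P127 / Stk : section 6, `CK 0`, the assembly
-/

namespace Vale.Agent.P127.Stk.Bs

open Finset Vale.Agent.P127 Vale.Agent.P127.Stk

variable {Ω : Type} [Fintype Ω] {m κ : ℕ}

/-- the bad event of `CK 0` -/
def Bad (o : Ob Ω m κ) (thr : ℝ) (w : Fin 2 → Ω) : Prop :=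
  ∃ i, i ∉ o.J ∧ ∃ j ∈ o.J, thr < |o.Γ (w 1) i j - o.Γ (w 0) i j|

/-- the event where the maximal entry is `(i, j)` and its size is in the `k`-th block -/
def Blk (o : Ob Ω m κ) (W : ℕ) (top : ℝ) (i j : Fin m) (k : ℕ) (w : Fin 2 → Ω) : Prop :=
  i ∉ o.J ∧ j ∈ o.J ∧ (∀ i', i' ∉ o.J → |o.Γ (w 1) i' j - o.Γ (w 0) i' j| ≤
    |o.Γ (w 1) i j - o.Γ (w 0) i j|) ∧
    |o.Γ (w 1) i j - o.Γ (w 0) i j| ≤ (2 * 3 ^ κ) * (1 / 2 : ℝ) ^ (k * W) ∧
    (1 / 2 : ℝ) ^ (k * W + W) ≤ |o.Γ (w 1) i j - o.Γ (w 0) i j| ∧ ((k * W : ℕ) : ℝ) ≤ top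

theorem bad_blk {o : Ob Ω m κ} {a L W : ℕ} {ε : ℝ} (hW : 0 < W)
    (hL : (1 + 2 * κ : ℝ) ≤ ε / 2 * L) {w : Fin 2 → Ω}
    (h : Bad o ((2 : ℝ) ^ (-(a : ℝ) + ε * L)) w) :
    ∃ i j k, Blk o W (a - ε / 2 * L) i j k w := by
  classical
  obtain ⟨i1, hi1, j1, hj1, hb⟩ := h
  have hne : ((Finset.univ : Finset (Fin m × Fin m)).filter
      (fun p => p.1 ∉ o.J ∧ p.2 ∈ o.J)).Nonempty :=
    ⟨(i1, j1), by simp only [mem_filter, mem_univ, hi1, not_false_eq_true, hj1, and_self]⟩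
  obtain ⟨⟨i, j⟩, hij, hmax⟩ := Finset.exists_max_image _
    (fun p : Fin m × Fin m => |o.Γ (w 1) p.1 p.2 - o.Γ (w 0) p.1 p.2|) hne
  simp only [Finset.mem_filter, Finset.mem_univ, true_and] at hij hmax
  have h1 := hmax (i1, j1) ⟨hi1, hj1⟩
  have h2 : (2 : ℝ) ^ (-(a : ℝ) + ε * L) < |o.Γ (w 1) i j - o.Γ (w 0) i j| := hb.trans_le h1
  have h0 : (0 : ℝ) < (2 : ℝ) ^ (-(a : ℝ) + ε * L) := by positivity
  have h3 : |o.Γ (w 1) i j - o.Γ (w 0) i j| ≤ 2 * 3 ^ κ := by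
    have := abs_sub (o.Γ (w 1) i j) (o.Γ (w 0) i j)
    have := o.bd (w 1) i j
    have := o.bd (w 0) i j
    (clear a L W ε hW hL i1 hi1 j1 hj1 hb hne hij hmax h1 h2 h0; linarith)
  have hB : (1 : ℝ) ≤ 2 * 3 ^ κ := by
    have := pow3 κ
    linarith only [this]
  obtain ⟨k, hk1, hk2⟩ := bin hB hW (h0.trans h2) h3
  exact ⟨i, j, k, hij.1, hij.2, fun i' hi' => hmax (i', j) ⟨hi', hij.2⟩, hk2, hk1,
    bin_le hk2 h2 hL⟩

theorem dd_of {c : Cf Ω m} {o : Ob Ω m κ} {a W k : ℕ} {top : ℝ} {i j : Fin m}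
    {Q' : Law (Fin 2 → Ω)} (hx : ∀ ω i, 0 ≤ c.x ω i ∧ c.x ω i < 1)
    (hy : ∀ ω i, 0 ≤ c.y ω i ∧ c.y ω i < 1) (ht : ∀ ω, 0 ≤ c.t ω ∧ c.t ω < 1)
    (hi : i ∉ o.J) (hj : j ∈ o.J)
    (hkey : ∀ w, 0 < Q'.w w → key c a (w 1) = key c a (w 0))
    (hblk : ∀ w, 0 < Q'.w w → Blk o W top i j k w) :
    DD Q' κ (fun w => c.x (w 0)) (fun w => c.y (w 0)) (fun w => c.t (w 0))
      (fun w => c.t (w 1)) (fun w => o.Γ (w 0)) (fun w => o.Γ (w 1)) (TT c o) o.J i j a
      (k * W) W where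
  card := o.card
  hi0 := hi
  hj0 := hj
  hx := fun w _ i => hx (w 0) i
  hy := fun w _ i => hy (w 0) i
  ht0 := fun w _ => ht (w 0)
  ht1 := fun w _ => ht (w 1)
  htt := fun w hw => by
    have h1 := hkey w hw
    simp only [key, Prod.mk.injEq] at h1
    exact fl1_close h1.2.2.2.symm
  hg0 := fun w _ => o.bd (w 0)
  hg1 := fun w _ => o.bd (w 1)
  hmx := fun w hw i' hi' => (hblk w hw).2.2.1 i' hi'
  hup := fun w hw => (hblk w hw).2.2.2.1
  hlo := fun w hw => (hblk w hw).2.2.2.2.1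
  hfn := fun w w' _ _ h3 => by
    have h0 := TT_i h3 0
    have h1 := TT_i h3 1
    show (c.t (w 0), c.t (w 1), o.Γ (w 0), o.Γ (w 1)) =
      (c.t (w' 0), c.t (w' 1), o.Γ (w' 0), o.Γ (w' 1))
    rw [h0.1, h1.1, o.fn _ _ h0.2, o.fn _ _ h1.2]

/-- the constant -/
noncomputable def Cs (m κ : ℕ) : ℝ :=
  κ * Real.log 3 + 2 * Real.log 2 + 7 * (m * Real.log (2 * NN κ + 3))

theorem Cs_nonneg (m κ : ℕ) : 0 ≤ Cs m κ := by
  unfold Cs
  have h1 : 0 ≤ Real.log 3 := Real.log_nonneg (by norm_num)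
  have h2 : 0 ≤ Real.log 2 := Real.log_nonneg (by norm_num)
  have h3 : 0 ≤ Real.log (2 * (NN κ : ℝ) + 3) := Real.log_nonneg (by
    have : (0 : ℝ) ≤ NN κ := Nat.cast_nonneg _
    linarith only [])
  (clear * - h3; positivity)

theorem num_small {κ : ℕ} {ε δ K Cst L C : ℝ} (hε : 0 < ε) (hδ : 0 < δ) (hK : 2 ≤ K)
    (hCst : 0 ≤ Cst) (hL0 : 0 ≤ L)
    (s1 : 1 ≤ min (ε / (2 * (1 + 2 * κ))) (δ / (96 * K + 16 * (2 * K + 1 + Cst))) * L)
    (s3 : C ≤ min (ε / (2 * (1 + 2 * κ))) (δ / (96 * K + 16 * (2 * K + 1 + Cst))) * L) :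
    (1 + 2 * κ : ℝ) ≤ ε / 2 * L ∧ 96 * K + 16 * (2 * K + 1 + Cst) ≤ δ * L ∧
      96 * K * max C 0 ≤ δ * L ∧ 0 < L := by
  have s1a : 1 ≤ ε / (2 * (1 + 2 * κ)) * L :=
    s1.trans (mul_le_mul_of_nonneg_right (min_le_left _ _) hL0)
  have s1b : 1 ≤ δ / (96 * K + 16 * (2 * K + 1 + Cst)) * L :=
    s1.trans (mul_le_mul_of_nonneg_right (min_le_right _ _) hL0)
  have s3b : C ≤ δ / (96 * K + 16 * (2 * K + 1 + Cst)) * L :=
    s3.trans (mul_le_mul_of_nonneg_right (min_le_right _ _) hL0)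
  have hL1 : (1 + 2 * κ : ℝ) ≤ ε / 2 * L := by
    have h1 : (0 : ℝ) < 1 + 2 * κ := by (clear * -; positivity)
    have h2 : ε / (2 * (1 + 2 * κ)) * L = (ε / 2 * L) / (1 + 2 * κ) := by
      field_simp
    rw [h2, le_div_iff₀ h1, one_mul] at s1a
    exact s1a
  have hK0 : 0 < K := by linarith only [hK]
  have hden : 0 < 96 * K + 16 * (2 * K + 1 + Cst) := by positivity
  have hL2 : 96 * K + 16 * (2 * K + 1 + Cst) ≤ δ * L := by
    rw [div_mul_eq_mul_div, le_div_iff₀ hden, one_mul] at s1b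
    exact s1b
  refine ⟨hL1, hL2, ?_, ?_⟩
  · rcases le_total C 0 with h1 | h1
    · rw [max_eq_right h1, mul_zero]
      positivity
    · rw [max_eq_left h1]
      rw [div_mul_eq_mul_div, le_div_iff₀ hden] at s3b
      have : 0 ≤ C * (16 * (2 * K + 1 + Cst)) := by positivity
      linarith only [s3b, this]
  · rcases hL0.eq_or_lt with h0 | h0
    · rw [← h0, mul_zero] at hL2
      linarith only [hK, hCst, hL2]
    · exact h0

theorem num_cost {δ K L C cost : ℝ} (hδ : 0 < δ) (hK : 2 ≤ K) (hL : 0 < L)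
    (hC : 96 * K * max C 0 ≤ δ * L)
    (hc : cost ≤ K * (3 * (max C 0 + δ / (96 * K) * L) + Real.log 2)) :
    cost ≤ δ / 16 * L + K := by
  have hb1 : Real.log 2 ≤ 1 := by
    have := Real.log_two_lt_d9
    linarith only [this]
  have hK0 : 0 < K := by linarith only [hK]
  have hKδ : K * (δ / (96 * K) * L) = δ / 96 * L := by field_simp
  have h1 : K * (3 * (max C 0 + δ / (96 * K) * L) + Real.log 2) =
      3 * (K * max C 0) + 3 * (K * (δ / (96 * K) * L)) + K * Real.log 2 := by ring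
  rw [h1, hKδ] at hc
  have h2 : K * Real.log 2 ≤ K * 1 := mul_le_mul_of_nonneg_left hb1 hK0.le
  have h3 : 0 < δ * L := by positivity
  linarith only [hC, hc, h2]

theorem num_fin {δ K L W Cst cost : ℝ} (hδ : 0 < δ) (hK : 2 ≤ K) (hL : 0 < L)
    (hCst : 0 ≤ Cst) (hL2 : 96 * K + 16 * (2 * K + 1 + Cst) ≤ δ * L) (hW0 : 0 ≤ W)
    (hW : W ≤ δ / 8 * L + 1) (hc : cost ≤ δ / 16 * L + K) :
    cost ≤ δ * L ∧ W * Real.log 2 + 4 * (δ / 32 * L) + 2 * cost + Cst ≤ δ * L := by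
  have hb1 : Real.log 2 ≤ 1 := by
    have := Real.log_two_lt_d9
    linarith only [this]
  have h2 : W * Real.log 2 ≤ W * 1 := mul_le_mul_of_nonneg_left hb1 hW0
  have h3 : 0 < δ * L := by positivity
  constructor <;> linarith only [hK, hCst, hL2, hW, hc, h2]

/-- the contradiction, for a fixed block -/
theorem ck0_blk {P : Law Ω} {c : Cf Ω m} {o : Ob Ω m κ} {Q Q' : Law (Fin 2 → Ω)}
    {a L W k : ℕ} {h ε δ e C K : ℝ} {i j : Fin m}
    (hδ : 0 < δ) (hK : 2 ≤ K) (hL : (0 : ℝ) < L)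
    (hL2 : 96 * K + 16 * (2 * K + 1 + Cs m κ) ≤ δ * L) (hL3 : 96 * K * max C 0 ≤ δ * L)
    (hW2 : (W : ℝ) ≤ δ / 8 * L + 1) (hβa : k * W ≤ a) (haL : a ≤ L)
    (hη : ε / 2 * L ≤ (a : ℝ) - (k * W : ℕ))
    (hgood : Good P c L e C)
    (hcost : mi P (fun ω => (c.x ω, c.y ω)) o.G (fun ω => (c.t ω, c.A ω)) ≤ δ / (96 * K) * L)
    (hQ : ∀ w, Q.w w = cw P (key c a) 1 w) (hdom : Dom Q' id Q K)
    (hkey : ∀ w, 0 < Q'.w w → key c a (w 1) = key c a (w 0))
    (hi : i ∉ o.J)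
    (hDD : DD Q' κ (fun w => c.x (w 0)) (fun w => c.y (w 0)) (fun w => c.t (w 0))
      (fun w => c.t (w 1)) (fun w => o.Γ (w 0)) (fun w => o.Γ (w 1)) (TT c o) o.J i j a
      (k * W) W)
    (r0 : Rate Q' (c.comp fun w => w 0) (o.comp fun w => w 0) L h (δ / 32 * L))
    (r1 : Rate Q' (c.comp fun w => w 1) (o.comp fun w => w 1) L h (δ / 32 * L))
    (hk : ∀ (σ : Type) (D : (Fin 2 → Ω) → σ) (r r' : ℕ) (v : (Fin 2 → Ω) → Fin m → ℝ)
        (i0 : Fin m),
        r ≤ r' → r' ≤ L → ε / 2 * L ≤ (r' : ℝ) - r → i0 ∉ o.J →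
        Fn Q' (fun ω => o.Γ (ω 0)) D → Fn Q' v D →
        (∀ ω, 0 < Q'.w ω → (∀ j ∈ o.J, v ω j = 0) ∧ v ω i0 = 1 ∧ ∀ i, |v ω i| ≤ 1) →
        mi Q' (fun ω => (c.x (ω 0), c.y (ω 0))) D
          (fun ω => (c.t (ω 0), c.A (ω 0), fl r (c.x (ω 0)), fl r (c.y (ω 0)))) ≤ δ * L →
        (h - κ - 1) * ((r' : ℝ) - r) * Real.log 2 + δ * L <
          hc Q' (fun ω => fl r' (fun i => o.F c (ω 0) i - o.F c (ω 0) i0 * v ω i))
            (fun ω => ((fl r (c.x (ω 0)), fl r (c.y (ω 0))), c.t (ω 0), D ω, c.A (ω 0)))) :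
    False := by
  have hkey' : ∀ w, 0 < Q'.w w → c.x (w 1) = c.x (w 0) ∧ c.y (w 1) = c.y (w 0) ∧
      c.A (w 1) = c.A (w 0) := by
    intro w hw
    have h1 := hkey w hw
    simp only [key, Prod.mk.injEq] at h1
    exact ⟨h1.1, h1.2.1, h1.2.2.1⟩
  have hcf : mi Q' (fun w => (c.x (w 0), c.y (w 0))) (TT c o) (fun w => c.A (w 0)) ≤
      K * (3 * (max C 0 + δ / (96 * K) * L) + Real.log 2) :=
    cost_fam (o := o) hQ (hgood.ind.trans (le_max_left C 0)) hcost hdom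
  have hcf2 := num_cost hδ hK hL hL3 hcf
  have hcon2 := contra hDD hkey' r0 r1 hβa haL
  have hnum := num_fin (Cst := Cs m κ) hδ hK hL (Cs_nonneg m κ) hL2 (Nat.cast_nonneg W) hW2 hcf2
  have hfin := hk (Fin 2 → ℝ × o.γ) (TT c o) (k * W) a
    (vv (fun w => o.Γ (w 0)) (fun w => o.Γ (w 1)) o.J i j) i hβa haL hη hi
    (fun w w' _ _ h3 => o.fn _ _ (TT_i h3 0).2)
    (fun w w' h1 h2 h3 => hDD.hvT h1 h2 h3)
    (fun w hw => by
      refine ⟨fun j' hj' => by simp [vv, hj'], ?_, hDD.hv1 hw⟩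
      have h0 := hDD.hD0 hw
      simp only [vv, if_neg hi]
      exact div_self h0)
    ((c_mi (k * W)).trans hnum.1)
  have h2 := hnum.2
  unfold Cs at h2
  linarith only [hcon2, hfin, h2]

theorem dom_i {P : Law Ω} {c : Cf Ω m} {a : ℕ} {Q Q' : Law (Fin 2 → Ω)} {K : ℝ}
    (hQ : ∀ w, Q.w w = cw P (key c a) 1 w) (hdom : Dom Q' id Q K) (i : Fin 2) :
    Dom Q' (fun w => w i) P K := by
  have h1 : Dom Q (fun w : Fin 2 → Ω => w i) P 1 := by
    intro ω
    rw [cw_marg hQ i ω, one_mul]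
  have h2 := Dom.comp hdom h1
  rw [mul_one] at h2
  exact h2

theorem exists_pos (Q : Law Ω) : ∃ w, 0 < Q.w w := by
  by_contra hno
  push Not at hno
  have h1 : ∑ w, Q.w w ≤ 0 := Finset.sum_nonpos fun w _ => hno w
  rw [Q.sum_one] at h1
  linarith

/-- pigeonhole for the blocks -/
theorem ck0_pig {o : Ob Ω m κ} {Q : Law (Fin 2 → Ω)} {a L W : ℕ} {ε δ : ℝ} (hε : 0 < ε)
    (hδ : 0 < δ) (hL : (0 : ℝ) < L) (hL1 : (1 + 2 * κ : ℝ) ≤ ε / 2 * L) (haL : a ≤ L)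
    (hW1 : δ / 8 * L ≤ W)
    (hcon : ε < prE Q (Bad o ((2 : ℝ) ^ (-(a : ℝ) + ε * (L : ℕ))))) :
    ∃ p : Fin m × Fin m × Fin (⌈8 / δ⌉₊ + 1),
      ε / Fintype.card (Fin m × Fin m × Fin (⌈8 / δ⌉₊ + 1)) ≤
        prE Q (Blk o W (a - ε / 2 * L) p.1 p.2.1 p.2.2) := by
  have hW0 : 0 < W := by
    have h1 : 0 < δ / 8 * L := by (clear * - hδ hL; positivity)
    have h2 : (0 : ℝ) < W := h1.trans_le hW1
    exact_mod_cast h2
  have haL' : (a : ℝ) ≤ L := by exact_mod_cast haL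
  refine pigeon (P := Q) (E := Bad o ((2 : ℝ) ^ (-(a : ℝ) + ε * (L : ℕ))))
    (F := fun p : Fin m × Fin m × Fin (⌈8 / δ⌉₊ + 1) =>
      Blk o W (a - ε / 2 * L) p.1 p.2.1 p.2.2) (fun w _ hw => ?_) hε hcon
  obtain ⟨i, j, k, hb⟩ := bad_blk hW0 hL1 hw
  have h1 : (k : ℝ) * W ≤ L := by
    have h2 := hb.2.2.2.2.2
    push_cast at h2
    have : 0 ≤ ε / 2 * L := by positivity
    linarith only [hL1, haL', h2]
  have h3 : (k : ℝ) ≤ 8 / δ := by
    rw [le_div_iff₀ hδ]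
    have h4 : (k : ℝ) * (δ / 8 * L) ≤ L :=
      (mul_le_mul_of_nonneg_left hW1 (Nat.cast_nonneg k)).trans h1
    have h5 : (k : ℝ) * δ * L ≤ 8 * L := by linarith only [h4]
    exact le_of_mul_le_mul_right h5 hL
  have h6 : k < ⌈8 / δ⌉₊ + 1 := by
    have h7 := h3.trans (Nat.le_ceil (8 / δ))
    have h8 : k ≤ ⌈8 / δ⌉₊ := by exact_mod_cast h7
    omega
  exact ⟨(i, j, ⟨k, h6⟩), hb⟩

/-- `CK 0` in terms of the event `Bad` -/
theorem ck0_ev (R : Gr) {m : ℕ} {h : ℝ} {κ : ℕ} (hLB : LB R m h) (hkill : KillG R m h κ) :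
    Ev R m h κ fun ε a Ω _ P c o => ∀ Q : Law (Fin 2 → Ω),
      (∀ w, Q.w w = cw P (key c a) 1 w) →
      prE Q (Bad o ((2 : ℝ) ^ (-(a : ℝ) + ε * ((κ + 4) * a : ℕ)))) ≤ ε := by
  intro ε hε
  have hb0 : 0 < Real.log 2 := Real.log_pos (by norm_num)
  obtain ⟨δ, hδ, hk⟩ := hkill (ε / 2) (half_pos hε)
  have hK2 : 2 ≤ max 2 ((Fintype.card (Fin m × Fin m × Fin (⌈8 / δ⌉₊ + 1)) : ℝ) / ε) :=
    le_max_left _ _
  have hK3 : (Fintype.card (Fin m × Fin m × Fin (⌈8 / δ⌉₊ + 1)) : ℝ) / ε ≤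
    max 2 ((Fintype.card (Fin m × Fin m × Fin (⌈8 / δ⌉₊ + 1)) : ℝ) / ε) := le_max_right _ _
  generalize max 2 ((Fintype.card (Fin m × Fin m × Fin (⌈8 / δ⌉₊ + 1)) : ℝ) / ε) = K
    at hK2 hK3
  have hK0 : 0 < K := by linarith only [hK2]
  obtain ⟨ι1, hι1, hr⟩ := rates_main R (κ := κ) hLB (δ / 32) K (by (clear * - hδ; positivity))
  refine ⟨min ι1 (δ / (96 * K)), lt_min hι1 (by positivity), 1, one_pos, fun g => ?_⟩
  obtain ⟨n1, hn1⟩ := hr g
  obtain ⟨n2, hn2⟩ := hk K g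
  have hCs := Cs_nonneg m κ
  obtain ⟨n3, hn3⟩ := R.small g (min (ε / (2 * (1 + 2 * κ)))
    (δ / (96 * K + 16 * (2 * K + 1 + Cs m κ)))) (lt_min (by (clear * - hε; positivity)) (by (clear * - hδ hK2 hCs; positivity)))
  refine ⟨max n1 (max n2 n3), fun a e C hok Ω _ P c o hH Q hQ => ?_⟩
  by_contra hcon
  push Not at hcon
  obtain ⟨hgood, hcost, hrate, -⟩ := hH
  have haL : a ≤ (κ + 4) * a := Nat.le_mul_of_pos_left a (by omega)
  generalize (κ + 4) * a = L at hok hcon hgood hcost hrate haL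
  have ok1 := R.anti g n1 _ L e C (le_max_left _ _) hok
  have ok2 := R.anti g n2 _ L e C ((le_max_left n2 n3).trans (le_max_right _ _)) hok
  have ok3 := R.anti g n3 _ L e C ((le_max_right n2 n3).trans (le_max_right _ _)) hok
  obtain ⟨s1, -, s3⟩ := hn3 L e C ok3
  obtain ⟨hL1, hL2, hL3, hLpos⟩ := num_small hε hδ hK2 hCs (Nat.cast_nonneg L) s1 s3
  have hW1 : δ / 8 * L ≤ ⌈δ / 8 * L⌉₊ := Nat.le_ceil _
  have hW2 : (⌈δ / 8 * L⌉₊ : ℝ) ≤ δ / 8 * L + 1 := (Nat.ceil_lt_add_one (by (clear * - hδ hLpos; positivity))).le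
  generalize ⌈δ / 8 * L⌉₊ = W at hW1 hW2
  obtain ⟨⟨i, j, k⟩, hijk⟩ := ck0_pig hε hδ hLpos hL1 haL hW1 hcon
  have hNI0 : (0 : ℝ) < Fintype.card (Fin m × Fin m × Fin (⌈8 / δ⌉₊ + 1)) := by
    have : Nonempty (Fin m × Fin m × Fin (⌈8 / δ⌉₊ + 1)) := ⟨(i, j, k)⟩
    exact_mod_cast Fintype.card_pos
  generalize (Fintype.card (Fin m × Fin m × Fin (⌈8 / δ⌉₊ + 1)) : ℝ) = NI
    at hijk hNI0 hK3
  have hp : 0 < ε / NI := by (clear * - hε hNI0; positivity)
  have hprE : 0 < prE Q (Blk o W (a - ε / 2 * L) i j k) := hp.trans_le hijk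
  have hdom : Dom (on Q (Blk o W (a - ε / 2 * L) i j k)) id Q K := by
    refine (Dom.on hp hijk).mono ?_
    rw [one_div_div]
    exact hK3
  have hsupp : ∀ w, 0 < (on Q (Blk o W (a - ε / 2 * L) i j k)).w w →
      Blk o W (a - ε / 2 * L) i j k w ∧ 0 < Q.w w := fun w hw => on_pos hprE hw
  generalize on Q (Blk o W (a - ε / 2 * L) i j k) = Q' at hdom hsupp
  have hkey : ∀ w, 0 < Q'.w w → key c a (w 1) = key c a (w 0) := fun w hw =>
    (cw_supp hQ (hsupp w hw).2).1 1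
  have hblk : ∀ w, 0 < Q'.w w → Blk o W (a - ε / 2 * L) i j k w := fun w hw => (hsupp w hw).1
  obtain ⟨w0, hw0⟩ := exists_pos Q'
  have hb0' := hblk w0 hw0
  have hβtop : (((k : ℕ) * W : ℕ) : ℝ) ≤ a - ε / 2 * L := hb0'.2.2.2.2.2
  have hβa : (k : ℕ) * W ≤ a := by
    have : (((k : ℕ) * W : ℕ) : ℝ) ≤ a := by
      have : 0 ≤ ε / 2 * L := by (clear * - hε hLpos; positivity)
      linarith only [hL1, hβtop]
    exact_mod_cast this
  have hDD := dd_of (c := c) (a := a) hgood.x01 hgood.y01 hgood.t01 hb0'.1 hb0'.2.1 hkey hblk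
  have hL0 : (0 : ℝ) ≤ L := hLpos.le
  have hcost1 : mi P (fun ω => (c.x ω, c.y ω)) o.G (fun ω => (c.t ω, c.A ω)) ≤ ι1 * L :=
    hcost.trans (mul_le_mul_of_nonneg_right (min_le_left _ _) hL0)
  have hcost2 : mi P (fun ω => (c.x ω, c.y ω)) o.G (fun ω => (c.t ω, c.A ω)) ≤
      δ / (96 * K) * L :=
    hcost.trans (mul_le_mul_of_nonneg_right (min_le_right _ _) hL0)
  have hrate1 : hc P (fun ω => fl L (o.F c ω)) (fun ω => (c.t ω, o.G ω, c.A ω)) ≤
      (h - κ + ι1) * L * Real.log 2 := by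
    refine hrate.trans ?_
    refine mul_le_mul_of_nonneg_right (mul_le_mul_of_nonneg_right ?_ hL0) hb0.le
    have := min_le_left ι1 (δ / (96 * K))
    linarith only [this]
  have r0 := hn1 L e C ok1 Ω (Fin 2 → Ω) P c o Q' (fun w => w 0) hgood hcost1 hrate1
    (dom_i hQ hdom 0)
  have r1 := hn1 L e C ok1 Ω (Fin 2 → Ω) P c o Q' (fun w => w 1) hgood hcost1 hrate1
    (dom_i hQ hdom 1)
  exact ck0_blk hδ hK2 hLpos hL2 hL3 hW2 hβa haL (by linarith only [hβtop]) hgood hcost2 hQ hdom hkey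
    hb0'.1 hDD r0 r1 (hn2 L e C ok2 Ω P c o hgood (Fin 2 → Ω) Q' (fun w => w 0)
      (dom_i hQ hdom 0))

/-- `CK 0` -/
theorem ck0 (R : Gr) {m : ℕ} {h : ℝ} {κ : ℕ} (hLB : LB R m h) (hkill : KillG R m h κ) :
    CK R m h κ 0 := by
  classical
  intro ε hε
  obtain ⟨ι, hι, εu, hεu, hg⟩ := ck0_ev R hLB hkill ε hε
  refine ⟨ι, hι, εu, hεu, fun g => ?_⟩
  obtain ⟨n, hn⟩ := hg g
  refine ⟨n, fun a e C hok Ω _ P c o hH Q hQ => ?_⟩
  have h1 := hn a e C hok Ω P c o hH Q hQ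
  refine le_trans (le_of_eq ?_) h1
  unfold prE
  refine Finset.sum_congr (Finset.filter_congr fun w _ => ?_) fun _ _ => rfl
  unfold Bad
  have h2 : ∀ i j, o.Γ (w (Fin.last (0 + 1))) i j -
      ∑ l : Fin (0 + 1), lag c.t w l * o.Γ (w l.castSucc) i j =
      o.Γ (w 1) i j - o.Γ (w 0) i j := fun i j => lag_sum c.t w fun ω => o.Γ ω i j
  simp only [h2, zero_add, one_mul]

end Vale.Agent.P127.Stk.Bs
end

section

/-!
# P127 / Stk : section 6, `RK 1`
-/

namespace Vale.Agent.P127.Stk.Bs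

open Finset Vale.Agent.P127 Vale.Agent.P127.Stk

variable {Ω : Type} [Fintype Ω] {m κ : ℕ}

theorem pt_bd {c : Cf Ω m} (hx : ∀ ω i, 0 ≤ c.x ω i ∧ c.x ω i < 1)
    (hy : ∀ ω i, 0 ≤ c.y ω i ∧ c.y ω i < 1) (ht : ∀ ω, 0 ≤ c.t ω ∧ c.t ω < 1) (ω : Ω)
    (i : Fin m) : |c.pt ω i| ≤ 2 := by
  unfold Cf.pt
  have h1 := hx ω i
  have h2 := hy ω i
  have h3 := ht ω
  have h4 := mul_nonneg h3.1 h2.1
  have h5 := mul_le_mul h3.2.le h2.2.le h2.1 zero_le_one
  rw [abs_le]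
  constructor <;> linarith only [h1, h4, h5]

/-- the projected points at two times are close -/
theorem F_diff {c : Cf Ω m} {o : Ob Ω m κ} {w : Fin 2 → Ω} {a : ℕ} {thr : ℝ}
    (hx : ∀ ω i, 0 ≤ c.x ω i ∧ c.x ω i < 1) (hy : ∀ ω i, 0 ≤ c.y ω i ∧ c.y ω i < 1)
    (ht : ∀ ω, 0 ≤ c.t ω ∧ c.t ω < 1) (hkey : key c a (w 1) = key c a (w 0))
    (hb : ¬ Bad o thr w) (hthr : (1 / 2 : ℝ) ^ a ≤ thr) (i : Fin m) :
    |o.F c (w 1) i - o.F c (w 0) i| ≤ (1 + κ * 3 ^ κ + 2 * κ) * thr := by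
  have hthr0 : 0 < thr := lt_of_lt_of_le (by positivity) hthr
  simp only [key, Prod.mk.injEq] at hkey
  obtain ⟨k1, k2, _, k4⟩ := hkey
  have k5 := fl1_close k4
  by_cases hi : i ∈ o.J
  · have e1 : o.F c (w 1) i = 0 := ap_mem _ _ hi
    have e0 : o.F c (w 0) i = 0 := ap_mem _ _ hi
    rw [e1, e0, sub_zero, abs_zero]
    (clear * - hthr0; positivity)
  · have e1 : o.F c (w 1) i = c.pt (w 1) i - ∑ j ∈ o.J, o.Γ (w 1) i j * c.pt (w 1) j :=
      ap_nmem _ _ hi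
    have e0 : o.F c (w 0) i = c.pt (w 0) i - ∑ j ∈ o.J, o.Γ (w 0) i j * c.pt (w 0) j :=
      ap_nmem _ _ hi
    have hd : ∀ j, |c.pt (w 1) j - c.pt (w 0) j| ≤ thr := by
      intro j
      unfold Cf.pt
      rw [k1, k2]
      have h1 : c.x (w 0) j + c.t (w 1) * c.y (w 0) j - (c.x (w 0) j + c.t (w 0) * c.y (w 0) j)
          = (c.t (w 1) - c.t (w 0)) * c.y (w 0) j := by ring
      rw [h1, abs_mul, abs_of_nonneg (hy (w 0) j).1]
      have h2 := (hy (w 0) j).2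
      have h3 := (hy (w 0) j).1
      have h4 := abs_nonneg (c.t (w 1) - c.t (w 0))
      nlinarith only [hthr, h3, hthr0, h2, k5]
    have h3 : o.F c (w 1) i - o.F c (w 0) i = (c.pt (w 1) i - c.pt (w 0) i) -
        ∑ j ∈ o.J, (o.Γ (w 1) i j * (c.pt (w 1) j - c.pt (w 0) j) +
          (o.Γ (w 1) i j - o.Γ (w 0) i j) * c.pt (w 0) j) := by
      rw [e1, e0]
      have : ∑ j ∈ o.J, (o.Γ (w 1) i j * (c.pt (w 1) j - c.pt (w 0) j) +
          (o.Γ (w 1) i j - o.Γ (w 0) i j) * c.pt (w 0) j) =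
          ∑ j ∈ o.J, o.Γ (w 1) i j * c.pt (w 1) j - ∑ j ∈ o.J, o.Γ (w 0) i j * c.pt (w 0) j := by
        rw [← Finset.sum_sub_distrib]
        exact Finset.sum_congr rfl fun j _ => by ring
      rw [this]
      ring
    have h4 : |∑ j ∈ o.J, (o.Γ (w 1) i j * (c.pt (w 1) j - c.pt (w 0) j) +
          (o.Γ (w 1) i j - o.Γ (w 0) i j) * c.pt (w 0) j)| ≤
        o.J.card * (3 ^ κ * thr + thr * 2) := by
      refine (Finset.abs_sum_le_sum_abs _ _).trans ?_
      rw [← nsmul_eq_mul]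
      refine Finset.sum_le_card_nsmul _ _ _ fun j hj => ?_
      refine (abs_add_le _ _).trans ?_
      rw [abs_mul, abs_mul]
      refine add_le_add (mul_le_mul (o.bd _ _ _) (hd j) (abs_nonneg _) (by positivity))
        (mul_le_mul ?_ (pt_bd hx hy ht (w 0) j) (abs_nonneg _) hthr0.le)
      by_contra hcon
      exact hb ⟨i, hi, j, hj, not_le.1 hcon⟩
    rw [o.card] at h4
    rw [h3]
    have h5 := abs_sub (c.pt (w 1) i - c.pt (w 0) i)
      (∑ j ∈ o.J, (o.Γ (w 1) i j * (c.pt (w 1) j - c.pt (w 0) j) +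
          (o.Γ (w 1) i j - o.Γ (w 0) i j) * c.pt (w 0) j))
    have h6 := hd i
    have h7 : (κ : ℝ) * (3 ^ κ * thr + thr * 2) = (κ * 3 ^ κ + 2 * κ) * thr := by ring
    rw [h7] at h4
    linarith only [h4, h5, h6]

/-- a natural bound for the projected point -/
def BN (κ : ℕ) : ℕ := 2 * (1 + κ * 3 ^ κ)

theorem F_bd' {c : Cf Ω m} {o : Ob Ω m κ} (hx : ∀ ω i, 0 ≤ c.x ω i ∧ c.x ω i < 1)
    (hy : ∀ ω i, 0 ≤ c.y ω i ∧ c.y ω i < 1)
    (ht : ∀ ω, 0 ≤ c.t ω ∧ c.t ω < 1) (ω : Ω) (i : Fin m) : |o.F c ω i| ≤ BN κ := by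
  have h1 : |ap o.J (o.Γ ω) (c.pt ω) i| ≤ (1 + o.J.card * 3 ^ κ) * 2 :=
    ap_le (by positivity) (by norm_num) (o.bd ω) (pt_bd hx hy ht ω) i
  rw [o.card] at h1
  refine h1.trans (le_of_eq ?_)
  unfold BN
  push_cast
  ring

/-- the number of values of the digits of a bounded vector -/
theorem fl_box {s B : ℕ} {v : Fin m → ℝ} (h : ∀ i, |v i| ≤ B) :
    fl s v ∈ Fintype.piFinset fun _ : Fin m =>
      Finset.Icc (-((2 ^ s * B + 1 : ℕ) : ℤ)) ((2 ^ s * B + 1 : ℕ) : ℤ) := by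
  rw [Fintype.mem_piFinset]
  intro i
  have h1 := abs_le.1 (h i)
  have h2 : (0 : ℝ) < 2 ^ s := by positivity
  have h3 := Int.floor_le ((2 : ℝ) ^ s * v i)
  have h4 := Int.lt_floor_add_one ((2 : ℝ) ^ s * v i)
  rw [Finset.mem_Icc]
  unfold fl
  constructor
  · have : (-((2 ^ s * B + 1 : ℕ) : ℤ) : ℝ) ≤ ⌊(2 : ℝ) ^ s * v i⌋ := by
      push_cast
      nlinarith
    exact_mod_cast this
  · have : ((⌊(2 : ℝ) ^ s * v i⌋ : ℤ) : ℝ) ≤ (((2 ^ s * B + 1 : ℕ) : ℤ) : ℝ) := by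
      push_cast
      nlinarith only [h3, h1, h2]
    exact_mod_cast this

theorem box_card (s B : ℕ) : (Fintype.piFinset fun _ : Fin m =>
      Finset.Icc (-((2 ^ s * B + 1 : ℕ) : ℤ)) ((2 ^ s * B + 1 : ℕ) : ℤ)).card ≤
      (2 ^ s * (2 * B + 3)) ^ m := by
  rw [Fintype.card_piFinset]
  simp only [Int.card_Icc, Finset.prod_const, Finset.card_univ, Fintype.card_fin]
  refine Nat.pow_le_pow_left ?_ m
  have h1 : 1 ≤ 2 ^ s := Nat.one_le_two_pow
  have h2 : 2 ^ s * (2 * B + 3) = 2 * (2 ^ s * B) + 3 * 2 ^ s := by ring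
  rw [h2]
  generalize 2 ^ s * B = u
  omega

/-- the number of values given the projected point at the other time -/
def N0 (κ : ℕ) : ℕ := 3 + 2 * (κ * 3 ^ κ) + 4 * κ

theorem rk1_aux {c : Cf Ω m} {o : Ob Ω m κ} {Q : Law (Fin 2 → Ω)} {a s : ℕ} {thr p : ℝ}
    (hx : ∀ ω i, 0 ≤ c.x ω i ∧ c.x ω i < 1) (hy : ∀ ω i, 0 ≤ c.y ω i ∧ c.y ω i < 1)
    (ht : ∀ ω, 0 ≤ c.t ω ∧ c.t ω < 1)
    (hkey : ∀ w, 0 < Q.w w → key c a (w 1) = key c a (w 0)) (hp : prE Q (Bad o thr) ≤ p)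
    (hthr : (1 / 2 : ℝ) ^ a ≤ thr) (hs : thr ≤ (1 / 2 : ℝ) ^ s) :
    hc Q (fun w => fl s (o.F c (w 1)))
      (fun w => (fl s (o.F c (w 0)), (fun i => (c.t (w i), o.G (w i))), c.A (w 0))) ≤
      Real.log 2 + m * Real.log (2 * N0 κ + 3) +
        p * (m * (s * Real.log 2 + Real.log (2 * BN κ + 3))) := by
  classical
  have h1 := hc_le_exc Q (Bad o thr) (fun w => fl s (o.F c (w 1)))
    (fun w => (fl s (o.F c (w 0)), (fun i => (c.t (w i), o.G (w i))), c.A (w 0)))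
    ((2 ^ s * (2 * BN κ + 3)) ^ m) ((2 * N0 κ + 3) ^ m) (Nat.one_le_pow _ _ (by omega))
    ⟨_, box_card s (BN κ), fun w _ => fl_box (F_bd' hx hy ht (w 1))⟩ ?_
  · have e1 : Real.log (((2 * N0 κ + 3) ^ m : ℕ) : ℝ) = m * Real.log (2 * N0 κ + 3) := by
      push_cast
      rw [Real.log_pow]
    have e2 : Real.log (((2 ^ s * (2 * BN κ + 3)) ^ m : ℕ) : ℝ) =
        m * (s * Real.log 2 + Real.log (2 * BN κ + 3)) := by
      push_cast
      rw [Real.log_pow, Real.log_mul (by positivity) (by positivity), Real.log_pow]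
    rw [e1, e2] at h1
    have h2 : 0 ≤ (m : ℝ) * (s * Real.log 2 + Real.log (2 * BN κ + 3)) := by
      have : 0 ≤ Real.log 2 := Real.log_nonneg (by norm_num)
      have : 0 ≤ Real.log (2 * (BN κ : ℝ) + 3) := Real.log_nonneg (by
        have : (0 : ℝ) ≤ BN κ := Nat.cast_nonneg _
        linarith only [])
      (clear * - this; positivity)
    have h3 := mul_le_mul_of_nonneg_right hp h2
    linarith only [h1, h3]
  · intro w hw hb
    refine ⟨Fintype.piFinset fun i => Finset.Icc (fl s (o.F c (w 1)) i - (N0 κ + 1))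
      (fl s (o.F c (w 1)) i + (N0 κ + 1)), ?_, ?_⟩
    · rw [Fintype.card_piFinset]
      have : ∀ i, (Finset.Icc (fl s (o.F c (w 1)) i - (N0 κ + 1))
          (fl s (o.F c (w 1)) i + (N0 κ + 1))).card = 2 * N0 κ + 3 := by
        intro i
        rw [Int.card_Icc]
        omega
      simp only [this, Finset.prod_const, Finset.card_univ, Fintype.card_fin]
      exact le_rfl
    · intro w' hw' hb' hY
      rw [Fintype.mem_piFinset]
      intro i
      have h0 := (Prod.mk.inj hY).1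
      have h2 := fl_sub_le (s := s) (v := o.F c (w' 1)) (w := o.F c (w 1)) (N := N0 κ) (by
        intro i
        have a1 := F_diff hx hy ht (hkey w hw) hb hthr i
        have a2 := F_diff hx hy ht (hkey w' hw') hb' hthr i
        have a3 := fl_close h0 i
        have a4 : (1 + κ * 3 ^ κ + 2 * κ) * thr ≤
            (1 + κ * 3 ^ κ + 2 * κ) * (1 / 2 : ℝ) ^ s :=
          mul_le_mul_of_nonneg_left hs (by (clear * -; positivity))
        have a5 : (N0 κ : ℝ) * (1 / 2 : ℝ) ^ s = (1 / 2 : ℝ) ^ s +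
            2 * ((1 + κ * 3 ^ κ + 2 * κ) * (1 / 2 : ℝ) ^ s) := by
          unfold N0
          push_cast
          ring
        rw [a5]
        have a6 : o.F c (w' 1) i - o.F c (w 1) i = (o.F c (w' 1) i - o.F c (w' 0) i) +
            (o.F c (w' 0) i - o.F c (w 0) i) - (o.F c (w 1) i - o.F c (w 0) i) := by ring
        rw [a6]
        have a7 := abs_sub ((o.F c (w' 1) i - o.F c (w' 0) i) +
            (o.F c (w' 0) i - o.F c (w 0) i)) (o.F c (w 1) i - o.F c (w 0) i)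
        have a8 := abs_add_le (o.F c (w' 1) i - o.F c (w' 0) i)
            (o.F c (w' 0) i - o.F c (w 0) i)
        linarith only [a1, a2, a3, a4, a7, a8]) i
      rw [abs_le] at h2
      rw [Finset.mem_Icc]
      (clear * - h2; omega)

/-- the constant for `RK 1` -/
noncomputable def Ds (m κ : ℕ) : ℝ :=
  Real.log 2 + m * Real.log (2 * N0 κ + 3) + m * Real.log (2 * BN κ + 3)

theorem Ds_pos (m κ : ℕ) : 0 < Ds m κ := by
  unfold Ds
  have h1 : 0 < Real.log 2 := Real.log_pos (by (clear * -; norm_num))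
  have h2 : 0 ≤ Real.log (2 * (N0 κ : ℝ) + 3) := Real.log_nonneg (by
    have : (0 : ℝ) ≤ N0 κ := Nat.cast_nonneg _
    linarith only [])
  have h3 : 0 ≤ Real.log (2 * (BN κ : ℝ) + 3) := Real.log_nonneg (by
    have : (0 : ℝ) ≤ BN κ := Nat.cast_nonneg _
    linarith only [])
  positivity

/-- `RK 1` -/
theorem rk1 (R : Gr) {m : ℕ} {h : ℝ} {κ : ℕ} (hLB : LB R m h) (hkill : KillG R m h κ) :
    RK R m h κ 1 := by
  intro ε hε
  have hb0 : 0 < Real.log 2 := Real.log_pos (by norm_num)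
  have hb1 : Real.log 2 ≤ 1 := by
    have := Real.log_two_lt_d9
    linarith only [this]
  have hD := Ds_pos m κ
  obtain ⟨ι, hι, εu, hεu, hg⟩ := ck0_ev R hLB hkill (min (min 1 ε) (ε / (2 * (m + 1))))
    (lt_min (lt_min one_pos hε) (by (clear * - hε; positivity)))
  have q1 : min (min 1 ε) (ε / (2 * (m + 1))) ≤ 1 := (min_le_left _ _).trans (min_le_left _ _)
  have q2 : min (min 1 ε) (ε / (2 * (m + 1))) ≤ ε := (min_le_left _ _).trans (min_le_right _ _)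
  have q3 : min (min 1 ε) (ε / (2 * (m + 1))) ≤ ε / (2 * (m + 1)) := min_le_right _ _
  have q0 : 0 < min (min 1 ε) (ε / (2 * (m + 1))) :=
    lt_min (lt_min one_pos hε) (by positivity)
  generalize min (min 1 ε) (ε / (2 * (m + 1))) = ε' at hg q0 q1 q2 q3
  refine ⟨ι, hι, εu, hεu, fun g => ?_⟩
  obtain ⟨n1, hn1⟩ := hg g
  obtain ⟨n3, hn3⟩ := R.small g (ε / (2 * Ds m κ)) (by positivity)
  refine ⟨max n1 n3, fun a e C hok Ω _ P c o hH Q hQ s hs => ?_⟩
  have ok1 := R.anti g n1 _ _ e C (le_max_left _ _) hok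
  have ok3 := R.anti g n3 _ _ e C (le_max_right _ _) hok
  obtain ⟨s1, -, -⟩ := hn3 _ e C ok3
  have hbad := hn1 a e C ok1 Ω P c o hH Q hQ
  have hgood := hH.good
  have haL : a ≤ (κ + 4) * a := Nat.le_mul_of_pos_left a (by (clear * -; omega))
  generalize (κ + 4) * a = L at hbad s1 hs hgood haL
  have hL0 : (0 : ℝ) ≤ L := Nat.cast_nonneg L
  have haL' : (a : ℝ) ≤ L := by exact_mod_cast haL
  rw [Nat.cast_one, one_mul] at hs
  have hkey : ∀ w, 0 < Q.w w → key c a (w 1) = key c a (w 0) := fun w hw =>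
    (cw_supp hQ hw).1 1
  have ht1 : (1 / 2 : ℝ) ^ a ≤ (2 : ℝ) ^ (-(a : ℝ) + ε' * L) := by
    have h1 : (1 / 2 : ℝ) ^ a = (2 : ℝ) ^ (-(a : ℝ)) := by
      rw [Real.rpow_neg (by norm_num), Real.rpow_natCast, one_div, inv_pow]
    rw [h1]
    refine Real.rpow_le_rpow_of_exponent_le (by norm_num) ?_
    have : 0 ≤ ε' * L := by (clear * - q0; positivity)
    linarith only [this]
  have ht2 : (2 : ℝ) ^ (-(a : ℝ) + ε' * L) ≤ (1 / 2 : ℝ) ^ s := by
    have h1 : (1 / 2 : ℝ) ^ s = (2 : ℝ) ^ (-(s : ℝ)) := by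
      rw [Real.rpow_neg (by norm_num), Real.rpow_natCast, one_div, inv_pow]
    rw [h1]
    refine Real.rpow_le_rpow_of_exponent_le (by norm_num) ?_
    have : ε' * L ≤ ε * L := mul_le_mul_of_nonneg_right q2 hL0
    linarith only [hs, this]
  have hmain := rk1_aux hgood.x01 hgood.y01 hgood.t01 hkey hbad ht1 ht2
  refine hmain.trans ?_
  have hsL : (s : ℝ) ≤ L := by
    have : 0 ≤ ε * L := by (clear * - hε; positivity)
    linarith only [hs, haL', this]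
  have hm0 : (0 : ℝ) ≤ m := Nat.cast_nonneg m
  have e1 : ε' * (m * (s * Real.log 2 + Real.log (2 * BN κ + 3))) ≤
      ε / 2 * L + m * Real.log (2 * BN κ + 3) := by
    have h0 : 0 ≤ (m : ℝ) * Real.log (2 * BN κ + 3) := by
      have : 0 ≤ Real.log (2 * (BN κ : ℝ) + 3) := Real.log_nonneg (by
        have : (0 : ℝ) ≤ BN κ := Nat.cast_nonneg _
        linarith only [])
      (clear * - this; positivity)
    have h1 : ε' * (m * (s * Real.log 2)) ≤ ε / 2 * L := by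
      have h2 : (m : ℝ) * (s * Real.log 2) ≤ m * L := by
        refine mul_le_mul_of_nonneg_left ?_ hm0
        have : (0 : ℝ) ≤ s := Nat.cast_nonneg s
        nlinarith only [hsL, hb1]
      have h3 : ε' * (m * (s * Real.log 2)) ≤ ε / (2 * (m + 1)) * (m * L) :=
        mul_le_mul q3 h2 (by (clear * -; positivity)) (by (clear * - hε; positivity))
      refine h3.trans ?_
      have h4 : ε / (2 * (m + 1)) * (m * L) = ε / 2 * L * (m / (m + 1)) := by
        (clear * - hε; field_simp)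
      rw [h4]
      have h5 : (m : ℝ) / (m + 1) ≤ 1 := by
        rw [div_le_one (by (clear * -; positivity))]
        linarith only []
      have h6 : 0 ≤ ε / 2 * L := by (clear * - hε; positivity)
      nlinarith only [h5, h6]
    have h7 : ε' * (m * Real.log (2 * BN κ + 3)) ≤ 1 * (m * Real.log (2 * BN κ + 3)) :=
      mul_le_mul_of_nonneg_right q1 h0
    linarith only [h1, h7]
  have e2 : Ds m κ ≤ ε / 2 * L := by
    have h1 : ε / (2 * Ds m κ) * L = ε / 2 * L / Ds m κ := by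
      (clear * - hD hε; field_simp)
    rw [h1, le_div_iff₀ hD, one_mul] at s1
    exact s1
  unfold Ds at e2
  linarith only [e1, e2]

/-- section 6 from the killing lemma -/
theorem base_of_kill (R : Gr) (hk : ∀ (m : ℕ) (h : ℝ) (κ : ℕ), NK R m h (κ + 1) →
    KillG R m h κ) : PBase R :=
  fun m h κ hLB hN => ⟨ck0 R hLB (hk m h κ hN), rk1 R hLB (hk m h κ hN)⟩

end Vale.Agent.P127.Stk.Bs
end

section

/-!
# P127 / Stk / StepR : pointwise facts (PROOF.md, section 9), the vector of polynomials `polV`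

`τ l` = times of the nodes, `Γ l` = matrices at the nodes, `b0` = `⌊2^a t⌋` (common to all times),
`dx, dy` = difference of the lines (or of the cells), rescaled time `u = 2^a t - b0`.
-/

namespace Vale.Agent.P127.Stk.R

open Finset Polynomial Vale.Agent.P127

section defs

variable {m k : ℕ}

/-- Lagrange basis polynomial in the rescaled time `u = 2^a t - b0` -/
noncomputable def basP (a : ℕ) (b0 : ℝ) (τ : Fin (k + 1) → ℝ) (l : Fin (k + 1)) : ℝ[X] :=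
  ∏ l' ∈ (Finset.univ : Finset (Fin (k + 1))).erase l,
    (C ((2 : ℝ) ^ a * τ l - 2 ^ a * τ l')⁻¹ * (X - C ((2 : ℝ) ^ a * τ l' - b0)))

/-- interpolation polynomial of the entry `(i, j)` -/
noncomputable def gP (a : ℕ) (b0 : ℝ) (τ : Fin (k + 1) → ℝ)
    (Γ : Fin (k + 1) → Fin m → Fin m → ℝ) (i j : Fin m) : ℝ[X] :=
  ∑ l, C (Γ l i j) * basP a b0 τ l

/-- the coordinate `i` of the point of the line `(dx, dy)` at the rescaled time -/
noncomputable def ptP (a : ℕ) (b0 : ℝ) (dx dy : Fin m → ℝ) (i : Fin m) : ℝ[X] :=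
  C (dx i) + C (dy i * (1 / 2 : ℝ) ^ a) * (X + C b0)

/-- projected point at the rescaled time -/
noncomputable def FP (a : ℕ) (b0 : ℝ) (τ : Fin (k + 1) → ℝ)
    (Γ : Fin (k + 1) → Fin m → Fin m → ℝ) (J : Finset (Fin m)) (dx dy : Fin m → ℝ)
    (i : Fin m) : ℝ[X] :=
  ptP a b0 dx dy i - ∑ j ∈ J, gP a b0 τ Γ i j * ptP a b0 dx dy j

open Classical in
/-- the vector of polynomials of section 9 -/
noncomputable def polV (a : ℕ) (b0 : ℝ) (τ : Fin (k + 1) → ℝ)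
    (Γ : Fin (k + 1) → Fin m → Fin m → ℝ) (J : Finset (Fin m)) (us : ℝ) (dx dy : Fin m → ℝ)
    (i : Fin m) : ℝ[X] :=
  if i ∈ J then 0 else FP a b0 τ Γ J dx dy i - C ((FP a b0 τ Γ J dx dy i).eval us)

end defs

section facts

variable {m k : ℕ} (a : ℕ) (b0 : ℝ) (τ : Fin (k + 1) → ℝ)
  (Γ : Fin (k + 1) → Fin m → Fin m → ℝ) (J : Finset (Fin m)) (us : ℝ) (dx dy : Fin m → ℝ)

theorem basP_deg (l : Fin (k + 1)) : (basP a b0 τ l).natDegree ≤ k := by
  unfold basP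
  refine (natDegree_prod_le _ _).trans ?_
  have h1 : ∀ l' ∈ (Finset.univ : Finset (Fin (k + 1))).erase l,
      (C ((2 : ℝ) ^ a * τ l - 2 ^ a * τ l')⁻¹ * (X - C ((2 : ℝ) ^ a * τ l' - b0))).natDegree
        ≤ 1 := by
    intro l' _
    refine (natDegree_C_mul_le _ _).trans ?_
    exact (natDegree_X_sub_C _).le
  refine (Finset.sum_le_sum h1).trans ?_
  simp only [sum_const, mem_univ, card_erase_of_mem, card_univ, Fintype.card_fin, add_tsub_cancel_right, smul_eq_mul, mul_one, Std.le_refl]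

theorem gP_deg (i j : Fin m) : (gP a b0 τ Γ i j).natDegree ≤ k := by
  unfold gP
  refine natDegree_sum_le_of_forall_le _ _ fun l _ => ?_
  exact (natDegree_C_mul_le _ _).trans (basP_deg a b0 τ l)

theorem ptP_deg (i : Fin m) : (ptP a b0 dx dy i).natDegree ≤ 1 := by
  unfold ptP
  refine natDegree_add_le_of_degree_le ?_ ?_
  · simp only [natDegree_C, zero_le]
  · refine (natDegree_C_mul_le _ _).trans ?_
    exact (natDegree_X_add_C _).le

theorem FP_deg (i : Fin m) : (FP a b0 τ Γ J dx dy i).natDegree ≤ k + 1 := by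
  unfold FP
  refine (natDegree_sub_le _ _).trans (max_le ?_ ?_)
  · exact (ptP_deg a b0 dx dy i).trans (by omega)
  · refine natDegree_sum_le_of_forall_le _ _ fun j _ => ?_
    exact natDegree_mul_le.trans (add_le_add (gP_deg a b0 τ Γ i j) (ptP_deg a b0 dx dy j))

theorem polV_deg (i : Fin m) : (polV a b0 τ Γ J us dx dy i).natDegree ≤ k + 1 := by
  unfold polV
  split_ifs
  · simp only [natDegree_zero, le_add_iff_nonneg_left, zero_le]
  · refine (natDegree_sub_le _ _).trans (max_le (FP_deg a b0 τ Γ J dx dy i) ?_)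
    simp only [natDegree_C, le_add_iff_nonneg_left, zero_le]

theorem polV_mem {i : Fin m} (hi : i ∈ J) : polV a b0 τ Γ J us dx dy i = 0 := by
  unfold polV
  rw [if_pos hi]

theorem polV_root (i : Fin m) : (polV a b0 τ Γ J us dx dy i).eval us = 0 := by
  unfold polV
  split_ifs
  · simp
  · simp only [eval_sub, eval_C, sub_self]

theorem basP_eval (t : ℝ) (l : Fin (k + 1)) :
    (basP a b0 τ l).eval ((2 : ℝ) ^ a * t - b0) =
      ∏ l' ∈ (Finset.univ : Finset (Fin (k + 1))).erase l, (t - τ l') / (τ l - τ l') := by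
  unfold basP
  rw [eval_prod]
  refine Finset.prod_congr rfl fun l' _ => ?_
  have h2 : (2 : ℝ) ^ a ≠ 0 := by positivity
  simp only [eval_mul, eval_C, eval_sub, eval_X]
  rw [← mul_sub, mul_inv, show (2 : ℝ) ^ a * t - b0 - (2 ^ a * τ l' - b0) =
    2 ^ a * (t - τ l') by ring, div_eq_mul_inv]
  field_simp

theorem gP_eval (t : ℝ) (i j : Fin m) :
    (gP a b0 τ Γ i j).eval ((2 : ℝ) ^ a * t - b0) =
      ∑ l, (∏ l' ∈ (Finset.univ : Finset (Fin (k + 1))).erase l, (t - τ l') / (τ l - τ l')) *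
        Γ l i j := by
  unfold gP
  rw [eval_finsetSum]
  refine Finset.sum_congr rfl fun l _ => ?_
  rw [eval_mul, eval_C, basP_eval, mul_comm]

theorem ptP_eval (t : ℝ) (i : Fin m) :
    (ptP a b0 dx dy i).eval ((2 : ℝ) ^ a * t - b0) = dx i + t * dy i := by
  unfold ptP
  simp only [eval_add, eval_mul, eval_C, eval_X, sub_add_cancel]
  have : (1 / 2 : ℝ) ^ a * 2 ^ a = 1 := by
    rw [← mul_pow]; norm_num
  calc dx i + dy i * (1 / 2 : ℝ) ^ a * (2 ^ a * t) = dx i + dy i * t * ((1 / 2 : ℝ) ^ a * 2 ^ a) := by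
        ring
    _ = _ := by rw [this]; ring

theorem FP_eval (t : ℝ) (i : Fin m) :
    (FP a b0 τ Γ J dx dy i).eval ((2 : ℝ) ^ a * t - b0) = dx i + t * dy i -
      ∑ j ∈ J, (gP a b0 τ Γ i j).eval ((2 : ℝ) ^ a * t - b0) * (dx j + t * dy j) := by
  unfold FP
  rw [eval_sub, ptP_eval, eval_finsetSum]
  congr 1
  refine Finset.sum_congr rfl fun j _ => ?_
  rw [eval_mul, ptP_eval]

end facts

section est

variable {m k : ℕ}

/-- the projection along the graph of `g` over `J`, one coordinate -/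
noncomputable def prj (J : Finset (Fin m)) (g : Fin m → Fin m → ℝ) (t : ℝ) (x y : Fin m → ℝ)
    (i : Fin m) : ℝ := x i + t * y i - ∑ j ∈ J, g i j * (x j + t * y j)

/-- the main pointwise estimate -/
theorem prj_est (J : Finset (Fin m)) (g gs Γt Γs : Fin m → Fin m → ℝ) (t ts : ℝ)
    (x y x' y' dx dy : Fin m → ℝ) (i : Fin m) (G δ0 δ1 δ2 δ3 δ4 : ℝ)
    (ht : 0 ≤ t ∧ t ≤ 1) (hts : 0 ≤ ts ∧ ts ≤ 1) (hG : ∀ j ∈ J, |Γt i j| ≤ G)
    (h0 : ∀ j ∈ J, |Γs i j - Γt i j| ≤ δ0) (h1 : ∀ j ∈ J, |Γt i j - g i j| ≤ δ1)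
    (h1' : ∀ j ∈ J, |Γs i j - gs i j| ≤ δ1)
    (hx : ∀ j, |x' j - x j - dx j| ≤ δ2) (hy : ∀ j, |y' j - y j - dy j| ≤ δ2)
    (hdx : ∀ j, |dx j| ≤ 1) (hdy : ∀ j, |dy j| ≤ 1) (hT : |ts - t| ≤ δ3)
    (hF : |prj J Γt t x' y' i - prj J Γt t x y i| ≤ δ4)
    (p0 : 0 ≤ G) (p1 : 0 ≤ δ0) (p2 : 0 ≤ δ1) (p3 : 0 ≤ δ2) (p4 : 0 ≤ δ3) :
    |prj J Γs ts x' y' i - prj J Γs ts x y i + (prj J g t dx dy i - prj J gs ts dx dy i)| ≤
      δ4 + δ3 * δ2 + J.card * (2 * δ0 * δ2 + G * δ3 * δ2 + 4 * δ1) := by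
  have key : prj J Γs ts x' y' i - prj J Γs ts x y i +
      (prj J g t dx dy i - prj J gs ts dx dy i) =
      (prj J Γt t x' y' i - prj J Γt t x y i) + (ts - t) * (y' i - y i - dy i) -
      ∑ j ∈ J, ((Γs i j - Γt i j) * ((x' j - x j - dx j) + ts * (y' j - y j - dy j)) +
        Γt i j * (ts - t) * (y' j - y j - dy j) +
        (Γs i j - gs i j) * (dx j + ts * dy j) - (Γt i j - g i j) * (dx j + t * dy j)) := by
    unfold prj
    have e : ∑ j ∈ J, ((Γs i j - Γt i j) * ((x' j - x j - dx j) + ts * (y' j - y j - dy j)) +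
        Γt i j * (ts - t) * (y' j - y j - dy j) +
        (Γs i j - gs i j) * (dx j + ts * dy j) - (Γt i j - g i j) * (dx j + t * dy j)) =
        (∑ j ∈ J, Γs i j * (x' j + ts * y' j)) - (∑ j ∈ J, Γs i j * (x j + ts * y j)) -
        (∑ j ∈ J, Γt i j * (x' j + t * y' j)) + (∑ j ∈ J, Γt i j * (x j + t * y j)) -
        (∑ j ∈ J, gs i j * (dx j + ts * dy j)) + (∑ j ∈ J, g i j * (dx j + t * dy j)) := by
      rw [← Finset.sum_sub_distrib, ← Finset.sum_sub_distrib, ← Finset.sum_add_distrib,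
        ← Finset.sum_sub_distrib, ← Finset.sum_add_distrib]
      exact Finset.sum_congr rfl fun j _ => by ring
    rw [e]
    ring
  rw [key]
  have hterm : ∀ j ∈ J, |(Γs i j - Γt i j) * ((x' j - x j - dx j) + ts * (y' j - y j - dy j)) +
        Γt i j * (ts - t) * (y' j - y j - dy j) +
        (Γs i j - gs i j) * (dx j + ts * dy j) - (Γt i j - g i j) * (dx j + t * dy j)| ≤
      2 * δ0 * δ2 + G * δ3 * δ2 + 4 * δ1 := by
    intro j hj
    have b1 : |(x' j - x j - dx j) + ts * (y' j - y j - dy j)| ≤ 2 * δ2 := by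
      refine (abs_add_le _ _).trans ?_
      rw [abs_mul, abs_of_nonneg hts.1]
      have := hx j
      have := hy j
      (clear J g gs Γt Γs t i G δ0 δ1 δ3 δ4 ht hG h0 h1 h1' hdx hdy hT hF p0 p1 p2 p4 key hj; nlinarith [abs_nonneg (y' j - y j - dy j)])
    have b2 : |dx j + ts * dy j| ≤ 2 := by
      refine (abs_add_le _ _).trans ?_
      rw [abs_mul, abs_of_nonneg hts.1]
      have := hdx j
      have := hdy j
      (clear J g gs Γt Γs t x y x' y' i G δ0 δ1 δ2 δ3 δ4 ht hG h0 h1 h1' hx hy hT hF p0 p1 p2 p3 p4 key hj b1; nlinarith [abs_nonneg (dy j)])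
    have b3 : |dx j + t * dy j| ≤ 2 := by
      refine (abs_add_le _ _).trans ?_
      rw [abs_mul, abs_of_nonneg ht.1]
      have := hdx j
      have := hdy j
      (clear J g gs Γt Γs ts x y x' y' i G δ0 δ1 δ2 δ3 δ4 hts hG h0 h1 h1' hx hy hT hF p0 p1 p2 p3 p4 key hj b1 b2; nlinarith [abs_nonneg (dy j)])
    have c1 : |(Γs i j - Γt i j) * ((x' j - x j - dx j) + ts * (y' j - y j - dy j))| ≤
        δ0 * (2 * δ2) := by
      rw [abs_mul]
      exact mul_le_mul (h0 j hj) b1 (abs_nonneg _) p1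
    have c2 : |Γt i j * (ts - t) * (y' j - y j - dy j)| ≤ G * δ3 * δ2 := by
      rw [abs_mul, abs_mul]
      exact mul_le_mul (mul_le_mul (hG j hj) hT (abs_nonneg _) p0) (hy j) (abs_nonneg _)
        (mul_nonneg p0 p4)
    have c3 : |(Γs i j - gs i j) * (dx j + ts * dy j)| ≤ δ1 * 2 := by
      rw [abs_mul]
      exact mul_le_mul (h1' j hj) b2 (abs_nonneg _) p2
    have c4 : |(Γt i j - g i j) * (dx j + t * dy j)| ≤ δ1 * 2 := by
      rw [abs_mul]
      exact mul_le_mul (h1 j hj) b3 (abs_nonneg _) p2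
    have d1 := abs_sub ((Γs i j - Γt i j) * ((x' j - x j - dx j) + ts * (y' j - y j - dy j)) +
        Γt i j * (ts - t) * (y' j - y j - dy j) + (Γs i j - gs i j) * (dx j + ts * dy j))
        ((Γt i j - g i j) * (dx j + t * dy j))
    have d2 := abs_add_le ((Γs i j - Γt i j) * ((x' j - x j - dx j) + ts * (y' j - y j - dy j)) +
        Γt i j * (ts - t) * (y' j - y j - dy j)) ((Γs i j - gs i j) * (dx j + ts * dy j))
    have d3 := abs_add_le ((Γs i j - Γt i j) * ((x' j - x j - dx j) + ts * (y' j - y j - dy j)))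
        (Γt i j * (ts - t) * (y' j - y j - dy j))
    linarith only [c1, c2, c3, c4, d1, d2, d3]
  have hsum : |∑ j ∈ J, ((Γs i j - Γt i j) * ((x' j - x j - dx j) + ts * (y' j - y j - dy j)) +
        Γt i j * (ts - t) * (y' j - y j - dy j) +
        (Γs i j - gs i j) * (dx j + ts * dy j) - (Γt i j - g i j) * (dx j + t * dy j))| ≤
      J.card * (2 * δ0 * δ2 + G * δ3 * δ2 + 4 * δ1) := by
    refine (Finset.abs_sum_le_sum_abs _ _).trans ?_
    rw [← nsmul_eq_mul]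
    exact Finset.sum_le_card_nsmul _ _ _ hterm
  have e1 : |(ts - t) * (y' i - y i - dy i)| ≤ δ3 * δ2 := by
    rw [abs_mul]
    exact mul_le_mul hT (hy i) (abs_nonneg _) p4
  have e2 := abs_sub ((prj J Γt t x' y' i - prj J Γt t x y i) + (ts - t) * (y' i - y i - dy i))
    (∑ j ∈ J, ((Γs i j - Γt i j) * ((x' j - x j - dx j) + ts * (y' j - y j - dy j)) +
        Γt i j * (ts - t) * (y' j - y j - dy j) +
        (Γs i j - gs i j) * (dx j + ts * dy j) - (Γt i j - g i j) * (dx j + t * dy j)))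
  have e3 := abs_add_le (prj J Γt t x' y' i - prj J Γt t x y i)
    ((ts - t) * (y' i - y i - dy i))
  linarith

end est

end Vale.Agent.P127.Stk.R
end

section

/-!
# P127 / Stk / StepR : pointwise facts on cells and projected points
-/

namespace Vale.Agent.P127.Stk.R

open Finset Polynomial Vale.Agent.P127

section facts

variable {Ω : Type} {m κ : ℕ} {c : Cf Ω m} {o : Ob Ω m κ}

theorem h705_F_eq (ω : Ω) {i : Fin m} (hi : i ∉ o.J) :
    o.F c ω i = prj o.J (o.Γ ω) (c.t ω) (c.x ω) (c.y ω) i := by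
  unfold Ob.F Ob.app Cf.pt prj
  rw [if_neg hi]

theorem h705_F_mem (ω : Ω) {i : Fin m} (hi : i ∈ o.J) : o.F c ω i = 0 := by
  unfold Ob.F Ob.app
  rw [if_pos hi]

theorem h705_cell_close (n : ℕ) (x x' : Fin m → ℝ) (j : Fin m) :
    |x' j - x j - ((fl n x' j - fl n x j : ℤ) : ℝ) / 2 ^ n| ≤ (1 / 2 : ℝ) ^ n := by
  have h2 : (0 : ℝ) < 2 ^ n := by positivity
  have h3 : (1 / 2 : ℝ) ^ n * 2 ^ n = 1 := by rw [← mul_pow]; norm_num
  have h4 : (0 : ℝ) < (1 / 2) ^ n := by positivity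
  have a1 := Int.floor_le ((2 : ℝ) ^ n * x j)
  have a2 := Int.lt_floor_add_one ((2 : ℝ) ^ n * x j)
  have a3 := Int.floor_le ((2 : ℝ) ^ n * x' j)
  have a4 := Int.lt_floor_add_one ((2 : ℝ) ^ n * x' j)
  have e : x' j - x j - ((fl n x' j - fl n x j : ℤ) : ℝ) / 2 ^ n =
      (1 / 2 : ℝ) ^ n * ((2 ^ n * x' j - ⌊(2 : ℝ) ^ n * x' j⌋) -
        (2 ^ n * x j - ⌊(2 : ℝ) ^ n * x j⌋)) := by
    have e1 : x' j - x j = (1 / 2 : ℝ) ^ n * 2 ^ n * (x' j - x j) := by rw [h3, one_mul]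
    have e2 : ((fl n x' j - fl n x j : ℤ) : ℝ) / 2 ^ n =
        (1 / 2 : ℝ) ^ n * ((⌊(2 : ℝ) ^ n * x' j⌋ : ℝ) - ⌊(2 : ℝ) ^ n * x j⌋) := by
      unfold fl
      push_cast
      rw [one_div, inv_pow]
      field_simp
    rw [e2, e1]
    ring
  rw [e, abs_mul, abs_of_pos h4]
  have h5 : |(2 ^ n * x' j - (⌊(2 : ℝ) ^ n * x' j⌋ : ℝ)) -
        (2 ^ n * x j - (⌊(2 : ℝ) ^ n * x j⌋ : ℝ))| ≤ 1 := by
    rw [abs_le]
    constructor <;> linarith only [a1, a4, a2, a3]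
  calc (1 / 2 : ℝ) ^ n * _ ≤ (1 / 2 : ℝ) ^ n * 1 := mul_le_mul_of_nonneg_left h5 h4.le
    _ = _ := mul_one _

theorem h705_cell_bdd (n : ℕ) (x x' : Fin m → ℝ) (hx : ∀ i, 0 ≤ x i ∧ x i < 1)
    (hx' : ∀ i, 0 ≤ x' i ∧ x' i < 1) (j : Fin m) :
    |((fl n x' j - fl n x j : ℤ) : ℝ) / 2 ^ n| ≤ 1 := by
  have h2 : (0 : ℝ) < 2 ^ n := by positivity
  have f : ∀ z : Fin m → ℝ, (∀ i, 0 ≤ z i ∧ z i < 1) → 0 ≤ (fl n z j : ℝ) ∧
      (fl n z j : ℝ) ≤ 2 ^ n := by
    intro z hz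
    unfold fl
    constructor
    · have : 0 ≤ ⌊(2 : ℝ) ^ n * z j⌋ := Int.floor_nonneg.2 (mul_nonneg h2.le (hz j).1)
      exact_mod_cast this
    · have := Int.floor_le ((2 : ℝ) ^ n * z j)
      nlinarith only [this, h2, (hz j).2]
  have f1 := f x hx
  have f2 := f x' hx'
  rw [abs_div, abs_of_pos h2, div_le_one h2]
  push_cast
  rw [abs_le]
  constructor <;> linarith

theorem h705_flr_close {s : ℕ} {v w : ℝ} (h : ⌊(2 : ℝ) ^ s * v⌋ = ⌊(2 : ℝ) ^ s * w⌋) :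
    |v - w| ≤ (1 / 2 : ℝ) ^ s := by
  have h2 := Int.abs_sub_lt_one_of_floor_eq_floor h
  rw [← mul_sub, abs_mul, abs_of_pos (by positivity : (0 : ℝ) < 2 ^ s)] at h2
  rw [one_div, inv_pow, ← one_div, le_div_iff₀ (by positivity)]
  linarith

end facts

end Vale.Agent.P127.Stk.R
end

section

/-!
# P127 / Stk / StepR : deterministic facts (the polynomials, the pointwise identities)

The copies are `w : Fin (k+3) → Ω`; `w 0` is the time `t`, `w 1` the base time `t_*`, and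
`w (nd l)`, `l : Fin (k+1)`, are the nodes.
-/

namespace Vale.Agent.P127.Stk.R

open Finset Polynomial Vale.Agent.P127

/-- index of the node `l` -/
def nd {k : ℕ} (l : Fin (k + 1)) : Fin (k + 3) := l.succ.succ

/-- the index `0` or `1` -/
def ix {k : ℕ} (b : Bool) : Fin (k + 3) := if b then 1 else 0

/-- the nodes, and the point `ix b` as last point -/
def em {k : ℕ} (b : Bool) : Fin (k + 2) → Fin (k + 3) :=
  Fin.snoc (α := fun _ => Fin (k + 3)) (fun l : Fin (k + 1) => nd l) (ix b)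

theorem em_last {k : ℕ} (b : Bool) : em (k := k) b (Fin.last (k + 1)) = ix b :=
  Fin.snoc_last (α := fun _ => Fin (k + 3)) (ix b) _

theorem em_castSucc {k : ℕ} (b : Bool) (l : Fin (k + 1)) : em b l.castSucc = nd l :=
  Fin.snoc_castSucc (α := fun _ => Fin (k + 3)) (ix b) _ l

theorem r816_ix_ne {k : ℕ} (b : Bool) (l : Fin (k + 1)) : ix (k := k) b ≠ nd l := by
  intro h
  have h1 := congrArg Fin.val h
  have h2 : (nd l : Fin (k + 3)).val = l.val + 2 := by simp only [nd, Fin.val_succ, Nat.add_right_cancel_iff, Nat.add_left_cancel_iff]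
  have h3 : (ix (k := k) b).val ≤ 1 := by
    cases b
    · simp only [ix, Bool.false_eq_true, ↓reduceIte, Fin.coe_ofNat_eq_mod, Nat.zero_mod, zero_le]
    · simp [ix]
  omega

theorem em_inj {k : ℕ} (b : Bool) : Function.Injective (em (k := k) b) := by
  intro p q h
  induction p using Fin.lastCases with
  | last =>
    induction q using Fin.lastCases with
    | last => rfl
    | cast q =>
      rw [em_last, em_castSucc] at h
      exact absurd h (r816_ix_ne b q)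
  | cast p =>
    induction q using Fin.lastCases with
    | last =>
      rw [em_last, em_castSucc] at h
      exact absurd h.symm (r816_ix_ne b p)
    | cast q =>
      rw [em_castSucc, em_castSucc] at h
      have h1 : p = q := Fin.succ_injective _ (Fin.succ_injective _ h)
      rw [h1]

section fam

variable {Ω : Type} {m κ k : ℕ} (c : Cf Ω m) (o : Ob Ω m κ)

/-- the time `t` and its data -/
def vB (w : Fin (k + 3) → Ω) : ℝ × o.γ := (c.t (w 0), o.G (w 0))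

/-- side information, nodes, base time, first digits of the base point -/
noncomputable def vA (n : ℕ) (w : Fin (k + 3) → Ω) :
    c.α × (Fin (k + 1) → ℝ × o.γ) × (ℝ × o.γ) × (Fin m → ℤ) :=
  (c.A (w 0), (fun l => (c.t (w (nd l)), o.G (w (nd l)))), (c.t (w 1), o.G (w 1)),
    fl n (o.F c (w 1)))

/-- digits of the point at the time `t` -/
noncomputable def vY (s : ℕ) (w : Fin (k + 3) → Ω) : Fin m → ℤ := fl s (o.F c (w 0))

/-- digits of the point at the base time -/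
noncomputable def vX (s : ℕ) (w : Fin (k + 3) → Ω) : Fin m → ℤ := fl s (o.F c (w 1))

/-- first digits of the line -/
noncomputable def vq (n : ℕ) (w : Fin (k + 3) → Ω) : (Fin m → ℤ) × (Fin m → ℤ) :=
  (fl n (c.x (w 0)), fl n (c.y (w 0)))

/-- the line -/
def vl (w : Fin (k + 3) → Ω) : (Fin m → ℝ) × (Fin m → ℝ) := (c.x (w 0), c.y (w 0))

/-- the rescaled time -/
noncomputable def vu (a : ℕ) (w : Fin (k + 3) → Ω) : ℝ := Int.fract ((2 : ℝ) ^ a * c.t (w 0))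

/-- the support of the copies -/
def Sup (a : ℕ) (w : Fin (k + 3) → Ω) : Prop := ∀ i, key c a (w i) = key c a (w 0)

/-- the typical event -/
def TE (η1 η2 : ℝ) (w : Fin (k + 3) → Ω) : Prop :=
  (∀ i ∉ o.J, ∀ j ∈ o.J, |o.Γ (w 0) i j - o.Γ (w 1) i j| ≤ η2) ∧
    ∀ b : Bool, ∀ i ∉ o.J, ∀ j ∈ o.J,
      |o.Γ (w (ix b)) i j - ∑ l, lag c.t (fun p => w (em b p)) l * o.Γ (w (nd l)) i j| ≤ η1

/-- the polynomials of a pair of lines, in the rescaled time `u = 2^a t - [t]_a` -/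
noncomputable def polW (a n : ℕ) (w : Fin (k + 3) → Ω)
    (q q' : (Fin m → ℤ) × (Fin m → ℤ)) (i : Fin m) : ℝ[X] :=
  polV a (fl1 a (c.t (w 1)) : ℝ) (fun l => c.t (w (nd l))) (fun l => o.Γ (w (nd l))) o.J
    (Int.fract ((2 : ℝ) ^ a * c.t (w 1)))
    (fun i => ((q'.1 i - q.1 i : ℤ) : ℝ) / 2 ^ n) (fun i => ((q'.2 i - q.2 i : ℤ) : ℝ) / 2 ^ n) i

end fam

theorem polW_deg {Ω : Type} {m κ k : ℕ} (c : Cf Ω m) (o : Ob Ω m κ) (a n : ℕ)
    (w : Fin (k + 3) → Ω) (q q' : (Fin m → ℤ) × (Fin m → ℤ)) (i : Fin m) :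
    (polW c o a n w q q' i).natDegree ≤ k + 1 := polV_deg ..

theorem polW_mem {Ω : Type} {m κ k : ℕ} (c : Cf Ω m) (o : Ob Ω m κ) (a n : ℕ)
    (w : Fin (k + 3) → Ω) (q q' : (Fin m → ℤ) × (Fin m → ℤ)) {i : Fin m} (hi : i ∈ o.J) :
    polW c o a n w q q' i = 0 := polV_mem _ _ _ _ _ _ _ _ hi

theorem polW_root {Ω : Type} {m κ k : ℕ} (c : Cf Ω m) (o : Ob Ω m κ) (a n : ℕ)
    (w : Fin (k + 3) → Ω) (q q' : (Fin m → ℤ) × (Fin m → ℤ)) (i : Fin m) :
    (polW c o a n w q q' i).eval (Int.fract ((2 : ℝ) ^ a * c.t (w 1))) = 0 := polV_root ..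

/-- the polynomials depend only on the data -/
theorem polW_congr {Ω : Type} {m κ k : ℕ} (c : Cf Ω m) (o : Ob Ω m κ) (a n : ℕ)
    (w v : Fin (k + 3) → Ω) (q q' : (Fin m → ℤ) × (Fin m → ℤ)) (h : vA c o n w = vA c o n v) :
    polW c o a n w q q' = polW c o a n v q q' := by
  have h1 : ∀ l, (c.t (w (nd l)), o.G (w (nd l))) = (c.t (v (nd l)), o.G (v (nd l))) :=
    congrFun (congrArg (fun z => z.2.1) h)
  have h2 : c.t (w 1) = c.t (v 1) := congrArg (fun z => z.2.2.1.1) h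
  have h3 : ∀ l, c.t (w (nd l)) = c.t (v (nd l)) := fun l => congrArg Prod.fst (h1 l)
  have h4 : ∀ l, o.Γ (w (nd l)) = o.Γ (v (nd l)) := fun l => o.fn _ _ (congrArg Prod.snd (h1 l))
  funext i
  unfold polW
  simp only [h2, h3, h4]

/-- the pointwise identity for a pair of lines with the same data -/
theorem pair_pt (m κ : ℕ) : ∃ C0 : ℕ, ∀ {Ω : Type} {k : ℕ} (c : Cf Ω m) (o : Ob Ω m κ)
    (a n s : ℕ) (η1 η2 : ℝ) (w w' : Fin (k + 3) → Ω),
    (∀ ω i, 0 ≤ c.x ω i ∧ c.x ω i < 1) → (∀ ω i, 0 ≤ c.y ω i ∧ c.y ω i < 1) →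
    (∀ ω, 0 ≤ c.t ω ∧ c.t ω < 1) →
    η1 ≤ 2 * (1 / 2 : ℝ) ^ s → η2 * (1 / 2 : ℝ) ^ n ≤ 2 * (1 / 2 : ℝ) ^ s → s ≤ n + a + 1 →
    Sup c a w → Sup c a w' → TE c o η1 η2 w →
    vA c o n w' = vA c o n w → vB c o w' = vB c o w → vY c o s w' = vY c o s w →
    ∀ i, |o.F c (w' 1) i - o.F c (w 1) i +
      (polW c o a n w (vq c n w) (vq c n w') i).eval (vu c a w)| ≤ C0 * (1 / 2 : ℝ) ^ s := by
  refine ⟨3 + κ * (12 + 2 * 3 ^ κ), ?_⟩
  intro Ω k c o a n s η1 η2 w w' hx hy ht h1 h2 hs hw hw' hT hA hB hY i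
  have hs0 : (0 : ℝ) < (1 / 2) ^ s := by positivity
  by_cases hi : i ∈ o.J
  · rw [h705_F_mem _ hi, h705_F_mem _ hi, polW_mem c o a n w _ _ hi]
    simp only [eval_zero, sub_zero, add_zero, abs_zero]
    (clear * -; positivity)
  -- equalities of the data
  have k1 := hw 1
  unfold key at k1
  simp only [Prod.mk.injEq] at k1
  obtain ⟨kx, ky, _, kt⟩ := k1
  have k2 := hw' 1
  unfold key at k2
  simp only [Prod.mk.injEq] at k2
  obtain ⟨kx', ky', _, kt'⟩ := k2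
  unfold vB at hB
  simp only [Prod.mk.injEq] at hB
  have hA2 : (c.t (w' 1), o.G (w' 1)) = (c.t (w 1), o.G (w 1)) := congrArg (fun z => z.2.2.1) hA
  simp only [Prod.mk.injEq] at hA2
  have hΓ0 : o.Γ (w' 0) = o.Γ (w 0) := o.fn _ _ hB.2
  have hΓ1 : o.Γ (w' 1) = o.Γ (w 1) := o.fn _ _ hA2.2
  set b0 : ℝ := ((fl1 a (c.t (w 1)) : ℤ) : ℝ) with hb0
  set dx : Fin m → ℝ := fun j => ((fl n (c.x (w' 0)) j - fl n (c.x (w 0)) j : ℤ) : ℝ) / 2 ^ n
    with hdx
  set dy : Fin m → ℝ := fun j => ((fl n (c.y (w' 0)) j - fl n (c.y (w 0)) j : ℤ) : ℝ) / 2 ^ n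
    with hdy
  set g : Bool → Fin m → Fin m → ℝ := fun b i j => ∑ l, lag c.t (fun p => w (em b p)) l *
    o.Γ (w (nd l)) i j with hg
  have hg' : ∀ b i j, g b i j = (gP a b0 (fun l => c.t (w (nd l))) (fun l => o.Γ (w (nd l)))
      i j).eval ((2 : ℝ) ^ a * c.t (w (ix b)) - b0) := by
    intro b i j
    rw [gP_eval]
    simp only [hg, lag, em_castSucc, em_last]
  have hu0 : vu c a w = (2 : ℝ) ^ a * c.t (w 0) - b0 := by
    unfold vu
    rw [Int.fract, hb0, kt]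
    rfl
  have hu1 : Int.fract ((2 : ℝ) ^ a * c.t (w 1)) = (2 : ℝ) ^ a * c.t (w 1) - b0 := rfl
  have i0 : ix (k := k) false = 0 := rfl
  have i1 : ix (k := k) true = 1 := rfl
  have hpol : (polW c o a n w (vq c n w) (vq c n w') i).eval (vu c a w) =
      prj o.J (g false) (c.t (w 0)) dx dy i - prj o.J (g true) (c.t (w 1)) dx dy i := by
    unfold polW polV
    rw [if_neg hi, eval_sub, eval_C, hu0, hu1, FP_eval, FP_eval]
    unfold prj
    simp only [hg', hdx, hdy, i0, i1, vq]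
  rw [hpol, h705_F_eq _ hi, h705_F_eq _ hi, hΓ1, hA2.1]
  have hdt : |c.t (w 1) - c.t (w 0)| ≤ (1 / 2 : ℝ) ^ a := h705_flr_close kt
  have hest := prj_est o.J (g false) (g true) (o.Γ (w 0)) (o.Γ (w 1)) (c.t (w 0))
    (c.t (w 1)) (c.x (w 1)) (c.y (w 1)) (c.x (w' 1)) (c.y (w' 1))
    dx dy i (3 ^ κ) (max η2 0) (max η1 0) ((1 / 2) ^ n) ((1 / 2) ^ a) ((1 / 2) ^ s)
    ⟨(ht _).1, (ht _).2.le⟩ ⟨(ht _).1, (ht _).2.le⟩ (fun j _ => o.bd _ i j) ?_ ?_ ?_
    (fun j => by rw [kx, kx']; exact h705_cell_close n _ _ j)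
    (fun j => by rw [ky, ky']; exact h705_cell_close n _ _ j)
    (fun j => h705_cell_bdd n _ _ (hx _) (hx _) j)
    (fun j => h705_cell_bdd n _ _ (hy _) (hy _) j) hdt ?_
    (by positivity) (le_max_right _ _) (le_max_right _ _) (by positivity) (by positivity)
  · refine hest.trans ?_
    have e1 : max η2 0 * (1 / 2 : ℝ) ^ n ≤ 2 * (1 / 2) ^ s := by
      rcases le_total η2 0 with h | h
      · rw [max_eq_right h, zero_mul]; positivity
      · rw [max_eq_left h]; exact h2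
    have e2 : max η1 0 ≤ 2 * (1 / 2 : ℝ) ^ s := max_le h1 (by positivity)
    have e3 : (1 / 2 : ℝ) ^ a * (1 / 2) ^ n ≤ 2 * (1 / 2) ^ s := by
      have h5 : (1 / 2 : ℝ) ^ (n + a + 1) ≤ (1 / 2) ^ s :=
        pow_le_pow_of_le_one (by norm_num) (by norm_num) hs
      have h6 : (1 / 2 : ℝ) ^ (n + a + 1) = (1 / 2) ^ a * (1 / 2) ^ n * (1 / 2) := by ring
      linarith only [h5, h6]
    rw [o.card]
    have h3k : (0 : ℝ) ≤ 3 ^ κ := by positivity
    have e4 : (2 * max η2 0 * (1 / 2 : ℝ) ^ n + 3 ^ κ * (1 / 2) ^ a * (1 / 2) ^ n +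
        4 * max η1 0) ≤ (12 + 2 * 3 ^ κ) * (1 / 2) ^ s := by
      have h7 : (3 : ℝ) ^ κ * (1 / 2) ^ a * (1 / 2) ^ n ≤ 3 ^ κ * (2 * (1 / 2) ^ s) := by
        rw [mul_assoc]
        exact mul_le_mul_of_nonneg_left e3 h3k
      linarith only [e1, e2, h7]
    have e5 : (κ : ℝ) * (2 * max η2 0 * (1 / 2 : ℝ) ^ n + 3 ^ κ * (1 / 2) ^ a * (1 / 2) ^ n +
        4 * max η1 0) ≤ κ * ((12 + 2 * 3 ^ κ) * (1 / 2) ^ s) :=
      mul_le_mul_of_nonneg_left e4 (Nat.cast_nonneg _)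
    push_cast
    linarith only [e3, e5]
  · intro j hj
    rw [abs_sub_comm]
    exact (hT.1 i hi j hj).trans (le_max_left _ _)
  · intro j hj
    exact (hT.2 false i hi j hj).trans (le_max_left _ _)
  · intro j hj
    exact (hT.2 true i hi j hj).trans (le_max_left _ _)
  · have h := congrFun hY i
    have h1 := h705_flr_close (s := s) (v := o.F c (w' 0) i) (w := o.F c (w 0) i) h
    rw [h705_F_eq _ hi, h705_F_eq _ hi, hΓ0, hB.1] at h1
    rw [kx, ky, kx', ky']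
    exact h1

/-- the difference of the projections at two close times is almost constant on a cell -/
theorem sd_two {m : ℕ} (J : Finset (Fin m)) (Γt Γs : Fin m → Fin m → ℝ) (t ts : ℝ)
    (x y x' y' : Fin m → ℝ) (i : Fin m) (K ρ δ : ℝ) (hts : 0 ≤ ts ∧ ts ≤ 1) (hK : 0 ≤ K)
    (hb : ∀ j ∈ J, |Γt i j| ≤ K) (h0 : ∀ j ∈ J, |Γt i j - Γs i j| * ρ ≤ δ)
    (h1 : |t - ts| * ρ ≤ δ) (hx : ∀ j, |x' j - x j| ≤ ρ) (hy : ∀ j, |y' j - y j| ≤ ρ) :
    |(prj J Γt t x' y' i - prj J Γs ts x' y' i) - (prj J Γt t x y i - prj J Γs ts x y i)| ≤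
      δ + J.card * ((2 + K) * δ) := by
  have e : (prj J Γt t x' y' i - prj J Γs ts x' y' i) -
      (prj J Γt t x y i - prj J Γs ts x y i) =
      (t - ts) * (y' i - y i) - ∑ j ∈ J, ((Γt i j - Γs i j) * (x' j - x j) +
        (Γt i j - Γs i j) * (ts * (y' j - y j)) + Γt i j * ((t - ts) * (y' j - y j))) := by
    unfold prj
    have e1 : ∑ j ∈ J, ((Γt i j - Γs i j) * (x' j - x j) +
        (Γt i j - Γs i j) * (ts * (y' j - y j)) + Γt i j * ((t - ts) * (y' j - y j))) =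
        (∑ j ∈ J, Γt i j * (x' j + t * y' j)) - (∑ j ∈ J, Γs i j * (x' j + ts * y' j)) -
        (∑ j ∈ J, Γt i j * (x j + t * y j)) + (∑ j ∈ J, Γs i j * (x j + ts * y j)) := by
      rw [← Finset.sum_sub_distrib, ← Finset.sum_sub_distrib, ← Finset.sum_add_distrib]
      exact Finset.sum_congr rfl fun j _ => by ring
    rw [e1]
    ring
  have hρ : 0 ≤ ρ := (abs_nonneg _).trans (hx i)
  have hδ : 0 ≤ δ := (mul_nonneg (abs_nonneg _) hρ).trans h1
  have g1 : |(t - ts) * (y' i - y i)| ≤ δ := by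
    rw [abs_mul]
    exact (mul_le_mul_of_nonneg_left (hy i) (abs_nonneg _)).trans h1
  have g2 : |∑ j ∈ J, ((Γt i j - Γs i j) * (x' j - x j) +
        (Γt i j - Γs i j) * (ts * (y' j - y j)) + Γt i j * ((t - ts) * (y' j - y j)))| ≤
      J.card * ((2 + K) * δ) := by
    refine (Finset.abs_sum_le_sum_abs _ _).trans ?_
    rw [← nsmul_eq_mul]
    refine Finset.sum_le_card_nsmul _ _ _ fun j hj => ?_
    have a1 : |(Γt i j - Γs i j) * (x' j - x j)| ≤ δ := by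
      rw [abs_mul]
      exact (mul_le_mul_of_nonneg_left (hx j) (abs_nonneg _)).trans (h0 j hj)
    have a2 : |(Γt i j - Γs i j) * (ts * (y' j - y j))| ≤ δ := by
      rw [abs_mul]
      refine (mul_le_mul_of_nonneg_left ?_ (abs_nonneg _)).trans (h0 j hj)
      rw [abs_mul, abs_of_nonneg hts.1]
      have := mul_le_mul hts.2 (hy j) (abs_nonneg _) zero_le_one
      rwa [one_mul] at this
    have a3 : |Γt i j * ((t - ts) * (y' j - y j))| ≤ K * δ := by
      rw [abs_mul]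
      refine mul_le_mul (hb j hj) ?_ (abs_nonneg _) hK
      rw [abs_mul]
      exact (mul_le_mul_of_nonneg_left (hy j) (abs_nonneg _)).trans h1
    have b1 := abs_add_le ((Γt i j - Γs i j) * (x' j - x j) +
      (Γt i j - Γs i j) * (ts * (y' j - y j))) (Γt i j * ((t - ts) * (y' j - y j)))
    have b2 := abs_add_le ((Γt i j - Γs i j) * (x' j - x j))
      ((Γt i j - Γs i j) * (ts * (y' j - y j)))
    linarith only [a1, a2, a3, b1, b2]
  rw [e]
  have g3 := abs_sub ((t - ts) * (y' i - y i)) (∑ j ∈ J, ((Γt i j - Γs i j) * (x' j - x j) +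
        (Γt i j - Γs i j) * (ts * (y' j - y j)) + Γt i j * ((t - ts) * (y' j - y j))))
  linarith only [g1, g2, g3]

theorem sd_floor {s : ℕ} {u v : ℝ} (h : ⌊(2 : ℝ) ^ s * u⌋ = ⌊(2 : ℝ) ^ s * v⌋) :
    |u - v| ≤ (1 / 2 : ℝ) ^ s := by
  have h2 := Int.abs_sub_lt_one_of_floor_eq_floor h
  have h3 : (0 : ℝ) < 2 ^ s := by positivity
  rw [← mul_sub, abs_mul, abs_of_pos h3] at h2
  rw [one_div, inv_pow, ← one_div, le_div_iff₀ h3, mul_comm]
  exact h2.le

/-- `vY` is determined by `vX`, the cell and the data, up to `O(1)` values -/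
theorem hc_Y_of_X (m κ : ℕ) : ∃ K0 : ℝ, ∀ {Ω : Type} [Fintype Ω] {k : ℕ} (c : Cf Ω m)
    (o : Ob Ω m κ) (a n s : ℕ) (η1 η2 : ℝ) (Q : Law (Fin (k + 3) → Ω)),
    (∀ ω i, 0 ≤ c.x ω i ∧ c.x ω i < 1) → (∀ ω i, 0 ≤ c.y ω i ∧ c.y ω i < 1) →
    (∀ ω, 0 ≤ c.t ω ∧ c.t ω < 1) →
    η2 * (1 / 2 : ℝ) ^ n ≤ 2 * (1 / 2 : ℝ) ^ s → s ≤ n + a + 1 →
    (∀ w, 0 < Q.w w → Sup c a w ∧ TE c o η1 η2 w) →
    hc Q (vY c o s) (fun w => (vX c o s w, vq c n w, vB c o w, vA c o n w)) ≤ K0 := by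
  obtain ⟨C0, hC0⟩ : ∃ C0 : ℕ, 2 + κ * ((2 + (3 : ℝ) ^ κ) * 2) ≤ C0 := exists_nat_ge _
  refine ⟨Real.log (((2 * (C0 + 2) + 1) ^ m : ℕ) : ℝ), ?_⟩
  intro Ω _ k c o a n s η1 η2 Q hx hy ht hη hs hQ
  refine hc_le_log Q _ _ ((2 * (C0 + 2) + 1) ^ m) fun w hw => ?_
  refine ⟨Fintype.piFinset fun i => Icc (vY c o s w i - (C0 + 2 : ℕ))
    (vY c o s w i + (C0 + 2 : ℕ)), ?_, ?_⟩
  · rw [Fintype.card_piFinset]
    refine (Finset.prod_le_pow_card _ _ (2 * (C0 + 2) + 1) fun i _ => ?_).trans (by simp only [card_univ, Fintype.card_fin, Std.le_refl])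
    rw [Int.card_Icc]
    have : vY c o s w i + (C0 + 2 : ℕ) + 1 - (vY c o s w i - (C0 + 2 : ℕ)) =
        ((2 * (C0 + 2) + 1 : ℕ) : ℤ) := by
      push_cast
      ring
    rw [this, Int.toNat_natCast]
  · intro w' hw' e
    simp only [vX, vq, vB, vA, Prod.mk.injEq] at e
    obtain ⟨eX, ⟨eq1, eq2⟩, ⟨et, eG⟩, eA, -, ⟨ets, eGs⟩, -⟩ := e
    obtain ⟨hS, hT⟩ := hQ w hw
    obtain ⟨hS', hT'⟩ := hQ w' hw'
    have hk : key c a (w 1) = key c a (w 0) := hS 1
    have hk' : key c a (w' 1) = key c a (w' 0) := hS' 1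
    unfold key at hk hk'
    simp only [Prod.mk.injEq] at hk hk'
    have h1 : |c.t (w 0) - c.t (w 1)| * (1 / 2 : ℝ) ^ n ≤ 2 * (1 / 2 : ℝ) ^ s := by
      have h1 : |c.t (w 0) - c.t (w 1)| ≤ (1 / 2 : ℝ) ^ a := sd_floor hk.2.2.2.symm
      have h2 : (1 / 2 : ℝ) ^ a * (1 / 2 : ℝ) ^ n ≤ 2 * (1 / 2 : ℝ) ^ s := by
        have h3 : (1 / 2 : ℝ) ^ (n + a + 1) ≤ (1 / 2 : ℝ) ^ s :=
          pow_le_pow_of_le_one (by norm_num) (by norm_num) hs
        rw [pow_succ, pow_add] at h3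
        linarith only [h3]
      exact (mul_le_mul_of_nonneg_right h1 (by positivity)).trans h2
    have hF : ∀ i, |(o.F c (w' 0) i - o.F c (w' 1) i) - (o.F c (w 0) i - o.F c (w 1) i)| ≤
        C0 * (1 / 2 : ℝ) ^ s := by
      intro i
      by_cases hi : i ∈ o.J
      · have h2 : ∀ v, o.F c v i = 0 := fun v => by
          show o.app v (c.pt v) i = 0
          unfold Ob.app
          rw [if_pos hi]
        simp only [h2, sub_self, abs_zero]
        (clear * -; positivity)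
      · have h2 : ∀ v, o.F c v i = prj o.J (o.Γ v) (c.t v) (c.x v) (c.y v) i := fun v => by
          show o.app v (c.pt v) i = _
          unfold Ob.app
          rw [if_neg hi]
          rfl
        rw [h2, h2, h2, h2, et, ets, o.fn _ _ eG, o.fn _ _ eGs, hk.1, hk.2.1, hk'.1, hk'.2.1]
        refine (sd_two o.J (o.Γ (w 0)) (o.Γ (w 1)) (c.t (w 0)) (c.t (w 1)) (c.x (w 0))
          (c.y (w 0)) (c.x (w' 0)) (c.y (w' 0)) i (3 ^ κ) ((1 / 2 : ℝ) ^ n)
          (2 * (1 / 2 : ℝ) ^ s) ⟨(ht _).1, (ht _).2.le⟩ (by positivity)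
          (fun j _ => o.bd _ _ _) (fun j hj => ?_) h1 (fun j => sd_floor (congrFun eq1 j))
          (fun j => sd_floor (congrFun eq2 j))).trans ?_
        · exact (mul_le_mul_of_nonneg_right (hT.1 i hi j hj) (by positivity)).trans hη
        · rw [o.card]
          have h3 : (0 : ℝ) ≤ (1 / 2 : ℝ) ^ s := by positivity
          have := mul_le_mul_of_nonneg_right hC0 h3
          linarith only [this]
    rw [Fintype.mem_piFinset]
    intro i
    have h3 : |o.F c (w' 1) i - o.F c (w 1) i| ≤ (1 / 2 : ℝ) ^ s := sd_floor (congrFun eX i)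
    have h4 : |o.F c (w' 0) i - o.F c (w 0) i| ≤ ((C0 + 1 : ℕ) : ℝ) * (1 / 2 : ℝ) ^ s := by
      have k1 := hF i
      rw [abs_le] at k1 h3 ⊢
      push_cast
      constructor <;> linarith only [h3, k1]
    have h5 : |vY c o s w' i - vY c o s w i| ≤ ((C0 + 1 : ℕ) : ℤ) + 1 := by
      show |⌊(2 : ℝ) ^ s * o.F c (w' 0) i⌋ - ⌊(2 : ℝ) ^ s * o.F c (w 0) i⌋| ≤ _
      refine floor_close_aux ?_
      have h2 : (0 : ℝ) < 2 ^ s := by positivity
      rw [← mul_sub, abs_mul, abs_of_pos h2]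
      refine (mul_le_mul_of_nonneg_left h4 h2.le).trans (le_of_eq ?_)
      rw [one_div, inv_pow]
      (clear * -; field_simp)
    rw [abs_le] at h5
    rw [mem_Icc]
    push_cast at h5 ⊢
    constructor <;> linarith only [h5]

end Vale.Agent.P127.Stk.R
end

section

/-!
# P127 / Stk : tools for families of copies

`Qc` = copies of `P` over `key c a`, restricted to an event `E`.
-/

namespace Vale.Agent.P127.Stk.Fam

open Finset Vale.Agent.P127 Vale.Agent.P127.Stk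

section gen

variable {Ω : Type} [Fintype Ω] {S S' T T' U V W : Type*} (Q : Law Ω)

/-- `X` and `Y` are functions of the line `l`, the data `Z` and the side information `A`; `Z` is a
part of `T`: the whole `T` can be added to the condition at the cost `mi l T A` -/
theorem add_T {X : Ω → S} {Y : Ω → S'} {l : Ω → V} {Z : Ω → T'} {T0 : Ω → T} {A : Ω → U}
    (hX : Fn Q X (fun ω => (l ω, Z ω, A ω))) (hY : Fn Q Y (fun ω => (l ω, Z ω, A ω)))
    (hZ : Fn Q Z T0) :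
    hc Q X (fun ω => (Y ω, Z ω, A ω)) - mi Q l T0 A ≤ hc Q X (fun ω => (Y ω, T0 ω, A ω)) := by
  have h1 : mi Q X T0 (fun ω => (Y ω, Z ω, A ω)) ≤ mi Q l T0 A := by
    have e1 : mi Q X T0 (fun ω => (Y ω, Z ω, A ω)) ≤ mi Q l T0 (fun ω => (Y ω, Z ω, A ω)) :=
      mi_mono_left Q T0 (fun ω ω' p p' e => hX ω ω' p p' (by
        simp only [Prod.mk.injEq] at e ⊢
        exact ⟨e.1, e.2.2.1, e.2.2.2⟩))
    have e2 : mi Q l T0 (fun ω => (Y ω, Z ω, A ω)) ≤ mi Q l T0 (fun ω => (Z ω, A ω)) :=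
      mi_cond_le Q T0 (fun ω => (Z ω, A ω)) (fun ω ω' p p' e => hY ω ω' p p' (by
        simp only [Prod.mk.injEq] at e ⊢
        exact ⟨e.1, e.2.1, e.2.2⟩))
    have e3 : mi Q l T0 (fun ω => (Z ω, A ω)) ≤ mi Q l T0 A := by
      have h2 := mi_pair Q l Z T0 A
      have h3 : mi Q l (fun ω => (Z ω, T0 ω)) A ≤ mi Q l T0 A :=
        mi_mono_right Q l (fun ω ω' p p' e => by
          simp only [Prod.mk.injEq] at e ⊢
          exact ⟨hZ ω ω' p p' e.1, e.1⟩)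
      have h4 := mi_nonneg Q l Z A
      linarith
    linarith only [e1, e2, e3]
  have h2 : hc Q X (fun ω => (T0 ω, Y ω, Z ω, A ω)) = hc Q X (fun ω => (Y ω, T0 ω, A ω)) := by
    refine hc_congr Q (fun ω ω' _ _ e => congrArg Prod.fst e)
      (fun ω ω' _ _ e => congrArg Prod.fst e) (fun ω ω' p p' e => ?_) (fun ω ω' _ _ e => ?_)
    · simp only [Prod.mk.injEq] at e ⊢
      exact ⟨e.2.1, e.1, hZ ω ω' p p' e.2.1, e.2.2⟩
    · simp only [Prod.mk.injEq] at e ⊢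
      exact ⟨e.2.1, e.1, e.2.2.2⟩
  have h3 : mi Q X T0 (fun ω => (Y ω, Z ω, A ω)) =
      hc Q X (fun ω => (Y ω, Z ω, A ω)) - hc Q X (fun ω => (T0 ω, Y ω, Z ω, A ω)) := rfl
  linarith

/-- extra conditioning on a variable of small conditional entropy -/
theorem add_V {X : Ω → S} {Y : Ω → T} (V' : Ω → V) {Z : Ω → U} {v : ℝ}
    (hZ : Fn Q Z (fun ω => (V' ω, Y ω))) (hv : hc Q V' Y ≤ v) :
    hc Q X Y - v ≤ hc Q X Z := by
  have h1 := hc_le_add' Q X V' Y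
  have h2 : hc Q X (fun ω => (V' ω, Y ω)) ≤ hc Q X Z := hc_mono_right Q X hZ
  linarith

/-- the information of a part of the data about a function of the line, conditionally on the rest
of the data and on functions of the line and the data -/
theorem mi_part {X : Ω → S} {Y : Ω → S'} {l : Ω → V} {Z : Ω → T'} {B : Ω → W} {T0 : Ω → T}
    {A : Ω → U} (hX : Fn Q X (fun ω => (l ω, Z ω, A ω)))
    (hY : Fn Q Y (fun ω => (l ω, Z ω, A ω))) (hZ : Fn Q Z T0) (hB : Fn Q B T0) :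
    mi Q X B (fun ω => (Y ω, Z ω, A ω)) ≤ mi Q l T0 A := by
  have e1 : mi Q X B (fun ω => (Y ω, Z ω, A ω)) ≤ mi Q l B (fun ω => (Y ω, Z ω, A ω)) :=
    mi_mono_left Q B (fun ω ω' p p' e => hX ω ω' p p' (by
      simp only [Prod.mk.injEq] at e ⊢
      exact ⟨e.1, e.2.2.1, e.2.2.2⟩))
  have e2 : mi Q l B (fun ω => (Y ω, Z ω, A ω)) ≤ mi Q l B (fun ω => (Z ω, A ω)) :=
    mi_cond_le Q B (fun ω => (Z ω, A ω)) (fun ω ω' p p' e => hY ω ω' p p' (by
      simp only [Prod.mk.injEq] at e ⊢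
      exact ⟨e.1, e.2.1, e.2.2⟩))
  have e3 : mi Q l B (fun ω => (Z ω, A ω)) ≤ mi Q l T0 A := by
    have h2 := mi_pair Q l Z B A
    have h3 : mi Q l (fun ω => (Z ω, B ω)) A ≤ mi Q l T0 A :=
      mi_mono_right Q l (fun ω ω' p p' e => by
        simp only [Prod.mk.injEq] at e ⊢
        exact ⟨hZ ω ω' p p' e.1, hB ω ω' p p' e.1⟩)
    have h4 := mi_nonneg Q l Z A
    (clear * - h2 h3 h4; linarith)
  linarith only [e1, e2, e3]

end gen

section fam

variable {Ω : Type} [Fintype Ω] {m κ : ℕ} {P : Law Ω} {c : Cf Ω m} {o : Ob Ω m κ}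
  {L : ℕ} {e C E0 : ℝ} {a N : ℕ}

/-- on the support of the copies the lines, the side information and the first digits of the times
coincide -/
theorem cw_same {Q : Law (Fin (N + 1) → Ω)} (hQ : ∀ w, Q.w w = cw P (key c a) N w)
    {w : Fin (N + 1) → Ω} (hw : 0 < Q.w w) (i j : Fin (N + 1)) :
    c.x (w i) = c.x (w j) ∧ c.y (w i) = c.y (w j) ∧ c.A (w i) = c.A (w j) ∧
      fl1 a (c.t (w i)) = fl1 a (c.t (w j)) := by
  have h := (cw_supp hQ hw).1
  have h1 : key c a (w i) = key c a (w j) := (h i).trans (h j).symm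
  unfold key at h1
  simp only [Prod.mk.injEq] at h1
  exact h1

theorem cw_dom {Q : Law (Fin (N + 1) → Ω)} (hQ : ∀ w, Q.w w = cw P (key c a) N w)
    (i : Fin (N + 1)) : Dom Q (fun w => w i) P 1 := by
  intro ω
  rw [cw_marg hQ, one_mul]

variable {E : (Fin (N + 1) → Ω) → Prop} {p : ℝ}

theorem on_dom {Q : Law (Fin (N + 1) → Ω)} (hQ : ∀ w, Q.w w = cw P (key c a) N w)
    (hp : 0 < p) (hE : p ≤ prE Q E) (i : Fin (N + 1)) :
    Dom (on Q E) (fun w => w i) P (1 / p) := by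
  have h := (Dom.on hp hE).comp (cw_dom hQ i)
  rw [mul_one] at h
  exact h

theorem on_same {Q : Law (Fin (N + 1) → Ω)} (hQ : ∀ w, Q.w w = cw P (key c a) N w)
    (hp : 0 < p) (hE : p ≤ prE Q E) {w : Fin (N + 1) → Ω} (hw : 0 < (on Q E).w w)
    (i j : Fin (N + 1)) :
    c.x (w i) = c.x (w j) ∧ c.y (w i) = c.y (w j) ∧ c.A (w i) = c.A (w j) ∧
      fl1 a (c.t (w i)) = fl1 a (c.t (w j)) :=
  cw_same hQ (on_pos (hp.trans_le hE) hw).2 i j

/-- conditional entropies of a sub-tuple -/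
theorem hc_sub {M : ℕ} {Q : Law (Fin (N + 1) → Ω)} (hQ : ∀ w, Q.w w = cw P (key c a) N w)
    {Q' : Law (Fin (M + 1) → Ω)} (hQ' : ∀ w, Q'.w w = cw P (key c a) M w)
    (i : Fin (M + 1) → Fin (N + 1)) (hi : Function.Injective i) {S T : Type*}
    (X : (Fin (M + 1) → Ω) → S) (Y : (Fin (M + 1) → Ω) → T) :
    hc Q (fun w => X (w ∘ i)) (fun w => Y (w ∘ i)) = hc Q' X Y :=
  hc_of_law Q Q' (fun w => w ∘ i) (fun v => by rw [cw_sub hQ i hi v, hQ' v]) X Y

/-- conditional entropies of a sub-tuple under the condition `E` -/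
theorem hc_sub_on {M : ℕ} {Q : Law (Fin (N + 1) → Ω)} (hQ : ∀ w, Q.w w = cw P (key c a) N w)
    {Q' : Law (Fin (M + 1) → Ω)} (hQ' : ∀ w, Q'.w w = cw P (key c a) M w)
    (i : Fin (M + 1) → Fin (N + 1)) (hi : Function.Injective i) (hp : 0 < p)
    (hE : p ≤ prE Q E) {S T : Type*}
    (X : (Fin (M + 1) → Ω) → S) (Y : (Fin (M + 1) → Ω) → T) :
    hc (on Q E) (fun w => X (w ∘ i)) (fun w => Y (w ∘ i)) ≤ 1 / p * hc Q' X Y := by
  rw [← hc_sub hQ hQ' i hi X Y]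
  exact (Dom.on hp hE).hc_le (fun w => X (w ∘ i)) (fun w => Y (w ∘ i))

/-- back from the condition `E` to the copies -/
theorem hc_le_of_on {S T : Type*} (Q : Law Ω) (E : Ω → Prop) (hE : 0 < prE Q E)
    (X : Ω → S) (Y : Ω → T) {R0 : ℝ} (hR : hc (on Q fun ω => ¬ E ω) X Y ≤ R0) :
    hc Q X Y ≤ Real.log 2 + hc (on Q E) X Y + (1 - prE Q E) * R0 := by
  have h0 := hc_nonneg (on Q E) X Y
  have hl := Real.log_nonneg (by norm_num : (1 : ℝ) ≤ 2)
  have h1 := prE_le_one Q E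
  rcases h1.lt_or_eq with h | h
  · have h2 := hc_le_on Q E hE h X Y
    have h3 : prE Q E * hc (on Q E) X Y ≤ hc (on Q E) X Y := by nlinarith only [h0, h1]
    have h4 : (1 - prE Q E) * hc (on Q fun ω => ¬ E ω) X Y ≤ (1 - prE Q E) * R0 :=
      mul_le_mul_of_nonneg_left hR (by linarith only [h])
    linarith only [h2, h3, h4]
  · have h2 : on Q E = Q := by
      refine law_ext fun ω => ?_
      rw [on_w hE, h, div_one]
      split_ifs with hc
      · rfl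
      · have h3 : prE Q (fun ω => ¬ E ω) = 0 := by rw [prE_not, h, sub_self]
        classical
        have h4 : Q.w ω ≤ prE Q (fun ω => ¬ E ω) := by
          unfold prE
          exact Finset.single_le_sum (f := Q.w) (fun ω _ => Q.nn ω) (by simpa only [mem_filter, mem_univ, true_and] using hc)
        exact (le_antisymm (by linarith only [h3, h4]) (Q.nn ω)).symm
    rw [h2, h]
    linarith only [hl]

end fam

end Vale.Agent.P127.Stk.Fam
end

section

/-!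
# P127 / Stk / StepR : close vectors, cost of the data, back to two copies

Proofs of `close_exc`, `cost_D`, `fin_ent` of `StepRFam.lean`.
-/

namespace Vale.Agent.P127.Stk.R

open Finset Vale.Agent.P127

/-- close vectors outside of an exceptional event -/
theorem h856_close_exc {Ω : Type} [Fintype Ω] {m : ℕ} {T : Type} (Q : Law Ω) (E : Ω → Prop)
    (X X' : Ω → Fin m → ℝ) (Z : Ω → T) (n s : ℕ) (Rr : ℝ) (hns : n ≤ s) (hR : 0 ≤ Rr)
    (h1 : ∀ ω, 0 < Q.w ω → fl n (X ω) = fl n (X' ω))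
    (h2 : ∀ ω, 0 < Q.w ω → ¬ E ω → ∀ i, |X ω i - X' ω i| ≤ Rr * (1 / 2 : ℝ) ^ s) :
    hc Q (fun ω => fl s (X ω)) (fun ω => (fl s (X' ω), Z ω)) ≤
      Real.log 2 + m * Real.log (2 * Rr + 5) + prE Q E * (m * ((s : ℝ) - n) * Real.log 2) := by
  classical
  -- the digits between `n` and `s`
  set D : Ω → Fin m → ℤ := fun ω i => fl s (X ω) i - 2 ^ (s - n) * fl n (X ω) i with hD
  have e0 : hc Q (fun ω => fl s (X ω)) (fun ω => (fl s (X' ω), Z ω)) ≤
      hc Q D (fun ω => (fl s (X' ω), Z ω)) := by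
    refine hc_mono_left Q ?_
    intro ω ω' p p' e
    simp only [Prod.mk.injEq] at e
    have e1 : fl n (X ω) = fl n (X ω') := by
      rw [h1 ω p, h1 ω' p']
      exact fl_of_fl hns _ _ e.2.1
    funext i
    have e2 := congrFun e.1 i
    simp only [hD] at e2
    rw [e1] at e2
    linarith only [e2]
  refine e0.trans ?_
  have hN := hc_le_exc Q E D (fun ω => (fl s (X' ω), Z ω)) ((2 ^ (s - n)) ^ m)
    ((2 * ⌈Rr⌉₊ + 3) ^ m) (Nat.one_le_pow _ _ (by (clear * -; omega))) ?_ ?_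
  · have l1 : Real.log (((2 * ⌈Rr⌉₊ + 3) ^ m : ℕ) : ℝ) ≤ m * Real.log (2 * Rr + 5) := by
      push_cast
      rw [Real.log_pow]
      refine mul_le_mul_of_nonneg_left ?_ (Nat.cast_nonneg m)
      refine Real.log_le_log (by (clear * -; positivity)) ?_
      have := Nat.ceil_lt_add_one hR
      linarith only [this]
    have l2 : Real.log (((2 ^ (s - n)) ^ m : ℕ) : ℝ) = m * ((s : ℝ) - n) * Real.log 2 := by
      push_cast
      rw [Real.log_pow, Real.log_pow, Nat.cast_sub hns]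
      ring
    rw [l2] at hN
    linarith only [hN, l1]
  · -- all values
    refine ⟨Fintype.piFinset fun _ : Fin m => Finset.Ico (0 : ℤ) (2 ^ (s - n)), ?_, ?_⟩
    · rw [Fintype.card_piFinset]
      simp only [Int.card_Ico, sub_zero, toNat_pow_aux, prod_const, card_univ, Fintype.card_fin, Std.le_refl]
    · intro ω _
      rw [Fintype.mem_piFinset]
      intro i
      have := floor_mem_aux hns (x := X ω i) (y := X ω i) rfl
      rw [Finset.mem_Ico] at this ⊢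
      simp only [hD]
      have e1 : fl s (X ω) i = ⌊(2 : ℝ) ^ s * X ω i⌋ := rfl
      have e2 : fl n (X ω) i = ⌊(2 : ℝ) ^ n * X ω i⌋ := rfl
      rw [e1, e2]
      constructor
      · linarith only [this]
      · linarith only [this]
  · -- outside of the event
    intro ω hω hE
    refine ⟨Fintype.piFinset fun i : Fin m =>
      Finset.Icc (fl s (X' ω) i - 2 ^ (s - n) * fl n (X' ω) i - (⌈Rr⌉₊ + 1 : ℕ))
        (fl s (X' ω) i - 2 ^ (s - n) * fl n (X' ω) i + (⌈Rr⌉₊ + 1 : ℕ)), ?_, ?_⟩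
    · rw [Fintype.card_piFinset]
      have : ∀ i : Fin m, (Finset.Icc (fl s (X' ω) i - 2 ^ (s - n) * fl n (X' ω) i -
          ((⌈Rr⌉₊ + 1 : ℕ) : ℤ)) (fl s (X' ω) i - 2 ^ (s - n) * fl n (X' ω) i +
          ((⌈Rr⌉₊ + 1 : ℕ) : ℤ))).card = 2 * ⌈Rr⌉₊ + 3 := by
        intro i
        rw [Int.card_Icc]
        omega
      simp only [this, Finset.prod_const, Finset.card_univ, Fintype.card_fin]
      exact le_rfl
    · intro ω' hω' hE' e
      simp only [Prod.mk.injEq] at e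
      rw [Fintype.mem_piFinset]
      intro i
      have h3 : ∀ i, |X ω' i - X' ω' i| ≤ (⌈Rr⌉₊ : ℝ) * (1 / 2 : ℝ) ^ s := fun i =>
        (h2 ω' hω' hE' i).trans (mul_le_mul_of_nonneg_right (Nat.le_ceil Rr) (by positivity))
      have h4 := abs_le.1 (fl_sub_le h3 i)
      have h5 : fl n (X' ω') i = fl n (X' ω) i := congrFun (fl_of_fl hns _ _ e.1) i
      have h6 : fl s (X' ω') i = fl s (X' ω) i := congrFun e.1 i
      have h7 : fl n (X ω') i = fl n (X' ω) i := by rw [h1 ω' hω', h5]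
      rw [Finset.mem_Icc]
      simp only [hD]
      rw [h7]
      rw [h6] at h4
      push_cast
      constructor <;> linarith only [h4]

theorem h856_cst_nonneg (m κ : ℕ) : 0 ≤ cst m κ := by
  unfold cst
  refine mul_nonneg (Nat.cast_nonneg m) (Real.log_nonneg ?_)
  have h3 : (0 : ℝ) ≤ κ * 3 ^ κ := by positivity
  linarith

/-- the projected point is a function of the line, the time and the data -/
theorem h856_F_congr {Ω : Type} {m κ : ℕ} (c : Cf Ω m) (o : Ob Ω m κ) (ω ω' : Ω)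
    (hx : c.x ω = c.x ω') (hy : c.y ω = c.y ω') (ht : c.t ω = c.t ω') (hG : o.G ω = o.G ω') :
    o.F c ω = o.F c ω' := by
  classical
  have hΓ := o.fn ω ω' hG
  unfold Ob.F Ob.app Cf.pt
  rw [hΓ, hx, hy, ht]

/-- informations depend only on the law -/
theorem h856_mi_of_law {Ω₁ Ω₂ : Type} [Fintype Ω₁] [Fintype Ω₂] {S T U : Type*} (P₁ : Law Ω₁)
    (P₂ : Law Ω₂) (π : Ω₁ → Ω₂) (h : ∀ ω, P₁.pr π ω = P₂.w ω) (X : Ω₂ → S) (Y : Ω₂ → T)
    (Z : Ω₂ → U) :
    mi P₁ (fun ω => X (π ω)) (fun ω => Y (π ω)) (fun ω => Z (π ω)) = mi P₂ X Y Z := by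
  unfold mi
  have e1 := hc_of_law P₁ P₂ π h X Z
  have e2 := hc_of_law P₁ P₂ π h X (fun ω => (Y ω, Z ω))
  simp only [Function.comp_def] at e1 e2
  rw [e1, e2]

/-- the cost of the data of the killing lemma for the glued pair -/
theorem h856_cost_D (m κ k : ℕ) : ∃ K1 : ℝ, 0 ≤ K1 ∧ ∀ (e1 : ℝ) (a n r j : ℕ)
    (Ω : Type) [Fintype Ω] (c : Cf Ω m) (o : Ob Ω m κ) (Q1 : Law (Fin (k + 3) → Ω))
    (Ω' : Type) [Fintype Ω'] (Q' : Law Ω') (π π' : Ω' → (Fin (k + 3) → Ω)),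
    (∀ ω, 0 ≤ c.t ω ∧ c.t ω < 1) → n ≤ r →
    (∀ w, 0 < Q1.w w → Sup c a w) → (∀ w, Q'.pr π w = Q1.w w) →
    mi Q1 (vl c) (fun (w : Fin (k + 3) → Ω) (i : Fin (k + 3)) => (c.t (w i), o.G (w i)))
      (fun w => c.A (w 0)) ≤ e1 →
    mi Q' (fun ω => vl c (π ω)) (fun ω => vq c n (π' ω))
      (fun ω => (vq c n (π ω), vB c o (π ω), vA c o n (π ω))) ≤ e1 →
    mi Q' (fun ω => (c.x (π ω 1), c.y (π ω 1)))
      (fun ω => ((vA c o n (π ω), vq c n (π ω), vq c n (π' ω)), fl1 j (vu c a (π ω))))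
      (fun ω => (c.t (π ω 1), c.A (π ω 1), fl r (c.x (π ω 1)), fl r (c.y (π ω 1)))) ≤
      2 * e1 + K1 := by
  refine ⟨cst m κ, h856_cst_nonneg m κ, ?_⟩
  intro e1 a n r j Ω _ c o Q1 Ω' _ Q' π π' ht hnr hsup hlaw hmi hglue
  -- the support
  have hS : ∀ ω, 0 < Q'.w ω → Sup c a (π ω) := fun ω hω => hsup _ (by
    rw [← hlaw]
    exact Q'.pr_pos π hω)
  have hkey : ∀ ω, 0 < Q'.w ω → ∀ i, c.x (π ω i) = c.x (π ω 0) ∧ c.y (π ω i) = c.y (π ω 0) ∧
      c.A (π ω i) = c.A (π ω 0) := by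
    intro ω hω i
    have h := hS ω hω i
    unfold key at h
    simp only [Prod.mk.injEq] at h
    exact ⟨h.1, h.2.1, h.2.2.1⟩
  set l : Ω' → (Fin m → ℝ) × (Fin m → ℝ) := fun ω => (c.x (π ω 1), c.y (π ω 1)) with hl
  set T0 : Ω' → Fin (k + 3) → ℝ × o.γ := fun ω i => (c.t (π ω i), o.G (π ω i)) with hT0
  set A0 : Ω' → c.α := fun ω => c.A (π ω 1) with hA0
  set F0 : Ω' → Fin m → ℤ := fun ω => fl n (o.F c (π ω 1)) with hF0
  set q' : Ω' → (Fin m → ℤ) × (Fin m → ℤ) := fun ω => vq c n (π' ω) with hq'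
  set Zr : Ω' → ℝ × c.α × (Fin m → ℤ) × (Fin m → ℤ) := fun ω =>
    (c.t (π ω 1), c.A (π ω 1), fl r (c.x (π ω 1)), fl r (c.y (π ω 1))) with hZr
  -- the hypothesis about the times on `Ω'`
  have hm1 : mi Q' l T0 A0 ≤ e1 := by
    have h1 := h856_mi_of_law Q' Q1 π hlaw (vl c)
      (fun (w : Fin (k + 3) → Ω) (i : Fin (k + 3)) => (c.t (w i), o.G (w i)))
      (fun w => c.A (w 0))
    have h2 : mi Q' l T0 A0 ≤ mi Q' (fun ω => vl c (π ω)) T0 A0 := by
      refine mi_mono_left Q' T0 ?_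
      intro ω ω' p p' e
      simp only [Prod.mk.injEq] at e
      have e2 : vl c (π ω) = vl c (π ω') := e.1
      unfold vl at e2
      simp only [Prod.mk.injEq] at e2
      simp only [hl, Prod.mk.injEq]
      rw [(hkey ω p 1).1, (hkey ω p 1).2.1, (hkey ω' p' 1).1, (hkey ω' p' 1).2.1]
      exact e2
    have h3 : mi Q' (fun ω => vl c (π ω)) T0 A0 =
        mi Q' (fun ω => vl c (π ω)) T0 (fun ω => c.A (π ω 0)) := by
      refine mi_congr_cond Q' _ _ ?_ ?_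
      · intro ω ω' p p' e
        simp only [hA0]
        rw [(hkey ω p 1).2.2, (hkey ω' p' 1).2.2]
        exact e
      · intro ω ω' p p' e
        simp only [hA0] at e
        rw [(hkey ω p 1).2.2, (hkey ω' p' 1).2.2] at e
        exact e
    rw [h3] at h2
    rw [← h1] at hmi
    exact h2.trans hmi
  -- step 1 : the data are a function of `(T0, F0, q')` and `Zr`
  have s1 : mi Q' l (fun ω => ((vA c o n (π ω), vq c n (π ω), vq c n (π' ω)),
      fl1 j (vu c a (π ω)))) Zr ≤ mi Q' l (fun ω => (T0 ω, F0 ω, q' ω)) Zr := by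
    refine mi_mono_right Q' l ?_
    intro ω ω' p p' e
    simp only [Prod.mk.injEq, hT0, hF0, hq', hZr] at e
    obtain ⟨⟨eT, eF, eq'⟩, et, eA, ex, ey⟩ := e
    have ex' := fl_of_fl hnr _ _ ex
    have ey' := fl_of_fl hnr _ _ ey
    have eT' : ∀ i, c.t (π ω i) = c.t (π ω' i) ∧ o.G (π ω i) = o.G (π ω' i) := by
      intro i
      have := congrFun eT i
      simp only [Prod.mk.injEq] at this
      exact this
    have eA0 : c.A (π ω 0) = c.A (π ω' 0) := by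
      rw [← (hkey ω p 1).2.2, ← (hkey ω' p' 1).2.2]
      exact eA
    have eq0 : vq c n (π ω) = vq c n (π ω') := by
      unfold vq
      rw [← (hkey ω p 1).1, ← (hkey ω p 1).2.1, ← (hkey ω' p' 1).1, ← (hkey ω' p' 1).2.1,
        ex', ey']
    have eu : vu c a (π ω) = vu c a (π ω') := by
      unfold vu
      rw [(eT' 0).1]
    have evA : vA c o n (π ω) = vA c o n (π ω') := by
      unfold vA
      rw [eA0, (eT' 1).1, (eT' 1).2, eF]
      simp only [(eT' _).1, (eT' _).2]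
    simp only [Prod.mk.injEq]
    exact ⟨⟨evA, eq0, eq'⟩, by rw [eu]⟩
  -- step 2 : the chain rule
  have s2 : mi Q' l (fun ω => (T0 ω, F0 ω, q' ω)) Zr = mi Q' l T0 Zr +
      mi Q' l (fun ω => (F0 ω, q' ω)) (fun ω => (T0 ω, Zr ω)) := mi_pair Q' l T0 _ Zr
  have s3 : mi Q' l (fun ω => (F0 ω, q' ω)) (fun ω => (T0 ω, Zr ω)) =
      mi Q' l F0 (fun ω => (T0 ω, Zr ω)) + mi Q' l q' (fun ω => (F0 ω, T0 ω, Zr ω)) :=
    mi_pair Q' l F0 q' _
  -- the first term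
  have t1 : mi Q' l T0 Zr ≤ e1 := by
    have g1 : mi Q' l T0 Zr = mi Q' l T0 (fun ω =>
        ((fl r (c.x (π ω 1)), fl r (c.y (π ω 1))), (c.t (π ω 1), A0 ω))) := by
      refine mi_congr_cond Q' _ _ ?_ ?_
      · intro ω ω' _ _ e
        simp only [Prod.mk.injEq, hZr, hA0] at e ⊢
        (clear * - e; tauto)
      · intro ω ω' _ _ e
        simp only [Prod.mk.injEq, hZr, hA0] at e ⊢
        (clear * - e; tauto)
    have g2 : mi Q' l T0 (fun ω =>
        ((fl r (c.x (π ω 1)), fl r (c.y (π ω 1))), (c.t (π ω 1), A0 ω))) ≤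
        mi Q' l T0 (fun ω => (c.t (π ω 1), A0 ω)) := by
      refine mi_cond_le Q' T0 _ ?_
      intro ω ω' _ _ e
      simp only [hl, Prod.mk.injEq] at e ⊢
      rw [e.1.1, e.1.2]
      exact ⟨rfl, rfl⟩
    have g3 := mi_pair Q' l (fun ω => c.t (π ω 1)) T0 A0
    have g4 : mi Q' l (fun ω => (c.t (π ω 1), T0 ω)) A0 ≤ mi Q' l T0 A0 := by
      refine mi_mono_right Q' l ?_
      intro ω ω' _ _ e
      simp only [Prod.mk.injEq] at e ⊢
      have e1 := congrFun e.1 1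
      simp only [hT0, Prod.mk.injEq] at e1
      exact ⟨e1.1, e.1⟩
    have g5 := mi_nonneg Q' l (fun ω => c.t (π ω 1)) A0
    linarith only [hm1, g1, g2, g3, g4, g5]
  -- the second term
  have t2 : mi Q' l F0 (fun ω => (T0 ω, Zr ω)) ≤ cst m κ := by
    refine (mi_le_hc' Q' l F0 _).trans ?_
    have g := hc_F_of_q Q' (c.comp fun ω => π ω 1) (o.comp fun ω => π ω 1) n
      (fun ω => (T0 ω, Zr ω)) (fun ω _ => ht _) (by
        intro ω ω' p p' e
        simp only [Prod.mk.injEq, hT0, hZr] at e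
        obtain ⟨eT, et, eA, ex, ey⟩ := e
        have ex' := fl_of_fl hnr _ _ ex
        have ey' := fl_of_fl hnr _ _ ey
        have e1 := congrFun eT 1
        simp only [Prod.mk.injEq] at e1
        show (Cf.q (c.comp fun ω => π ω 1) n ω, c.t (π ω 1), o.G (π ω 1)) =
          (Cf.q (c.comp fun ω => π ω 1) n ω', c.t (π ω' 1), o.G (π ω' 1))
        have e2 : Cf.q (c.comp fun ω => π ω 1) n ω = Cf.q (c.comp fun ω => π ω 1) n ω' :=
          Prod.ext ex' ey'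
        rw [e2, e1.1, e1.2])
    exact g
  -- the third term
  have t3 : mi Q' l q' (fun ω => (F0 ω, T0 ω, Zr ω)) ≤ e1 := by
    have g0 : mi Q' l q' (fun ω => (F0 ω, T0 ω, Zr ω)) ≤
        mi Q' (fun ω => vl c (π ω)) q' (fun ω => (F0 ω, T0 ω, Zr ω)) := by
      refine mi_mono_left Q' q' ?_
      intro ω ω' p p' e
      simp only [Prod.mk.injEq] at e
      have e2 : vl c (π ω) = vl c (π ω') := e.1
      unfold vl at e2
      simp only [Prod.mk.injEq] at e2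
      simp only [hl, Prod.mk.injEq]
      rw [(hkey ω p 1).1, (hkey ω p 1).2.1, (hkey ω' p' 1).1, (hkey ω' p' 1).2.1]
      exact e2
    have g1 : mi Q' (fun ω => vl c (π ω)) q' (fun ω => (F0 ω, T0 ω, Zr ω)) =
        mi Q' (fun ω => vl c (π ω)) q' (fun ω => ((fl r (c.x (π ω 1)), fl r (c.y (π ω 1))),
          (vq c n (π ω), vB c o (π ω), vA c o n (π ω)))) := by
      refine mi_congr_cond Q' _ _ ?_ ?_
      · intro ω ω' p p' e
        simp only [vB, vA, Prod.mk.injEq] at e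
        obtain ⟨⟨ex, ey⟩, eq0, ⟨et0, eG0⟩, eA, en, ⟨et1, eG1⟩, eF⟩ := e
        simp only [Prod.mk.injEq, hZr, hF0, hT0]
        refine ⟨eF, ?_, et1, ?_, ex, ey⟩
        · funext i
          refine Fin.cases ?_ (fun i => ?_) i
          · rw [et0, eG0]
          · refine Fin.cases ?_ (fun i => ?_) i
            · show (c.t (π ω 1), o.G (π ω 1)) = (c.t (π ω' 1), o.G (π ω' 1))
              rw [et1, eG1]
            · exact congrFun en i
        · rw [(hkey ω p 1).2.2, (hkey ω' p' 1).2.2, eA]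
      · intro ω ω' p p' e
        simp only [Prod.mk.injEq, hZr, hF0, hT0] at e
        obtain ⟨eF, eT, et, eA, ex, ey⟩ := e
        have ex' := fl_of_fl hnr _ _ ex
        have ey' := fl_of_fl hnr _ _ ey
        have eT' : ∀ i, c.t (π ω i) = c.t (π ω' i) ∧ o.G (π ω i) = o.G (π ω' i) := by
          intro i
          have := congrFun eT i
          simp only [Prod.mk.injEq] at this
          exact this
        simp only [Prod.mk.injEq, vB, vA, vq]
        refine ⟨⟨ex, ey⟩, ⟨?_, ?_⟩, ⟨(eT' 0).1, (eT' 0).2⟩, ?_, ?_, ⟨(eT' 1).1, (eT' 1).2⟩, eF⟩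
        · rw [← (hkey ω p 1).1, ← (hkey ω' p' 1).1, ex']
        · rw [← (hkey ω p 1).2.1, ← (hkey ω' p' 1).2.1, ey']
        · rw [← (hkey ω p 1).2.2, ← (hkey ω' p' 1).2.2]
          exact eA
        · funext i
          rw [(eT' _).1, (eT' _).2]
    have g2 : mi Q' (fun ω => vl c (π ω)) q' (fun ω =>
          ((fl r (c.x (π ω 1)), fl r (c.y (π ω 1))),
          (vq c n (π ω), vB c o (π ω), vA c o n (π ω)))) ≤
        mi Q' (fun ω => vl c (π ω)) q' (fun ω => (vq c n (π ω), vB c o (π ω), vA c o n (π ω))) := by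
      refine mi_cond_le Q' q' _ ?_
      intro ω ω' p p' e
      simp only [Prod.mk.injEq] at e ⊢
      have e2 : vl c (π ω) = vl c (π ω') := e.1
      unfold vl at e2
      simp only [Prod.mk.injEq] at e2
      rw [(hkey ω p 1).1, (hkey ω p 1).2.1, (hkey ω' p' 1).1, (hkey ω' p' 1).2.1, e2.1, e2.2]
      exact ⟨rfl, rfl⟩
    linarith only [hglue, g0, g1, g2]
  linarith only [s1, s2, s3, t1, t2, t3]

/-- from the conditioned family back to two copies -/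
theorem h856_fin_ent (m κ k : ℕ) : ∃ K1 : ℝ, 0 ≤ K1 ∧ ∀ (h e e' ε η1 η2 : ℝ) (a L n s : ℕ)
    (Ω : Type) [Fintype Ω] (P : Law Ω) (c : Cf Ω m) (o : Ob Ω m κ) (Q0 : Law (Fin (k + 3) → Ω)),
    0 ≤ e → 0 ≤ e' → 0 ≤ ε → a ≤ L → n ≤ s → s ≤ L →
    (∀ w, Q0.w w = cw P (key c a) (k + 2) w) →
    1 / 2 ≤ prE Q0 (TE c o η1 η2) → prE Q0 (fun w => ¬ TE c o η1 η2 w) ≤ ε →
    (∀ (Ω' : Type) [Fintype Ω'] (Q : Law Ω') (π : Ω' → Ω), Dom Q π P 2 →
      Rate Q (c.comp π) (o.comp π) L h e) →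
    (∀ Q : Law (Fin 2 → Ω), (∀ w, Q.w w = cw P (key c a) 1 w) →
      hc Q (fun w => fl n (o.F c (w 1)))
          (fun w => (fl n (o.F c (w 0)), (fun i => (c.t (w i), o.G (w i))), c.A (w 0))) ≤ e) →
    hc (on Q0 (TE c o η1 η2)) (vX c o s) (fun w => (vY c o s w, vB c o w, vA c o n w)) ≤ e' →
    ∀ Q : Law (Fin 2 → Ω), (∀ w, Q.w w = cw P (key c a) 1 w) →
      hc Q (fun w => fl s (o.F c (w 1)))
          (fun w => (fl s (o.F c (w 0)), (fun i => (c.t (w i), o.G (w i))), c.A (w 0))) ≤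
        e' + ε * (m * ((s : ℝ) - n) * Real.log 2) + K1 * (e + 1) := by
  classical
  refine ⟨k + 6, by positivity, ?_⟩
  intro h e e' ε η1 η2 a L n s Ω _ P c o Q0 he he' hε haL hns hsL hQ0 hE hE' hRate hRK hmain Q hQ
  have hl2 : Real.log 2 ≤ 1 := by
    have := Real.log_le_sub_one_of_pos (by norm_num : (0 : ℝ) < 2)
    linarith only [this]
  have hl0 : 0 ≤ Real.log 2 := Real.log_nonneg (by norm_num)
  have hsn : (0 : ℝ) ≤ (s : ℝ) - n := by
    have : (n : ℝ) ≤ s := by exact_mod_cast hns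
    linarith only [this]
  -- step 1 : from the event to all copies
  have s1 : hc Q0 (vX c o s) (fun w => (vY c o s w, vB c o w, vA c o n w)) ≤
      Real.log 2 + e' + ε * (m * ((s : ℝ) - n) * Real.log 2) := by
    have g1 : hc (on Q0 fun w => ¬ TE c o η1 η2 w) (vX c o s)
        (fun w => (vY c o s w, vB c o w, vA c o n w)) ≤ m * ((s : ℝ) - n) * Real.log 2 := by
      have g2 := hc_fl_digits_le (on Q0 fun w => ¬ TE c o η1 η2 w) hns
        (fun w : Fin (k + 3) → Ω => o.F c (w 1)) (fun w => (vY c o s w, vB c o w, vA c o n w))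
      rw [Fintype.card_fin, Nat.cast_sub hns] at g2
      refine le_trans ?_ g2
      refine hc_mono_right _ _ ?_
      intro w w' _ _ e
      simp only [vA, Prod.mk.injEq] at e ⊢
      (clear * - e; tauto)
    have g3 := Fam.hc_le_of_on Q0 (TE c o η1 η2) (by linarith only [hE]) (vX c o s)
      (fun w => (vY c o s w, vB c o w, vA c o n w)) g1
    have g4 : (1 - prE Q0 (TE c o η1 η2)) * (m * ((s : ℝ) - n) * Real.log 2) ≤
        ε * (m * ((s : ℝ) - n) * Real.log 2) := by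
      refine mul_le_mul_of_nonneg_right ?_ (by (clear * - hsn; positivity))
      rw [← prE_not]
      exact hE'
    linarith only [hmain, g3, g4]
  -- the cost of the data
  have hcost : mi Q0 (vl c) (fun (w : Fin (k + 3) → Ω) (i : Fin (k + 3)) =>
      (c.t (w i), o.G (w i))) (fun w => c.A (w 0)) ≤ (k + 4) * e := by
    have g1 := cw_cost hQ0 (fun ω => (c.x ω, c.y ω)) c.A (fun ω => (c.t ω, o.G ω))
      (fun ω => fl1 a (c.t ω)) (fun ω ω' _ _ e => by
        simp only [Prod.mk.injEq] at e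
        show fl1 a (c.t ω) = fl1 a (c.t ω')
        rw [e.1]) (fun ω ω' _ _ e => by
        simp only [Prod.mk.injEq] at e
        show key c a ω = key c a ω'
        unfold key
        rw [e.1.1, e.1.2, e.2.1, e.2.2]) (fun ω ω' _ _ e => by
        unfold key at e
        simp only [Prod.mk.injEq] at e ⊢
        exact ⟨⟨e.1, e.2.1⟩, e.2.2.1, e.2.2.2⟩) 0
    have g2 := (hRate Ω P id ((Dom.refl P).mono (by norm_num))).cost
    have g3 : mi P (fun ω => (c.x ω, c.y ω)) (fun ω => (c.t ω, o.G ω)) c.A ≤ e := g2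
    have g4 : ((k + 2 : ℕ) : ℝ) + 2 = k + 4 := by push_cast; ring
    rw [g4] at g1
    exact g1.trans (mul_le_mul_of_nonneg_left g3 (by (clear * -; positivity)))
  -- step 2 : drop the nodes
  set ZZ : (Fin (k + 3) → Ω) → Fin 2 → ℝ × o.γ := fun w i =>
    if i = 0 then (c.t (w 0), o.G (w 0)) else (c.t (w 1), o.G (w 1)) with hZZ
  have hsame : ∀ w, 0 < Q0.w w → c.x (w 1) = c.x (w 0) ∧ c.y (w 1) = c.y (w 0) := by
    intro w hw
    have := Fam.cw_same hQ0 hw 1 0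
    exact ⟨this.1, this.2.1⟩
  have hF : ∀ w w', 0 < Q0.w w → 0 < Q0.w w' → vl c w = vl c w' → ZZ w = ZZ w' →
      o.F c (w 0) = o.F c (w' 0) ∧ o.F c (w 1) = o.F c (w' 1) := by
    intro w w' p p' el eZ
    unfold vl at el
    simp only [Prod.mk.injEq] at el
    have e0 := congrFun eZ 0
    have e1 := congrFun eZ 1
    simp only [hZZ, if_true] at e0
    simp only [hZZ] at e1
    rw [if_neg (by decide), if_neg (by decide)] at e1
    simp only [Prod.mk.injEq] at e0 e1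
    refine ⟨h856_F_congr c o (w 0) (w' 0) el.1 el.2 e0.1 e0.2,
      h856_F_congr c o (w 1) (w' 1) ?_ ?_ e1.1 e1.2⟩
    · rw [(hsame w p).1, (hsame w' p').1, el.1]
    · rw [(hsame w p).2, (hsame w' p').2, el.2]
  have s2 : hc Q0 (vX c o s) (fun w => ((fl s (o.F c (w 0)), fl n (o.F c (w 1))), ZZ w,
      c.A (w 0))) - (k + 4) * e ≤
      hc Q0 (vX c o s) (fun w => (vY c o s w, vB c o w, vA c o n w)) := by
    have g1 := Fam.add_T Q0 (X := vX c o s)
      (Y := fun w => (fl s (o.F c (w 0)), fl n (o.F c (w 1)))) (l := vl c) (Z := ZZ)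
      (T0 := fun (w : Fin (k + 3) → Ω) (i : Fin (k + 3)) => (c.t (w i), o.G (w i)))
      (A := fun w => c.A (w 0)) ?_ ?_ ?_
    · have g2 : hc Q0 (vX c o s) (fun w => ((fl s (o.F c (w 0)), fl n (o.F c (w 1))),
          (fun (i : Fin (k + 3)) => (c.t (w i), o.G (w i))), c.A (w 0))) ≤
          hc Q0 (vX c o s) (fun w => (vY c o s w, vB c o w, vA c o n w)) := by
        refine hc_mono_right Q0 _ ?_
        intro w w' _ _ e
        simp only [Prod.mk.injEq, vY, vB, vA] at e ⊢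
        obtain ⟨⟨eY, eF⟩, eT, eA⟩ := e
        have eT' : ∀ i, c.t (w i) = c.t (w' i) ∧ o.G (w i) = o.G (w' i) := by
          intro i
          have := congrFun eT i
          simp only [Prod.mk.injEq] at this
          exact this
        refine ⟨eY, eT' 0, eA, ?_, eT' 1, eF⟩
        funext i
        rw [(eT' _).1, (eT' _).2]
      -- direction
      have g3 : hc Q0 (vX c o s) (fun w => (vY c o s w, vB c o w, vA c o n w)) =
          hc Q0 (vX c o s) (fun w => ((fl s (o.F c (w 0)), fl n (o.F c (w 1))),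
          (fun (i : Fin (k + 3)) => (c.t (w i), o.G (w i))), c.A (w 0))) := by
        refine le_antisymm ?_ g2
        refine hc_mono_right Q0 _ ?_
        intro w w' _ _ e
        simp only [Prod.mk.injEq, vY, vB, vA] at e ⊢
        obtain ⟨eY, eB, eA, en, e1, eF⟩ := e
        refine ⟨⟨eY, eF⟩, ?_, eA⟩
        funext i
        refine Fin.cases ?_ (fun i => ?_) i
        · rw [eB.1, eB.2]
        · refine Fin.cases ?_ (fun i => ?_) i
          · show (c.t (w 1), o.G (w 1)) = (c.t (w' 1), o.G (w' 1))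
            rw [e1.1, e1.2]
          · exact congrFun en i
      rw [g3]
      linarith only [hcost, g1]
    · intro w w' p p' e
      simp only [Prod.mk.injEq] at e
      unfold vX
      rw [(hF w w' p p' e.1 e.2.1).2]
    · intro w w' p p' e
      simp only [Prod.mk.injEq] at e ⊢
      rw [(hF w w' p p' e.1 e.2.1).1, (hF w w' p p' e.1 e.2.1).2]
      exact ⟨rfl, rfl⟩
    · intro w w' _ _ e
      have e' : ∀ i : Fin (k + 3), (c.t (w i), o.G (w i)) = (c.t (w' i), o.G (w' i)) :=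
        fun i => congrFun e i
      simp only [hZZ]
      rw [e' 0, e' 1]
  -- step 3 : two copies
  have s3 : hc Q (fun w => fl s (o.F c (w 1))) (fun w => (fl n (o.F c (w 1)),
      (fl s (o.F c (w 0)), (fun i => (c.t (w i), o.G (w i))), c.A (w 0)))) ≤
      hc Q0 (vX c o s) (fun w => ((fl s (o.F c (w 0)), fl n (o.F c (w 1))), ZZ w,
      c.A (w 0))) := by
    have hi : Function.Injective (fun b : Fin 2 => if b = 0 then (0 : Fin (k + 3)) else 1) := by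
      intro b b' hb
      fin_cases b <;> fin_cases b' <;> simp_all
    have g1 := Fam.hc_sub (M := 1) hQ0 hQ
      (fun b : Fin 2 => if b = 0 then (0 : Fin (k + 3)) else 1) hi
      (fun w : Fin 2 → Ω => fl s (o.F c (w 1))) (fun w => (fl n (o.F c (w 1)),
      (fl s (o.F c (w 0)), (fun i => (c.t (w i), o.G (w i))), c.A (w 0))))
    rw [← g1]
    refine hc_mono_right Q0 _ ?_
    intro w w' _ _ e
    simp only [Prod.mk.injEq] at e
    obtain ⟨eF, eY, eZ, eA⟩ := e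
    have z0 : (c.t (w 0), o.G (w 0)) = (c.t (w' 0), o.G (w' 0)) := congrFun eZ 0
    have z1 : (c.t (w 1), o.G (w 1)) = (c.t (w' 1), o.G (w' 1)) := congrFun eZ 1
    have eF' : fl n (o.F c (w 1)) = fl n (o.F c (w' 1)) := eF
    have eY' : fl s (o.F c (w 0)) = fl s (o.F c (w' 0)) := eY
    have eA' : c.A (w 0) = c.A (w' 0) := eA
    simp only [Prod.mk.injEq]
    refine ⟨⟨eY', eF'⟩, ?_, eA'⟩
    simp only [hZZ]
    rw [z0, z1]
  -- step 4 : the first digits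
  have s4 := hc_le_add' Q (fun w => fl s (o.F c (w 1))) (fun w => fl n (o.F c (w 1)))
    (fun w => (fl s (o.F c (w 0)), (fun i => (c.t (w i), o.G (w i))), c.A (w 0)))
  have s5 : hc Q (fun w => fl n (o.F c (w 1)))
      (fun w => (fl s (o.F c (w 0)), (fun i => (c.t (w i), o.G (w i))), c.A (w 0))) ≤ e := by
    refine le_trans ?_ (hRK Q hQ)
    refine hc_mono_right Q _ ?_
    intro w w' _ _ e
    simp only [Prod.mk.injEq] at e ⊢
    exact ⟨fl_of_fl hns _ _ e.1, e.2.1, e.2.2⟩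
  have hk : (0 : ℝ) ≤ k := Nat.cast_nonneg k
  linarith

end Vale.Agent.P127.Stk.R
end

section

/-!
# P127 / Stk / StepR : the family of `k + 3` copies, inequalities 1, 3 and 7
-/

namespace Vale.Agent.P127.Stk.R

open Finset Vale.Agent.P127

variable {Ω : Type} [Fintype Ω] {m κ k : ℕ} {P : Law Ω} {c : Cf Ω m} {o : Ob Ω m κ}
  {Q0 : Law (Fin (k + 3) → Ω)} {a L n s : ℕ} {h e εu η1 η2 : ℝ}

/-- the conditioned copies are dominated -/
theorem fam_dom (hQ0 : ∀ w, Q0.w w = cw P (key c a) (k + 2) w)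
    (hE : 1 / 2 ≤ prE Q0 (TE c o η1 η2)) (i : Fin (k + 3)) :
    Dom (on Q0 (TE c o η1 η2)) (fun w => w i) P 2 := by
  have h1 := Fam.on_dom hQ0 (by norm_num : (0 : ℝ) < 1 / 2) hE i
  norm_num at h1
  exact h1

/-- on the support of the conditioned copies the side information coincides -/
theorem fam_A (hQ0 : ∀ w, Q0.w w = cw P (key c a) (k + 2) w)
    (hE : 1 / 2 ≤ prE Q0 (TE c o η1 η2)) {w : Fin (k + 3) → Ω}
    (hw : 0 < (on Q0 (TE c o η1 η2)).w w) (i j : Fin (k + 3)) : c.A (w i) = c.A (w j) :=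
  (Fam.on_same hQ0 (by norm_num : (0 : ℝ) < 1 / 2) hE hw i j).2.2.1

/-- inequality 1 -/
theorem fam_ent1 (hns : n ≤ s) (hsL : s ≤ L)
    (hQ0 : ∀ w, Q0.w w = cw P (key c a) (k + 2) w)
    (hE : 1 / 2 ≤ prE Q0 (TE c o η1 η2))
    (hR : ∀ (Ω' : Type) [Fintype Ω'] (Q : Law Ω') (π : Ω' → Ω), Dom Q π P 2 →
      Rate Q (c.comp π) (o.comp π) L h e) :
    hc (on Q0 (TE c o η1 η2)) (vX c o s) (fun w => (vq c n w, vA c o n w)) ≤
        (h - κ) * ((s : ℝ) - n) * Real.log 2 + e := by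
  have h1 := (hR _ (on Q0 (TE c o η1 η2)) (fun w => w 1) (fam_dom hQ0 hE 1)).up n s hns hsL
  refine le_trans ?_ h1
  refine hc_mono_right (on Q0 (TE c o η1 η2)) (vX c o s) ?_
  intro w w' hw hw' h2
  simp only [Prod.mk.injEq, vA] at h2
  obtain ⟨-, hA, -, ⟨ht, hG⟩, hF⟩ := h2
  have hA1 := fam_A hQ0 hE hw 1 0
  have hA2 := fam_A hQ0 hE hw' 1 0
  show (fl n (o.F c (w 1)), c.t (w 1), o.G (w 1), c.A (w 1)) =
    (fl n (o.F c (w' 1)), c.t (w' 1), o.G (w' 1), c.A (w' 1))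
  rw [hF, ht, hG, hA1, hA2, hA]

/-- inequality 3 -/
theorem fam_ent3 (hns : n ≤ s) (hsL : s ≤ L)
    (hQ0 : ∀ w, Q0.w w = cw P (key c a) (k + 2) w)
    (hE : 1 / 2 ≤ prE Q0 (TE c o η1 η2))
    (hR : ∀ (Ω' : Type) [Fintype Ω'] (Q : Law Ω') (π : Ω' → Ω), Dom Q π P 2 →
      Rate Q (c.comp π) (o.comp π) L h e)
    (hRK : ∀ Q : Law (Fin 2 → Ω), (∀ w, Q.w w = cw P (key c a) 1 w) →
      hc Q (fun w => fl n (o.F c (w 1)))
          (fun w => (fl n (o.F c (w 0)), (fun i => (c.t (w i), o.G (w i))), c.A (w 0))) ≤ e) :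
    hc (on Q0 (TE c o η1 η2)) (vY c o s) (fun w => (vB c o w, vA c o n w)) ≤
        (h - κ) * ((s : ℝ) - n) * Real.log 2 + 3 * e := by
  obtain ⟨Q2, hQ2⟩ := cw_exists P (key c a) 1
  set i : Fin 2 → Fin (k + 3) := ![1, 0] with hi
  have hinj : Function.Injective i := by
    intro p q hpq
    fin_cases p <;> fin_cases q <;> simp_all
  have h0 := hRK Q2 hQ2
  have h1 := Fam.hc_sub_on (E := TE c o η1 η2) hQ0 hQ2 i hinj (by norm_num : (0 : ℝ) < 1 / 2) hE
    (fun w => fl n (o.F c (w 1)))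
    (fun w => (fl n (o.F c (w 0)), (fun i => (c.t (w i), o.G (w i))), c.A (w 0)))
  have h2 := hc_le_add (on Q0 (TE c o η1 η2)) (vY c o s) (fun w => fl n (o.F c (w 0)))
    (fun w => (vB c o w, vA c o n w))
  have h3 : hc (on Q0 (TE c o η1 η2)) (fun w => fl n (o.F c (w 0)))
      (fun w => (vB c o w, vA c o n w)) ≤ 2 * e := by
    refine le_trans ?_ (h1.trans ?_)
    · refine hc_mono_right (on Q0 (TE c o η1 η2)) (fun w => fl n (o.F c (w 0))) ?_
      intro w w' hw hw' h4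
      simp only [vB, vA, Prod.mk.injEq] at h4
      obtain ⟨⟨ht0, hG0⟩, hA, -, ⟨ht, hG⟩, hF⟩ := h4
      have hA1 := fam_A hQ0 hE hw 1 0
      have hA2 := fam_A hQ0 hE hw' 1 0
      show (fl n (o.F c (w 1)), (fun j => (c.t ((w ∘ i) j), o.G ((w ∘ i) j))), c.A (w 1)) =
        (fl n (o.F c (w' 1)), (fun j => (c.t ((w' ∘ i) j), o.G ((w' ∘ i) j))), c.A (w' 1))
      have hfun : (fun j => (c.t ((w ∘ i) j), o.G ((w ∘ i) j))) =
          (fun j => (c.t ((w' ∘ i) j), o.G ((w' ∘ i) j))) := by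
        funext j
        fin_cases j
        · show (c.t (w 1), o.G (w 1)) = (c.t (w' 1), o.G (w' 1))
          rw [ht, hG]
        · show (c.t (w 0), o.G (w 0)) = (c.t (w' 0), o.G (w' 0))
          rw [ht0, hG0]
      rw [hF, hfun, hA1, hA2, hA]
    · linarith only [h0]
  have h5 := (hR _ (on Q0 (TE c o η1 η2)) (fun w => w 0) (fam_dom hQ0 hE 0)).up n s hns hsL
  have h6 : hc (on Q0 (TE c o η1 η2)) (vY c o s)
      (fun w => (fl n (o.F c (w 0)), vB c o w, vA c o n w)) ≤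
      (h - κ) * ((s : ℝ) - n) * Real.log 2 + e := by
    refine le_trans ?_ h5
    refine hc_mono_right (on Q0 (TE c o η1 η2)) (vY c o s) ?_
    intro w w' hw hw' h4
    simp only [Prod.mk.injEq, vA, vB] at h4
    obtain ⟨hF0, ⟨ht0, hG0⟩, hA, -⟩ := h4
    show (fl n (o.F c (w 0)), c.t (w 0), o.G (w 0), c.A (w 0)) =
      (fl n (o.F c (w' 0)), c.t (w' 0), o.G (w' 0), c.A (w' 0))
    rw [hF0, ht0, hG0, hA]
  linarith only [h2, h3, h6]

/-- inequality 7 -/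
theorem fam_ent7
    (hQ0 : ∀ w, Q0.w w = cw P (key c a) (k + 2) w)
    (hE : 1 / 2 ≤ prE Q0 (TE c o η1 η2))
    (ht : ((L : ℝ) - a) * Real.log 2 - εu ≤ hc P (fun ω => fl1 L (c.t ω))
      (fun ω => (fl1 a (c.t ω), c.x ω, c.y ω, c.A ω))) (j : ℕ) (hj : a + j ≤ L) :
    (j : ℝ) * Real.log 2 - 4 * (εu + 1) ≤
      hc (on Q0 (TE c o η1 η2)) (fun w => fl1 j (vu c a w)) (vA c o n) := by
  -- the entropy under `P`
  have hfr : ∀ ω, 0 ≤ Int.fract ((2 : ℝ) ^ a * c.t ω) ∧ Int.fract ((2 : ℝ) ^ a * c.t ω) < 1 :=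
    fun ω => ⟨Int.fract_nonneg _, Int.fract_lt_one _⟩
  have h1 := hc_le_add P (fun ω => fl1 L (c.t ω)) (fun ω => fl1 (a + j) (c.t ω))
    (fun ω => (fl1 a (c.t ω), c.x ω, c.y ω, c.A ω))
  have h2 := hc_fl1_digits_le P hj (fun ω => c.t ω)
    (fun ω => (fl1 a (c.t ω), c.x ω, c.y ω, c.A ω))
  rw [Nat.cast_sub hj, Nat.cast_add] at h2
  have h3 : hc P (fun ω => fl1 (a + j) (c.t ω)) (fun ω => (fl1 a (c.t ω), c.x ω, c.y ω, c.A ω)) ≤
      hc P (fun ω => fl1 j (Int.fract ((2 : ℝ) ^ a * c.t ω)))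
        (fun ω => (fl1 a (c.t ω), c.x ω, c.y ω, c.A ω)) := by
    refine hc_mono_left P ?_
    intro ω ω' _ _ h4
    simp only [Prod.mk.injEq] at h4
    have e1 := fl_fract (ι := Unit) a j (fun _ => c.t ω) ()
    have e2 := fl_fract (ι := Unit) a j (fun _ => c.t ω') ()
    have e3 : fl1 a (c.t ω) = fl1 a (c.t ω') := h4.2.1
    have e4 : fl1 j (Int.fract ((2 : ℝ) ^ a * c.t ω)) =
      fl1 j (Int.fract ((2 : ℝ) ^ a * c.t ω')) := h4.1
    unfold fl1 at e3 e4 ⊢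
    unfold fl at e1 e2
    simp only at e1 e2
    rw [e4] at e1
    rw [e3] at e1
    linarith only [e1, e2]
  have h4 : hc P (fun ω => fl1 j (Int.fract ((2 : ℝ) ^ a * c.t ω)))
        (fun ω => (fl1 a (c.t ω), c.x ω, c.y ω, c.A ω)) ≤
      hc P (fun ω => fl1 j (Int.fract ((2 : ℝ) ^ a * c.t ω))) (key c a) := by
    refine hc_mono_right P _ ?_
    intro ω ω' _ _ h5
    simp only [Prod.mk.injEq] at h5
    unfold key
    simp only [Prod.mk.injEq]
    (clear * - h5; tauto)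
  -- the entropy under `Q0`
  have h5 := cw_indep hQ0 0 (fun ω => fl1 j (Int.fract ((2 : ℝ) ^ a * c.t ω)))
    (fun w => ((fun l => (c.t (w (nd l)), o.G (w (nd l)))), (c.t (w 1), o.G (w 1)),
      fl n (o.F c (w 1)))) (by
      intro w w' hww
      have e1 : w 1 = w' 1 := hww 1 (by
        intro h0
        have := congrArg Fin.val h0
        simp only [Fin.coe_ofNat_eq_mod, Nat.one_mod, Nat.zero_mod, one_ne_zero] at this)
      have e2 : ∀ l : Fin (k + 1), w (nd l) = w' (nd l) := fun l => hww (nd l) (by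
        unfold nd
        exact Fin.succ_ne_zero _)
      simp only [e1, e2])
  have h6 : hc Q0 (fun w => fl1 j (Int.fract ((2 : ℝ) ^ a * c.t (w 0))))
      (fun w => (((fun l => (c.t (w (nd l)), o.G (w (nd l)))), (c.t (w 1), o.G (w 1)),
      fl n (o.F c (w 1))), key c a (w 0))) ≤ hc Q0 (fun w => fl1 j (vu c a w)) (vA c o n) := by
    refine hc_mono_right Q0 (fun w => fl1 j (vu c a w)) ?_
    intro w w' _ _ h7
    unfold key at h7
    simp only [Prod.mk.injEq] at h7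
    unfold vA
    simp only [Prod.mk.injEq]
    (clear * - h7; tauto)
  have h7 := (Dom.on (by norm_num : (0 : ℝ) < 1 / 2) hE).le_hc (fun w => fl1 j (vu c a w))
    (vA c o n) (j * Real.log 2) (fun R _ => hc_fl1_le R j (vu c a) (vA c o n)
      (fun w _ => ⟨Int.fract_nonneg _, Int.fract_lt_one _⟩))
  have hl := Real.log_two_lt_d9
  have h8 : hc (on Q0 (TE c o η1 η2)) ((fun w => fl1 j (vu c a w)) ∘ id) (vA c o n ∘ id) =
    hc (on Q0 (TE c o η1 η2)) (fun w => fl1 j (vu c a w)) (vA c o n) := rfl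
  rw [h8] at h7
  have h9 : 1 / (1 / 2 : ℝ) = 2 := by norm_num
  rw [h9] at h7
  have e1 : ((L : ℝ) - a) * Real.log 2 = ((L : ℝ) - (a + j)) * Real.log 2 + j * Real.log 2 := by
    ring
  linarith only [ht, h1, h2, h3, h4, h5, h6, h7, hl]

end Vale.Agent.P127.Stk.R
end

section

/-!
# P127 / Stk / StepR : the entropy inequalities 2, 4, 5, 6, 8 for the family (`fam_ent`)
-/

namespace Vale.Agent.P127.Stk.R

open Finset Polynomial Vale.Agent.P127

section fam705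

variable {Ω : Type} [Fintype Ω] {m κ k : ℕ} {P : Law Ω} {c : Cf Ω m} {o : Ob Ω m κ}
  {Q0 : Law (Fin (k + 3) → Ω)} {h e η1 η2 : ℝ} {a L n s : ℕ}

/-- all times and their data (the same function as `vT`) -/
def vT' (c : Cf Ω m) (o : Ob Ω m κ) (w : Fin (k + 3) → Ω) : Fin (k + 3) → ℝ × o.γ :=
  fun i => (c.t (w i), o.G (w i))

theorem h705_dom (hQ0 : ∀ w, Q0.w w = cw P (key c a) (k + 2) w)
    (hE : 1 / 2 ≤ prE Q0 (TE c o η1 η2)) (i : Fin (k + 3)) :
    Dom (on Q0 (TE c o η1 η2)) (fun w => w i) P 2 := by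
  have h1 := Fam.on_dom (a := a) (N := k + 2) hQ0 (p := 1 / 2) (by norm_num) hE i
  have h2 : (1 : ℝ) / (1 / 2) = 2 := by norm_num
  rwa [h2] at h1

theorem h705_sup (hQ0 : ∀ w, Q0.w w = cw P (key c a) (k + 2) w)
    (hE : 1 / 2 ≤ prE Q0 (TE c o η1 η2)) {w : Fin (k + 3) → Ω}
    (hw : 0 < (on Q0 (TE c o η1 η2)).w w) : Sup c a w ∧ TE c o η1 η2 w := by
  have h1 := on_pos (lt_of_lt_of_le (by norm_num) hE) hw
  exact ⟨(cw_supp hQ0 h1.2).1, h1.1⟩

theorem h705_same (hQ0 : ∀ w, Q0.w w = cw P (key c a) (k + 2) w)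
    (hE : 1 / 2 ≤ prE Q0 (TE c o η1 η2)) {w : Fin (k + 3) → Ω}
    (hw : 0 < (on Q0 (TE c o η1 η2)).w w) (i j : Fin (k + 3)) :
    c.x (w i) = c.x (w j) ∧ c.y (w i) = c.y (w j) ∧ c.A (w i) = c.A (w j) ∧
      fl1 a (c.t (w i)) = fl1 a (c.t (w j)) :=
  Fam.on_same (N := k + 2) hQ0 (p := 1 / 2) (by norm_num) hE hw i j

/-- 8. the cost of all the data -/
theorem fam8 (he : 0 ≤ e) (hQ0 : ∀ w, Q0.w w = cw P (key c a) (k + 2) w)
    (hE : 1 / 2 ≤ prE Q0 (TE c o η1 η2))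
    (hR : Rate P c o L h e) :
    mi (on Q0 (TE c o η1 η2)) (vl c) (vT' c o) (fun w => c.A (w 0)) ≤
      (2 * (k + 4) + 2) * (e + 1) := by
  have hl2 : Real.log 2 ≤ 1 := by
    have := Real.log_two_lt_d9
    linarith only [this]
  have h1 := cw_cost hQ0 (fun ω => (c.x ω, c.y ω)) c.A (fun ω => (c.t ω, o.G ω))
    (fun ω => fl1 a (c.t ω)) (fun ω ω' _ _ e => by
      simp only [Prod.mk.injEq] at e
      show fl1 a (c.t ω) = fl1 a (c.t ω')
      rw [e.1]) (fun ω ω' _ _ e => by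
      simp only [Prod.mk.injEq] at e
      show key c a ω = key c a ω'
      unfold key
      rw [e.1.1, e.1.2, e.2.1, e.2.2]) (fun ω ω' _ _ e => by
      unfold key at e
      simp only [Prod.mk.injEq] at e ⊢
      exact ⟨⟨e.1, e.2.1⟩, e.2.2.1, e.2.2.2⟩) 0
  have h2 : mi P (fun ω => (c.x ω, c.y ω)) (fun ω => (c.t ω, o.G ω)) c.A ≤ e := hR.cost
  have h3 := (Dom.on (P := Q0) (E := TE c o η1 η2) (p := 1 / 2) (by norm_num) hE).mi_le
    (fun w => (c.x (w 0), c.y (w 0))) (fun w j => (c.t (w j), o.G (w j))) (fun w => c.A (w 0))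
  have h4 : mi (on Q0 (TE c o η1 η2)) (vl c) (vT' c o) (fun w => c.A (w 0)) ≤
      1 / (1 / 2) * (mi Q0 (fun w => (c.x (w 0), c.y (w 0)))
        (fun w j => (c.t (w j), o.G (w j))) (fun w => c.A (w 0)) + Real.log 2) := h3
  have h5 : (((k + 2 : ℕ) : ℝ) + 2) * mi P (fun ω => (c.x ω, c.y ω))
      (fun ω => (c.t ω, o.G ω)) c.A ≤ (((k + 2 : ℕ) : ℝ) + 2) * e :=
    mul_le_mul_of_nonneg_left h2 (by positivity)
  push_cast at h1 h5
  have hk : (0 : ℝ) ≤ k := Nat.cast_nonneg _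
  linarith

/-- 6. `vY` is a function of the line and the time -/
theorem fam6 (Q : Law (Fin (k + 3) → Ω)) (n s : ℕ) :
    Fn Q (vY c o s) (fun w => (vl c w, vB c o w, vA c o n w)) := by
  intro w w' _ _ e
  simp only [Prod.mk.injEq] at e
  obtain ⟨e1, e2, _⟩ := e
  unfold vl at e1
  unfold vB at e2
  simp only [Prod.mk.injEq] at e1 e2
  unfold vY Ob.F Ob.app Cf.pt
  rw [o.fn _ _ e2.2, e1.1, e1.2, e2.1]

/-- 2. the lower bound -/
theorem fam2 (he : 0 ≤ e) (hns : n ≤ s) (hsL : s ≤ L)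
    (hQ0 : ∀ w, Q0.w w = cw P (key c a) (k + 2) w)
    (hE : 1 / 2 ≤ prE Q0 (TE c o η1 η2))
    (hR : ∀ (Ω' : Type) [Fintype Ω'] (Q : Law Ω') (π : Ω' → Ω), Dom Q π P 2 →
      Rate Q (c.comp π) (o.comp π) L h e) :
    (h - κ) * ((s : ℝ) - n) * Real.log 2 - (2 * (k + 4) + 3 + cst m κ) * (e + 1) ≤
      hc (on Q0 (TE c o η1 η2)) (vY c o s) (fun w => (vq c n w, vB c o w, vA c o n w)) := by
  have hRP : Rate P c o L h e := hR Ω P id ((Dom.refl P).mono (by norm_num))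
  set Q := on Q0 (TE c o η1 η2) with hQ
  have h0 := (hR _ Q (fun w => w 0) (h705_dom hQ0 hE 0)).lo n s hns hsL
  have h8 : mi Q (vl c) (vT' c o) (fun w => c.A (w 0)) ≤ (2 * (k + 4) + 2) * (e + 1) :=
    fam8 he hQ0 hE hRP
  -- add all the times
  have h1 := Fam.add_T Q (X := vY c o s) (Y := vq c n) (l := vl c) (Z := vB c o)
    (T0 := vT' c o) (A := fun w => c.A (w 0))
    (fun w w' _ _ e => by
      simp only [Prod.mk.injEq] at e
      obtain ⟨e1, e2, _⟩ := e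
      unfold vl at e1
      unfold vB at e2
      simp only [Prod.mk.injEq] at e1 e2
      unfold vY Ob.F Ob.app Cf.pt
      rw [o.fn _ _ e2.2, e1.1, e1.2, e2.1])
    (fun w w' _ _ e => by
      simp only [Prod.mk.injEq] at e
      obtain ⟨e1, _, _⟩ := e
      unfold vl at e1
      simp only [Prod.mk.injEq] at e1
      unfold vq
      rw [e1.1, e1.2])
    (fun w w' _ _ e => congrFun e 0)
  have h2 : (h - κ) * ((s : ℝ) - n) * Real.log 2 - e ≤
      hc Q (vY c o s) (fun w => (vq c n w, vB c o w, c.A (w 0))) := by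
    refine h0.trans (le_of_eq ?_)
    refine hc_congr Q (fun w w' _ _ e => congrArg Prod.fst e)
      (fun w w' _ _ e => congrArg Prod.fst e) (fun w w' _ _ e => ?_) (fun w w' _ _ e => ?_)
    · simp only [Prod.mk.injEq] at e
      show (vq c n w, c.t (w 0), o.G (w 0), c.A (w 0)) =
        (vq c n w', c.t (w' 0), o.G (w' 0), c.A (w' 0))
      have e2 : (c.t (w 0), o.G (w 0)) = (c.t (w' 0), o.G (w' 0)) := e.2.1
      simp only [Prod.mk.injEq] at e2
      rw [e.1, e2.1, e2.2, e.2.2]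
    · have e1 : vq c n w = vq c n w' := congrArg (fun z => z.1) e
      have e2 : c.t (w 0) = c.t (w' 0) := congrArg (fun z => z.2.1) e
      have e3 : o.G (w 0) = o.G (w' 0) := congrArg (fun z => z.2.2.1) e
      have e4 : c.A (w 0) = c.A (w' 0) := congrArg (fun z => z.2.2.2) e
      show (vq c n w, (c.t (w 0), o.G (w 0)), c.A (w 0)) =
        (vq c n w', (c.t (w' 0), o.G (w' 0)), c.A (w' 0))
      rw [e1, e2, e3, e4]
  -- add the cell of the base point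
  have h3 : hc Q (vX c o n) (fun w => (vq c n w, vT' c o w, c.A (w 0))) ≤ cst m κ := by
    refine hc_F_of_q Q (c.comp (fun w => w 1)) (o.comp (fun w => w 1)) n
      (fun w => (vq c n w, vT' c o w, c.A (w 0))) (fun w _ => hRP.t01 (w 1)) ?_
    intro w w' hw hw' e
    simp only [Prod.mk.injEq] at e
    have e1 := h705_same hQ0 hE hw 1 0
    have e2 := h705_same hQ0 hE hw' 1 0
    have e3 : (c.t (w 1), o.G (w 1)) = (c.t (w' 1), o.G (w' 1)) := congrFun e.2.1 1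
    have e4 : (fl n (c.x (w 0)), fl n (c.y (w 0))) = (fl n (c.x (w' 0)), fl n (c.y (w' 0))) :=
      e.1
    simp only [Prod.mk.injEq] at e3 e4
    show ((fl n (c.x (w 1)), fl n (c.y (w 1))), c.t (w 1), o.G (w 1)) =
      ((fl n (c.x (w' 1)), fl n (c.y (w' 1))), c.t (w' 1), o.G (w' 1))
    rw [e1.1, e1.2.1, e2.1, e2.2.1, e4.1, e4.2, e3.1, e3.2]
  have h4 := Fam.add_V Q (X := vY c o s) (vX c o n)
    (Y := fun w => (vq c n w, vT' c o w, c.A (w 0)))
    (Z := fun w => (vq c n w, vB c o w, vA c o n w)) (v := cst m κ)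
    (fun w w' _ _ e => by
      simp only [Prod.mk.injEq] at e
      obtain ⟨e0, e1, e2, e3⟩ := e
      have e4 : ∀ i, c.t (w i) = c.t (w' i) ∧ o.G (w i) = o.G (w' i) := by
        intro i
        have := congrFun e2 i
        unfold vT' at this
        simp only [Prod.mk.injEq] at this
        exact this
      have e5 : fl n (o.F c (w 1)) = fl n (o.F c (w' 1)) := e0
      show (vq c n w, vB c o w, vA c o n w) = (vq c n w', vB c o w', vA c o n w')
      unfold vB vA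
      rw [e1, e3, (e4 0).1, (e4 0).2, (e4 1).1, (e4 1).2, e5]
      have e6 : (fun l : Fin (k + 1) => (c.t (w (nd l)), o.G (w (nd l)))) =
          fun l : Fin (k + 1) => (c.t (w' (nd l)), o.G (w' (nd l))) := by
        funext l
        rw [(e4 (nd l)).1, (e4 (nd l)).2]
      rw [e6]) h3
  have hcst : 0 ≤ cst m κ := le_trans (hc_nonneg Q _ _) h3
  have h5 : 0 ≤ cst m κ * e := mul_nonneg hcst he
  have h6 : (2 * ((k : ℝ) + 4) + 3 + cst m κ) * (e + 1) =
      (2 * (k + 4) + 2) * (e + 1) + (e + 1) + cst m κ * e + cst m κ := by ring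
  rw [h6]
  linarith only [h8, h1, h2, h4, h5]

/-- 4. the information of the time about the cell -/
theorem fam4 (he : 0 ≤ e) (hQ0 : ∀ w, Q0.w w = cw P (key c a) (k + 2) w)
    (hE : 1 / 2 ≤ prE Q0 (TE c o η1 η2)) (hR : Rate P c o L h e) :
    mi (on Q0 (TE c o η1 η2)) (vq c n) (vB c o) (vA c o n) ≤ (2 * (k + 4) + 2) * (e + 1) := by
  set Q := on Q0 (TE c o η1 η2) with hQ
  have h8 : mi Q (vl c) (vT' c o) (fun w => c.A (w 0)) ≤ (2 * (k + 4) + 2) * (e + 1) :=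
    fam8 he hQ0 hE hR
  refine le_trans ?_ h8
  have h1 := Fam.mi_part Q (X := vq c n) (Y := vX c o n) (l := vl c)
    (Z := fun w => ((fun l : Fin (k + 1) => (c.t (w (nd l)), o.G (w (nd l)))),
      (c.t (w 1), o.G (w 1)))) (B := vB c o) (T0 := vT' c o) (A := fun w => c.A (w 0))
    (fun w w' _ _ e => by
      simp only [Prod.mk.injEq] at e
      obtain ⟨e1, _, _⟩ := e
      unfold vl at e1
      simp only [Prod.mk.injEq] at e1
      unfold vq
      rw [e1.1, e1.2])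
    (fun w w' hw hw' e => by
      simp only [Prod.mk.injEq] at e
      obtain ⟨e1, ⟨_, e2⟩, _⟩ := e
      unfold vl at e1
      simp only [Prod.mk.injEq] at e1
      have s1 := h705_same hQ0 hE hw 1 0
      have s2 := h705_same hQ0 hE hw' 1 0
      unfold vX Ob.F Ob.app Cf.pt
      rw [o.fn _ _ e2.2, s1.1, s1.2.1, s2.1, s2.2.1, e1.1, e1.2, e2.1])
    (fun w w' _ _ e => by
      have e4 : ∀ i, (c.t (w i), o.G (w i)) = (c.t (w' i), o.G (w' i)) := fun i => congrFun e i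
      simp only [e4])
    (fun w w' _ _ e => congrFun e 0)
  refine le_trans (le_of_eq ?_) h1
  refine mi_congr_cond Q _ _ (fun w w' _ _ e => ?_) (fun w w' _ _ e => ?_)
  · simp only [Prod.mk.injEq] at e
    obtain ⟨e1, ⟨e2, e3⟩, e4⟩ := e
    have e5 : fl n (o.F c (w 1)) = fl n (o.F c (w' 1)) := e1
    unfold vA
    rw [e4, e2, e3.1, e3.2, e5]
  · unfold vA at e
    simp only [Prod.mk.injEq] at e
    obtain ⟨e1, e2, e3, e4⟩ := e
    show (fl n (o.F c (w 1)), ((fun l : Fin (k + 1) => (c.t (w (nd l)), o.G (w (nd l)))),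
      (c.t (w 1), o.G (w 1))), c.A (w 0)) = _
    rw [e1, e2, e3.1, e3.2, e4]
    rfl

/-- 5. the point at the time `t` from the base point -/
theorem fam5 (m κ : ℕ) : ∃ K0 : ℝ, 0 ≤ K0 ∧ ∀ {Ω : Type} [Fintype Ω] {k : ℕ} {P : Law Ω}
    {c : Cf Ω m} {o : Ob Ω m κ} {Q0 : Law (Fin (k + 3) → Ω)} {h e η1 η2 : ℝ} {a L n s : ℕ},
    0 ≤ e → s ≤ n + a + 1 → η2 * (1 / 2 : ℝ) ^ n ≤ 2 * (1 / 2 : ℝ) ^ s →
    (∀ w, Q0.w w = cw P (key c a) (k + 2) w) → 1 / 2 ≤ prE Q0 (TE c o η1 η2) →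
    Rate P c o L h e →
    hc (on Q0 (TE c o η1 η2)) (vY c o s)
      (fun w => (vX c o s w, vq c n w, vB c o w, vA c o n w)) ≤ K0 * (e + 1) := by
  obtain ⟨K0, hK0⟩ := hc_Y_of_X m κ
  refine ⟨max K0 0, le_max_right _ _, ?_⟩
  intro Ω _ k P c o Q0 h e η1 η2 a L n s he hs hη hQ0 hE hR
  have h1 := hK0 c o a n s η1 η2 (on Q0 (TE c o η1 η2)) hR.x01 hR.y01 hR.t01 hη hs
    (fun w hw => h705_sup hQ0 hE hw)
  have h2 : K0 ≤ max K0 0 := le_max_left _ _
  have h3 : 0 ≤ max K0 0 := le_max_right _ _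
  nlinarith only [h1, h2, he, h3]

end fam705

end Vale.Agent.P127.Stk.R
end

section

/-!
# P127 / Stk / StepR : the family of `k + 3` copies (entropy)
-/

namespace Vale.Agent.P127.Stk.R

open Finset Polynomial Vale.Agent.P127

/-- all times and their data -/
def vT {Ω : Type} {m κ k : ℕ} (c : Cf Ω m) (o : Ob Ω m κ) (w : Fin (k + 3) → Ω) :
    Fin (k + 3) → ℝ × o.γ := fun i => (c.t (w i), o.G (w i))

theorem r816_prE_law {Ω₁ Ω₂ : Type} [Fintype Ω₁] [Fintype Ω₂] (P₁ : Law Ω₁) (P₂ : Law Ω₂)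
    (π : Ω₁ → Ω₂) (h : ∀ ω, P₁.pr π ω = P₂.w ω) (E : Ω₂ → Prop) :
    prE P₁ (fun ω => E (π ω)) = prE P₂ E := by
  rw [← prE_eq_aux, ← prE_eq_aux]
  exact pr_law_aux P₁ P₂ π h (fun ω => E ω) True

theorem r816_prE_or3 {Ω : Type} [Fintype Ω] (P : Law Ω) (E E1 E2 E3 : Ω → Prop)
    (h : ∀ ω, E ω → E1 ω ∨ E2 ω ∨ E3 ω) :
    prE P E ≤ prE P E1 + prE P E2 + prE P E3 := by
  classical
  unfold prE
  simp only [Finset.sum_filter]
  rw [← Finset.sum_add_distrib, ← Finset.sum_add_distrib]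
  refine Finset.sum_le_sum fun ω _ => ?_
  have h0 := P.nn ω
  by_cases hE : E ω
  · rw [if_pos hE]
    rcases h ω hE with h1 | h1 | h1
    · rw [if_pos h1]; split_ifs <;> linarith only [h0]
    · rw [if_pos h1]; split_ifs <;> linarith only [h0]
    · rw [if_pos h1]; split_ifs <;> linarith only [h0]
  · rw [if_neg hE]; split_ifs <;> linarith

/-- the injection `0 ↦ 0`, `1 ↦ 1` -/
def r816_e2 {k : ℕ} : Fin (1 + 1) → Fin (k + 3) := fun i => ⟨i.val, by have := i.isLt; omega⟩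

theorem r816_e2_inj {k : ℕ} : Function.Injective (r816_e2 (k := k)) := by
  intro i j h
  have h1 := congrArg Fin.val h
  exact Fin.ext h1

open Classical in
/-- the typical event has large probability -/
theorem typ_prob {Ω : Type} [Fintype Ω] {m κ k a : ℕ} (P : Law Ω) (c : Cf Ω m) (o : Ob Ω m κ)
    (Q0 : Law (Fin (k + 3) → Ω)) (hQ0 : ∀ w, Q0.w w = cw P (key c a) (k + 2) w) (η1 η2 ε : ℝ)
    (h1 : ∀ Q : Law (Fin (k + 2) → Ω), (∀ w, Q.w w = cw P (key c a) (k + 1) w) →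
      ∑ w with (∃ i, i ∉ o.J ∧ ∃ j ∈ o.J, η1 <
        |o.Γ (w (Fin.last (k + 1))) i j -
          ∑ l : Fin (k + 1), lag c.t w l * o.Γ (w l.castSucc) i j|), Q.w w ≤ ε)
    (h2 : ∀ Q : Law (Fin (0 + 2) → Ω), (∀ w, Q.w w = cw P (key c a) (0 + 1) w) →
      ∑ w with (∃ i, i ∉ o.J ∧ ∃ j ∈ o.J, η2 <
        |o.Γ (w (Fin.last (0 + 1))) i j -
          ∑ l : Fin (0 + 1), lag c.t w l * o.Γ (w l.castSucc) i j|), Q.w w ≤ ε) :
    prE Q0 (fun w => ¬ TE c o η1 η2 w) ≤ 3 * ε := by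
  have key1 : ∀ b : Bool, prE Q0 (fun w => ∃ i, i ∉ o.J ∧ ∃ j ∈ o.J, η1 <
      |o.Γ (w (ix b)) i j - ∑ l, lag c.t (fun p => w (em b p)) l * o.Γ (w (nd l)) i j|) ≤ ε := by
    intro b
    obtain ⟨Q, hQ⟩ := cw_exists P (key c a) (k + 1)
    have e1 : prE Q (fun w => ∃ i, i ∉ o.J ∧ ∃ j ∈ o.J, η1 <
        |o.Γ (w (Fin.last (k + 1))) i j -
          ∑ l : Fin (k + 1), lag c.t w l * o.Γ (w l.castSucc) i j|) ≤ ε := by
      refine le_trans (le_of_eq ?_) (h1 Q hQ)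
      unfold prE
      exact Finset.sum_congr (by ext w; simp only [mem_filter, mem_univ, true_and]) fun _ _ => rfl
    have e2 := r816_prE_law Q0 Q (fun w => w ∘ em b)
      (fun v => by rw [hQ]; exact cw_sub hQ0 (em b) (em_inj b) v)
      (fun w => ∃ i, i ∉ o.J ∧ ∃ j ∈ o.J, η1 <
        |o.Γ (w (Fin.last (k + 1))) i j -
          ∑ l : Fin (k + 1), lag c.t w l * o.Γ (w l.castSucc) i j|)
    simp only [Function.comp_apply, em_last, em_castSucc] at e2
    refine le_trans (le_of_eq ?_) (e2.trans_le e1)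
    rfl
  have key2 : prE Q0 (fun w => ∃ i, i ∉ o.J ∧ ∃ j ∈ o.J, η2 <
      |o.Γ (w 1) i j - o.Γ (w 0) i j|) ≤ ε := by
    obtain ⟨Q, hQ⟩ := cw_exists P (key c a) (0 + 1)
    have e1 : prE Q (fun w => ∃ i, i ∉ o.J ∧ ∃ j ∈ o.J, η2 <
        |o.Γ (w (Fin.last (0 + 1))) i j -
          ∑ l : Fin (0 + 1), lag c.t w l * o.Γ (w l.castSucc) i j|) ≤ ε := by
      refine le_trans (le_of_eq ?_) (h2 Q hQ)
      unfold prE
      exact Finset.sum_congr (by ext w; simp only [Nat.reduceAdd, Fin.reduceLast, Fin.isValue, univ_unique, Fin.default_eq_zero, sum_singleton, Fin.castSucc_zero, mem_filter, mem_univ, true_and]) fun _ _ => rfl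
    have e2 := r816_prE_law Q0 Q (fun w => w ∘ r816_e2)
      (fun v => by rw [hQ]; exact cw_sub hQ0 r816_e2 r816_e2_inj v)
      (fun w => ∃ i, i ∉ o.J ∧ ∃ j ∈ o.J, η2 <
        |o.Γ (w (Fin.last (0 + 1))) i j -
          ∑ l : Fin (0 + 1), lag c.t w l * o.Γ (w l.castSucc) i j|)
    refine le_trans (le_of_eq ?_) (e2.trans_le e1)
    have h0 : ∀ l l' : Fin (0 + 1), l' = l := fun l l' => Fin.ext (by (clear * -; omega))
    have h3 : ∀ w : Fin (k + 3) → Ω, ∀ l : Fin (0 + 1), lag c.t (w ∘ r816_e2) l = 1 := by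
      intro w l
      unfold lag
      rw [Finset.prod_eq_one]
      intro l' hl'
      exact absurd (h0 l l') (Finset.ne_of_mem_erase hl')
    simp only [h3, one_mul]
    have h4 : (r816_e2 (k := k) (Fin.last (0 + 1))) = 1 := rfl
    have h5 : ∀ l : Fin (0 + 1), (r816_e2 (k := k) l.castSucc) = 0 := by
      intro l
      rw [h0 0 l]
      rfl
    simp only [Function.comp_apply, h4, h5]
    simp only [Nat.reduceAdd, univ_unique, Fin.default_eq_zero, Fin.isValue, sum_const, card_singleton, one_smul]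
  refine (r816_prE_or3 Q0 _
    (fun w => ∃ i, i ∉ o.J ∧ ∃ j ∈ o.J, η2 < |o.Γ (w 1) i j - o.Γ (w 0) i j|)
    (fun w => ∃ i, i ∉ o.J ∧ ∃ j ∈ o.J, η1 < |o.Γ (w (ix false)) i j -
      ∑ l, lag c.t (fun p => w (em false p)) l * o.Γ (w (nd l)) i j|)
    (fun w => ∃ i, i ∉ o.J ∧ ∃ j ∈ o.J, η1 < |o.Γ (w (ix true)) i j -
      ∑ l, lag c.t (fun p => w (em true p)) l * o.Γ (w (nd l)) i j|) ?_).trans ?_
  · intro w hw
    unfold TE at hw
    by_contra hcon
    push Not at hcon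
    apply hw
    obtain ⟨c1, c2, c3⟩ := hcon
    refine ⟨fun i hi j hj => by rw [abs_sub_comm]; exact c1 i hi j hj, fun b => ?_⟩
    cases b
    · exact fun i hi j hj => c2 i hi j hj
    · exact fun i hi j hj => c3 i hi j hj
  · have a1 := key1 false
    have a2 := key1 true
    linarith only [key2, a1, a2]

/-- the entropy inequalities for the copies conditioned on the typical event -/
theorem fam_ent (m κ k : ℕ) : ∃ K1 : ℝ, 0 ≤ K1 ∧ ∀ (h e εu η1 η2 : ℝ) (a L n s : ℕ)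
    (Ω : Type) [Fintype Ω] (P : Law Ω) (c : Cf Ω m) (o : Ob Ω m κ) (Q0 : Law (Fin (k + 3) → Ω)),
    0 ≤ e → 0 ≤ εu → a ≤ L → n ≤ s → s ≤ L → s ≤ n + a + 1 →
    η2 * (1 / 2 : ℝ) ^ n ≤ 2 * (1 / 2 : ℝ) ^ s →
    (∀ w, Q0.w w = cw P (key c a) (k + 2) w) →
    1 / 2 ≤ prE Q0 (TE c o η1 η2) →
    (∀ (Ω' : Type) [Fintype Ω'] (Q : Law Ω') (π : Ω' → Ω), Dom Q π P 2 →
      Rate Q (c.comp π) (o.comp π) L h e) →
    (∀ Q : Law (Fin 2 → Ω), (∀ w, Q.w w = cw P (key c a) 1 w) →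
      hc Q (fun w => fl n (o.F c (w 1)))
          (fun w => (fl n (o.F c (w 0)), (fun i => (c.t (w i), o.G (w i))), c.A (w 0))) ≤ e) →
    ((L : ℝ) - a) * Real.log 2 - εu ≤ hc P (fun ω => fl1 L (c.t ω))
      (fun ω => (fl1 a (c.t ω), c.x ω, c.y ω, c.A ω)) →
    hc (on Q0 (TE c o η1 η2)) (vX c o s) (fun w => (vq c n w, vA c o n w)) ≤
        (h - κ) * ((s : ℝ) - n) * Real.log 2 + K1 * (e + 1) ∧
    (h - κ) * ((s : ℝ) - n) * Real.log 2 - K1 * (e + 1) ≤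
      hc (on Q0 (TE c o η1 η2)) (vY c o s) (fun w => (vq c n w, vB c o w, vA c o n w)) ∧
    hc (on Q0 (TE c o η1 η2)) (vY c o s) (fun w => (vB c o w, vA c o n w)) ≤
        (h - κ) * ((s : ℝ) - n) * Real.log 2 + K1 * (e + 1) ∧
    mi (on Q0 (TE c o η1 η2)) (vq c n) (vB c o) (vA c o n) ≤ K1 * (e + 1) ∧
    hc (on Q0 (TE c o η1 η2)) (vY c o s)
      (fun w => (vX c o s w, vq c n w, vB c o w, vA c o n w)) ≤ K1 * (e + 1) ∧
    Fn (on Q0 (TE c o η1 η2)) (vY c o s) (fun w => (vl c w, vB c o w, vA c o n w)) ∧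
    (∀ j : ℕ, a + j ≤ L → (j : ℝ) * Real.log 2 - K1 * (e + εu + 1) ≤
      hc (on Q0 (TE c o η1 η2)) (fun w => fl1 j (vu c a w)) (vA c o n)) ∧
    mi (on Q0 (TE c o η1 η2)) (vl c) (vT c o) (fun w => c.A (w 0)) ≤ K1 * (e + 1) := by
  obtain ⟨K0, hK0, h5⟩ := fam5 m κ
  have hc0 : cst m κ ≤ |cst m κ| := le_abs_self _
  have hc1 : 0 ≤ |cst m κ| := abs_nonneg _
  have hk : (0 : ℝ) ≤ k := Nat.cast_nonneg _
  refine ⟨2 * (k + 4) + 3 + |cst m κ| + 4 + K0, by positivity, ?_⟩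
  intro h e εu η1 η2 a L n s Ω _ P c o Q0 he hεu haL hns hsL hsna hη hQ0 hE hR hRK ht
  have hRP : Rate P c o L h e := hR Ω P id ((Dom.refl P).mono (by norm_num))
  have he1 : 0 ≤ e + 1 := by linarith only [he]
  have q1 : 0 ≤ (2 * ((k : ℝ) + 4) + |cst m κ| + K0) * (e + 1) := mul_nonneg (by (clear * - hK0; positivity)) he1
  have q2 : (2 * ((k : ℝ) + 4) + 3 + |cst m κ| + 4 + K0) * (e + 1) =
      (2 * ((k : ℝ) + 4) + |cst m κ| + K0) * (e + 1) + 7 * (e + 1) := by ring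
  have q3 : 0 ≤ (|cst m κ| - cst m κ) * (e + 1) := mul_nonneg (by linarith only [hc0]) he1
  have q4 : 0 ≤ K0 * (e + 1) := mul_nonneg hK0 he1
  have q5 : 0 ≤ |cst m κ| * (e + 1) := mul_nonneg hc1 he1
  have q6 : 0 ≤ (2 * ((k : ℝ) + 4)) * (e + 1) := mul_nonneg (by (clear * -; positivity)) he1
  refine ⟨?_, ?_, ?_, ?_, ?_, fam6 _ n s, ?_, ?_⟩
  · refine (fam_ent1 hns hsL hQ0 hE hR).trans ?_
    linarith only [he, q1]
  · refine le_trans ?_ (fam2 he hns hsL hQ0 hE hR)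
    have : (2 * ((k : ℝ) + 4) + 3 + cst m κ) * (e + 1) ≤
        (2 * ((k : ℝ) + 4) + 3 + |cst m κ| + 4 + K0) * (e + 1) :=
      mul_le_mul_of_nonneg_right (by linarith only [hK0, hc0]) he1
    linarith only [he, q3, q4]
  · refine (fam_ent3 hns hsL hQ0 hE hR hRK).trans ?_
    linarith only [he, q1]
  · refine (fam4 he hQ0 hE hRP).trans ?_
    exact mul_le_mul_of_nonneg_right (by linarith only [hK0, hc1]) he1
  · refine (h5 he hsna hη hQ0 hE hRP).trans ?_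
    exact mul_le_mul_of_nonneg_right (by linarith only [hc1]) he1
  · intro j hj
    refine le_trans ?_ (fam_ent7 hQ0 hE ht j hj)
    have r1 : (4 : ℝ) * (e + εu + 1) ≤ (2 * ((k : ℝ) + 4) + 3 + |cst m κ| + 4 + K0) * (e + εu + 1) :=
      mul_le_mul_of_nonneg_right (by linarith only [hK0, hc1]) (by linarith only [he, hεu])
    linarith only [he, r1]
  · refine le_trans ?_ ((fam8 he hQ0 hE hRP).trans
      (mul_le_mul_of_nonneg_right (b := 2 * ((k : ℝ) + 4) + 2) (by linarith only [hK0, hc1]) he1))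
    exact le_of_eq rfl

/-- from the conditioned family back to two copies -/
theorem fin_ent (m κ k : ℕ) : ∃ K1 : ℝ, 0 ≤ K1 ∧ ∀ (h e e' ε η1 η2 : ℝ) (a L n s : ℕ)
    (Ω : Type) [Fintype Ω] (P : Law Ω) (c : Cf Ω m) (o : Ob Ω m κ) (Q0 : Law (Fin (k + 3) → Ω)),
    0 ≤ e → 0 ≤ e' → 0 ≤ ε → a ≤ L → n ≤ s → s ≤ L →
    (∀ w, Q0.w w = cw P (key c a) (k + 2) w) →
    1 / 2 ≤ prE Q0 (TE c o η1 η2) → prE Q0 (fun w => ¬ TE c o η1 η2 w) ≤ ε →
    (∀ (Ω' : Type) [Fintype Ω'] (Q : Law Ω') (π : Ω' → Ω), Dom Q π P 2 →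
      Rate Q (c.comp π) (o.comp π) L h e) →
    (∀ Q : Law (Fin 2 → Ω), (∀ w, Q.w w = cw P (key c a) 1 w) →
      hc Q (fun w => fl n (o.F c (w 1)))
          (fun w => (fl n (o.F c (w 0)), (fun i => (c.t (w i), o.G (w i))), c.A (w 0))) ≤ e) →
    hc (on Q0 (TE c o η1 η2)) (vX c o s) (fun w => (vY c o s w, vB c o w, vA c o n w)) ≤ e' →
    ∀ Q : Law (Fin 2 → Ω), (∀ w, Q.w w = cw P (key c a) 1 w) →
      hc Q (fun w => fl s (o.F c (w 1)))
          (fun w => (fl s (o.F c (w 0)), (fun i => (c.t (w i), o.G (w i))), c.A (w 0))) ≤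
        e' + ε * (m * ((s : ℝ) - n) * Real.log 2) + K1 * (e + 1) := h856_fin_ent m κ k

/-- the cost of the data of the killing lemma for the glued pair -/
theorem cost_D (m κ k : ℕ) : ∃ K1 : ℝ, 0 ≤ K1 ∧ ∀ (e1 : ℝ) (a n r j : ℕ)
    (Ω : Type) [Fintype Ω] (c : Cf Ω m) (o : Ob Ω m κ) (Q1 : Law (Fin (k + 3) → Ω))
    (Ω' : Type) [Fintype Ω'] (Q' : Law Ω') (π π' : Ω' → (Fin (k + 3) → Ω)),
    (∀ ω, 0 ≤ c.t ω ∧ c.t ω < 1) → n ≤ r →
    (∀ w, 0 < Q1.w w → Sup c a w) → (∀ w, Q'.pr π w = Q1.w w) →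
    mi Q1 (vl c) (vT c o) (fun w => c.A (w 0)) ≤ e1 →
    mi Q' (fun ω => vl c (π ω)) (fun ω => vq c n (π' ω))
      (fun ω => (vq c n (π ω), vB c o (π ω), vA c o n (π ω))) ≤ e1 →
    mi Q' (fun ω => (c.x (π ω 1), c.y (π ω 1)))
      (fun ω => ((vA c o n (π ω), vq c n (π ω), vq c n (π' ω)), fl1 j (vu c a (π ω))))
      (fun ω => (c.t (π ω 1), c.A (π ω 1), fl r (c.x (π ω 1)), fl r (c.y (π ω 1)))) ≤
      2 * e1 + K1 := h856_cost_D m κ k

/-- close vectors outside of an exceptional event -/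
theorem close_exc {Ω : Type} [Fintype Ω] {m : ℕ} {T : Type} (Q : Law Ω) (E : Ω → Prop)
    (X X' : Ω → Fin m → ℝ) (Z : Ω → T) (n s : ℕ) (Rr : ℝ) (hns : n ≤ s) (hR : 0 ≤ Rr)
    (h1 : ∀ ω, 0 < Q.w ω → fl n (X ω) = fl n (X' ω))
    (h2 : ∀ ω, 0 < Q.w ω → ¬ E ω → ∀ i, |X ω i - X' ω i| ≤ Rr * (1 / 2 : ℝ) ^ s) :
    hc Q (fun ω => fl s (X ω)) (fun ω => (fl s (X' ω), Z ω)) ≤
      Real.log 2 + m * Real.log (2 * Rr + 5) + prE Q E * (m * ((s : ℝ) - n) * Real.log 2) :=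
  h856_close_exc Q E X X' Z n s Rr hns hR h1 h2

end Vale.Agent.P127.Stk.R
end
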