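import Vale.Agent.P127.Bdl.B1

set_option linter.all false

section

/-!
# P127 / Stk : interfaces used by the step for `Γ` (PROOF.md, section 8)

The results of the sections 2, 3, 4, 7 in the form used by StepC, as Props.
-/

namespace Vale.Agent.P127.Stk

open Finset Vale.Agent.P127

/-! ### Section 7 -/

/-- `U` is a cube: `U S = u₀ + ∑_{i ∈ S} λ_i`; an arithmetic progression `u₀ + j μ` gives the
(degenerate) cube `U S = u₀ + |S| μ` -/
def IsCube {p : ℕ} (U : Finset (Fin p) → ℤ) : Prop :=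
  ∃ (u₀ : ℤ) (lam : Fin p → ℤ), ∀ S, U S = u₀ + ∑ i ∈ S, lam i

/-! ### Section 3 -/

/-- Section 3, killing lemma (KILL) -/
def PKill (R : Gr) : Prop := ∀ (m : ℕ) (h : ℝ) (κ : ℕ), NK R m h (κ + 1) →
  ∀ η : ℝ, 0 < η → ∃ δ : ℝ, 0 < δ ∧ ∀ (K : ℝ) (g : R.G), ∃ n : ℕ, ∀ (L : ℕ) (e C : ℝ),
    R.ok g n L e C →
  ∀ (Ω Ω' D : Type) [Fintype Ω] [Fintype Ω'] (P : Law Ω) (c : Cf Ω m) (o : Ob Ω m κ)
    (Q : Law Ω') (π : Ω' → Ω) (Dt : Ω' → D) (r r' : ℕ) (i0 : Fin m) (v : Ω' → Fin m → ℝ),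
    Good P c L e C → Dom Q π P K → r ≤ r' → r' ≤ L → η * L ≤ (r' : ℝ) - r →
    i0 ∉ o.J → Fn Q (fun ω => o.Γ (π ω)) Dt → Fn Q v Dt →
    (∀ ω, 0 < Q.w ω → v ω i0 = 1 ∧ (∀ i, |v ω i| ≤ 1) ∧ ∀ j ∈ o.J, v ω j = 0) →
    mi Q (fun ω => (c.x (π ω), c.y (π ω))) Dt
      (fun ω => (c.t (π ω), c.A (π ω), fl r (c.x (π ω)), fl r (c.y (π ω)))) ≤ δ * L →
    hc Q (fun ω => fl r' (fun i => o.F c (π ω) i - o.F c (π ω) i0 * v ω i))
      (fun ω => (fl r (c.x (π ω)), fl r (c.y (π ω)), c.t (π ω), Dt ω, c.A (π ω))) ≤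
      (h - κ - 1) * ((r' : ℝ) - r) * Real.log 2 + δ * L → False

/-! ### Section 2 -/

/-- Section 2, rates (RATES), for the law `Q`; `L` digits, accuracy `ε` -/
structure Rates {Ω Ω' : Type} [Fintype Ω] [Fintype Ω'] {m κ : ℕ} (h : ℝ) (L : ℕ) (ε : ℝ)
    (c : Cf Ω m) (o : Ob Ω m κ) (Q : Law Ω') (π : Ω' → Ω) : Prop where
  r1 : ∀ s s' : ℕ, s ≤ s' → s' ≤ L → (h - κ) * ((s' : ℝ) - s) * Real.log 2 - ε * L ≤
    hc Q (fun ω => fl s' (o.F c (π ω)))
      (fun ω => (fl s (c.x (π ω)), fl s (c.y (π ω)), c.t (π ω), o.G (π ω), c.A (π ω)))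
  r3 : ∀ s s' : ℕ, s ≤ s' → s' ≤ L → hc Q (fun ω => fl s' (o.F c (π ω)))
      (fun ω => (fl s (o.F c (π ω)), c.t (π ω), o.G (π ω), c.A (π ω))) ≤
    (h - κ) * ((s' : ℝ) - s) * Real.log 2 + ε * L
  r4 : ∀ s s' : ℕ, s ≤ s' → s' ≤ L → (κ : ℝ) * s * Real.log 2 - ε * L ≤
    hc Q (fun ω => fl s (fun j : {j // j ∈ o.J} => c.pt (π ω) j))
      (fun ω => (fl s' (o.F c (π ω)), c.t (π ω), o.G (π ω), c.A (π ω)))

/-- Section 2 (RATES) -/
def PRates (R : Gr) : Prop := ∀ (m : ℕ) (h : ℝ) (κ : ℕ), LB R m h → ∀ (ε K : ℝ), 0 < ε →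
  ∃ ι : ℝ, 0 < ι ∧ ∀ g : R.G, ∃ n : ℕ, ∀ (L : ℕ) (e C : ℝ), R.ok g n L e C →
  ∀ (Ω Ω' : Type) [Fintype Ω] [Fintype Ω'] (P : Law Ω) (c : Cf Ω m) (o : Ob Ω m κ)
    (Q : Law Ω') (π : Ω' → Ω), Good P c L e C →
    mi P (fun ω => (c.x ω, c.y ω)) o.G (fun ω => (c.t ω, c.A ω)) ≤ ι * L →
    hc P (fun ω => fl L (o.F c ω)) (fun ω => (c.t ω, o.G ω, c.A ω)) ≤
      (h - κ + ι) * L * Real.log 2 →
    Dom Q π P K → Rates h L ε c o Q π

end Vale.Agent.P127.Stk
end

section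

/-!
# P127 / Stk : definitions for the step for `Γ` (PROOF.md, section 8)

Here `k` is shifted by one: the step is `CK k → AK (k+1)` for `k ≤ κ`; the cubes have dimension
`k + 2`, there are `k + 1` nodes. An arithmetic progression of `k + 3` times is used as the
degenerate cube `S ↦ w |S|` : the vertex `l` is repeated `choose (k+2) l` times with the sign
`(-1)^l` (`cBad_ap`).
-/

namespace Vale.Agent.P127.Stk

open Finset Vale.Agent.P127

section

variable {Ω Ω' : Type} {m κ k : ℕ}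

/-- index set of a cube family: vertices and nodes -/
abbrev CI (k : ℕ) : Type := Finset (Fin (k + 2)) ⊕ Fin (k + 1)

/-- the base vertex -/
abbrev vb (k : ℕ) : CI k := Sum.inl ∅

/-- times and objects of a family -/
def TT (c : Cf Ω m) (o : Ob Ω m κ) {I : Type} (π : I → Ω' → Ω) (ω : Ω') : I → ℝ × o.γ :=
  fun i => (c.t (π i ω), o.G (π i ω))

open Classical in
/-- the matrix as a function of the data -/
noncomputable def Ob.Gh (o : Ob Ω m κ) (g : o.γ) : Fin m → Fin m → ℝ :=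
  if h : ∃ ω, o.G ω = g then o.Γ h.choose else 0

theorem Ob.Gh_G (o : Ob Ω m κ) (ω : Ω) : o.Gh (o.G ω) = o.Γ ω := by
  have h : ∃ ω', o.G ω' = o.G ω := ⟨ω, rfl⟩
  unfold Ob.Gh
  rw [dif_pos h]
  exact o.fn _ _ h.choose_spec

open Classical in
/-- the projected point as a linear function of the line -/
noncomputable def linF (J : Finset (Fin m)) (Γ : Fin m → Fin m → ℝ) (t : ℝ) (x y : Fin m → ℝ) :
    Fin m → ℝ := fun i =>
  if i ∈ J then 0 else (x i + t * y i) - ∑ j ∈ J, Γ i j * (x j + t * y j)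

theorem F_eq_linF (c : Cf Ω m) (o : Ob Ω m κ) (ω : Ω) :
    o.F c ω = linF o.J (o.Γ ω) (c.t ω) (c.x ω) (c.y ω) := rfl

/-- the vertex of the progression which belongs to the vertex `S` of the cube -/
def vx {k : ℕ} (S : Finset (Fin (k + 2))) : Fin (k + 3) :=
  ⟨S.card, by have h := S.card_le_univ; rw [Fintype.card_fin] at h; omega⟩

/-- sums over the cube of functions of the size -/
theorem sum_card (k : ℕ) (f : Fin (k + 3) → ℝ) :
    ∑ S : Finset (Fin (k + 2)), (-1 : ℝ) ^ S.card * f (vx S) =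
      ∑ l : Fin (k + 3), (-1 : ℝ) ^ (l : ℕ) * ((k + 2).choose l : ℝ) * f l := by
  have h1 : ∀ S : Finset (Fin (k + 2)), (-1 : ℝ) ^ S.card * f (vx S) =
      (fun j : ℕ => (-1 : ℝ) ^ j * (if h : j < k + 3 then f ⟨j, h⟩ else 0)) S.card := by
    intro S
    have h2 : S.card < k + 3 := (vx S).2
    simp only [h2, dif_pos]
    rfl
  have h3 := Finset.sum_powerset_apply_card
    (fun j : ℕ => (-1 : ℝ) ^ j * (if h : j < k + 3 then f ⟨j, h⟩ else 0))
    (x := (Finset.univ : Finset (Fin (k + 2))))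
  rw [Finset.powerset_univ, Finset.card_univ, Fintype.card_fin] at h3
  rw [Finset.sum_congr rfl fun S _ => h1 S, h3, Finset.sum_range]
  refine Finset.sum_congr rfl fun l _ => ?_
  have hl : (l : ℕ) < k + 3 := l.2
  rw [dif_pos hl, nsmul_eq_mul]
  ring

/-- the cube sum of the matrices -/
noncomputable def cS (o : Ob Ω m κ) (π : CI k → Ω' → Ω) (ω : Ω') (i j : Fin m) : ℝ :=
  ∑ S : Finset (Fin (k + 2)), (-1 : ℝ) ^ S.card * o.Γ (π (Sum.inl S) ω) i j

/-- the bad event -/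
def cBad (o : Ob Ω m κ) (π : CI k → Ω' → Ω) (thr : ℝ) (ω : Ω') : Prop :=
  ∃ i, i ∉ o.J ∧ ∃ j ∈ o.J, thr < |cS o π ω i j|

/-- the cube sum of a progression -/
theorem cS_ap (o : Ob Ω m κ) (π : CI k → Ω' → Ω) (ρ : Fin (k + 3) → Ω' → Ω)
    (h : ∀ S, π (Sum.inl S) = ρ (vx S)) (ω : Ω') (i j : Fin m) :
    cS o π ω i j =
      ∑ l : Fin (k + 3), (-1 : ℝ) ^ (l : ℕ) * ((k + 2).choose l : ℝ) * o.Γ (ρ l ω) i j := by
  unfold cS
  rw [← sum_card k fun l => o.Γ (ρ l ω) i j]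
  exact Finset.sum_congr rfl fun S _ => by rw [h S]

/-- the bad event of a progression -/
theorem cBad_ap (o : Ob Ω m κ) (π : CI k → Ω' → Ω) (ρ : Fin (k + 3) → Ω' → Ω)
    (h : ∀ S, π (Sum.inl S) = ρ (vx S)) (thr : ℝ) (ω : Ω') :
    cBad o π thr ω ↔ ∃ i, i ∉ o.J ∧ ∃ j ∈ o.J,
      thr < |∑ l : Fin (k + 3), (-1 : ℝ) ^ (l : ℕ) * ((k + 2).choose l : ℝ) *
        o.Γ (ρ l ω) i j| := by
  unfold cBad
  simp only [cS_ap o π ρ h]

/-- a progression is a degenerate cube -/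
theorem isCube_ap {k : ℕ} (U : Fin (k + 3) → ℤ) (μ : ℤ)
    (h : ∀ l : Fin (k + 3), U l = U 0 + (l : ℕ) * μ) :
    IsCube (fun S : Finset (Fin (k + 2)) => U (vx S)) := by
  refine ⟨U 0, fun _ => μ, fun S => ?_⟩
  simp only
  rw [h (vx S), Finset.sum_const, nsmul_eq_mul]
  rfl

/-- the interpolation polynomial of the matrices at the nodes, at the time of the vertex `S` -/
noncomputable def cg (c : Cf Ω m) (o : Ob Ω m κ) (π : CI k → Ω' → Ω) (ω : Ω')
    (S : Finset (Fin (k + 2))) (i j : Fin m) : ℝ :=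
  ∑ l : Fin (k + 1), (∏ l' ∈ (Finset.univ : Finset (Fin (k + 1))).erase l,
    (c.t (π (Sum.inl S) ω) - c.t (π (Sum.inr l') ω)) /
      (c.t (π (Sum.inr l) ω) - c.t (π (Sum.inr l') ω))) * o.Γ (π (Sum.inr l) ω) i j

/-- typical facts at a point, `w` = slack -/
structure CTyp (a w : ℕ) (c : Cf Ω m) (o : Ob Ω m κ) (π : CI k → Ω' → Ω) (ω : Ω') : Prop where
  sep : ∀ l l' : Fin (k + 1), l ≠ l' →
    1 ≤ (2 : ℝ) ^ (a + w) * |c.t (π (Sum.inr l) ω) - c.t (π (Sum.inr l') ω)|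
  gam : ∀ S i j, i ∉ o.J → j ∈ o.J →
    (2 : ℝ) ^ a * |o.Γ (π (Sum.inl S) ω) i j - o.Γ (π (vb k) ω) i j| ≤ 2 ^ w
  pol : ∀ S i j, i ∉ o.J → j ∈ o.J →
    (2 : ℝ) ^ ((k + 1) * a) * |o.Γ (π (Sum.inl S) ω) i j - cg c o π ω S i j| ≤ 2 ^ w

/-- the size of the cube sum is about `2^{-β}`, with maximal entry `(i0, j0)` -/
structure CBin (β w : ℕ) (i0 j0 : Fin m) (o : Ob Ω m κ) (π : CI k → Ω' → Ω) (ω : Ω') :
    Prop where
  i0J : i0 ∉ o.J
  j0J : j0 ∈ o.J
  le : ∀ i j, i ∉ o.J → j ∈ o.J → |cS o π ω i j| ≤ |cS o π ω i0 j0|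
  up : (2 : ℝ) ^ β * |cS o π ω i0 j0| ≤ 1
  lo : 1 < (2 : ℝ) ^ (β + w) * |cS o π ω i0 j0|

/-- the projected points -/
noncomputable def cF (c : Cf Ω m) (o : Ob Ω m κ) (π : CI k → Ω' → Ω) (S : Finset (Fin (k + 2)))
    (ω : Ω') : Fin m → ℝ := o.F c (π (Sum.inl S) ω)

/-- type of the values of the condition `B` -/
abbrev CBt (Ω : Type) (m κ k : ℕ) (c : Cf Ω m) (o : Ob Ω m κ) : Type :=
  (CI k → ℝ × o.γ) × c.α × (Finset (Fin (k + 2)) → Fin m → ℤ)

/-- the condition `B = (T, A, ([F_S]_n)_S)` -/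
noncomputable def cB (n : ℕ) (c : Cf Ω m) (o : Ob Ω m κ) (π : CI k → Ω' → Ω) (ω : Ω') :
    CBt Ω m κ k c o := (TT c o π ω, c.A (π (vb k) ω), fun S => fl n (cF c o π S ω))

/-- the cell of the line -/
noncomputable def cq (n : ℕ) (c : Cf Ω m) (π : CI k → Ω' → Ω) (ω : Ω') :
    (Fin m → ℤ) × (Fin m → ℤ) := (fl n (c.x (π (vb k) ω)), fl n (c.y (π (vb k) ω)))

/-- the digits of the projected points -/
noncomputable def cX (N : ℕ) (c : Cf Ω m) (o : Ob Ω m κ) (π : CI k → Ω' → Ω)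
    (S : Finset (Fin (k + 2))) (ω : Ω') : Fin m → ℤ := fl N (cF c o π S ω)

/-- the change of the projected point between the times of `∅` and `S`, for a cell `q` -/
noncomputable def cphi (n N : ℕ) (c : Cf Ω m) (o : Ob Ω m κ) (S : Finset (Fin (k + 2)))
    (b : CBt Ω m κ k c o) (q : (Fin m → ℤ) × (Fin m → ℤ)) : Fin m → ℤ := fun i =>
  ⌊(2 : ℝ) ^ N *
    (linF o.J (o.Gh (b.1 (Sum.inl S)).2) (b.1 (Sum.inl S)).1
        (fun i => q.1 i / 2 ^ n) (fun i => q.2 i / 2 ^ n) i -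
      linF o.J (o.Gh (b.1 (vb k)).2) (b.1 (vb k)).1
        (fun i => q.1 i / 2 ^ n) (fun i => q.2 i / 2 ^ n) i)⌋

/-- the cube sum as a function of `B` -/
noncomputable def cE (c : Cf Ω m) (o : Ob Ω m κ) (b : CBt Ω m κ k c o) (i j : Fin m) : ℝ :=
  ∑ S : Finset (Fin (k + 2)), (-1 : ℝ) ^ S.card * o.Gh (b.1 (Sum.inl S)).2 i j

/-- the point of the cell `q` at the time of the base vertex -/
noncomputable def cC (n : ℕ) (c : Cf Ω m) (o : Ob Ω m κ) (b : CBt Ω m κ k c o)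
    (q : (Fin m → ℤ) × (Fin m → ℤ)) : Fin m → ℝ := fun j =>
  q.1 j / 2 ^ n + (b.1 (vb k)).1 * (q.2 j / 2 ^ n)

variable [Fintype Ω] [Fintype Ω']

/-- a cube family -/
structure CubeFam (a k : ℕ) (K cost : ℝ) (P : Law Ω) (c : Cf Ω m) (o : Ob Ω m κ) (Q : Law Ω')
    (π : CI k → Ω' → Ω) : Prop where
  keys : ∀ ω, 0 < Q.w ω → ∀ i j, key c a (π i ω) = key c a (π j ω)
  dom : ∀ i, Dom Q (π i) P K
  pair : ∀ S, S ≠ ∅ → ∀ w : Fin 2 → Ω,
    Q.pr (fun ω => ![π (vb k) ω, π (Sum.inl S) ω]) w ≤ K * cw P (key c a) 1 w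
  node : ∀ S, ∀ w : Fin (k + 2) → Ω,
    Q.pr (fun ω => (Fin.snoc (fun l => π (Sum.inr l) ω) (π (Sum.inl S) ω) : Fin (k + 2) → Ω)) w ≤
      K * cw P (key c a) (k + 1) w
  cost : mi Q (fun ω => (c.x (π (vb k) ω), c.y (π (vb k) ω))) (TT c o π)
    (fun ω => c.A (π (vb k) ω)) ≤ cost
  cube : ∀ ω, 0 < Q.w ω → IsCube (fun S => fl1 ((κ + 4) * a) (c.t (π (Sum.inl S) ω)))

/-- the digit position of the time inside the dyadic interval of length `2^{-a}` -/
noncomputable def tau (c : Cf Ω m) (κ a : ℕ) (ω : Ω) : ℝ :=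
  (2 : ℝ) ^ ((κ + 4) * a) * c.t ω - (2 : ℝ) ^ ((κ + 3) * a) * fl1 a (c.t ω)

/-- the distance of the law of the digits from the uniform law, for the key `s` -/
noncomputable def ktv (P : Law Ω) (c : Cf Ω m) (κ a : ℕ)
    (s : (Fin m → ℝ) × (Fin m → ℝ) × c.α × ℤ) : ℝ :=
  ∑ v ∈ range (2 ^ ((κ + 3) * a)),
    |(P.cond (key c a) s).pr (fun ω => ⌊tau c κ a ω⌋) (v : ℤ) - 1 / 2 ^ ((κ + 3) * a)|

end

section absout

variable {Ω Ω' β γ ζ : Type} [Fintype Ω] [Fintype Ω'] {d : ℕ}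

/-- output of the absorption lemma -/
structure AbsOut (P : Law Ω) (P' : Law Ω') (B : Ω → β) (q : Ω → γ) (X0 : Ω → Fin d → ℤ)
    (Z : Ω' → ζ) (π π1 π2 : Ω' → Ω) (e1 : ℝ) : Prop where
  law : ∀ ω, P'.pr π ω = P.w ω
  supp : ∀ ω, 0 < P'.w ω → B (π1 ω) = B (π ω) ∧ B (π2 ω) = B (π ω) ∧ X0 (π1 ω) = X0 (π2 ω)
  law1 : ∀ z ω, P'.pr (fun ω' => (Z ω', π1 ω')) (z, ω) = P'.pr (fun ω' => (Z ω', π ω')) (z, ω)
  law2 : ∀ z ω, P'.pr (fun ω' => (Z ω', π2 ω')) (z, ω) = P'.pr (fun ω' => (Z ω', π ω')) (z, ω)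
  ind12 : mi P' π1 π2 (fun ω => (X0 (π1 ω), B (π ω), Z ω)) = 0
  ind : mi P' π (fun ω => (π1 ω, π2 ω)) (fun ω => (B (π ω), Z ω)) = 0
  cheap : mi P' (fun ω => (q (π ω), X0 (π ω))) Z (fun ω => B (π ω)) ≤ e1

/-- the digits of the other coordinates of `z` -/
noncomputable def zd (B : Ω → β) (q : Ω → γ) (π π1 π2 : Ω' → Ω) (J : Finset (Fin d))
    (C : β → γ → Fin d → ℝ) (j0 : Fin d) (σ : ℕ) (ω : Ω') : {j // j ∈ J ∧ j ≠ j0} → ℤ :=
  fl σ (fun j : {j // j ∈ J ∧ j ≠ j0} =>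
    C (B (π ω)) (q (π2 ω)) j - C (B (π ω)) (q (π1 ω)) j)

end absout

/-- main part: the cube sums are small -/
def PCMain (R : Gr) : Prop := ∀ (m : ℕ) (h : ℝ) (κ k : ℕ), k ≤ κ → LB R m h →
  NK R m h (κ + 1) → CK R m h κ 0 → RK R m h κ (k + 1) → CK R m h κ k →
  ∀ (K0 ε1 : ℝ), 0 < ε1 →
  ∃ ι1 : ℝ, 0 < ι1 ∧ ∃ ι : ℝ, 0 < ι ∧ ∃ εu : ℝ, 0 < εu ∧ ∀ g : R.G, ∃ n : ℕ,
    ∀ (a : ℕ) (e C : ℝ), R.ok g n ((κ + 4) * a) e C →
    ∀ (Ω Ω' : Type) [Fintype Ω] [Fintype Ω'] (P : Law Ω) (c : Cf Ω m)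
      (o : Ob Ω m κ) (Q : Law Ω') (π : CI k → Ω' → Ω), Hyp h κ a ι εu e C P c o →
      CubeFam a k K0 (ι1 * ((κ + 4) * a : ℕ)) P c o Q π →
      prE Q (cBad o π ((2 : ℝ) ^ (-(((k + 2) * a : ℕ) : ℝ) + ε1 * ((κ + 4) * a : ℕ)))) ≤ ε1

/-- core of the main part: under a law on whose support everything is typical -/
def PCCore (R : Gr) : Prop := ∀ (m : ℕ) (h : ℝ) (κ k : ℕ), k ≤ κ → LB R m h →
  NK R m h (κ + 1) → RK R m h κ (k + 1) → ∀ (η : ℝ), 0 < η → ∃ g0 : ℝ, 0 < g0 ∧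
  ∀ g : ℝ, 0 < g → g ≤ g0 → ∀ K : ℝ,
  ∃ ι1 : ℝ, 0 < ι1 ∧ ∃ ι : ℝ, 0 < ι ∧ ∃ εu : ℝ, 0 < εu ∧ ∀ gr : R.G, ∃ n : ℕ,
    ∀ (a : ℕ) (e C : ℝ), R.ok gr n ((κ + 4) * a) e C →
    ∀ (Ω Ω' : Type) [Fintype Ω] [Fintype Ω'] (P : Law Ω) (c : Cf Ω m)
      (o : Ob Ω m κ) (Q : Law Ω') (π : CI k → Ω' → Ω) (w β : ℕ) (i0 j0 : Fin m),
      Hyp h κ a ι εu e C P c o →
      CubeFam a k K (ι1 * ((κ + 4) * a : ℕ)) P c o Q π →
      g / 2 * ((κ + 4) * a : ℕ) ≤ w → (w : ℝ) ≤ g * ((κ + 4) * a : ℕ) →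
      (∀ ω, 0 < Q.w ω → CTyp a w c o π ω ∧ CBin β w i0 j0 o π ω) →
      (β : ℝ) + η * ((κ + 4) * a : ℕ) + 6 * w ≤ (k + 2) * a → False

open Classical in
/-- existence of the family for the law of arithmetic progressions `Q0`; the family is indexed by
cubes, `π (Sum.inl S)` is the vertex `|S|` of the progression -/
def PCLaw : Prop := ∀ (κ k : ℕ), ∃ K0 : ℝ, 0 < K0 ∧ ∃ a0 : ℕ, ∃ εu0 : ℝ, 0 < εu0 ∧
  ∀ (m : ℕ) (h ι εu e C : ℝ) (a : ℕ) (Ω : Type) [Fintype Ω] (P : Law Ω) (c : Cf Ω m)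
    (o : Ob Ω m κ) (Q0 : Law (Fin (k + 3) → Ω)) (Z : ℝ), a0 ≤ a → εu ≤ εu0 →
    Hyp h κ a ι εu e C P c o → 0 < Z →
    (∀ w, Q0.w w =
      apw P (key c a) (low c a ((κ + 4) * a)) (2 ^ ((κ + 3) * a)) (k + 2) w / Z) →
    ∃ (Ω' : Type) (_ : Fintype Ω') (Q : Law Ω') (π : CI k → Ω' → Ω),
      CubeFam a k K0 (K0 * (C + ι * ((κ + 4) * a : ℕ) + 1)) P c o Q π ∧
      ∀ thr : ℝ, ∑ w with (∃ i, i ∉ o.J ∧ ∃ j ∈ o.J,
          thr < |∑ l : Fin (k + 3), (-1 : ℝ) ^ (l : ℕ) * ((k + 2).choose l : ℝ) *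
            o.Γ (w l) i j|), Q0.w w ≤
        prE Q (cBad o π thr)

end Vale.Agent.P127.Stk
end

section

/-!
# P127 / Stk : the end of the step for `Γ` (PROOF.md, section 8)
-/

namespace Vale.Agent.P127.Stk

open Finset Vale.Agent.P127

section cf

variable {Ω Ω' : Type} {m κ k : ℕ}

theorem cz_hyp_mono [Fintype Ω] {h : ℝ} {a : ℕ} {ι ι' εu εu' e C : ℝ} {P : Law Ω} {c : Cf Ω m}
    {o : Ob Ω m κ} (hH : Hyp h κ a ι εu e C P c o) (h1 : ι ≤ ι') (h2 : εu ≤ εu') :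
    Hyp h κ a ι' εu' e C P c o where
  good := hH.good
  cost := hH.cost.trans (by (clear * - h1; gcongr))
  rate := hH.rate.trans (by
    have hb : 0 ≤ Real.log 2 := Real.log_nonneg (by norm_num)
    gcongr)
  unif := by
    have := hH.unif
    linarith only [h2, this]

theorem cz_fam_mono [Fintype Ω] [Fintype Ω'] {a : ℕ} {K cost cost' : ℝ} {P : Law Ω} {c : Cf Ω m}
    {o : Ob Ω m κ} {Q : Law Ω'} {π : CI k → Ω' → Ω} (h : CubeFam a k K cost P c o Q π)
    (h1 : cost ≤ cost') : CubeFam a k K cost' P c o Q π where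
  keys := h.keys
  dom := h.dom
  pair := h.pair
  node := h.node
  cost := h.cost.trans h1
  cube := h.cube

end cf

theorem stepC_of (R : Gr) (hp : PInterp R) (hl : PCLaw) (hm : PCMain R) : PStepC R := by
  classical
  intro m h κ k1 hk1 hk2 hLB hNK hC0 hRK hCK
  obtain ⟨k, rfl⟩ : ∃ k, k1 = k + 1 := ⟨k1 - 1, by omega⟩
  have hk : k ≤ κ := by omega
  rw [Nat.add_sub_cancel] at hCK
  refine hp m h κ (k + 1) hk2 ?_
  intro ε hε
  obtain ⟨K0, hK0, a1, εu0, hεu0, hlaw⟩ := hl κ k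
  obtain ⟨ι1, hι1, ι2, hι2, εu2, hεu2, hmain⟩ := hm m h κ k hk hLB hNK hC0 hRK hCK K0 ε hε
  refine ⟨min ι2 (ι1 / (4 * K0)), lt_min hι2 (by (clear * - hι1 hK0; positivity)), min εu2 εu0, lt_min hεu2 hεu0,
    fun g => ?_⟩
  obtain ⟨n1, hn1⟩ := hmain g
  obtain ⟨n2, hn2⟩ := R.small g (min (ι1 / (4 * K0)) (1 / ((κ + 4) * (a1 + 1))))
    (lt_min (by positivity) (by (clear * -; positivity)))
  refine ⟨max n1 n2, fun a e C hok Ω _ P c o hH Q hQ => ?_⟩
  obtain ⟨Z, hZ, hQZ⟩ := hQ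
  have hok1 := R.anti g n1 _ _ _ _ (le_max_left n1 n2) hok
  have hok2 := R.anti g n2 _ _ _ _ (le_max_right n1 n2) hok
  obtain ⟨hs1, -, hs3⟩ := hn2 _ _ _ hok2
  have hK04 : (0 : ℝ) < (κ + 4) * (a1 + 1) := by (clear * -; positivity)
  have hL0 : (0 : ℝ) ≤ (((κ + 4) * a : ℕ) : ℝ) := Nat.cast_nonneg _
  have ha : a1 + 1 ≤ a := by
    have e1 : 1 ≤ 1 / (((κ : ℝ) + 4) * (a1 + 1)) * (((κ + 4) * a : ℕ) : ℝ) :=
      hs1.trans (mul_le_mul_of_nonneg_right (min_le_right _ _) hL0)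
    rw [one_div, inv_mul_eq_div, le_div_iff₀ hK04, one_mul] at e1
    have e2 : (κ + 4) * (a1 + 1) ≤ (κ + 4) * a := by exact_mod_cast e1
    exact Nat.le_of_mul_le_mul_left e2 (by omega)
  obtain ⟨Ω', _, Q', π, hfam, hthr⟩ := hlaw m h _ _ e C a Ω P c o Q Z (by omega)
    (min_le_right _ _) hH hZ hQZ
  have hcost : K0 * (C + min ι2 (ι1 / (4 * K0)) * (((κ + 4) * a : ℕ) : ℝ) + 1) ≤
      ι1 * (((κ + 4) * a : ℕ) : ℝ) := by
    have e1 : C ≤ ι1 / (4 * K0) * (((κ + 4) * a : ℕ) : ℝ) :=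
      hs3.trans (mul_le_mul_of_nonneg_right (min_le_left _ _) hL0)
    have e2 : 1 ≤ ι1 / (4 * K0) * (((κ + 4) * a : ℕ) : ℝ) :=
      hs1.trans (mul_le_mul_of_nonneg_right (min_le_left _ _) hL0)
    have e3 : min ι2 (ι1 / (4 * K0)) * (((κ + 4) * a : ℕ) : ℝ) ≤
        ι1 / (4 * K0) * (((κ + 4) * a : ℕ) : ℝ) :=
      mul_le_mul_of_nonneg_right (min_le_right _ _) hL0
    calc K0 * (C + min ι2 (ι1 / (4 * K0)) * (((κ + 4) * a : ℕ) : ℝ) + 1)
        ≤ K0 * (3 * (ι1 / (4 * K0) * (((κ + 4) * a : ℕ) : ℝ))) := by gcongr; linarith only [e1, e2, e3]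
      _ = 3 / 4 * (ι1 * (((κ + 4) * a : ℕ) : ℝ)) := by (clear * - hK0 hι1; field_simp)
      _ ≤ ι1 * (((κ + 4) * a : ℕ) : ℝ) := by
          have : 0 ≤ ι1 * (((κ + 4) * a : ℕ) : ℝ) := mul_nonneg hι1.le hL0
          linarith only [this]
  exact (hthr _).trans (hn1 a e C hok1 Ω Ω' P c o Q' π
    (cz_hyp_mono hH (min_le_left _ _) (min_le_left _ _)) (cz_fam_mono hfam hcost))

end Vale.Agent.P127.Stk
end

section

/-!
# P127 / Stk : cube families, conditioning and the cost of the condition (PROOF.md, section 8)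
-/

namespace Vale.Agent.P127.Stk

open Finset Vale.Agent.P127

section fam

variable {Ω Ω' : Type} [Fintype Ω] [Fintype Ω'] {m κ k : ℕ}

end fam

section fam2

variable {Ω Ω' : Type} [Fintype Ω] [Fintype Ω'] {m κ k : ℕ}

theorem cf_pr_le {T : Type*} {Q : Law Ω'} {E : Ω' → Prop} {p : ℝ} (hp : 0 < p)
    (hE : p ≤ prE Q E) (X : Ω' → T) (x : T) :
    (Stk.on Q E).pr X x ≤ 1 / p * Q.pr X x := by
  have hD : Dom (Stk.on Q E) id Q (1 / p) := Dom.on hp hE
  unfold Law.pr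
  rw [Finset.mul_sum]
  refine Finset.sum_le_sum fun ω _ => ?_
  have := hD ω
  rwa [pr_id] at this

/-- conditioning a family on an event -/
theorem CubeFam.on {a : ℕ} {K cost p : ℝ} {P : Law Ω} {c : Cf Ω m} {o : Ob Ω m κ} {Q : Law Ω'}
    {π : CI k → Ω' → Ω} (h : CubeFam a k K cost P c o Q π) {E : Ω' → Prop} (hp : 0 < p)
    (hE : p ≤ prE Q E) : CubeFam a k (K / p) ((cost + Real.log 2) / p) P c o (on Q E) π := by
  have hE0 : 0 < prE Q E := hp.trans_le hE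
  have hD : Dom (Stk.on Q E) id Q (1 / p) := Dom.on hp hE
  have hp1 : 0 ≤ 1 / p := by (clear * - hp; positivity)
  refine ⟨fun ω hω i j => h.keys ω (on_pos hE0 hω).2 i j, fun i => ?_, fun S hS w => ?_,
    fun S w => ?_, ?_, fun ω hω => h.cube ω (on_pos hE0 hω).2⟩
  · have h1 := hD.comp (h.dom i)
    have h2 : 1 / p * K = K / p := by ring
    rw [h2] at h1
    exact h1
  · refine (cf_pr_le hp hE _ w).trans ?_
    calc 1 / p * Q.pr (fun ω => ![π (vb k) ω, π (Sum.inl S) ω]) w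
        ≤ 1 / p * (K * cw P (key c a) 1 w) := mul_le_mul_of_nonneg_left (h.pair S hS w) hp1
      _ = K / p * cw P (key c a) 1 w := by ring
  · refine (cf_pr_le hp hE _ w).trans ?_
    calc 1 / p * Q.pr (fun ω => (Fin.snoc (fun l => π (Sum.inr l) ω) (π (Sum.inl S) ω) :
          Fin (k + 2) → Ω)) w
        ≤ 1 / p * (K * cw P (key c a) (k + 1) w) := mul_le_mul_of_nonneg_left (h.node S w) hp1
      _ = K / p * cw P (key c a) (k + 1) w := by ring
  · have h1 := hD.mi_le (fun ω => (c.x (π (vb k) ω), c.y (π (vb k) ω))) (TT c o π)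
      (fun ω => c.A (π (vb k) ω))
    have h2 : 1 / p * (mi Q (fun ω => (c.x (π (vb k) ω), c.y (π (vb k) ω))) (TT c o π)
        (fun ω => c.A (π (vb k) ω)) + Real.log 2) ≤ 1 / p * (cost + Real.log 2) :=
      mul_le_mul_of_nonneg_left (by linarith only [h.cost]) hp1
    have h3 : 1 / p * (cost + Real.log 2) = (cost + Real.log 2) / p := by ring
    rw [h3] at h2
    exact h1.trans h2

end fam2

end Vale.Agent.P127.Stk
end

section

/-!
# P127 / Stk : CKtv (PROOF.md, section 8) : the laws of the digits, separation of copies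
-/

namespace Vale.Agent.P127.Stk

open Finset Vale.Agent.P127

section kt

variable {Ω : Type} [Fintype Ω] {m κ : ℕ}

/-- the pointwise inequality -/
theorem kt_point {x : ℝ} (hx : 0 ≤ x) :
    (Real.sqrt x - 1) ^ 2 ≤ x * Real.log x - x + 1 := by
  rcases hx.eq_or_lt with h0 | h0
  · rw [← h0]; simp only [Real.sqrt_zero, zero_sub, even_two, Even.neg_pow, one_pow, Real.log_zero, mul_zero, sub_self, zero_add, Std.le_refl]
  · have hs : 0 < Real.sqrt x := Real.sqrt_pos.2 h0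
    have h1 := Real.one_sub_inv_le_log_of_pos hs
    have h2 : Real.log x = 2 * Real.log (Real.sqrt x) := by
      rw [Real.log_sqrt h0.le]; ring
    have h3 : x = Real.sqrt x ^ 2 := (Real.sq_sqrt h0.le).symm
    rw [h2]
    set s := Real.sqrt x with hsdef
    rw [h3]
    have h4 : s ^ 2 * (1 - s⁻¹) ≤ s ^ 2 * Real.log s :=
      mul_le_mul_of_nonneg_left h1 (by positivity)
    have h5 : s ^ 2 * (1 - s⁻¹) = s ^ 2 - s := by field_simp
    linarith

/-- the total mass and the entropy as sums over the digits -/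
theorem kt_sums (P : Law Ω) (X : Ω → ℤ) (M : ℕ) (hX : ∀ ω, 0 ≤ X ω ∧ X ω < M) :
    ∑ v ∈ range M, P.pr X (v : ℤ) = 1 ∧
    P.H X = - ∑ v ∈ range M, P.pr X (v : ℤ) * Real.log (P.pr X (v : ℤ)) := by
  classical
  have hsub : ∀ g : ℤ → ℝ, (∀ x, P.pr X x = 0 → g x = 0) →
      ∑ x ∈ img X, g x = ∑ v ∈ range M, g (v : ℤ) := by
    intro g hg
    have h1 : ∑ v ∈ range M, g (v : ℤ) = ∑ x ∈ (range M).image (fun v : ℕ => (v : ℤ)), g x := by
      rw [Finset.sum_image]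
      intro a _ b _ hab
      have hab' : (a : ℤ) = (b : ℤ) := hab
      exact_mod_cast hab'
    rw [h1]
    refine Finset.sum_subset ?_ ?_
    · intro x hx
      rw [mem_img] at hx
      obtain ⟨ω, rfl⟩ := hx
      rw [Finset.mem_image]
      refine ⟨(X ω).toNat, ?_, ?_⟩
      · rw [Finset.mem_range]
        have := hX ω
        omega
      · have := hX ω
        omega
    · intro x _ hx
      refine hg x ?_
      unfold Law.pr
      refine Finset.sum_eq_zero fun ω hω => ?_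
      have hω' : X ω = x := by simpa only [mem_filter, mem_univ, true_and] using hω
      exact absurd (mem_img.2 ⟨ω, hω'⟩) hx
  constructor
  · rw [← hsub (fun x => P.pr X x) (fun x h => h)]
    exact P.sum_pr_image X
  · have h2 : P.H X = ∑ x ∈ img X, P.pr X x * (-Real.log (P.pr X x)) :=
      P.ex_comp X (fun x => -Real.log (P.pr X x))
    rw [h2, hsub (fun x => P.pr X x * (-Real.log (P.pr X x))) (fun x h => by
      show P.pr X x * _ = 0
      rw [h, zero_mul])]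
    rw [← Finset.sum_neg_distrib]
    refine Finset.sum_congr rfl fun v _ => ?_
    ring

/-- total variation and entropy -/
theorem kt_pinsker (P : Law Ω) (X : Ω → ℤ) (M : ℕ) (hM : 0 < M)
    (hX : ∀ ω, 0 ≤ X ω ∧ X ω < M) :
    0 ≤ Real.log M - P.H X ∧
    ∑ v ∈ range M, |P.pr X (v : ℤ) - 1 / M| ≤ 2 * Real.sqrt (Real.log M - P.H X) := by
  obtain ⟨hs1, hs2⟩ := kt_sums P X M hX
  have hM0 : (0 : ℝ) < M := by exact_mod_cast hM
  set ρ : ℕ → ℝ := fun v => P.pr X (v : ℤ) with hρ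
  have hρ0 : ∀ v, 0 ≤ ρ v := fun v => P.pr_nonneg X _
  have key1 : ∑ v ∈ range M, (Real.sqrt (ρ v) - Real.sqrt (1 / M)) ^ 2 ≤
      Real.log M - P.H X := by
    have h1 : ∀ v ∈ range M, (Real.sqrt (ρ v) - Real.sqrt (1 / M)) ^ 2 ≤
        ρ v * Real.log M + ρ v * Real.log (ρ v) - ρ v + 1 / M := by
      intro v _
      have h2 := kt_point (x := M * ρ v) (by have := hρ0 v; (clear * - hM this; positivity))
      have h3 : (Real.sqrt (ρ v) - Real.sqrt (1 / M)) ^ 2 =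
          1 / M * (Real.sqrt (M * ρ v) - 1) ^ 2 := by
        have h4 : Real.sqrt (ρ v) - Real.sqrt (1 / M) =
            Real.sqrt (1 / M) * (Real.sqrt (M * ρ v) - 1) := by
          have h5 : 1 / (M : ℝ) * (M * ρ v) = ρ v := by field_simp
          rw [mul_sub, mul_one, ← Real.sqrt_mul (by positivity), h5]
        rw [h4, mul_pow, Real.sq_sqrt (by positivity)]
      rw [h3]
      have h5 : 1 / M * (Real.sqrt (M * ρ v) - 1) ^ 2 ≤
          1 / M * (M * ρ v * Real.log (M * ρ v) - M * ρ v + 1) :=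
        mul_le_mul_of_nonneg_left h2 (by positivity)
      refine h5.trans (le_of_eq ?_)
      rcases (hρ0 v).eq_or_lt with h0 | h0
      · rw [← h0]; simp
      · rw [Real.log_mul hM0.ne' h0.ne']
        field_simp
    refine (Finset.sum_le_sum h1).trans (le_of_eq ?_)
    rw [hs2]
    simp only [Finset.sum_add_distrib, Finset.sum_sub_distrib, ← Finset.sum_mul]
    have h6 : ∑ v ∈ range M, ρ v = 1 := hs1
    rw [h6]
    simp only [Finset.sum_const, Finset.card_range, nsmul_eq_mul]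
    have h7 : (M : ℝ) * (1 / M) = 1 := by field_simp
    rw [h7]
    ring
  have key0 : 0 ≤ Real.log M - P.H X :=
    (Finset.sum_nonneg fun v _ => sq_nonneg _).trans key1
  refine ⟨key0, ?_⟩
  have key2 : ∑ v ∈ range M, (Real.sqrt (ρ v) + Real.sqrt (1 / M)) ^ 2 ≤ 4 := by
    have h1 : ∀ v ∈ range M, (Real.sqrt (ρ v) + Real.sqrt (1 / M)) ^ 2 ≤
        2 * ρ v + 2 * (1 / M) := by
      intro v _
      have e1 := Real.sq_sqrt (hρ0 v)
      have e2 := Real.sq_sqrt (show (0 : ℝ) ≤ 1 / M by positivity)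
      nlinarith only [e1, e2, sq_nonneg (Real.sqrt (ρ v) - Real.sqrt (1 / M))]
    refine (Finset.sum_le_sum h1).trans (le_of_eq ?_)
    rw [Finset.sum_add_distrib, ← Finset.mul_sum]
    have h6 : ∑ v ∈ range M, ρ v = 1 := hs1
    rw [h6]
    simp only [Finset.sum_const, Finset.card_range, nsmul_eq_mul]
    field_simp
    norm_num
  have h8 : ∀ v ∈ range M, |P.pr X (v : ℤ) - 1 / M| =
      |Real.sqrt (ρ v) - Real.sqrt (1 / M)| * (Real.sqrt (ρ v) + Real.sqrt (1 / M)) := by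
    intro v _
    have e1 := Real.sq_sqrt (hρ0 v)
    have e2 := Real.sq_sqrt (show (0 : ℝ) ≤ 1 / M by positivity)
    have e3 : P.pr X (v : ℤ) - 1 / M =
        (Real.sqrt (ρ v) - Real.sqrt (1 / M)) * (Real.sqrt (ρ v) + Real.sqrt (1 / M)) := by
      have : P.pr X (v : ℤ) = ρ v := rfl
      rw [this]
      nlinarith only [e1, e2]
    rw [e3, abs_mul]
    congr 1
    exact abs_of_nonneg (by (clear * - hM; positivity))
  rw [Finset.sum_congr rfl h8]
  have h9 := Finset.sum_mul_sq_le_sq_mul_sq (range M)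
    (fun v => |Real.sqrt (ρ v) - Real.sqrt (1 / M)|)
    (fun v => Real.sqrt (ρ v) + Real.sqrt (1 / M))
  simp only [sq_abs] at h9
  have h10 : (∑ v ∈ range M, |Real.sqrt (ρ v) - Real.sqrt (1 / M)| *
      (Real.sqrt (ρ v) + Real.sqrt (1 / M))) ^ 2 ≤ (Real.log M - P.H X) * 4 := by
    refine h9.trans ?_
    exact mul_le_mul key1 key2 (Finset.sum_nonneg fun v _ => sq_nonneg _) key0
  have h11 : Real.sqrt ((Real.log M - P.H X) * 4) = 2 * Real.sqrt (Real.log M - P.H X) := by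
    rw [mul_comm, Real.sqrt_mul (by norm_num)]
    congr 1
    rw [show (4 : ℝ) = 2 ^ 2 by norm_num, Real.sqrt_sq (by norm_num)]
  rw [← h11]
  exact Real.le_sqrt_of_sq_le h10

omit [Fintype Ω] in
theorem kt_floor (c : Cf Ω m) (a : ℕ) (ω : Ω) :
    ⌊(2 : ℝ) ^ ((κ + 4) * a) * c.t ω⌋ =
      ⌊tau c κ a ω⌋ + 2 ^ ((κ + 3) * a) * fl1 a (c.t ω) := by
  have h : (2 : ℝ) ^ ((κ + 4) * a) * c.t ω =
      tau c κ a ω + ((2 ^ ((κ + 3) * a) * fl1 a (c.t ω) : ℤ) : ℝ) := by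
    unfold tau
    push_cast
    ring
  rw [h, Int.floor_add_intCast]

omit [Fintype Ω] in
theorem kt_range (c : Cf Ω m) (a : ℕ) (ω : Ω) :
    0 ≤ tau c κ a ω ∧ tau c κ a ω < 2 ^ ((κ + 3) * a) := by
  have h1 := Int.floor_le ((2 : ℝ) ^ a * c.t ω)
  have h2 := Int.lt_floor_add_one ((2 : ℝ) ^ a * c.t ω)
  have h3 : (2 : ℝ) ^ ((κ + 4) * a) = 2 ^ ((κ + 3) * a) * 2 ^ a := by
    rw [← pow_add]; congr 1; ring
  have h4 : (0 : ℝ) < 2 ^ ((κ + 3) * a) := by positivity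
  unfold tau fl1
  rw [h3]
  constructor
  · nlinarith only [h1, h4]
  · nlinarith only [h2, h4]

omit [Fintype Ω] in
theorem kt_range' (c : Cf Ω m) (a : ℕ) (ω : Ω) :
    0 ≤ ⌊tau c κ a ω⌋ ∧ ⌊tau c κ a ω⌋ < ((2 ^ ((κ + 3) * a) : ℕ) : ℤ) := by
  obtain ⟨h1, h2⟩ := kt_range (κ := κ) c a ω
  refine ⟨Int.floor_nonneg.2 h1, ?_⟩
  rw [Int.floor_lt]
  push_cast
  exact h2

/-- the laws of the digits are close to uniform on average -/
theorem ktv_sum {h ι εu e0 C : ℝ} {a : ℕ} {P : Law Ω} {c : Cf Ω m} {o : Ob Ω m κ}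
    (hH : Hyp h κ a ι εu e0 C P c o) :
    0 ≤ εu ∧ ∑ s ∈ img (key c a), P.pr (key c a) s * ktv P c κ a s ≤ 2 * Real.sqrt εu := by
  classical
  set M : ℕ := 2 ^ ((κ + 3) * a) with hMdef
  have hM : 0 < M := by positivity
  have hMr : (M : ℝ) = 2 ^ ((κ + 3) * a) := by rw [hMdef]; push_cast; rfl
  have hu := hH.unif
  have h1 : hc P (fun ω => fl1 ((κ + 4) * a) (c.t ω))
      (fun ω => (fl1 a (c.t ω), c.x ω, c.y ω, c.A ω)) =
      hc P (fun ω => ⌊tau c κ a ω⌋) (key c a) := by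
    refine hc_congr P ?_ ?_ ?_ ?_
    · intro ω ω' _ _ e
      have e1 : ⌊tau c κ a ω⌋ = ⌊tau c κ a ω'⌋ := congrArg Prod.fst e
      have e2 : fl1 a (c.t ω) = fl1 a (c.t ω') := congrArg (fun z => z.2.1) e
      show ⌊(2 : ℝ) ^ ((κ + 4) * a) * c.t ω⌋ = ⌊(2 : ℝ) ^ ((κ + 4) * a) * c.t ω'⌋
      rw [kt_floor, kt_floor, e1, e2]
    · intro ω ω' _ _ e
      have e1 : ⌊(2 : ℝ) ^ ((κ + 4) * a) * c.t ω⌋ = ⌊(2 : ℝ) ^ ((κ + 4) * a) * c.t ω'⌋ :=
        congrArg Prod.fst e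
      have e2 : fl1 a (c.t ω) = fl1 a (c.t ω') := congrArg (fun z => z.2.1) e
      rw [kt_floor, kt_floor, e2] at e1
      show ⌊tau c κ a ω⌋ = ⌊tau c κ a ω'⌋
      linarith only [e1]
    · intro ω ω' _ _ e
      have e' : (c.x ω, c.y ω, c.A ω, fl1 a (c.t ω)) =
        (c.x ω', c.y ω', c.A ω', fl1 a (c.t ω')) := e
      simp only [Prod.mk.injEq] at e' ⊢
      (clear * - e'; tauto)
    · intro ω ω' _ _ e
      have e' : (fl1 a (c.t ω), c.x ω, c.y ω, c.A ω) =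
        (fl1 a (c.t ω'), c.x ω', c.y ω', c.A ω') := e
      show (c.x ω, c.y ω, c.A ω, fl1 a (c.t ω)) = (c.x ω', c.y ω', c.A ω', fl1 a (c.t ω'))
      simp only [Prod.mk.injEq] at e' ⊢
      (clear * - e'; tauto)
  have h2 : (((κ + 4) * a : ℕ) - (a : ℝ)) * Real.log 2 = Real.log M := by
    rw [hMr, Real.log_pow]
    push_cast
    ring
  rw [h1, h2] at hu
  have h3 : hc P (fun ω => ⌊tau c κ a ω⌋) (key c a) =
      ∑ s ∈ img (key c a), P.pr (key c a) s *
        (P.cond (key c a) s).H (fun ω => ⌊tau c κ a ω⌋) := P.H_cond_eq _ _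
  rw [h3] at hu
  set D : ((Fin m → ℝ) × (Fin m → ℝ) × c.α × ℤ) → ℝ := fun s =>
    Real.log M - (P.cond (key c a) s).H (fun ω => ⌊tau c κ a ω⌋) with hD
  have hp : ∀ s, 0 ≤ D s ∧ ktv P c κ a s ≤ 2 * Real.sqrt (D s) := by
    intro s
    have := kt_pinsker (P.cond (key c a) s) (fun ω => ⌊tau c κ a ω⌋) M hM
      (fun ω => kt_range' c a ω)
    refine ⟨this.1, ?_⟩
    show ∑ v ∈ range M, |(P.cond (key c a) s).pr (fun ω => ⌊tau c κ a ω⌋) (v : ℤ) -
      1 / 2 ^ ((κ + 3) * a)| ≤ _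
    rw [← hMr]
    exact this.2
  have hsum : ∑ s ∈ img (key c a), P.pr (key c a) s * D s ≤ εu := by
    have h5 : ∑ s ∈ img (key c a), P.pr (key c a) s * D s =
        Real.log M - ∑ s ∈ img (key c a), P.pr (key c a) s *
          (P.cond (key c a) s).H (fun ω => ⌊tau c κ a ω⌋) := by
      simp only [hD, mul_sub, Finset.sum_sub_distrib, ← Finset.sum_mul]
      rw [P.sum_pr_image, one_mul]
    rw [h5]
    linarith only [hu]
  have hsum0 : 0 ≤ ∑ s ∈ img (key c a), P.pr (key c a) s * D s :=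
    Finset.sum_nonneg fun s _ => mul_nonneg (P.pr_nonneg _ _) (hp s).1
  refine ⟨hsum0.trans hsum, ?_⟩
  have h6 : ∑ s ∈ img (key c a), P.pr (key c a) s * ktv P c κ a s ≤
      2 * ∑ s ∈ img (key c a), Real.sqrt (P.pr (key c a) s) *
        Real.sqrt (P.pr (key c a) s * D s) := by
    rw [Finset.mul_sum]
    refine Finset.sum_le_sum fun s _ => ?_
    have h7 : Real.sqrt (P.pr (key c a) s) * Real.sqrt (P.pr (key c a) s * D s) =
        P.pr (key c a) s * Real.sqrt (D s) := by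
      rw [Real.sqrt_mul (P.pr_nonneg _ _), ← mul_assoc, Real.mul_self_sqrt (P.pr_nonneg _ _)]
    rw [h7]
    have := mul_le_mul_of_nonneg_left (hp s).2 (P.pr_nonneg (key c a) s)
    linarith only [this]
  refine h6.trans ?_
  have h8 := Finset.sum_mul_sq_le_sq_mul_sq (img (key c a))
    (fun s => Real.sqrt (P.pr (key c a) s)) (fun s => Real.sqrt (P.pr (key c a) s * D s))
  have h9 : ∑ s ∈ img (key c a), Real.sqrt (P.pr (key c a) s) ^ 2 = 1 := by
    rw [← P.sum_pr_image (key c a)]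
    exact Finset.sum_congr rfl fun s _ => Real.sq_sqrt (P.pr_nonneg _ _)
  have h10 : ∑ s ∈ img (key c a), Real.sqrt (P.pr (key c a) s * D s) ^ 2 =
      ∑ s ∈ img (key c a), P.pr (key c a) s * D s :=
    Finset.sum_congr rfl fun s _ => Real.sq_sqrt (mul_nonneg (P.pr_nonneg _ _) (hp s).1)
  rw [h9, h10, one_mul] at h8
  have h11 := Real.le_sqrt_of_sq_le (h8.trans hsum)
  linarith only [h11]

/-- the conditional probability of a short interval of digits -/
theorem kt_inner {a : ℕ} (P : Law Ω) (c : Cf Ω m) (w : ℕ) (hw : w ≤ (κ + 3) * a)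
    (s : (Fin m → ℝ) × (Fin m → ℝ) × c.α × ℤ) (y : ℤ) :
    prE (P.cond (key c a) s) (fun ω => |⌊tau c κ a ω⌋ - y| ≤ (2 ^ ((κ + 3) * a - w) : ℤ)) ≤
      3 / 2 ^ w + ktv P c κ a s := by
  classical
  set M : ℕ := 2 ^ ((κ + 3) * a) with hMdef
  have hMr : (M : ℝ) = 2 ^ ((κ + 3) * a) := by rw [hMdef]; push_cast; rfl
  set N : ℕ := 2 ^ ((κ + 3) * a - w) with hNdef
  set R := P.cond (key c a) s with hR
  set X : Ω → ℤ := fun ω => ⌊tau c κ a ω⌋ with hX
  set F : Finset ℕ := (range M).filter (fun v => |(v : ℤ) - y| ≤ N) with hF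
  have hNz : ((2 : ℤ) ^ ((κ + 3) * a - w)) = (N : ℤ) := by rw [hNdef]; push_cast; rfl
  have h1 : prE R (fun ω => |X ω - y| ≤ ((2 : ℤ) ^ ((κ + 3) * a - w))) ≤
      ∑ v ∈ F, R.pr X (v : ℤ) := by
    rw [hNz]
    have h20 : prE R (fun ω => |X ω - y| ≤ (N : ℤ)) = ∑ ω with |X ω - y| ≤ (N : ℤ), R.w ω := by
      unfold prE
      exact Finset.sum_congr (by ext; simp only [mem_filter, mem_univ, true_and]) fun _ _ => rfl
    rw [h20]
    unfold Law.pr
    have h2 : ∑ ω with |X ω - y| ≤ (N : ℤ), R.w ω =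
        ∑ v ∈ F, ∑ ω ∈ (univ.filter (fun ω => |X ω - y| ≤ (N : ℤ))).filter
          (fun ω => (X ω).toNat = v), R.w ω := by
      rw [Finset.sum_fiberwise_of_maps_to]
      intro ω hω
      simp only [mem_filter, mem_univ, true_and] at hω
      have h3 := kt_range' (κ := κ) c a ω
      rw [hF, mem_filter, mem_range]
      have h4 : ((X ω).toNat : ℤ) = X ω := Int.toNat_of_nonneg h3.1
      refine ⟨?_, ?_⟩
      · have h5 : ((X ω).toNat : ℤ) < (M : ℤ) := by rw [h4]; exact h3.2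
        exact_mod_cast h5
      · rw [h4]; exact hω
    rw [h2]
    refine Finset.sum_le_sum fun v _ => ?_
    refine Finset.sum_le_sum_of_subset_of_nonneg ?_ fun ω _ _ => R.nn ω
    intro ω hω
    simp only [mem_filter, mem_univ, true_and] at hω ⊢
    have h3 := kt_range' (κ := κ) c a ω
    have h4 : ((X ω).toNat : ℤ) = X ω := Int.toNat_of_nonneg h3.1
    rw [← hω.2, h4]
  refine h1.trans ?_
  have h5 : ∑ v ∈ F, R.pr X (v : ℤ) ≤
      ∑ v ∈ F, (1 / (M : ℝ)) + ∑ v ∈ range M, |R.pr X (v : ℤ) - 1 / M| := by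
    have h6 : ∑ v ∈ F, |R.pr X (v : ℤ) - 1 / M| ≤ ∑ v ∈ range M, |R.pr X (v : ℤ) - 1 / M| :=
      Finset.sum_le_sum_of_subset_of_nonneg (Finset.filter_subset _ _) fun _ _ _ => abs_nonneg _
    have h7 : ∑ v ∈ F, R.pr X (v : ℤ) ≤
        ∑ v ∈ F, (1 / (M : ℝ)) + ∑ v ∈ F, |R.pr X (v : ℤ) - 1 / M| := by
      rw [← Finset.sum_add_distrib]
      refine Finset.sum_le_sum fun v _ => ?_
      have := le_abs_self (R.pr X (v : ℤ) - 1 / M)
      linarith only [this]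
    linarith only [h6, h7]
  refine h5.trans ?_
  have h8 : ∑ v ∈ range M, |R.pr X (v : ℤ) - 1 / M| = ktv P c κ a s := by
    unfold ktv
    rw [hMr]
  rw [h8]
  have hcard : F.card ≤ 2 * N + 1 := by
    have h9 : (F.image (fun v : ℕ => (v : ℤ))) ⊆ Finset.Icc (y - N) (y + N) := by
      intro z hz
      rw [Finset.mem_image] at hz
      obtain ⟨v, hv, rfl⟩ := hz
      rw [hF, mem_filter] at hv
      have := abs_le.1 hv.2
      rw [Finset.mem_Icc]
      omega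
    have h10 := Finset.card_le_card h9
    rw [Finset.card_image_of_injective _ Nat.cast_injective, Int.card_Icc] at h10
    (clear * - hNz h10; omega)
  have hN1 : 1 ≤ N := Nat.one_le_two_pow
  have hcard' : (F.card : ℝ) ≤ 3 * N := by
    have : F.card ≤ 3 * N := by omega
    exact_mod_cast this
  have hMN : (M : ℝ) = N * 2 ^ w := by
    rw [hMr, hNdef]
    push_cast
    rw [← pow_add]
    congr 1
    omega
  have hN0 : (0 : ℝ) < N := by exact_mod_cast hN1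
  have h11 : ∑ v ∈ F, (1 / (M : ℝ)) ≤ 3 / 2 ^ w := by
    rw [Finset.sum_const, nsmul_eq_mul, hMN]
    rw [mul_one_div, div_le_div_iff₀ (by positivity) (by positivity)]
    have : (0 : ℝ) < 2 ^ w := by positivity
    nlinarith only [hcard', this]
  linarith only [h11]

/-- the times of two copies are separated -/
theorem copies_sep {h ι εu e0 C : ℝ} {a : ℕ} {P : Law Ω} {c : Cf Ω m} {o : Ob Ω m κ}
    (hH : Hyp h κ a ι εu e0 C P c o) (w : ℕ) (hw : w ≤ (κ + 3) * a) (Q2 : Law (Fin 2 → Ω))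
    (hQ2 : ∀ v, Q2.w v = cw P (key c a) 1 v) :
    prE Q2 (fun v => (2 : ℝ) ^ (a + w) * |c.t (v 0) - c.t (v 1)| < 1) ≤
      3 / 2 ^ w + 2 * Real.sqrt εu := by
  classical
  have h0 := (ktv_sum hH).2
  have h1 : prE Q2 (fun v => (2 : ℝ) ^ (a + w) * |c.t (v 0) - c.t (v 1)| < 1) ≤
      P.ex (fun ω => 3 / 2 ^ w + ktv P c κ a (key c a ω)) := by
    unfold prE
    rw [Finset.sum_filter]
    have h2 : ∑ v : Fin 2 → Ω, (if (2 : ℝ) ^ (a + w) * |c.t (v 0) - c.t (v 1)| < 1 then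
        Q2.w v else 0) = ∑ ω0, ∑ ω1,
          (if (2 : ℝ) ^ (a + w) * |c.t ω0 - c.t ω1| < 1 then cw P (key c a) 1 ![ω0, ω1] else 0) := by
      rw [← Finset.sum_product']
      refine Finset.sum_nbij' (fun v => (v 0, v 1)) (fun z => ![z.1, z.2]) ?_ ?_ ?_ ?_ ?_
      · intro v _; simp only [univ_product_univ, Fin.isValue, mem_univ]
      · intro z _; simp only [mem_univ]
      · intro v _
        funext i
        fin_cases i <;> rfl
      · intro z _; rfl
      · intro v _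
        have : (![v 0, v 1] : Fin 2 → Ω) = v := by
          funext i
          fin_cases i <;> rfl
        show _ = if (2 : ℝ) ^ (a + w) * |c.t (v 0) - c.t (v 1)| < 1 then
          cw P (key c a) 1 ![v 0, v 1] else 0
        rw [this, hQ2]
    rw [h2]
    unfold Law.ex
    refine Finset.sum_le_sum fun ω0 _ => ?_
    rcases (P.nn ω0).eq_or_lt with hz | hz
    · rw [← hz, zero_mul]
      refine (Finset.sum_eq_zero fun ω1 _ => ?_).le
      unfold cw
      rw [Fin.prod_univ_two]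
      simp only [Nat.reduceAdd, Fin.isValue, Matrix.cons_val_zero, Fin.forall_fin_two, Matrix.cons_val_one, Matrix.cons_val_fin_one, true_and, ← hz, zero_mul, pow_one, zero_div, ite_self]
    · have hpr : 0 < P.pr (key c a) (key c a ω0) := P.pr_pos _ hz
      have h3 := kt_inner P c w hw (key c a ω0) ⌊tau c κ a ω0⌋
      refine le_trans ?_ (mul_le_mul_of_nonneg_left h3 hz.le)
      unfold prE
      rw [Finset.sum_filter, Finset.mul_sum]
      refine Finset.sum_le_sum fun ω1 _ => ?_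
      rw [P.cond_w _ _ hpr]
      have hcw : cw P (key c a) 1 ![ω0, ω1] = if key c a ω1 = key c a ω0 then
          P.w ω0 * P.w ω1 / P.pr (key c a) (key c a ω0) else 0 := by
        unfold cw
        simp only [Nat.reduceAdd, Fin.isValue, Matrix.cons_val_zero, Fin.forall_fin_two, Matrix.cons_val_one, Matrix.cons_val_fin_one, true_and, Fin.prod_univ_two, pow_one]
      rw [hcw]
      by_cases hk : key c a ω1 = key c a ω0
      · rw [if_pos hk, if_pos hk]
        by_cases ht : (2 : ℝ) ^ (a + w) * |c.t ω0 - c.t ω1| < 1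
        · rw [if_pos ht]
          have hc : |⌊tau c κ a ω1⌋ - ⌊tau c κ a ω0⌋| ≤ (2 ^ ((κ + 3) * a - w) : ℤ) := by
            have hfl : fl1 a (c.t ω1) = fl1 a (c.t ω0) := congrArg (fun z => z.2.2.2) hk
            have hd : tau c κ a ω1 - tau c κ a ω0 =
                (2 : ℝ) ^ ((κ + 4) * a) * (c.t ω1 - c.t ω0) := by
              unfold tau
              rw [hfl]
              ring
            have hpw : (2 : ℝ) ^ ((κ + 4) * a) = 2 ^ ((κ + 3) * a - w) * 2 ^ (a + w) := by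
              rw [← pow_add]
              congr 1
              have : (κ + 4) * a = (κ + 3) * a + a := by ring
              omega
            have hd2 : |tau c κ a ω1 - tau c κ a ω0| < 2 ^ ((κ + 3) * a - w) := by
              rw [hd, abs_mul, abs_of_pos (by positivity), hpw, mul_assoc, abs_sub_comm]
              have h5 : (0 : ℝ) < 2 ^ ((κ + 3) * a - w) := by positivity
              nlinarith only [ht, h5]
            rw [abs_lt] at hd2
            have f1 := Int.floor_le (tau c κ a ω1)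
            have f2 := Int.lt_floor_add_one (tau c κ a ω1)
            have f3 := Int.floor_le (tau c κ a ω0)
            have f4 := Int.lt_floor_add_one (tau c κ a ω0)
            rw [abs_le]
            constructor
            · have : ((-(2 ^ ((κ + 3) * a - w) : ℤ) : ℤ) : ℝ) <
                  ((⌊tau c κ a ω1⌋ - ⌊tau c κ a ω0⌋ + 1 : ℤ) : ℝ) := by
                push_cast
                linarith only [hd2, f2, f3]
              have := Int.cast_lt.1 this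
              omega
            · have : ((⌊tau c κ a ω1⌋ - ⌊tau c κ a ω0⌋ : ℤ) : ℝ) <
                  (((2 ^ ((κ + 3) * a - w) : ℤ) + 1 : ℤ) : ℝ) := by
                push_cast
                linarith only [hd2, f1, f4]
              have := Int.cast_lt.1 this
              omega
          rw [if_pos hc]
          apply le_of_eq
          ring
        · rw [if_neg ht]
          have := P.nn ω1
          split_ifs <;> positivity
      · rw [if_neg hk, if_neg hk]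
        simp only [ite_self, mul_zero, Std.le_refl]
  refine h1.trans ?_
  rw [P.ex_add, P.ex_const]
  have h4 : P.ex (fun ω => ktv P c κ a (key c a ω)) =
      ∑ s ∈ img (key c a), P.pr (key c a) s * ktv P c κ a s :=
    P.ex_comp (key c a) (fun s => ktv P c κ a s)
  rw [h4]
  linarith only [h0]

end kt

end Vale.Agent.P127.Stk
end

section

/-!
# P127 / Stk : main part of the step for `Γ` (PROOF.md, section 8): typical events and bins
-/

set_option autoImplicit false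

namespace Vale.Agent.P127.Stk

open Finset Vale.Agent.P127

section gen

variable {Ω Ω' : Type} [Fintype Ω] [Fintype Ω']

theorem cm_prE_mono (Q : Law Ω) {E F : Ω → Prop} (h : ∀ ω, 0 < Q.w ω → E ω → F ω) :
    prE Q E ≤ prE Q F := by
  classical
  unfold prE
  rw [Finset.sum_filter, Finset.sum_filter]
  refine Finset.sum_le_sum fun ω _ => ?_
  rcases (Q.nn ω).eq_or_lt with h0 | h0
  · rw [← h0]
    simp
  · by_cases hE : E ω
    · rw [if_pos hE, if_pos (h ω h0 hE)]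
    · rw [if_neg hE]
      split_ifs
      · exact h0.le
      · exact le_rfl

theorem cm_prE_or (Q : Law Ω) (E F : Ω → Prop) :
    prE Q (fun ω => E ω ∨ F ω) ≤ prE Q E + prE Q F := by
  classical
  unfold prE
  rw [Finset.sum_filter, Finset.sum_filter, Finset.sum_filter, ← Finset.sum_add_distrib]
  refine Finset.sum_le_sum fun ω _ => ?_
  have := Q.nn ω
  by_cases hE : E ω <;> by_cases hF : F ω <;> simp [hE, hF, this]

theorem cm_prE_exists {ι : Type} [Fintype ι] (Q : Law Ω) (E : ι → Ω → Prop) :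
    prE Q (fun ω => ∃ i, E i ω) ≤ ∑ i, prE Q (E i) := by
  classical
  unfold prE
  simp only [Finset.sum_filter]
  rw [Finset.sum_comm]
  refine Finset.sum_le_sum fun ω _ => ?_
  have h0 := Q.nn ω
  split_ifs with h
  · obtain ⟨i, hi⟩ := h
    have h1 : (if E i ω then Q.w ω else 0) ≤ ∑ i, if E i ω then Q.w ω else 0 :=
      Finset.single_le_sum (f := fun i => if E i ω then Q.w ω else 0)
        (fun j _ => by split_ifs <;> simp [h0]) (Finset.mem_univ i)
    rwa [if_pos hi] at h1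
  · exact Finset.sum_nonneg fun j _ => by split_ifs <;> simp [h0]

theorem cm_prE_dom (Q : Law Ω') (Q2 : Law Ω) (φ : Ω' → Ω) (K : ℝ)
    (h : ∀ v, Q.pr φ v ≤ K * Q2.w v) (B : Ω → Prop) :
    prE Q (fun ω => B (φ ω)) ≤ K * prE Q2 B := by
  classical
  unfold prE
  rw [Finset.mul_sum, Finset.sum_filter, Finset.sum_filter]
  have h1 : ∑ ω, (if B (φ ω) then Q.w ω else 0) =
      ∑ v, ∑ ω with φ ω = v, (if B (φ ω) then Q.w ω else 0) :=
    (Finset.sum_fiberwise_of_maps_to (fun _ _ => Finset.mem_univ _) _).symm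
  rw [h1]
  refine Finset.sum_le_sum fun v _ => ?_
  by_cases hB : B v
  · rw [if_pos hB]
    refine le_trans (le_of_eq ?_) (h v)
    unfold Law.pr
    refine Finset.sum_congr (by ext ω; simp only [mem_filter, mem_univ, true_and]) fun ω hω => ?_
    have h2 : φ ω = v := by simpa only [mem_filter, mem_univ, true_and] using hω
    rw [if_pos (h2 ▸ hB)]
  · rw [if_neg hB]
    refine le_of_eq (Finset.sum_eq_zero fun ω hω => ?_)
    have h2 : φ ω = v := by simpa only [mem_filter, mem_univ, true_and] using hω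
    rw [if_neg (fun h3 => hB (h2 ▸ h3))]

end gen

section fam

variable {Ω Ω' : Type} [Fintype Ω] [Fintype Ω'] {m κ k : ℕ}

theorem cm_cost_mono {a : ℕ} {K cost cost' : ℝ} {P : Law Ω} {c : Cf Ω m} {o : Ob Ω m κ}
    {Q : Law Ω'} {π : CI k → Ω' → Ω} (h : CubeFam a k K cost P c o Q π) (hc : cost ≤ cost') :
    CubeFam a k K cost' P c o Q π :=
  ⟨h.keys, h.dom, h.pair, h.node, h.cost.trans hc, h.cube⟩

theorem cm_K_mono {a : ℕ} {K K' cost : ℝ} {P : Law Ω} {c : Cf Ω m} {o : Ob Ω m κ}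
    {Q : Law Ω'} {π : CI k → Ω' → Ω} (h : CubeFam a k K cost P c o Q π) (hK : K ≤ K') :
    CubeFam a k K' cost P c o Q π :=
  ⟨h.keys, fun i => (h.dom i).mono hK,
    fun S hS w => (h.pair S hS w).trans (mul_le_mul_of_nonneg_right hK (cw_nn_aux _ _ _ _)),
    fun S w => (h.node S w).trans (mul_le_mul_of_nonneg_right hK (cw_nn_aux _ _ _ _)),
    h.cost, h.cube⟩

theorem cm_hyp_mono {h : ℝ} {a : ℕ} {ι εu ι' εu' e C : ℝ} {P : Law Ω} {c : Cf Ω m}
    {o : Ob Ω m κ} (hH : Hyp h κ a ι εu e C P c o) (h1 : ι ≤ ι') (h2 : εu ≤ εu') :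
    Hyp h κ a ι' εu' e C P c o where
  good := hH.good
  cost := hH.cost.trans (mul_le_mul_of_nonneg_right h1 (Nat.cast_nonneg _))
  rate := by
    refine hH.rate.trans ?_
    refine mul_le_mul_of_nonneg_right (mul_le_mul_of_nonneg_right (by linarith)
      (Nat.cast_nonneg _)) (Real.log_nonneg (by norm_num))
  unif := by
    have := hH.unif
    linarith

/-- the alternating sum of the sizes -/
theorem cm_alt (p : ℕ) (hp : 0 < p) : ∑ S : Finset (Fin p), (-1 : ℝ) ^ S.card = 0 := by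
  have : Nonempty (Fin p) := ⟨⟨0, hp⟩⟩
  have h := Finset.sum_powerset_neg_one_pow_card_of_nonempty
    (Finset.univ_nonempty (α := Fin p))
  rw [Finset.powerset_univ] at h
  exact_mod_cast h

theorem cm_cS_le {a w : ℕ} {c : Cf Ω m} {o : Ob Ω m κ} {π : CI k → Ω' → Ω} {ω : Ω'}
    (ht : CTyp a w c o π ω) (hw : w + (k + 2) ≤ a) {i j : Fin m} (hi : i ∉ o.J)
    (hj : j ∈ o.J) : |cS o π ω i j| ≤ 1 := by
  have h1 : cS o π ω i j = ∑ S : Finset (Fin (k + 2)), (-1 : ℝ) ^ S.card *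
      (o.Γ (π (Sum.inl S) ω) i j - o.Γ (π (vb k) ω) i j) := by
    unfold cS
    simp only [mul_sub, Finset.sum_sub_distrib]
    rw [← Finset.sum_mul, cm_alt (k + 2) (by omega)]
    ring
  rw [h1]
  refine (Finset.abs_sum_le_sum_abs _ _).trans ?_
  have h2 : ∀ S : Finset (Fin (k + 2)), |(-1 : ℝ) ^ S.card *
      (o.Γ (π (Sum.inl S) ω) i j - o.Γ (π (vb k) ω) i j)| ≤ (1 / 2) ^ (k + 2) := by
    intro S
    rw [abs_mul, abs_pow, abs_neg, abs_one, one_pow, one_mul]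
    have h3 := ht.gam S i j hi hj
    have h4 : (2 : ℝ) ^ (k + 2) * 2 ^ w ≤ 2 ^ a := by
      rw [← pow_add]
      exact pow_le_pow_right₀ (by norm_num) (by omega)
    have h5 : (0 : ℝ) < 2 ^ w := by positivity
    have h6 : (0 : ℝ) < 2 ^ (k + 2) := by positivity
    have h7 := abs_nonneg (o.Γ (π (Sum.inl S) ω) i j - o.Γ (π (vb k) ω) i j)
    rw [one_div, inv_pow, ← one_div, le_div_iff₀ h6]
    have h8 : 2 ^ w * (|o.Γ (π (Sum.inl S) ω) i j - o.Γ (π (vb k) ω) i j| * 2 ^ (k + 2)) ≤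
        2 ^ w * 1 := by
      calc 2 ^ w * (|o.Γ (π (Sum.inl S) ω) i j - o.Γ (π (vb k) ω) i j| * 2 ^ (k + 2))
          = (2 ^ (k + 2) * 2 ^ w) * |o.Γ (π (Sum.inl S) ω) i j - o.Γ (π (vb k) ω) i j| := by
            ring
        _ ≤ 2 ^ a * |o.Γ (π (Sum.inl S) ω) i j - o.Γ (π (vb k) ω) i j| :=
            mul_le_mul_of_nonneg_right h4 h7
        _ ≤ 2 ^ w * 1 := by rw [mul_one]; exact h3
    exact le_of_mul_le_mul_left h8 h5
  refine (Finset.sum_le_sum fun S _ => h2 S).trans ?_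
  rw [Finset.sum_const, Finset.card_univ, Fintype.card_finset, Fintype.card_fin, nsmul_eq_mul]
  push_cast
  rw [← mul_pow]
  norm_num

/-- the bin of a bad point -/
theorem cm_bin {a w : ℕ} {c : Cf Ω m} {o : Ob Ω m κ} {π : CI k → Ω' → Ω} {ω : Ω'}
    (ht : CTyp a w c o π ω) (hw : w + (k + 2) ≤ a) (hw0 : 0 < w) {v : ℝ}
    (hb : cBad o π ((2 : ℝ) ^ (-v)) ω) :
    ∃ (b : ℕ) (i0 j0 : Fin m), CBin (w * b) w i0 j0 o π ω ∧ ((w * b : ℕ) : ℝ) ≤ v := by
  classical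
  obtain ⟨i, hi, j, hj, hij⟩ := hb
  set s : Finset (Fin m × Fin m) := univ.filter fun p => p.1 ∉ o.J ∧ p.2 ∈ o.J with hs
  obtain ⟨p, hp, hmax⟩ := s.exists_max_image (fun p => |cS o π ω p.1 p.2|)
    ⟨(i, j), by simp only [hs, mem_filter, mem_univ, hi, not_false_eq_true, hj, and_self]⟩
  have hp' : p.1 ∉ o.J ∧ p.2 ∈ o.J := by simpa only [hs, mem_filter, mem_univ, true_and] using hp
  set M := |cS o π ω p.1 p.2| with hM
  have h1 : (2 : ℝ) ^ (-v) < M := hij.trans_le (hmax (i, j) (by simp only [hs, mem_filter, mem_univ, hi, not_false_eq_true, hj, and_self]))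
  have hM0 : 0 < M := (Real.rpow_pos_of_pos (by norm_num) _).trans h1
  have hM1 : M ≤ 1 := cm_cS_le ht hw hp'.1 hp'.2
  -- the logarithm
  set u : ℝ := -Real.logb 2 M with hu
  have hu0 : 0 ≤ u := by
    rw [hu, neg_nonneg]
    exact Real.logb_nonpos (by norm_num) hM0.le hM1
  have huM : (2 : ℝ) ^ u = M⁻¹ := by
    rw [hu, Real.rpow_neg (by norm_num), Real.rpow_logb (by norm_num) (by norm_num) hM0]
  have huv : u < v := by
    by_contra hcon
    push Not at hcon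
    have h2 : (2 : ℝ) ^ v ≤ M⁻¹ := by
      rw [← huM]
      exact Real.rpow_le_rpow_of_exponent_le (by norm_num) hcon
    have h3 : M ≤ (2 : ℝ) ^ (-v) := by
      rw [Real.rpow_neg (by norm_num)]
      exact (le_inv_comm₀ (Real.rpow_pos_of_pos (by norm_num) _) hM0).1 h2
    linarith only [h1, h3]
  have hw0' : (0 : ℝ) < w := by exact_mod_cast hw0
  set b : ℕ := ⌊u / w⌋₊ with hb
  have hb1 : ((w * b : ℕ) : ℝ) ≤ u := by
    have := Nat.floor_le (div_nonneg hu0 hw0'.le)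
    rw [← hb, le_div_iff₀ hw0'] at this
    push_cast
    linarith only [this]
  have hb2 : u < ((w * b + w : ℕ) : ℝ) := by
    have := Nat.lt_floor_add_one (u / w)
    rw [← hb, div_lt_iff₀ hw0'] at this
    push_cast
    linarith only [this]
  refine ⟨b, p.1, p.2, ⟨hp'.1, hp'.2, ?_, ?_, ?_⟩, hb1.trans huv.le⟩
  · intro i j hi hj
    exact hmax (i, j) (by simp only [hs, mem_filter, mem_univ, hi, not_false_eq_true, hj, and_self])
  · have h2 : (2 : ℝ) ^ (w * b) ≤ M⁻¹ := by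
      rw [← huM, ← Real.rpow_natCast]
      exact Real.rpow_le_rpow_of_exponent_le (by norm_num) hb1
    calc (2 : ℝ) ^ (w * b) * |cS o π ω p.1 p.2| ≤ M⁻¹ * M :=
          mul_le_mul_of_nonneg_right h2 hM0.le
      _ = 1 := inv_mul_cancel₀ hM0.ne'
  · have h2 : M⁻¹ < (2 : ℝ) ^ (w * b + w) := by
      rw [← huM, ← Real.rpow_natCast]
      exact Real.rpow_lt_rpow_of_exponent_lt (by norm_num) hb2
    calc (1 : ℝ) = M⁻¹ * M := (inv_mul_cancel₀ hM0.ne').symm
      _ < (2 : ℝ) ^ (w * b + w) * |cS o π ω p.1 p.2| := mul_lt_mul_of_pos_right h2 hM0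

/-- the conclusion of `CK` -/
def cmE (k : ℕ) (ε : ℝ) (a : ℕ) (Ω : Type) [Fintype Ω] (P : Law Ω) (c : Cf Ω m)
    (o : Ob Ω m κ) : Prop :=
  ∀ Q : Law (Fin (k + 2) → Ω), (∀ w, Q.w w = cw P (key c a) (k + 1) w) →
    prE Q (fun w => ∃ i, i ∉ o.J ∧ ∃ j ∈ o.J,
          (2 : ℝ) ^ (-(((k + 1) * a : ℕ) : ℝ) + ε * ((κ + 4) * a : ℕ)) <
            |o.Γ (w (Fin.last (k + 1))) i j -
              ∑ l : Fin (k + 1), lag c.t w l * o.Γ (w l.castSucc) i j|) ≤ ε

theorem cm_CK {R : Gr} {h : ℝ} (hC : CK R m h κ k) :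
    Ev R m h κ (fun ε a Ω _ P c o => cmE k ε a Ω P c o) := by
  intro ε hε
  obtain ⟨ι, h1, εu, h2, h3⟩ := hC ε hε
  refine ⟨ι, h1, εu, h2, fun g => ?_⟩
  obtain ⟨n, hn⟩ := h3 g
  refine ⟨n, fun a e C hok Ω _ P c o hH Q hQ => ?_⟩
  have h4 := hn a e C hok Ω P c o hH Q hQ
  unfold prE
  convert h4

/-- powers -/
theorem cm_pow {a w : ℕ} {ε L x : ℝ} (hw : ε * L ≤ w) (hx : (2 : ℝ) ^ w < 2 ^ a * x) :
    (2 : ℝ) ^ (-(a : ℝ) + ε * L) < x := by
  have h1 : (2 : ℝ) ^ (-(a : ℝ) + ε * L) ≤ (2 : ℝ) ^ (-(a : ℝ)) * 2 ^ w := by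
    rw [Real.rpow_add (by norm_num)]
    refine mul_le_mul_of_nonneg_left ?_ (Real.rpow_pos_of_pos (by norm_num) _).le
    rw [← Real.rpow_natCast]
    exact Real.rpow_le_rpow_of_exponent_le (by norm_num) hw
  refine h1.trans_lt ?_
  rw [Real.rpow_neg (by norm_num), Real.rpow_natCast, inv_mul_lt_iff₀ (by positivity)]
  exact hx

theorem cm_gam {a w : ℕ} {K cost ε0 : ℝ} {P : Law Ω} {c : Cf Ω m} {o : Ob Ω m κ} {Q : Law Ω'}
    {π : CI k → Ω' → Ω} (hf : CubeFam a k K cost P c o Q π) (hK : 0 ≤ K)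
    (hC : cmE 0 ε0 a Ω P c o) (hw : ε0 * ((κ + 4) * a : ℕ) ≤ w) (S : Finset (Fin (k + 2)))
    (hS : S ≠ ∅) :
    prE Q (fun ω => ∃ i, i ∉ o.J ∧ ∃ j ∈ o.J, (2 : ℝ) ^ w <
      2 ^ a * |o.Γ (π (Sum.inl S) ω) i j - o.Γ (π (vb k) ω) i j|) ≤ K * ε0 := by
  obtain ⟨Q2, hQ2⟩ := cw_exists P (key c a) (0 + 1)
  have h1 := hC Q2 hQ2
  have h2 := cm_prE_dom Q Q2 (fun ω => ![π (vb k) ω, π (Sum.inl S) ω]) K
    (fun v => by rw [hQ2]; exact hf.pair S hS v)
    (fun w => ∃ i, i ∉ o.J ∧ ∃ j ∈ o.J,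
          (2 : ℝ) ^ (-(((0 + 1) * a : ℕ) : ℝ) + ε0 * ((κ + 4) * a : ℕ)) <
            |o.Γ (w (Fin.last (0 + 1))) i j -
              ∑ l : Fin (0 + 1), lag c.t w l * o.Γ (w l.castSucc) i j|)
  refine le_trans (cm_prE_mono Q ?_) (h2.trans (mul_le_mul_of_nonneg_left h1 hK))
  rintro ω _ ⟨i, hi, j, hj, hij⟩
  refine ⟨i, hi, j, hj, ?_⟩
  have h3 := cm_pow (ε := ε0) (L := ((κ + 4) * a : ℕ)) hw hij
  have e1 : (0 + 1) * a = a := by ring
  rw [e1]
  refine h3.trans_le (le_of_eq ?_)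
  rw [Fin.sum_univ_one]
  have h4 : ∀ t : Ω → ℝ, ∀ w : Fin (0 + 2) → Ω, lag t w 0 = 1 := by
    intro t w
    unfold lag
    rw [Finset.prod_eq_one]
    intro l hl
    exact absurd (Subsingleton.elim (α := Fin 1) _ _) (Finset.mem_erase.1 hl).1
  rw [h4, one_mul]
  rfl

theorem cm_pol {a w : ℕ} {K cost ε0 : ℝ} {P : Law Ω} {c : Cf Ω m} {o : Ob Ω m κ} {Q : Law Ω'}
    {π : CI k → Ω' → Ω} (hf : CubeFam a k K cost P c o Q π) (hK : 0 ≤ K)
    (hC : cmE k ε0 a Ω P c o) (hw : ε0 * ((κ + 4) * a : ℕ) ≤ w) (S : Finset (Fin (k + 2))) :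
    prE Q (fun ω => ∃ i, i ∉ o.J ∧ ∃ j ∈ o.J, (2 : ℝ) ^ w <
      2 ^ ((k + 1) * a) * |o.Γ (π (Sum.inl S) ω) i j - cg c o π ω S i j|) ≤ K * ε0 := by
  obtain ⟨Q2, hQ2⟩ := cw_exists P (key c a) (k + 1)
  have h1 := hC Q2 hQ2
  have h2 := cm_prE_dom Q Q2
    (fun ω => (Fin.snoc (fun l => π (Sum.inr l) ω) (π (Sum.inl S) ω) : Fin (k + 2) → Ω)) K
    (fun v => by rw [hQ2]; exact hf.node S v)
    (fun w => ∃ i, i ∉ o.J ∧ ∃ j ∈ o.J,
          (2 : ℝ) ^ (-(((k + 1) * a : ℕ) : ℝ) + ε0 * ((κ + 4) * a : ℕ)) <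
            |o.Γ (w (Fin.last (k + 1))) i j -
              ∑ l : Fin (k + 1), lag c.t w l * o.Γ (w l.castSucc) i j|)
  refine le_trans (cm_prE_mono Q ?_) (h2.trans (mul_le_mul_of_nonneg_left h1 hK))
  rintro ω _ ⟨i, hi, j, hj, hij⟩
  refine ⟨i, hi, j, hj, ?_⟩
  refine (cm_pow (ε := ε0) (L := ((κ + 4) * a : ℕ)) hw hij).trans_le (le_of_eq ?_)
  unfold cg lag
  simp only [Fin.snoc_last, Fin.snoc_castSucc]

/-- separation of the nodes, from the separation of two copies -/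
theorem cm_sep {a w : ℕ} {K cost B : ℝ} {P : Law Ω} {c : Cf Ω m} {o : Ob Ω m κ} {Q : Law Ω'}
    {π : CI k → Ω' → Ω} (hf : CubeFam a k K cost P c o Q π) (hK : 0 ≤ K)
    (hB : ∀ Q2 : Law (Fin 2 → Ω), (∀ v, Q2.w v = cw P (key c a) 1 v) →
      prE Q2 (fun v => (2 : ℝ) ^ (a + w) * |c.t (v 0) - c.t (v 1)| < 1) ≤ B)
    (l l' : Fin (k + 1)) (hl : l ≠ l') :
    prE Q (fun ω => (2 : ℝ) ^ (a + w) * |c.t (π (Sum.inr l) ω) - c.t (π (Sum.inr l') ω)| < 1) ≤
      K * B := by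
  obtain ⟨Q2, hQ2⟩ := cw_exists P (key c a) (k + 1)
  obtain ⟨Q3, hQ3⟩ := cw_exists P (key c a) 1
  have h1 := hB Q3 hQ3
  have he : Function.Injective (![l.castSucc, l'.castSucc] : Fin 2 → Fin (k + 2)) := by
    intro x y hxy
    fin_cases x <;> fin_cases y
    · rfl
    · exact absurd (Fin.castSucc_injective _ hxy) hl
    · exact absurd (Fin.castSucc_injective _ hxy) hl.symm
    · rfl
  have h2 := cm_prE_dom Q Q2
    (fun ω => (Fin.snoc (fun l => π (Sum.inr l) ω) (π (Sum.inl ∅) ω) : Fin (k + 2) → Ω)) K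
    (fun v => by rw [hQ2]; exact hf.node ∅ v)
    (fun v => (2 : ℝ) ^ (a + w) * |c.t (v l.castSucc) - c.t (v l'.castSucc)| < 1)
  have h3 := cm_prE_dom Q2 Q3 (fun v => v ∘ (![l.castSucc, l'.castSucc] : Fin 2 → Fin (k + 2))) 1
    (fun v => by rw [hQ3, one_mul]; exact (cw_sub hQ2 _ he v).le)
    (fun v => (2 : ℝ) ^ (a + w) * |c.t (v 0) - c.t (v 1)| < 1)
  rw [one_mul] at h3
  simp only [Fin.snoc_castSucc] at h2
  exact h2.trans (mul_le_mul_of_nonneg_left (h3.trans h1) hK)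

theorem cm_typ {a w : ℕ} {K cost ε0 B : ℝ} {P : Law Ω} {c : Cf Ω m} {o : Ob Ω m κ}
    {Q : Law Ω'} {π : CI k → Ω' → Ω} (hf : CubeFam a k K cost P c o Q π) (hK : 0 ≤ K)
    (hC0 : cmE 0 ε0 a Ω P c o) (hC : cmE k ε0 a Ω P c o)
    (hw : ε0 * ((κ + 4) * a : ℕ) ≤ w) (hε0 : 0 ≤ ε0) (hB0 : 0 ≤ B)
    (hB : ∀ Q2 : Law (Fin 2 → Ω), (∀ v, Q2.w v = cw P (key c a) 1 v) →
      prE Q2 (fun v => (2 : ℝ) ^ (a + w) * |c.t (v 0) - c.t (v 1)| < 1) ≤ B) :
    prE Q (fun ω => ¬ CTyp a w c o π ω) ≤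
      (k + 1) ^ 2 * (K * B) + 2 * (2 ^ (k + 2) * (K * ε0)) := by
  classical
  -- the three kinds of violations
  have hKB : 0 ≤ K * B := mul_nonneg hK hB0
  have hKe : 0 ≤ K * ε0 := mul_nonneg hK hε0
  have h1 : prE Q (fun ω => ∃ l : Fin (k + 1) × Fin (k + 1), l.1 ≠ l.2 ∧
      (2 : ℝ) ^ (a + w) * |c.t (π (Sum.inr l.1) ω) - c.t (π (Sum.inr l.2) ω)| < 1) ≤
      (k + 1) ^ 2 * (K * B) := by
    refine (cm_prE_exists Q _).trans ?_
    have h2 : ∀ l : Fin (k + 1) × Fin (k + 1), prE Q (fun ω => l.1 ≠ l.2 ∧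
      (2 : ℝ) ^ (a + w) * |c.t (π (Sum.inr l.1) ω) - c.t (π (Sum.inr l.2) ω)| < 1) ≤ K * B := by
      intro l
      by_cases hl : l.1 = l.2
      · refine le_trans (cm_prE_mono Q (F := fun _ => False) ?_) ?_
        · intro ω _ h
          exact h.1 hl
        · unfold prE
          simpa only [filter_false, sum_empty] using hKB
      · exact (cm_prE_mono Q fun ω _ h => h.2).trans (cm_sep hf hK hB l.1 l.2 hl)
    refine (Finset.sum_le_sum fun l _ => h2 l).trans (le_of_eq ?_)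
    rw [Finset.sum_const, Finset.card_univ, Fintype.card_prod, Fintype.card_fin, nsmul_eq_mul]
    push_cast
    ring
  have h3 : prE Q (fun ω => ∃ S : Finset (Fin (k + 2)), ∃ i, i ∉ o.J ∧ ∃ j ∈ o.J,
      (2 : ℝ) ^ w < 2 ^ a * |o.Γ (π (Sum.inl S) ω) i j - o.Γ (π (vb k) ω) i j|) ≤
      2 ^ (k + 2) * (K * ε0) := by
    refine (cm_prE_exists Q _).trans ?_
    have h2 : ∀ S : Finset (Fin (k + 2)), prE Q (fun ω => ∃ i, i ∉ o.J ∧ ∃ j ∈ o.J,
      (2 : ℝ) ^ w < 2 ^ a * |o.Γ (π (Sum.inl S) ω) i j - o.Γ (π (vb k) ω) i j|) ≤ K * ε0 := by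
      intro S
      by_cases hS : S = ∅
      · refine le_trans (cm_prE_mono Q (F := fun _ => False) ?_) ?_
        · rintro ω _ ⟨i, _, j, _, h⟩
          rw [hS] at h
          have h4 : (0 : ℝ) < 2 ^ w := by positivity
          have h5 : o.Γ (π (Sum.inl ∅) ω) i j - o.Γ (π (vb k) ω) i j = 0 := sub_self _
          rw [h5, abs_zero, mul_zero] at h
          linarith only [h, h4]
        · unfold prE
          simpa only [filter_false, sum_empty] using hKe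
      · exact cm_gam hf hK hC0 hw S hS
    refine (Finset.sum_le_sum fun l _ => h2 l).trans (le_of_eq ?_)
    rw [Finset.sum_const, Finset.card_univ, Fintype.card_finset, Fintype.card_fin, nsmul_eq_mul]
    push_cast
    ring
  have h5 : prE Q (fun ω => ∃ S : Finset (Fin (k + 2)), ∃ i, i ∉ o.J ∧ ∃ j ∈ o.J,
      (2 : ℝ) ^ w < 2 ^ ((k + 1) * a) * |o.Γ (π (Sum.inl S) ω) i j - cg c o π ω S i j|) ≤
      2 ^ (k + 2) * (K * ε0) := by
    refine (cm_prE_exists Q _).trans ?_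
    refine (Finset.sum_le_sum fun S _ => cm_pol hf hK hC hw S).trans (le_of_eq ?_)
    rw [Finset.sum_const, Finset.card_univ, Fintype.card_finset, Fintype.card_fin, nsmul_eq_mul]
    push_cast
    ring
  refine le_trans (cm_prE_mono Q (F := fun ω =>
    (∃ l : Fin (k + 1) × Fin (k + 1), l.1 ≠ l.2 ∧
      (2 : ℝ) ^ (a + w) * |c.t (π (Sum.inr l.1) ω) - c.t (π (Sum.inr l.2) ω)| < 1) ∨
    ((∃ S : Finset (Fin (k + 2)), ∃ i, i ∉ o.J ∧ ∃ j ∈ o.J,
      (2 : ℝ) ^ w < 2 ^ a * |o.Γ (π (Sum.inl S) ω) i j - o.Γ (π (vb k) ω) i j|) ∨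
    (∃ S : Finset (Fin (k + 2)), ∃ i, i ∉ o.J ∧ ∃ j ∈ o.J,
      (2 : ℝ) ^ w < 2 ^ ((k + 1) * a) * |o.Γ (π (Sum.inl S) ω) i j - cg c o π ω S i j|))) ?_) ?_
  · intro ω _ hω
    by_contra hcon
    push Not at hcon
    obtain ⟨c1, c2, c3⟩ := hcon
    exact hω ⟨fun l l' hl => c1 (l, l') hl, fun S i j hi hj => c2 S i hi j hj,
      fun S i j hi hj => c3 S i hi j hj⟩
  · have h6 := cm_prE_or Q (fun ω => ∃ l : Fin (k + 1) × Fin (k + 1), l.1 ≠ l.2 ∧
      (2 : ℝ) ^ (a + w) * |c.t (π (Sum.inr l.1) ω) - c.t (π (Sum.inr l.2) ω)| < 1)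
      (fun ω => (∃ S : Finset (Fin (k + 2)), ∃ i, i ∉ o.J ∧ ∃ j ∈ o.J,
        (2 : ℝ) ^ w < 2 ^ a * |o.Γ (π (Sum.inl S) ω) i j - o.Γ (π (vb k) ω) i j|) ∨
      (∃ S : Finset (Fin (k + 2)), ∃ i, i ∉ o.J ∧ ∃ j ∈ o.J,
        (2 : ℝ) ^ w < 2 ^ ((k + 1) * a) * |o.Γ (π (Sum.inl S) ω) i j - cg c o π ω S i j|))
    have h7 := cm_prE_or Q (fun ω => ∃ S : Finset (Fin (k + 2)), ∃ i, i ∉ o.J ∧ ∃ j ∈ o.J,
        (2 : ℝ) ^ w < 2 ^ a * |o.Γ (π (Sum.inl S) ω) i j - o.Γ (π (vb k) ω) i j|)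
      (fun ω => ∃ S : Finset (Fin (k + 2)), ∃ i, i ∉ o.J ∧ ∃ j ∈ o.J,
        (2 : ℝ) ^ w < 2 ^ ((k + 1) * a) * |o.Γ (π (Sum.inl S) ω) i j - cg c o π ω S i j|)
    linarith only [h1, h3, h5, h6, h7]

/-- pigeonhole over the bins -/
theorem cm_pigeon {ι : Type} [Fintype ι] (Q : Law Ω) (E : ι → Ω → Prop) {x y : ℝ}
    (hx : x < prE Q (fun ω => ∃ i, E i ω)) (hy : (Fintype.card ι : ℝ) * y ≤ x) :
    ∃ i, y ≤ prE Q (E i) := by
  by_contra hcon
  push Not at hcon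
  have h1 := cm_prE_exists Q E
  have h2 : ∑ i, prE Q (E i) ≤ (Fintype.card ι : ℝ) * y := by
    refine (Finset.sum_le_sum fun i _ => (hcon i).le).trans (le_of_eq ?_)
    rw [Finset.sum_const, Finset.card_univ, nsmul_eq_mul]
  linarith only [hx, hy, h1, h2]

/-- the event of bad typical points contains a large bin -/
theorem cm_find {a w Nb : ℕ} {c : Cf Ω m} {o : Ob Ω m κ} {Q : Law Ω'} {π : CI k → Ω' → Ω}
    {v ε1 q : ℝ} (hw : w + (k + 2) ≤ a) (hw0 : 0 < w) (hNb : v < (w : ℝ) * Nb)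
    (hq : prE Q (fun ω => ¬ CTyp a w c o π ω) ≤ q)
    (hb : ε1 + q < prE Q (cBad o π ((2 : ℝ) ^ (-v)))) (hε1 : 0 < ε1) :
    ∃ (b : ℕ) (i0 j0 : Fin m), ((w * b : ℕ) : ℝ) ≤ v ∧
      ε1 / (Nb * (m * m) + 1) ≤
        prE Q (fun ω => CTyp a w c o π ω ∧ CBin (w * b) w i0 j0 o π ω) := by
  have h1 : ε1 < prE Q (fun ω => ∃ p : Fin Nb × (Fin m × Fin m), ((w * p.1.val : ℕ) : ℝ) ≤ v ∧
      (CTyp a w c o π ω ∧ CBin (w * p.1.val) w p.2.1 p.2.2 o π ω)) := by
    have h2 : prE Q (cBad o π ((2 : ℝ) ^ (-v))) ≤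
        prE Q (fun ω => (∃ p : Fin Nb × (Fin m × Fin m), ((w * p.1.val : ℕ) : ℝ) ≤ v ∧
          (CTyp a w c o π ω ∧ CBin (w * p.1.val) w p.2.1 p.2.2 o π ω)) ∨ ¬ CTyp a w c o π ω) := by
      refine cm_prE_mono Q fun ω _ hω => ?_
      by_cases ht : CTyp a w c o π ω
      · left
        obtain ⟨b, i0, j0, h3, h4⟩ := cm_bin ht hw hw0 hω
        have hw0' : (0 : ℝ) < w := by exact_mod_cast hw0
        have h5 : b < Nb := by
          have h6 : (w : ℝ) * b < w * Nb := by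
            have : ((w * b : ℕ) : ℝ) = w * b := by push_cast; ring
            linarith only [hNb, h4, this]
          exact_mod_cast lt_of_mul_lt_mul_left h6 hw0'.le
        exact ⟨(⟨b, h5⟩, (i0, j0)), h4, ht, h3⟩
      · exact Or.inr ht
    have h3 := cm_prE_or Q (fun ω => ∃ p : Fin Nb × (Fin m × Fin m),
      ((w * p.1.val : ℕ) : ℝ) ≤ v ∧
          (CTyp a w c o π ω ∧ CBin (w * p.1.val) w p.2.1 p.2.2 o π ω))
      (fun ω => ¬ CTyp a w c o π ω)
    linarith only [hq, hb, h2, h3]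
  have hd : (0 : ℝ) < Nb * (m * m) + 1 := by (clear * -; positivity)
  obtain ⟨p, hp⟩ := cm_pigeon Q _ (y := ε1 / (Nb * (m * m) + 1)) h1 (by
    rw [Fintype.card_prod, Fintype.card_prod, Fintype.card_fin, Fintype.card_fin]
    push_cast
    rw [← mul_div_assoc, div_le_iff₀ hd]
    nlinarith only [hε1])
  have hy : 0 < ε1 / (Nb * (m * m) + 1) := div_pos hε1 hd
  have hv : ((w * p.1.val : ℕ) : ℝ) ≤ v := by
    by_contra hcon
    have h4 : prE Q (fun ω => ((w * p.1.val : ℕ) : ℝ) ≤ v ∧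
      (CTyp a w c o π ω ∧ CBin (w * p.1.val) w p.2.1 p.2.2 o π ω)) ≤ 0 := by
      refine le_trans (cm_prE_mono Q (F := fun _ => False) fun ω _ h => hcon h.1) ?_
      unfold prE
      simp
    linarith
  exact ⟨p.1.val, p.2.1, p.2.2, hv, hp.trans (cm_prE_mono Q fun ω _ h => h.2)⟩

end fam

section main

/-- choice of the slack -/
theorem cm_slack {κ k a : ℕ} {g : ℝ} (hkκ : k ≤ κ) (hg : 0 < g) (hg1 : g ≤ 1 / (8 * (κ + 4)))
    (hL : 1 ≤ g / 2 * ((κ + 4) * a : ℕ))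
    (hL2 : (1 : ℝ) ≤ 1 / (2 * (κ + 4) * (κ + 2)) * ((κ + 4) * a : ℕ)) :
    ∃ w : ℕ, 0 < w ∧ g / 2 * ((κ + 4) * a : ℕ) ≤ w ∧ (w : ℝ) ≤ g * ((κ + 4) * a : ℕ) ∧
      w + (k + 2) ≤ a ∧ g * ((κ + 4) * a : ℕ) < w + 1 := by
  set L : ℝ := (((κ + 4) * a : ℕ) : ℝ) with hLd
  have hL0 : 0 ≤ L := Nat.cast_nonneg _
  have hκ : (0 : ℝ) ≤ κ := Nat.cast_nonneg _
  have h1 : (⌊g * L⌋₊ : ℝ) ≤ g * L := Nat.floor_le (by positivity)
  have h2 : g * L < ⌊g * L⌋₊ + 1 := Nat.lt_floor_add_one _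
  have h3 : g / 2 * L ≤ ⌊g * L⌋₊ := by linarith only [hL, h2]
  have h4 : (0 : ℝ) < ⌊g * L⌋₊ := by linarith only [hL, h2]
  have hLa : L = (κ + 4) * a := by rw [hLd]; push_cast; ring
  refine ⟨⌊g * L⌋₊, by exact_mod_cast h4, h3, h1, ?_, h2⟩
  have h5 : g * L ≤ a / 8 := by
    rw [hLa]
    calc g * ((κ + 4) * a) ≤ 1 / (8 * (κ + 4)) * ((κ + 4) * a) := by
          refine mul_le_mul_of_nonneg_right hg1 (by (clear * -; positivity))
      _ = a / 8 := by
          (clear * -; field_simp)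
  have h6 : (2 : ℝ) * (κ + 2) ≤ a := by
    rw [hLa] at hL2
    have h7 : 1 / (2 * ((κ : ℝ) + 4) * (κ + 2)) * ((κ + 4) * a) = a / (2 * (κ + 2)) := by
      (clear * -; field_simp)
    rw [h7, le_div_iff₀ (by positivity)] at hL2
    linarith only [hL2]
  have h8 : (k : ℝ) ≤ κ := by exact_mod_cast hkκ
  have h9 : ((⌊g * L⌋₊ + (k + 2) : ℕ) : ℝ) ≤ a := by
    push_cast
    linarith only [h1, h5, h6, h8]
  exact_mod_cast h9

theorem pcmain {R : Gr} (hcore : PCCore R) : PCMain R := by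
  intro m h κ k hkκ hLB hNK hC0 hR hCk K0 ε1 hε1
  have hκ : (0 : ℝ) ≤ κ := Nat.cast_nonneg _
  have hk : (0 : ℝ) ≤ k := Nat.cast_nonneg _
  -- parameters
  obtain ⟨g0, hg0, hcore⟩ := hcore m h κ k hkκ hLB hNK hR (ε1 / 2) (by (clear * - hε1; positivity))
  obtain ⟨g, hg, hgg0, hgε, hgκ⟩ : ∃ g : ℝ, 0 < g ∧ g ≤ g0 ∧ g ≤ ε1 / 12 ∧
      g ≤ 1 / (8 * (κ + 4)) :=
    ⟨min g0 (min (ε1 / 12) (1 / (8 * (κ + 4)))), by (clear * - hg0 hε1; positivity), min_le_left _ _,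
      (min_le_right _ _).trans (min_le_left _ _), (min_le_right _ _).trans (min_le_right _ _)⟩
  set Nb : ℕ := ⌈2 / g⌉₊ + 1 with hNb
  set p0 : ℝ := ε1 / 2 / (Nb * (m * m) + 1) with hp0d
  have hp0 : 0 < p0 := by (clear * - hε1 hg; positivity)
  obtain ⟨ι1', hι1', ι', hι', εu', hεu', hcore⟩ := hcore g hg hgg0 (K0 / p0)
  set K1 : ℝ := max K0 1 with hK1d
  have hK1 : 1 ≤ K1 := le_max_right _ _
  set ε0 : ℝ := min (g / 2) (ε1 / (12 * (2 ^ (k + 2) * K1))) with hε0d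
  have hε0 : 0 < ε0 := by (clear * - hg hε1; positivity)
  have hε0g : ε0 ≤ g / 2 := min_le_left _ _
  have hε01 : 2 * (2 ^ (k + 2) * (K1 * ε0)) ≤ ε1 / 6 := by
    have h1 : ε0 ≤ ε1 / (12 * (2 ^ (k + 2) * K1)) := min_le_right _ _
    rw [le_div_iff₀ (by (clear * -; positivity))] at h1
    (clear * - h1; linarith)
  obtain ⟨ιa, hιa, εa, hεa, hCa⟩ := cm_CK hC0 ε0 hε0
  obtain ⟨ιb, hιb, εb, hεb, hCb⟩ := cm_CK hCk ε0 hε0
  set T : ℝ := (k + 1) ^ 2 * K1 with hT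
  have hT0 : 0 < T := by (clear * -; positivity)
  set εc : ℝ := (ε1 / (24 * T)) ^ 2 with hεc
  have hεc0 : 0 < εc := by (clear * - hε1; positivity)
  refine ⟨ι1' * p0 / 2, by (clear * - hι1' hε1 hg; positivity), min ι' (min ιa ιb), by (clear * - hι' hιa hιb; positivity),
    min εu' (min εa (min εb εc)), by (clear * - hεu' hεa hεb hε1; positivity), fun gr => ?_⟩
  obtain ⟨n1, hn1⟩ := hcore gr
  obtain ⟨n2, hn2⟩ := hCa gr
  obtain ⟨n3, hn3⟩ := hCb gr
  obtain ⟨n4, hn4⟩ := R.small gr (g / 2) (by positivity)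
  obtain ⟨n5, hn5⟩ := R.small gr (1 / (2 * (κ + 4) * (κ + 2))) (by (clear * -; positivity))
  obtain ⟨n6, hn6⟩ := R.small gr (g * ε1 / (36 * T)) (by (clear * - hg hε1; positivity))
  obtain ⟨n7, hn7⟩ := R.small gr (ι1' * p0 / 2 / Real.log 2) (by
    have : 0 < Real.log 2 := Real.log_pos (by norm_num)
    (clear * - hι1' hε1 hg; positivity))
  refine ⟨max n1 (max n2 (max n3 (max n4 (max n5 (max n6 n7))))), ?_⟩
  intro a e C hok Ω Ω' _ _ P c o Q π hH hf
  have hok1 := R.anti _ _ _ _ _ _ (le_max_left _ _) hok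
  have hok' := R.anti _ _ _ _ _ _ (le_max_right _ _) hok
  have hok2 := R.anti _ _ _ _ _ _ (le_max_left _ _) hok'
  have hok'' := R.anti _ _ _ _ _ _ (le_max_right _ _) hok'
  have hok3 := R.anti _ _ _ _ _ _ (le_max_left _ _) hok''
  have hok3' := R.anti _ _ _ _ _ _ (le_max_right _ _) hok''
  have hok4 := R.anti _ _ _ _ _ _ (le_max_left _ _) hok3'
  have hok4' := R.anti _ _ _ _ _ _ (le_max_right _ _) hok3'
  have hok5 := R.anti _ _ _ _ _ _ (le_max_left _ _) hok4'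
  have hok5' := R.anti _ _ _ _ _ _ (le_max_right _ _) hok4'
  have hok6 := R.anti _ _ _ _ _ _ (le_max_left _ _) hok5'
  have hok7 := R.anti _ _ _ _ _ _ (le_max_right _ _) hok5'
  have hs4 := (hn4 _ _ _ hok4).1
  have hs5 := (hn5 _ _ _ hok5).1
  have hs6 := (hn6 _ _ _ hok6).1
  have hs7 := (hn7 _ _ _ hok7).1
  obtain ⟨w, hw0, hw1, hw2, hw3, hw4⟩ := cm_slack hkκ hg hgκ hs4 hs5
  set L : ℝ := (((κ + 4) * a : ℕ) : ℝ) with hLd
  have hLa : L = (κ + 4) * a := by rw [hLd]; push_cast; ring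
  have hL0 : 0 < L := by
    by_contra hcon
    push Not at hcon
    have := mul_nonpos_of_nonneg_of_nonpos (by positivity : (0 : ℝ) ≤ g / 2) hcon
    linarith only [hs4, this]
  have hfK : CubeFam a k K1 (ι1' * p0 / 2 * L) P c o Q π := cm_K_mono hf (le_max_left _ _)
  -- typical points
  have hsep : ∀ Q2 : Law (Fin 2 → Ω), (∀ v, Q2.w v = cw P (key c a) 1 v) →
      prE Q2 (fun v => (2 : ℝ) ^ (a + w) * |c.t (v 0) - c.t (v 1)| < 1) ≤
        3 / 2 ^ w + 2 * Real.sqrt (min εu' (min εa (min εb εc))) := by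
    intro Q2 hQ2
    refine copies_sep hH w ?_ Q2 hQ2
    have h1 : a ≤ (κ + 3) * a := Nat.le_mul_of_pos_left a (by omega)
    omega
  have htyp := cm_typ hfK (by (clear * -; positivity))
    (hn2 a e C hok2 Ω P c o (cm_hyp_mono hH ((min_le_right _ _).trans (min_le_left _ _))
      ((min_le_right _ _).trans (min_le_left _ _))))
    (hn3 a e C hok3 Ω P c o (cm_hyp_mono hH ((min_le_right _ _).trans (min_le_right _ _))
      ((min_le_right _ _).trans ((min_le_right _ _).trans (min_le_left _ _)))))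
    ((mul_le_mul_of_nonneg_right hε0g hL0.le).trans hw1) hε0.le (by (clear * - hεu' hεa hεb hε1; positivity)) hsep
  have hsq : 2 * Real.sqrt (min εu' (min εa (min εb εc))) ≤ ε1 / (12 * T) := by
    have h1 : Real.sqrt (min εu' (min εa (min εb εc))) ≤ ε1 / (24 * T) := by
      rw [Real.sqrt_le_left (by (clear * - hε1; positivity))]
      exact (min_le_right _ _).trans ((min_le_right _ _).trans (min_le_right _ _))
    have h2 : 2 * (ε1 / (24 * T)) = ε1 / (12 * T) := by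
      field_simp
      norm_num
    linarith only [h1, h2]
  have h3w : 3 / 2 ^ w ≤ ε1 / (12 * T) := by
    have h1 : (w : ℝ) + 1 ≤ 2 ^ w := by
      have : w + 1 ≤ 2 ^ w := Nat.lt_two_pow_self
      exact_mod_cast this
    have h2 : 36 * T ≤ g * L * ε1 := by
      have h3 : g * ε1 / (36 * T) * L = g * L * ε1 / (36 * T) := by ring
      rw [h3, le_div_iff₀ (by (clear * -; positivity))] at hs6
      linarith only [hs6]
    rw [div_le_div_iff₀ (by positivity) (by (clear * -; positivity))]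
    have h4 : g * L ≤ 2 ^ w := by linarith only [hw4, h1]
    have h5 : g * L * ε1 ≤ 2 ^ w * ε1 := mul_le_mul_of_nonneg_right h4 hε1.le
    linarith only [h2, h5]
  have hq : prE Q (fun ω => ¬ CTyp a w c o π ω) ≤ ε1 / 2 := by
    refine htyp.trans ?_
    have h1 : ((k : ℝ) + 1) ^ 2 * (K1 * (3 / 2 ^ w + 2 * Real.sqrt (min εu' (min εa (min εb εc)))))
        = T * (3 / 2 ^ w + 2 * Real.sqrt (min εu' (min εa (min εb εc)))) := by
      rw [hT]; ring
    rw [h1]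
    have h2 : T * (3 / 2 ^ w + 2 * Real.sqrt (min εu' (min εa (min εb εc)))) ≤
        T * (ε1 / (12 * T) + ε1 / (12 * T)) :=
      mul_le_mul_of_nonneg_left (by linarith only [hsq, h3w]) hT0.le
    have h3 : T * (ε1 / (12 * T) + ε1 / (12 * T)) = ε1 / 6 := by
      field_simp
      norm_num
    linarith only [hgε, hε0, hε0g, hε01, h2, h3]
  -- suppose the cube sums are large
  by_contra hcon
  push Not at hcon
  set v : ℝ := ((k + 2) * a : ℕ) - ε1 * L with hv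
  have hv' : -(((k + 2) * a : ℕ) : ℝ) + ε1 * L = -v := by rw [hv]; ring
  rw [hv'] at hcon
  have hkκ' : (k : ℝ) ≤ κ := by exact_mod_cast hkκ
  have hvNb : v < w * Nb := by
    have h1 : v < (κ + 4) * a := by
      rw [hv]
      push_cast
      have h2 : 0 < ε1 * L := by (clear * - hε1 hL0; positivity)
      have h3 : ((k : ℝ) + 2) * a ≤ (κ + 4) * a :=
        mul_le_mul_of_nonneg_right (by linarith only [hkκ']) (Nat.cast_nonneg _)
      linarith only [h2, h3]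
    have h4 : L ≤ w * (2 / g) := by
      rw [← mul_div_assoc, le_div_iff₀ hg]
      linarith only [hs4, hw4]
    have h5 : (2 / g : ℝ) ≤ ⌈2 / g⌉₊ := Nat.le_ceil _
    have h6 : (w : ℝ) * (2 / g) ≤ w * Nb := by
      refine mul_le_mul_of_nonneg_left ?_ (Nat.cast_nonneg _)
      rw [hNb]
      push_cast
      linarith only [h5]
    rw [← hLa] at h1
    linarith only [h1, h4, h6]
  obtain ⟨b, i0, j0, hb1, hb2⟩ := cm_find (ε1 := ε1 / 2) hw3 hw0 hvNb hq (by linarith only [hcon])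
    (by positivity)
  refine hn1 a e C hok1 Ω Ω' P c o
    (on Q (fun ω => CTyp a w c o π ω ∧ CBin (w * b) w i0 j0 o π ω)) π w (w * b) i0 j0
    (cm_hyp_mono hH (min_le_left _ _) (min_le_left _ _))
    (cm_cost_mono (hf.on hp0 hb2) ?_) hw1 hw2 ?_ ?_
  · rw [div_le_iff₀ hp0]
    have h1 : Real.log 2 ≤ ι1' * p0 / 2 * L := by
      have h2 : 0 < Real.log 2 := Real.log_pos (by norm_num)
      have h3 : ι1' * p0 / 2 / Real.log 2 * L = ι1' * p0 / 2 * L / Real.log 2 := by ring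
      rw [h3, le_div_iff₀ h2] at hs7
      linarith only [hs7]
    linarith only [h1]
  · intro ω hω
    exact (on_pos (hp0.trans_le hb2) hω).1
  · have h1 : 6 * (w : ℝ) ≤ ε1 / 2 * L := by
      have h2 : g * L ≤ ε1 / 12 * L := mul_le_mul_of_nonneg_right hgε hL0.le
      linarith only [hw2, h2]
    have h3 : v = (k + 2) * a - ε1 * L := by rw [hv]; push_cast; ring
    linarith only [hb1, h1, h3]

end main

end Vale.Agent.P127.Stk
end

section

/-!
# P127 / Stk : cube sums of polynomials (C1 of PROOF.md, section 8)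

The alternating sum over a cube of dimension `p` of a polynomial of degree less than `p` is zero;
estimates for the cube sums of the times and of the matrices of a typical point.
-/

namespace Vale.Agent.P127.Stk

open Finset Vale.Agent.P127

/-! ### finite differences -/

theorem ci_powerset {ι : Type} [DecidableEq ι] (A : Finset ι) (lam : ι → ℝ) (u : ℝ) :
    ∀ f : Polynomial ℝ, f.degree < A.card →
      ∑ S ∈ A.powerset, (-1 : ℝ) ^ S.card * f.eval (u + ∑ i ∈ S, lam i) = 0 := by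
  induction A using Finset.induction_on with
  | empty =>
    intro f hf
    have h0 : f = 0 := by
      by_contra h
      rw [Polynomial.degree_eq_natDegree h, Finset.card_empty] at hf
      exact absurd hf (by simp only [CharP.cast_eq_zero, Nat.WithBot.lt_zero_iff, WithBot.natCast_ne_bot, not_false_eq_true])
    simp only [powerset_empty, h0, Polynomial.eval_zero, mul_zero, sum_const_zero]
  | insert a A ha ih =>
    intro f hf
    rw [Finset.sum_powerset_insert ha, ← Finset.sum_add_distrib]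
    have h1 : ∀ S ∈ A.powerset, (-1 : ℝ) ^ S.card * f.eval (u + ∑ i ∈ S, lam i) +
        (-1 : ℝ) ^ (insert a S).card * f.eval (u + ∑ i ∈ insert a S, lam i) =
        - ((-1 : ℝ) ^ S.card * (f.comp (Polynomial.X + Polynomial.C (lam a)) - f).eval
          (u + ∑ i ∈ S, lam i)) := by
      intro S hS
      have haS : a ∉ S := fun h => ha (Finset.mem_powerset.1 hS h)
      rw [Finset.card_insert_of_notMem haS, Finset.sum_insert haS]
      simp only [Polynomial.eval_sub, Polynomial.eval_comp, Polynomial.eval_add,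
        Polynomial.eval_X, Polynomial.eval_C]
      rw [show u + (lam a + ∑ i ∈ S, lam i) = u + ∑ i ∈ S, lam i + lam a by ring]
      ring
    rw [Finset.sum_congr rfl h1, Finset.sum_neg_distrib, ih, neg_zero]
    by_cases hf0 : f = 0
    · simp only [hf0, Polynomial.zero_comp, sub_self, Polynomial.degree_zero, WithBot.bot_lt_natCast]
    · have h2 : (f.comp (Polynomial.X + Polynomial.C (lam a)) - f).degree <
          (f.comp (Polynomial.X + Polynomial.C (lam a))).degree := by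
        apply Polynomial.degree_sub_lt_left
        · exact Polynomial.degree_taylor f (lam a)
        · intro h3
          exact hf0 ((Polynomial.taylor_eq_zero (lam a) f).1 h3)
        · exact Polynomial.leadingCoeff_taylor (lam a) f
      have h3 : (f.comp (Polynomial.X + Polynomial.C (lam a))).degree = f.degree :=
        Polynomial.degree_taylor f (lam a)
      rw [h3] at h2
      rw [Finset.card_insert_of_notMem ha] at hf
      have h4 : f.degree ≤ A.card := by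
        rw [Polynomial.degree_eq_natDegree hf0] at hf ⊢
        have : f.natDegree < A.card + 1 := by exact_mod_cast hf
        exact_mod_cast Nat.lt_succ_iff.1 this
      exact lt_of_lt_of_le h2 h4

theorem cube_poly {p : ℕ} (f : Polynomial ℝ) (hf : f.natDegree < p) (u : ℝ) (lam : Fin p → ℝ) :
    ∑ S : Finset (Fin p), (-1 : ℝ) ^ S.card * f.eval (u + ∑ i ∈ S, lam i) = 0 := by
  have h := ci_powerset (Finset.univ : Finset (Fin p)) lam u f (by
    rw [Finset.card_fin]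
    refine lt_of_le_of_lt Polynomial.degree_le_natDegree ?_
    exact_mod_cast hf)
  rwa [Finset.powerset_univ] at h

/-! ### estimates -/

/-- perturbation of a product -/
theorem ci_prod {ι : Type} [DecidableEq ι] (s : Finset ι) (u v : ι → ℝ) (R δ : ℝ) (hR : 0 ≤ R)
    (hδ : 0 ≤ δ) (hu : ∀ i ∈ s, |u i| ≤ R) (hv : ∀ i ∈ s, |v i| ≤ R)
    (huv : ∀ i ∈ s, |u i - v i| ≤ δ) :
    R * |∏ i ∈ s, u i - ∏ i ∈ s, v i| ≤ s.card * R ^ s.card * δ := by
  induction s using Finset.induction_on with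
  | empty => simp only [prod_empty, sub_self, abs_zero, mul_zero, card_empty, CharP.cast_eq_zero, pow_zero, mul_one, zero_mul, Std.le_refl]
  | insert a s ha ih =>
    rw [Finset.prod_insert ha, Finset.prod_insert ha, Finset.card_insert_of_notMem ha]
    have h1 := ih (fun i hi => hu i (Finset.mem_insert_of_mem hi))
      (fun i hi => hv i (Finset.mem_insert_of_mem hi))
      (fun i hi => huv i (Finset.mem_insert_of_mem hi))
    have h2 : |∏ i ∈ s, v i| ≤ R ^ s.card := by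
      rw [Finset.abs_prod]
      calc ∏ i ∈ s, |v i| ≤ ∏ _i ∈ s, R :=
            Finset.prod_le_prod (fun i _ => abs_nonneg _)
              (fun i hi => hv i (Finset.mem_insert_of_mem hi))
        _ = R ^ s.card := by rw [Finset.prod_const]
    have h3 : u a * ∏ i ∈ s, u i - v a * ∏ i ∈ s, v i =
        u a * (∏ i ∈ s, u i - ∏ i ∈ s, v i) + (u a - v a) * ∏ i ∈ s, v i := by ring
    have ha1 := hu a (Finset.mem_insert_self a s)
    have ha2 := huv a (Finset.mem_insert_self a s)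
    calc R * |u a * ∏ i ∈ s, u i - v a * ∏ i ∈ s, v i|
        ≤ R * (|u a| * |∏ i ∈ s, u i - ∏ i ∈ s, v i| + |u a - v a| * |∏ i ∈ s, v i|) := by
          rw [h3, ← abs_mul, ← abs_mul]
          exact mul_le_mul_of_nonneg_left (abs_add_le _ _) hR
      _ = |u a| * (R * |∏ i ∈ s, u i - ∏ i ∈ s, v i|) + R * (|u a - v a| * |∏ i ∈ s, v i|) := by
          ring
      _ ≤ R * (s.card * R ^ s.card * δ) + R * (δ * R ^ s.card) := by
          (clear * - ha1 h1 hR ha2 h2 hδ; gcongr)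
      _ = ((s.card + 1 : ℕ) : ℝ) * R ^ (s.card + 1) * δ := by
          push_cast
          ring

/-- sum over a cube of a function close to a polynomial -/
theorem ci_sum {p : ℕ} (f : Polynomial ℝ) (hf : f.natDegree < p) (u : ℝ) (lam : Fin p → ℝ)
    (Y : Finset (Fin p) → ℝ) (E : ℝ)
    (hY : ∀ S, |Y S - f.eval (u + ∑ i ∈ S, lam i)| ≤ E) :
    |∑ S : Finset (Fin p), (-1 : ℝ) ^ S.card * Y S| ≤ 2 ^ p * E := by
  have h1 : ∑ S : Finset (Fin p), (-1 : ℝ) ^ S.card * Y S =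
      ∑ S : Finset (Fin p), (-1 : ℝ) ^ S.card * (Y S - f.eval (u + ∑ i ∈ S, lam i)) := by
    have h2 := cube_poly f hf u lam
    calc ∑ S : Finset (Fin p), (-1 : ℝ) ^ S.card * Y S
        = ∑ S : Finset (Fin p), (-1 : ℝ) ^ S.card * Y S -
          ∑ S : Finset (Fin p), (-1 : ℝ) ^ S.card * f.eval (u + ∑ i ∈ S, lam i) := by
            rw [h2, sub_zero]
      _ = _ := by
          rw [← Finset.sum_sub_distrib]
          refine Finset.sum_congr rfl fun S _ => ?_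
          ring
  rw [h1]
  calc |∑ S : Finset (Fin p), (-1 : ℝ) ^ S.card * (Y S - f.eval (u + ∑ i ∈ S, lam i))|
      ≤ ∑ S : Finset (Fin p), |(-1 : ℝ) ^ S.card * (Y S - f.eval (u + ∑ i ∈ S, lam i))| :=
        Finset.abs_sum_le_sum_abs _ _
    _ ≤ ∑ _S : Finset (Fin p), E := by
        refine Finset.sum_le_sum fun S _ => ?_
        rw [abs_mul, abs_pow, abs_neg, abs_one, one_pow, one_mul]
        exact hY S
    _ = 2 ^ p * E := by
        rw [Finset.sum_const, Finset.card_univ, Fintype.card_finset, Fintype.card_fin,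
          nsmul_eq_mul]
        push_cast
        ring

/-- bound for one Lagrange term: `n + 1` numerators, `k` denominators -/
theorem ci_den {k : ℕ} (nd : Fin (k + 1) → ℝ) (l : Fin (k + 1)) (D : ℝ)
    (hsep : ∀ l' : Fin (k + 1), l ≠ l' → 1 ≤ D * |nd l - nd l'|) :
    |∏ l' ∈ (Finset.univ : Finset (Fin (k + 1))).erase l, (nd l - nd l')⁻¹| ≤ D ^ k := by
  rw [Finset.abs_prod]
  have hc : ((Finset.univ : Finset (Fin (k + 1))).erase l).card = k := by
    rw [Finset.card_erase_of_mem (Finset.mem_univ l), Finset.card_univ, Fintype.card_fin]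
    rfl
  calc ∏ l' ∈ (Finset.univ : Finset (Fin (k + 1))).erase l, |(nd l - nd l')⁻¹|
      ≤ ∏ _l' ∈ (Finset.univ : Finset (Fin (k + 1))).erase l, D := by
        refine Finset.prod_le_prod (fun i _ => abs_nonneg _) fun l' hl' => ?_
        have h1 := hsep l' (Finset.ne_of_mem_erase hl').symm
        rw [abs_inv]
        have h2 : 0 < |nd l - nd l'| := by
          by_contra h3
          have h4 : |nd l - nd l'| = 0 := le_antisymm (not_lt.1 h3) (abs_nonneg _)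
          rw [h4, mul_zero] at h1
          (clear * - h1; linarith)
        rw [inv_le_iff_one_le_mul₀ h2]
        exact h1
    _ = D ^ k := by rw [Finset.prod_const, hc]

/-- the interpolation polynomial -/
noncomputable def ci_g {k : ℕ} (nd G : Fin (k + 1) → ℝ) : Polynomial ℝ :=
  ∑ l : Fin (k + 1), Polynomial.C
    ((∏ l' ∈ (Finset.univ : Finset (Fin (k + 1))).erase l, (nd l - nd l')⁻¹) * G l) *
      ∏ l' ∈ (Finset.univ : Finset (Fin (k + 1))).erase l, (Polynomial.X - Polynomial.C (nd l'))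

theorem ci_card {k : ℕ} (l : Fin (k + 1)) :
    ((Finset.univ : Finset (Fin (k + 1))).erase l).card = k := by
  rw [Finset.card_erase_of_mem (Finset.mem_univ l), Finset.card_univ, Fintype.card_fin]
  rfl

theorem ci_g_deg {k : ℕ} (nd G : Fin (k + 1) → ℝ) : (ci_g nd G).natDegree ≤ k := by
  unfold ci_g
  refine Polynomial.natDegree_sum_le_of_forall_le _ _ fun l _ => ?_
  refine (Polynomial.natDegree_C_mul_le _ _).trans ?_
  rw [Polynomial.natDegree_prod_of_monic _ _ (fun l' _ => Polynomial.monic_X_sub_C _)]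
  simp only [Polynomial.natDegree_X_sub_C, Finset.sum_const, ci_card, smul_eq_mul, mul_one]
  exact le_rfl

theorem ci_g_eval {k : ℕ} (nd G : Fin (k + 1) → ℝ) (t : ℝ) : (ci_g nd G).eval t =
    ∑ l : Fin (k + 1), (∏ l' ∈ (Finset.univ : Finset (Fin (k + 1))).erase l, (nd l - nd l')⁻¹) *
      G l * ∏ l' ∈ (Finset.univ : Finset (Fin (k + 1))).erase l, (t - nd l') := by
  unfold ci_g
  rw [Polynomial.eval_finsetSum]
  refine Finset.sum_congr rfl fun l _ => ?_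
  rw [Polynomial.eval_mul, Polynomial.eval_C, Polynomial.eval_prod]
  simp only [Polynomial.eval_sub, Polynomial.eval_X, Polynomial.eval_C]

/-- size of the interpolation polynomial -/
theorem ci_g_le {k : ℕ} (nd G : Fin (k + 1) → ℝ) (R D B t : ℝ) (hD : 0 ≤ D)
    (hsep : ∀ l l' : Fin (k + 1), l ≠ l' → 1 ≤ D * |nd l - nd l'|)
    (hG : ∀ l, |G l| ≤ B) (ht : ∀ l, |t - nd l| ≤ R) :
    |(ci_g nd G).eval t| ≤ (k + 1) * ((R * D) ^ k * B) := by
  rw [ci_g_eval]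
  refine (Finset.abs_sum_le_sum_abs _ _).trans ?_
  calc ∑ l : Fin (k + 1), |(∏ l' ∈ (Finset.univ : Finset (Fin (k + 1))).erase l,
        (nd l - nd l')⁻¹) * G l * ∏ l' ∈ (Finset.univ : Finset (Fin (k + 1))).erase l, (t - nd l')|
      ≤ ∑ _l : Fin (k + 1), (R * D) ^ k * B := by
        refine Finset.sum_le_sum fun l _ => ?_
        rw [abs_mul, abs_mul]
        have h1 := ci_den nd l D (hsep l)
        have h2 : |∏ l' ∈ (Finset.univ : Finset (Fin (k + 1))).erase l, (t - nd l')| ≤ R ^ k := by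
          rw [Finset.abs_prod]
          calc ∏ l' ∈ (Finset.univ : Finset (Fin (k + 1))).erase l, |t - nd l'|
              ≤ ∏ _l' ∈ (Finset.univ : Finset (Fin (k + 1))).erase l, R :=
                Finset.prod_le_prod (fun _ _ => abs_nonneg _) (fun l' _ => ht l')
            _ = R ^ k := by rw [Finset.prod_const, ci_card]
        have hB : 0 ≤ B := (abs_nonneg _).trans (hG l)
        calc |∏ l' ∈ (Finset.univ : Finset (Fin (k + 1))).erase l, (nd l - nd l')⁻¹| * |G l| *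
              |∏ l' ∈ (Finset.univ : Finset (Fin (k + 1))).erase l, (t - nd l')|
            ≤ D ^ k * B * R ^ k := by
              gcongr
              exact hG l
          _ = (R * D) ^ k * B := by rw [mul_pow]; ring
    _ = (k + 1) * ((R * D) ^ k * B) := by
        rw [Finset.sum_const, Finset.card_univ, Fintype.card_fin, nsmul_eq_mul]
        push_cast
        ring

/-- perturbation of the interpolation polynomial -/
theorem ci_g_sub {k : ℕ} (nd G : Fin (k + 1) → ℝ) (R D B δ t s : ℝ) (hR : 0 ≤ R) (hD : 0 ≤ D)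
    (hδ : 0 ≤ δ) (hsep : ∀ l l' : Fin (k + 1), l ≠ l' → 1 ≤ D * |nd l - nd l'|)
    (hG : ∀ l, |G l| ≤ B) (ht : ∀ l, |t - nd l| ≤ R) (hs : ∀ l, |s - nd l| ≤ R)
    (hts : |t - s| ≤ δ) :
    R * |(ci_g nd G).eval t - (ci_g nd G).eval s| ≤ (k + 1) * (k * (R * D) ^ k * B * δ) := by
  rw [ci_g_eval, ci_g_eval, ← Finset.sum_sub_distrib]
  refine (mul_le_mul_of_nonneg_left (Finset.abs_sum_le_sum_abs _ _) hR).trans ?_
  rw [Finset.mul_sum]
  refine (Finset.sum_le_sum (g := fun _ => k * (R * D) ^ k * B * δ) fun l _ => ?_).trans ?_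
  · have hB : 0 ≤ B := (abs_nonneg _).trans (hG l)
    have h1 := ci_den nd l D (hsep l)
    have h2 := ci_prod ((Finset.univ : Finset (Fin (k + 1))).erase l) (fun l' => t - nd l')
      (fun l' => s - nd l') R δ hR hδ (fun l' _ => ht l') (fun l' _ => hs l')
      (fun l' _ => by
        have h3 : t - nd l' - (s - nd l') = t - s := by ring
        rw [h3]
        exact hts)
    rw [ci_card] at h2
    rw [← mul_sub, abs_mul, abs_mul]
    calc R * (|∏ l' ∈ (Finset.univ : Finset (Fin (k + 1))).erase l, (nd l - nd l')⁻¹| * |G l| *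
          |∏ l' ∈ (Finset.univ : Finset (Fin (k + 1))).erase l, (t - nd l') -
            ∏ l' ∈ (Finset.univ : Finset (Fin (k + 1))).erase l, (s - nd l')|)
        = (|∏ l' ∈ (Finset.univ : Finset (Fin (k + 1))).erase l, (nd l - nd l')⁻¹| * |G l|) *
          (R * |∏ l' ∈ (Finset.univ : Finset (Fin (k + 1))).erase l, (t - nd l') -
            ∏ l' ∈ (Finset.univ : Finset (Fin (k + 1))).erase l, (s - nd l')|) := by ring
      _ ≤ (D ^ k * B) * (k * R ^ k * δ) := by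
          gcongr
          exact hG l
      _ = k * (R * D) ^ k * B * δ := by rw [mul_pow]; ring
  · rw [Finset.sum_const, Finset.card_univ, Fintype.card_fin, nsmul_eq_mul]
    push_cast
    exact le_rfl

/-- perturbation of `(t - t₀) g(t)` -/
theorem ci_h_sub {k : ℕ} (nd G : Fin (k + 1) → ℝ) (R D B δ t s t0 : ℝ) (hR : 0 ≤ R) (hD : 0 ≤ D)
    (hδ : 0 ≤ δ) (hsep : ∀ l l' : Fin (k + 1), l ≠ l' → 1 ≤ D * |nd l - nd l'|)
    (hG : ∀ l, |G l| ≤ B) (ht : ∀ l, |t - nd l| ≤ R) (hs : ∀ l, |s - nd l| ≤ R)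
    (hts : |t - s| ≤ δ) (ht0 : |t - t0| ≤ R) :
    |(t - t0) * (ci_g nd G).eval t - (s - t0) * (ci_g nd G).eval s| ≤
      (k + 1) ^ 2 * ((R * D) ^ k * B * δ) := by
  have h1 := ci_g_sub nd G R D B δ t s hR hD hδ hsep hG ht hs hts
  have h2 := ci_g_le nd G R D B s hD hsep hG hs
  have h3 : (t - t0) * (ci_g nd G).eval t - (s - t0) * (ci_g nd G).eval s =
      (t - t0) * ((ci_g nd G).eval t - (ci_g nd G).eval s) + (t - s) * (ci_g nd G).eval s := by
    ring
  rw [h3]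
  refine (abs_add_le _ _).trans ?_
  rw [abs_mul, abs_mul]
  calc |t - t0| * |(ci_g nd G).eval t - (ci_g nd G).eval s| + |t - s| * |(ci_g nd G).eval s|
      ≤ R * |(ci_g nd G).eval t - (ci_g nd G).eval s| + δ * ((k + 1) * ((R * D) ^ k * B)) := by
        (clear * - ht0 hts h2 hδ; gcongr)
    _ ≤ (k + 1) * (k * (R * D) ^ k * B * δ) + δ * ((k + 1) * ((R * D) ^ k * B)) := by
        gcongr
    _ = (k + 1) ^ 2 * ((R * D) ^ k * B * δ) := by ring

/-- times in the same dyadic interval -/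
theorem ci_dyad (a L : ℕ) (haL : a ≤ L) (s t : ℝ) (h : fl1 a s = fl1 a t) :
    |t - s| ≤ (1 / 2) ^ a ∧ |t - (fl1 L t : ℝ) / 2 ^ L| ≤ (1 / 2) ^ L ∧
      |(fl1 L t : ℝ) / 2 ^ L - s| ≤ (1 / 2) ^ a := by
  unfold fl1 at *
  have pa : (0 : ℝ) < 2 ^ a := by positivity
  have pL : (0 : ℝ) < 2 ^ L := by positivity
  have h1 := Int.floor_le ((2 : ℝ) ^ a * t)
  have h2 := Int.lt_floor_add_one ((2 : ℝ) ^ a * t)
  have h3 := Int.floor_le ((2 : ℝ) ^ a * s)
  have h4 := Int.lt_floor_add_one ((2 : ℝ) ^ a * s)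
  have h5 := Int.floor_le ((2 : ℝ) ^ L * t)
  have h6 := Int.lt_floor_add_one ((2 : ℝ) ^ L * t)
  rw [h] at h3 h4
  have e1 : (1 / 2 : ℝ) ^ a = 1 / 2 ^ a := by rw [one_div_pow]
  have e2 : (1 / 2 : ℝ) ^ L = 1 / 2 ^ L := by rw [one_div_pow]
  rw [e1, e2]
  have h7 : (2 : ℤ) ^ (L - a) * ⌊(2 : ℝ) ^ a * t⌋ ≤ ⌊(2 : ℝ) ^ L * t⌋ := by
    rw [Int.le_floor]
    push_cast
    calc (2 : ℝ) ^ (L - a) * ⌊(2 : ℝ) ^ a * t⌋ ≤ 2 ^ (L - a) * (2 ^ a * t) := by gcongr
      _ = 2 ^ L * t := by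
        rw [← mul_assoc, ← pow_add, Nat.sub_add_cancel haL]
  have h8 : (2 : ℝ) ^ (L - a) * ⌊(2 : ℝ) ^ a * t⌋ ≤ ⌊(2 : ℝ) ^ L * t⌋ := by
    exact_mod_cast h7
  set N : ℝ := (⌊(2 : ℝ) ^ a * t⌋ : ℝ) with hN
  set M : ℝ := (⌊(2 : ℝ) ^ L * t⌋ : ℝ) with hM
  have h9 : N ≤ 2 ^ a * (M / 2 ^ L) := by
    have : (2 : ℝ) ^ L = 2 ^ (L - a) * 2 ^ a := by rw [← pow_add, Nat.sub_add_cancel haL]
    have p3 : (0 : ℝ) < 2 ^ (L - a) := by positivity
    rw [this]
    have e3 : (2 : ℝ) ^ a * (M / (2 ^ (L - a) * 2 ^ a)) = M / 2 ^ (L - a) := by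
      (clear * -; field_simp)
    rw [e3, le_div_iff₀ p3]
    linarith only [h8]
  have h10 : M / 2 ^ L ≤ t := by
    rw [div_le_iff₀ pL]
    linarith only [h5]
  refine ⟨?_, ?_, ?_⟩
  · rw [le_div_iff₀ pa, ← abs_of_pos pa, ← abs_mul, abs_le]
    constructor <;> linarith only [h1, h4, h2, h3]
  · rw [le_div_iff₀ pL, ← abs_of_pos pL, ← abs_mul, abs_of_pos pL, sub_mul,
      div_mul_cancel₀ _ pL.ne', abs_le]
    constructor <;> linarith only [h5, h6]
  · have h11 : 2 ^ a * (M / 2 ^ L) ≤ 2 ^ a * t := by (clear * - h10; gcongr)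
    rw [le_div_iff₀ pa, ← abs_of_pos pa, ← abs_mul, abs_le]
    constructor <;> linarith only [h2, h3, h11, h4, h9]

section det

variable {Ω Ω' : Type} {m κ k : ℕ}

theorem ci_cg (c : Cf Ω m) (o : Ob Ω m κ) (π : CI k → Ω' → Ω) (ω : Ω')
    (S : Finset (Fin (k + 2))) (i j : Fin m) :
    cg c o π ω S i j = (ci_g (fun l => c.t (π (Sum.inr l) ω))
      (fun l => o.Γ (π (Sum.inr l) ω) i j)).eval (c.t (π (Sum.inl S) ω)) := by
  rw [ci_g_eval]
  unfold cg
  refine Finset.sum_congr rfl fun l _ => ?_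
  rw [show (∏ l' ∈ (Finset.univ : Finset (Fin (k + 1))).erase l,
    (c.t (π (Sum.inl S) ω) - c.t (π (Sum.inr l') ω)) /
      (c.t (π (Sum.inr l) ω) - c.t (π (Sum.inr l') ω))) =
    (∏ l' ∈ (Finset.univ : Finset (Fin (k + 1))).erase l,
      (c.t (π (Sum.inl S) ω) - c.t (π (Sum.inr l') ω))) *
    ∏ l' ∈ (Finset.univ : Finset (Fin (k + 1))).erase l,
      (c.t (π (Sum.inr l) ω) - c.t (π (Sum.inr l') ω))⁻¹ by
    rw [← Finset.prod_mul_distrib]
    rfl]
  ring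

/-- the sum in the formula for `W`, `t_S` within `2^{-L}` of an exact cube -/
theorem cube_interp (a w L : ℕ) (c : Cf Ω m) (o : Ob Ω m κ) (π : CI k → Ω' → Ω) (ω : Ω')
    (h01 : ∀ ω, 0 ≤ c.t ω ∧ c.t ω < 1)
    (hk : ∀ i j, fl1 a (c.t (π i ω)) = fl1 a (c.t (π j ω)))
    (hc : IsCube (fun S => fl1 L (c.t (π (Sum.inl S) ω)))) (haL : a ≤ L)
    (ht : CTyp a w c o π ω) (i j : Fin m) (hi : i ∉ o.J) (hj : j ∈ o.J) :
    |∑ S : Finset (Fin (k + 2)), (-1 : ℝ) ^ S.card * c.t (π (Sum.inl S) ω)| ≤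
        2 ^ (k + 2) * (1 / 2) ^ L ∧
    |∑ S : Finset (Fin (k + 2)), (-1 : ℝ) ^ S.card *
        (c.t (π (Sum.inl S) ω) - c.t (π (vb k) ω)) * o.Γ (π (Sum.inl S) ω) i j| ≤
      2 ^ (k + 2) * (1 / 2) ^ a * (2 ^ w * (1 / 2) ^ ((k + 1) * a)) +
        2 ^ (k + 2) * ((k + 1) ^ 2 * 2 ^ (k + 1) * 3 ^ κ * 2 ^ (k * w) * (1 / 2) ^ L) ∧
    |cS o π ω i j| ≤ 2 ^ (k + 2) * (2 ^ w * (1 / 2) ^ ((k + 1) * a)) +
        2 ^ (k + 2) * ((k + 1) ^ 2 * 2 ^ (k + 1) * 3 ^ κ * 2 ^ (k * w) * 2 ^ a * (1 / 2) ^ L) := by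
  have _ := h01
  obtain ⟨u0, lam, hU⟩ := hc
  set nd : Fin (k + 1) → ℝ := fun l => c.t (π (Sum.inr l) ω) with hnd
  set G : Fin (k + 1) → ℝ := fun l => o.Γ (π (Sum.inr l) ω) i j with hG
  set t0 : ℝ := c.t (π (vb k) ω) with ht0
  set T : Finset (Fin (k + 2)) → ℝ := fun S => c.t (π (Sum.inl S) ω) with hT
  set τ : Finset (Fin (k + 2)) → ℝ := fun S => (u0 : ℝ) / 2 ^ L + ∑ i ∈ S, (lam i : ℝ) / 2 ^ L
    with hτ
  have hτT : ∀ S, τ S = (fl1 L (T S) : ℝ) / 2 ^ L := by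
    intro S
    have h1 : fl1 L (T S) = u0 + ∑ i ∈ S, (lam i : ℤ) := hU S
    rw [h1]
    simp only [hτ]
    push_cast
    rw [add_div, Finset.sum_div]
  set R : ℝ := (1 / 2) ^ a with hR
  set δ : ℝ := (1 / 2) ^ L with hδ
  set D : ℝ := 2 ^ (a + w) with hD
  have R0 : 0 < R := by positivity
  have δ0 : 0 < δ := by positivity
  have D0 : 0 < D := by positivity
  have hRD : R * D = 2 ^ w := by
    rw [hR, hD, pow_add, ← mul_assoc, ← mul_pow]
    norm_num
  have hRDk : (R * D) ^ k = 2 ^ (k * w) := by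
    rw [hRD, ← pow_mul, mul_comm]
  have hR2 : R * 2 ^ a = 1 := by
    rw [hR, ← mul_pow]
    norm_num
  have dT : ∀ S x, |T S - c.t (π x ω)| ≤ R := fun S x => (ci_dyad a L haL _ _ (hk x (Sum.inl S))).1
  have dτ : ∀ S x, |τ S - c.t (π x ω)| ≤ R := fun S x => by
    rw [hτT]
    exact (ci_dyad a L haL _ _ (hk x (Sum.inl S))).2.2
  have dd : ∀ S, |T S - τ S| ≤ δ := fun S => by
    rw [hτT]
    exact (ci_dyad a L haL _ _ rfl).2.1
  have hGB : ∀ l, |G l| ≤ 3 ^ κ := fun l => o.bd _ i j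
  have hpol : ∀ S, |o.Γ (π (Sum.inl S) ω) i j - (ci_g nd G).eval (T S)| ≤
      2 ^ w * (1 / 2) ^ ((k + 1) * a) := by
    intro S
    have h1 := ht.pol S i j hi hj
    rw [ci_cg] at h1
    have h2 : (0 : ℝ) < 2 ^ ((k + 1) * a) := by positivity
    rw [one_div_pow, mul_one_div, le_div_iff₀ h2, mul_comm]
    exact h1
  have e1 : (1 : ℝ) ≤ 2 ^ (k + 1) := one_le_pow₀ (by norm_num)
  refine ⟨?_, ?_, ?_⟩
  · refine ci_sum Polynomial.X (by rw [Polynomial.natDegree_X]; omega) ((u0 : ℝ) / 2 ^ L)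
      (fun i => (lam i : ℝ) / 2 ^ L) T δ fun S => ?_
    rw [Polynomial.eval_X]
    exact dd S
  · have h1 := ci_sum ((Polynomial.X - Polynomial.C t0) * ci_g nd G) (p := k + 2) (by
        refine lt_of_le_of_lt Polynomial.natDegree_mul_le ?_
        rw [Polynomial.natDegree_X_sub_C]
        have := ci_g_deg nd G
        omega) ((u0 : ℝ) / 2 ^ L) (fun i => (lam i : ℝ) / 2 ^ L)
      (fun S => (T S - t0) * o.Γ (π (Sum.inl S) ω) i j)
      (R * (2 ^ w * (1 / 2) ^ ((k + 1) * a)) +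
        (k + 1) ^ 2 * 2 ^ (k + 1) * 3 ^ κ * 2 ^ (k * w) * δ) (by
        intro S
        rw [Polynomial.eval_mul, Polynomial.eval_sub, Polynomial.eval_X, Polynomial.eval_C]
        have h2 := ci_h_sub nd G R D (3 ^ κ) δ (T S) (τ S) t0 R0.le D0.le δ0.le ht.sep hGB
          (fun l => dT S _) (fun l => dτ S _) (dd S) (dT S _)
        have h3 : (T S - t0) * o.Γ (π (Sum.inl S) ω) i j - (τ S - t0) * (ci_g nd G).eval (τ S) =
            (T S - t0) * (o.Γ (π (Sum.inl S) ω) i j - (ci_g nd G).eval (T S)) +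
            ((T S - t0) * (ci_g nd G).eval (T S) - (τ S - t0) * (ci_g nd G).eval (τ S)) := by
          ring
        change |(T S - t0) * o.Γ (π (Sum.inl S) ω) i j - (τ S - t0) * (ci_g nd G).eval (τ S)| ≤ _
        rw [h3]
        refine (abs_add_le _ _).trans (add_le_add ?_ (h2.trans ?_))
        · rw [abs_mul]
          exact mul_le_mul (dT S _) (hpol S) (abs_nonneg _) R0.le
        · rw [hRDk]
          calc ((k : ℝ) + 1) ^ 2 * (2 ^ (k * w) * 3 ^ κ * δ)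
              = ((k : ℝ) + 1) ^ 2 * 1 * 3 ^ κ * 2 ^ (k * w) * δ := by ring
            _ ≤ (k + 1) ^ 2 * 2 ^ (k + 1) * 3 ^ κ * 2 ^ (k * w) * δ := by (clear * - e1; gcongr))
    have h4 : ∑ S : Finset (Fin (k + 2)), (-1 : ℝ) ^ S.card * (T S - t0) *
        o.Γ (π (Sum.inl S) ω) i j = ∑ S : Finset (Fin (k + 2)), (-1 : ℝ) ^ S.card *
        ((T S - t0) * o.Γ (π (Sum.inl S) ω) i j) :=
      Finset.sum_congr rfl fun S _ => mul_assoc _ _ _
    rw [h4]
    refine h1.trans (le_of_eq ?_)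
    ring
  · have h1 := ci_sum (ci_g nd G) (p := k + 2) (by
        have := ci_g_deg nd G
        omega) ((u0 : ℝ) / 2 ^ L) (fun i => (lam i : ℝ) / 2 ^ L)
      (fun S => o.Γ (π (Sum.inl S) ω) i j)
      (2 ^ w * (1 / 2) ^ ((k + 1) * a) +
        (k + 1) ^ 2 * 2 ^ (k + 1) * 3 ^ κ * 2 ^ (k * w) * 2 ^ a * δ) (by
        intro S
        have h2 := ci_g_sub nd G R D (3 ^ κ) δ (T S) (τ S) R0.le D0.le δ0.le ht.sep hGB
          (fun l => dT S _) (fun l => dτ S _) (dd S)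
        have h3 : o.Γ (π (Sum.inl S) ω) i j - (ci_g nd G).eval (τ S) =
            (o.Γ (π (Sum.inl S) ω) i j - (ci_g nd G).eval (T S)) +
            ((ci_g nd G).eval (T S) - (ci_g nd G).eval (τ S)) := by
          ring
        change |o.Γ (π (Sum.inl S) ω) i j - (ci_g nd G).eval (τ S)| ≤ _
        rw [h3]
        refine (abs_add_le _ _).trans (add_le_add (hpol S) ?_)
        rw [hRDk] at h2
        have h5 : |(ci_g nd G).eval (T S) - (ci_g nd G).eval (τ S)| =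
            2 ^ a * (R * |(ci_g nd G).eval (T S) - (ci_g nd G).eval (τ S)|) := by
          rw [← mul_assoc, mul_comm (2 ^ a : ℝ) R, hR2, one_mul]
        rw [h5]
        calc 2 ^ a * (R * |(ci_g nd G).eval (T S) - (ci_g nd G).eval (τ S)|)
            ≤ 2 ^ a * (((k : ℝ) + 1) * (k * 2 ^ (k * w) * 3 ^ κ * δ)) := by (clear * - h2; gcongr)
          _ = (((k : ℝ) + 1) * k) * 1 * 3 ^ κ * 2 ^ (k * w) * 2 ^ a * δ := by ring
          _ ≤ (k + 1) ^ 2 * 2 ^ (k + 1) * 3 ^ κ * 2 ^ (k * w) * 2 ^ a * δ := by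
            have h6 : ((k : ℝ) + 1) * k ≤ (k + 1) ^ 2 := by nlinarith only []
            (clear * - h6 e1; gcongr))
    unfold cS
    refine h1.trans (le_of_eq ?_)
    ring

end det

end Vale.Agent.P127.Stk
end

section

/-!
# P127 / Stk : the noise in the step for `Γ` (PROOF.md, section 8)

The change of the projected point between the times of two vertices of the cube is, up to `O(1)`,
a function of the cell of the line.
-/

namespace Vale.Agent.P127.Stk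

open Finset Vale.Agent.P127

theorem cn_frac (n : ℕ) (v : ℝ) :
    |v - (⌊(2 : ℝ) ^ n * v⌋ : ℝ) / 2 ^ n| ≤ 1 / 2 ^ n := by
  have h2 : (0 : ℝ) < 2 ^ n := by positivity
  have h0 := Int.floor_le ((2 : ℝ) ^ n * v)
  have h1 := Int.lt_floor_add_one ((2 : ℝ) ^ n * v)
  have e : v - (⌊(2 : ℝ) ^ n * v⌋ : ℝ) / 2 ^ n = ((2 : ℝ) ^ n * v - ⌊(2 : ℝ) ^ n * v⌋) / 2 ^ n := by
    field_simp
  rw [e, abs_div, abs_of_pos h2, abs_of_nonneg (by linarith only [h0])]
  exact div_le_div_of_nonneg_right (by linarith only [h1]) h2.le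

theorem cn_time (a : ℕ) (u v : ℝ) (h : fl1 a u = fl1 a v) : |u - v| ≤ 1 / 2 ^ a := by
  have h2 : (0 : ℝ) < 2 ^ a := by positivity
  have h1 := (Int.abs_sub_lt_one_of_floor_eq_floor h).le
  rw [← mul_sub, abs_mul, abs_of_pos h2] at h1
  rw [le_div_iff₀ h2]
  linarith

theorem cn_floors (A B D : ℝ) (h : |A - B - D| ≤ 1) : |⌊A⌋ - ⌊B⌋ - ⌊D⌋| ≤ 4 := by
  have hA0 := Int.floor_le A
  have hA1 := Int.lt_floor_add_one A
  have hB0 := Int.floor_le B
  have hB1 := Int.lt_floor_add_one B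
  have hD0 := Int.floor_le D
  have hD1 := Int.lt_floor_add_one D
  have h1 := abs_le.1 h
  have h2 : |((⌊A⌋ - ⌊B⌋ - ⌊D⌋ : ℤ) : ℝ)| ≤ ((4 : ℤ) : ℝ) := by
    push_cast
    rw [abs_le]
    constructor <;> linarith [h1.1, h1.2]
  rw [← Int.cast_abs] at h2
  exact_mod_cast h2

theorem cn_linF_sub {m : ℕ} (J : Finset (Fin m)) (Γ : Fin m → Fin m → ℝ) (t : ℝ)
    (x y x' y' : Fin m → ℝ) (i : Fin m) :
    linF J Γ t x y i - linF J Γ t x' y' i =
      linF J Γ t (fun j => x j - x' j) (fun j => y j - y' j) i := by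
  unfold linF
  split_ifs
  · simp
  · have : ∑ j ∈ J, Γ i j * (x j - x' j + t * (y j - y' j)) =
        ∑ j ∈ J, Γ i j * (x j + t * y j) - ∑ j ∈ J, Γ i j * (x' j + t * y' j) := by
      rw [← Finset.sum_sub_distrib]
      exact Finset.sum_congr rfl fun j _ => by ring
    rw [this]
    ring

/-- the main estimate -/
theorem cn_main {m κ : ℕ} (a w n : ℕ) (J : Finset (Fin m)) (hJ : J.card = κ)
    (Γ Γ' : Fin m → Fin m → ℝ) (t t' : ℝ) (dx dy : Fin m → ℝ) (i : Fin m) (hi : i ∉ J)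
    (hdx : ∀ j, |dx j| ≤ 1 / 2 ^ n) (hdy : ∀ j, |dy j| ≤ 1 / 2 ^ n)
    (ht : |t - t'| ≤ 1 / 2 ^ a) (ht1 : |t| ≤ 1)
    (hG : ∀ j ∈ J, |Γ i j - Γ' i j| ≤ 2 ^ w / 2 ^ a) (hG' : ∀ j ∈ J, |Γ' i j| ≤ 3 ^ κ) :
    |linF J Γ t dx dy i - linF J Γ' t' dx dy i| ≤
      1 / 2 ^ a * (1 / 2 ^ n) * (1 + κ * (2 * 2 ^ w + 3 ^ κ)) := by
  have e : linF J Γ t dx dy i - linF J Γ' t' dx dy i =
      (t - t') * dy i - ∑ j ∈ J, ((Γ i j - Γ' i j) * (dx j + t * dy j) +
        Γ' i j * ((t - t') * dy j)) := by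
    unfold linF
    rw [if_neg hi, if_neg hi]
    have : ∑ j ∈ J, ((Γ i j - Γ' i j) * (dx j + t * dy j) + Γ' i j * ((t - t') * dy j)) =
        ∑ j ∈ J, Γ i j * (dx j + t * dy j) - ∑ j ∈ J, Γ' i j * (dx j + t' * dy j) := by
      rw [← Finset.sum_sub_distrib]
      exact Finset.sum_congr rfl fun j _ => by ring
    rw [this]
    ring
  have hn : (0 : ℝ) < 1 / 2 ^ n := by positivity
  have ha : (0 : ℝ) < 1 / 2 ^ a := by positivity
  have h1 : |(t - t') * dy i| ≤ 1 / 2 ^ a * (1 / 2 ^ n) := by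
    rw [abs_mul]
    exact mul_le_mul ht (hdy i) (abs_nonneg _) ha.le
  have h2 : ∀ j ∈ J, |(Γ i j - Γ' i j) * (dx j + t * dy j) + Γ' i j * ((t - t') * dy j)| ≤
      1 / 2 ^ a * (1 / 2 ^ n) * (2 * 2 ^ w + 3 ^ κ) := by
    intro j hj
    have h3 : |dx j + t * dy j| ≤ 2 * (1 / 2 ^ n) := by
      calc |dx j + t * dy j| ≤ |dx j| + |t * dy j| := abs_add_le _ _
        _ = |dx j| + |t| * |dy j| := by rw [abs_mul]
        _ ≤ 1 / 2 ^ n + 1 * (1 / 2 ^ n) :=
            add_le_add (hdx j) (mul_le_mul ht1 (hdy j) (abs_nonneg _) zero_le_one)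
        _ = _ := by ring
    have h4 : |(t - t') * dy j| ≤ 1 / 2 ^ a * (1 / 2 ^ n) := by
      rw [abs_mul]
      exact mul_le_mul ht (hdy j) (abs_nonneg _) ha.le
    calc |(Γ i j - Γ' i j) * (dx j + t * dy j) + Γ' i j * ((t - t') * dy j)|
        ≤ |(Γ i j - Γ' i j) * (dx j + t * dy j)| + |Γ' i j * ((t - t') * dy j)| :=
          abs_add_le _ _
      _ = |Γ i j - Γ' i j| * |dx j + t * dy j| + |Γ' i j| * |(t - t') * dy j| := by
          rw [abs_mul, abs_mul (Γ' i j)]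
      _ ≤ 2 ^ w / 2 ^ a * (2 * (1 / 2 ^ n)) + 3 ^ κ * (1 / 2 ^ a * (1 / 2 ^ n)) :=
          add_le_add (mul_le_mul (hG j hj) h3 (abs_nonneg _) (by positivity))
            (mul_le_mul (hG' j hj) h4 (abs_nonneg _) (by positivity))
      _ = _ := by ring
  rw [e]
  calc |(t - t') * dy i - ∑ j ∈ J, ((Γ i j - Γ' i j) * (dx j + t * dy j) +
        Γ' i j * ((t - t') * dy j))|
      ≤ |(t - t') * dy i| + |∑ j ∈ J, ((Γ i j - Γ' i j) * (dx j + t * dy j) +
        Γ' i j * ((t - t') * dy j))| := abs_sub _ _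
    _ ≤ 1 / 2 ^ a * (1 / 2 ^ n) + ∑ j ∈ J, (1 / 2 ^ a * (1 / 2 ^ n) * (2 * 2 ^ w + 3 ^ κ)) :=
        add_le_add h1 ((Finset.abs_sum_le_sum_abs _ _).trans (Finset.sum_le_sum h2))
    _ = _ := by
        rw [Finset.sum_const, hJ, nsmul_eq_mul]
        ring

variable {Ω Ω' : Type} {m κ k : ℕ}

/-- noise -/
theorem cphi_noise (a w n N : ℕ) (c : Cf Ω m) (o : Ob Ω m κ) (π : CI k → Ω' → Ω) (ω : Ω')
    (hx : ∀ ω i, 0 ≤ c.x ω i ∧ c.x ω i < 1) (hy : ∀ ω i, 0 ≤ c.y ω i ∧ c.y ω i < 1)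
    (h01 : ∀ ω, 0 ≤ c.t ω ∧ c.t ω < 1)
    (hk : ∀ i j, key c a (π i ω) = key c a (π j ω)) (ht : CTyp a w c o π ω)
    (hN : N + 2 * w ≤ n + a) (hw : 1 + 2 * κ + κ * 3 ^ κ ≤ 2 ^ w) (S : Finset (Fin (k + 2)))
    (i : Fin m) :
    |cX N c o π S ω i - cX N c o π ∅ ω i - cphi n N c o S (cB n c o π ω) (cq n c π ω) i| ≤ 4 := by
  have hkey := hk (Sum.inl S) (vb k)
  simp only [key, Prod.mk.injEq] at hkey
  obtain ⟨ex, ey, -, et⟩ := hkey
  have e1 : cX N c o π S ω i = ⌊(2 : ℝ) ^ N * linF o.J (o.Γ (π (Sum.inl S) ω))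
      (c.t (π (Sum.inl S) ω)) (c.x (π (vb k) ω)) (c.y (π (vb k) ω)) i⌋ := by
    rw [← ex, ← ey]
    rfl
  have e2 : cX N c o π ∅ ω i = ⌊(2 : ℝ) ^ N * linF o.J (o.Γ (π (vb k) ω))
      (c.t (π (vb k) ω)) (c.x (π (vb k) ω)) (c.y (π (vb k) ω)) i⌋ := rfl
  have e3 : cphi n N c o S (cB n c o π ω) (cq n c π ω) i =
      ⌊(2 : ℝ) ^ N * (linF o.J (o.Γ (π (Sum.inl S) ω)) (c.t (π (Sum.inl S) ω))
        (fun j => (⌊(2 : ℝ) ^ n * c.x (π (vb k) ω) j⌋ : ℝ) / 2 ^ n)
        (fun j => (⌊(2 : ℝ) ^ n * c.y (π (vb k) ω) j⌋ : ℝ) / 2 ^ n) i -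
      linF o.J (o.Γ (π (vb k) ω)) (c.t (π (vb k) ω))
        (fun j => (⌊(2 : ℝ) ^ n * c.x (π (vb k) ω) j⌋ : ℝ) / 2 ^ n)
        (fun j => (⌊(2 : ℝ) ^ n * c.y (π (vb k) ω) j⌋ : ℝ) / 2 ^ n) i)⌋ := by
    rw [← Ob.Gh_G o (π (Sum.inl S) ω), ← Ob.Gh_G o (π (vb k) ω)]
    rfl
  rw [e1, e2, e3]
  apply cn_floors
  by_cases hi : i ∈ o.J
  · simp only [linF, hi, ↓reduceIte, mul_zero, sub_self, abs_zero, zero_le_one]
  · have h2 : (0 : ℝ) < 2 ^ a := by positivity
    have hmain := cn_main (κ := κ) a w n o.J o.card (o.Γ (π (Sum.inl S) ω)) (o.Γ (π (vb k) ω))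
      (c.t (π (Sum.inl S) ω)) (c.t (π (vb k) ω))
      (fun j => c.x (π (vb k) ω) j - (⌊(2 : ℝ) ^ n * c.x (π (vb k) ω) j⌋ : ℝ) / 2 ^ n)
      (fun j => c.y (π (vb k) ω) j - (⌊(2 : ℝ) ^ n * c.y (π (vb k) ω) j⌋ : ℝ) / 2 ^ n)
      i hi (fun j => cn_frac n _) (fun j => cn_frac n _) (cn_time a _ _ et)
      (by rw [abs_of_nonneg (h01 _).1]; exact (h01 _).2.le)
      (fun j hj => by
        rw [le_div_iff₀ h2]
        have := ht.gam S i j hi hj
        linarith only [this]) (fun j _ => o.bd _ _ _)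
    rw [← cn_linF_sub, ← cn_linF_sub] at hmain
    have e4 : ∀ A B C D : ℝ, (2 : ℝ) ^ N * A - 2 ^ N * B - 2 ^ N * (C - D) =
        2 ^ N * ((A - C) - (B - D)) := fun A B C D => by ring
    rw [e4, abs_mul, abs_of_pos (by positivity : (0 : ℝ) < 2 ^ N)]
    refine (mul_le_mul_of_nonneg_left hmain (by positivity)).trans ?_
    have h5 : (1 : ℝ) + κ * (2 * 2 ^ w + 3 ^ κ) ≤ 2 ^ w * 2 ^ w := by
      have h6 : ((1 + 2 * κ + κ * 3 ^ κ : ℕ) : ℝ) ≤ ((2 ^ w : ℕ) : ℝ) := Nat.cast_le.2 hw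
      push_cast at h6
      have h7 : (1 : ℝ) ≤ 2 ^ w := one_le_pow₀ (by norm_num)
      have h8 : (0 : ℝ) ≤ 1 + κ * 3 ^ κ := by (clear * -; positivity)
      nlinarith only [h6, h7, h8]
    have h9 : (2 : ℝ) ^ N * (2 ^ w * 2 ^ w) ≤ 2 ^ n * 2 ^ a := by
      rw [← pow_add, ← pow_add, ← pow_add]
      exact pow_le_pow_right₀ (by norm_num) (by (clear * - hN; omega))
    calc (2 : ℝ) ^ N * (1 / 2 ^ a * (1 / 2 ^ n) * (1 + κ * (2 * 2 ^ w + 3 ^ κ)))
        ≤ 2 ^ N * (1 / 2 ^ a * (1 / 2 ^ n) * (2 ^ w * 2 ^ w)) := by (clear * - h5; gcongr)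
      _ = (2 ^ N * (2 ^ w * 2 ^ w)) / (2 ^ n * 2 ^ a) := by
          field_simp
      _ ≤ 1 := (div_le_one (by positivity)).2 h9

end Vale.Agent.P127.Stk
end

section

/-!
# P127 / Stk : the formula for `W` (PROOF.md, section 8)
-/

namespace Vale.Agent.P127.Stk

open Finset Vale.Agent.P127

section det

variable {Ω Ω' : Type} {m κ k : ℕ}

/-- the alternating sum of the signs vanishes -/
theorem cw_f_signs (p : ℕ) :
    ∑ S : Finset (Fin (p + 1)), (-1 : ℝ) ^ S.card = 0 := by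
  have h := Finset.sum_powerset_neg_one_pow_card_of_nonempty
    (x := (Finset.univ : Finset (Fin (p + 1)))) ⟨0, Finset.mem_univ _⟩
  rw [Finset.powerset_univ] at h
  have h2 : ((∑ S : Finset (Fin (p + 1)), (-1 : ℤ) ^ S.card : ℤ) : ℝ) = 0 := by
    rw [h]
    norm_num
  rw [← h2]
  push_cast
  rfl

/-- the alternating sum of a cube of dimension at least two vanishes -/
theorem cw_f_cube (p : ℕ) (u : ℝ) (lam : Fin (p + 2) → ℝ) :
    ∑ S : Finset (Fin (p + 2)), (-1 : ℝ) ^ S.card * (u + ∑ i ∈ S, lam i) = 0 := by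
  have h1 : ∀ i : Fin (p + 2),
      ∑ S : Finset (Fin (p + 2)), (if i ∈ S then (-1 : ℝ) ^ S.card else 0) = 0 := by
    intro i
    have hne : ((Finset.univ : Finset (Fin (p + 2))).erase i).Nonempty := by
      rw [← Finset.card_pos, Finset.card_erase_of_mem (Finset.mem_univ i), Finset.card_univ,
        Fintype.card_fin]
      omega
    have h2 := Finset.sum_powerset_neg_one_pow_card_of_nonempty hne
    have h3 : ((∑ S ∈ ((Finset.univ : Finset (Fin (p + 2))).erase i).powerset,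
        (-1 : ℤ) ^ S.card : ℤ) : ℝ) = 0 := by
      rw [h2]
      norm_num
    push_cast at h3
    rw [← Finset.powerset_univ, ← Finset.insert_erase (Finset.mem_univ i),
      Finset.sum_powerset_insert (Finset.notMem_erase i _)]
    rw [Finset.sum_eq_zero, zero_add]
    · have h4 : ∀ S ∈ ((Finset.univ : Finset (Fin (p + 2))).erase i).powerset,
          (if i ∈ insert i S then (-1 : ℝ) ^ (insert i S).card else 0) =
            -(-1 : ℝ) ^ S.card := by
        intro S hS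
        have h5 : i ∉ S := fun h => Finset.notMem_erase i _ (Finset.mem_powerset.1 hS h)
        rw [if_pos (Finset.mem_insert_self i S), Finset.card_insert_of_notMem h5, pow_succ]
        ring
      rw [Finset.sum_congr rfl h4, Finset.sum_neg_distrib, h3, neg_zero]
    · intro S hS
      have h5 : i ∉ S := fun h => Finset.notMem_erase i _ (Finset.mem_powerset.1 hS h)
      rw [if_neg h5]
  have h2 : ∀ S : Finset (Fin (p + 2)), (-1 : ℝ) ^ S.card * (u + ∑ i ∈ S, lam i) =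
      (-1 : ℝ) ^ S.card * u + ∑ i, lam i * (if i ∈ S then (-1 : ℝ) ^ S.card else 0) := by
    intro S
    rw [mul_add, Finset.mul_sum]
    congr 1
    rw [← Finset.sum_filter_add_sum_filter_not Finset.univ (fun i => i ∈ S)]
    have e1 : ∑ i ∈ Finset.univ.filter (fun i => i ∉ S),
        lam i * (if i ∈ S then (-1 : ℝ) ^ S.card else 0) = 0 := by
      refine Finset.sum_eq_zero fun i hi => ?_
      rw [if_neg (Finset.mem_filter.1 hi).2, mul_zero]
    have e2 : Finset.univ.filter (fun i => i ∈ S) = S := by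
      ext i
      simp only [subset_univ, filter_mem_eq_of_subset]
    rw [e1, add_zero, e2]
    refine Finset.sum_congr rfl fun i hi => ?_
    rw [if_pos hi, mul_comm]
  rw [Finset.sum_congr rfl fun S _ => h2 S, Finset.sum_add_distrib, ← Finset.sum_mul, cw_f_signs,
    zero_mul, zero_add, Finset.sum_comm]
  refine Finset.sum_eq_zero fun i _ => ?_
  rw [← Finset.mul_sum, h1, mul_zero]

/-- the alternating sum of the times -/
theorem cw_f_times (p L : ℕ) (t : Finset (Fin (p + 2)) → ℝ)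
    (hc : IsCube (fun S => fl1 L (t S))) :
    |∑ S : Finset (Fin (p + 2)), (-1 : ℝ) ^ S.card * t S| ≤ 2 ^ (p + 2) * (1 / 2) ^ L := by
  obtain ⟨u₀, lam, h⟩ := hc
  have h2 : (0 : ℝ) < 2 ^ L := by positivity
  have h0 := cw_f_cube p (u₀ : ℝ) (fun i => (lam i : ℝ))
  have h3 : ∀ S : Finset (Fin (p + 2)), |2 ^ L * t S - (u₀ + ∑ i ∈ S, (lam i : ℝ))| ≤ 1 := by
    intro S
    have h4 := h S
    have h5 := Int.floor_le ((2 : ℝ) ^ L * t S)
    have h6 := Int.lt_floor_add_one ((2 : ℝ) ^ L * t S)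
    have h7 : ((⌊(2 : ℝ) ^ L * t S⌋ : ℤ) : ℝ) = u₀ + ∑ i ∈ S, (lam i : ℝ) := by
      have h8 : ⌊(2 : ℝ) ^ L * t S⌋ = u₀ + ∑ i ∈ S, (lam i : ℤ) := h4
      rw [h8]
      push_cast
      rfl
    rw [← h7, abs_le]
    constructor <;> linarith only [h5, h6]
  have h4 : ∑ S : Finset (Fin (p + 2)), (-1 : ℝ) ^ S.card * t S =
      (∑ S : Finset (Fin (p + 2)), (-1 : ℝ) ^ S.card *
        (2 ^ L * t S - (u₀ + ∑ i ∈ S, (lam i : ℝ)))) * (1 / 2) ^ L := by
    have e : ∑ S : Finset (Fin (p + 2)), (-1 : ℝ) ^ S.card *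
        (2 ^ L * t S - (u₀ + ∑ i ∈ S, (lam i : ℝ))) =
        2 ^ L * ∑ S : Finset (Fin (p + 2)), (-1 : ℝ) ^ S.card * t S := by
      have e1 : ∀ S : Finset (Fin (p + 2)), (-1 : ℝ) ^ S.card *
          (2 ^ L * t S - (u₀ + ∑ i ∈ S, (lam i : ℝ))) =
          2 ^ L * ((-1 : ℝ) ^ S.card * t S) -
            (-1 : ℝ) ^ S.card * (u₀ + ∑ i ∈ S, (lam i : ℝ)) := fun S => by ring
      rw [Finset.sum_congr rfl fun S _ => e1 S, Finset.sum_sub_distrib, h0, sub_zero,
        ← Finset.mul_sum]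
    rw [e, mul_right_comm, ← mul_pow]
    norm_num
  rw [h4, abs_mul, abs_of_pos (by positivity : (0 : ℝ) < (1 / 2) ^ L)]
  refine mul_le_mul_of_nonneg_right ?_ (by positivity)
  refine (Finset.abs_sum_le_sum_abs _ _).trans ?_
  calc _ ≤ ∑ S : Finset (Fin (p + 2)), (1 : ℝ) := by
        refine Finset.sum_le_sum fun S _ => ?_
        rw [abs_mul, abs_pow, abs_neg, abs_one, one_pow, one_mul]
        exact h3 S
    _ = 2 ^ (p + 2) := by
        rw [Finset.sum_const, Finset.card_univ, Fintype.card_finset, Fintype.card_fin]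
        simp only [nsmul_eq_mul, Nat.cast_pow, Nat.cast_ofNat, mul_one]

/-- cells of `[0, 1)` -/
theorem cw_f_cell (n : ℕ) {x y : ℝ} (hx : 0 ≤ x ∧ x < 1) (hy : 0 ≤ y ∧ y < 1) :
    |((⌊(2 : ℝ) ^ n * y⌋ : ℤ) : ℝ) / 2 ^ n - ((⌊(2 : ℝ) ^ n * x⌋ : ℤ) : ℝ) / 2 ^ n| ≤ 1 := by
  have h2 : (0 : ℝ) < 2 ^ n := by positivity
  have key : ∀ z : ℝ, 0 ≤ z ∧ z < 1 → 0 ≤ ((⌊(2 : ℝ) ^ n * z⌋ : ℤ) : ℝ) ∧
      ((⌊(2 : ℝ) ^ n * z⌋ : ℤ) : ℝ) ≤ 2 ^ n := by
    intro z hz
    constructor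
    · have : (0 : ℤ) ≤ ⌊(2 : ℝ) ^ n * z⌋ := Int.floor_nonneg.2 (mul_nonneg h2.le hz.1)
      exact_mod_cast this
    · refine (Int.floor_le _).trans ?_
      exact mul_le_of_le_one_right h2.le hz.2.le
  obtain ⟨a1, a2⟩ := key x hx
  obtain ⟨b1, b2⟩ := key y hy
  rw [← sub_div, abs_le]
  constructor
  · rw [le_div_iff₀ h2]
    linarith only [a2, b1]
  · rw [div_le_iff₀ h2]
    linarith only [a1, b2]

/-- difference of two floors -/
theorem cw_f_floor (A B : ℝ) : |((⌊A⌋ - ⌊B⌋ : ℤ) : ℝ) - (A - B)| ≤ 1 := by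
  have h1 := Int.floor_le A
  have h2 := Int.lt_floor_add_one A
  have h3 := Int.floor_le B
  have h4 := Int.lt_floor_add_one B
  push_cast
  rw [abs_le]
  constructor <;> linarith only [h1, h4, h2, h3]

/-- the numerical inequality -/
theorem cw_f_num (κ k a w N L : ℕ) (hN : N + w + 2 * k + 4 + 2 * κ ≤ (k + 2) * a)
    (hL : (k + 2) * a + k * w + 4 * k + 8 + 4 * κ ≤ L) :
    (2 : ℝ) ^ N * (2 ^ (k + 2) * (1 / 2) ^ L + κ * (2 ^ (k + 2) * (1 / 2) ^ a *
      (2 ^ w * (1 / 2) ^ ((k + 1) * a)) +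
        2 ^ (k + 2) * ((k + 1) ^ 2 * 2 ^ (k + 1) * 3 ^ κ * 2 ^ (k * w) * (1 / 2) ^ L))) ≤
      2 ^ (k + 2) := by
  have hk1 : ((k : ℝ) + 1) ≤ 2 ^ k := by
    have : k + 1 ≤ 2 ^ k := Nat.lt_two_pow_self
    exact_mod_cast this
  have hκ1 : (κ : ℝ) ≤ 2 ^ κ := by
    have : κ ≤ 2 ^ κ := Nat.lt_two_pow_self.le
    exact_mod_cast this
  have h3 : (3 : ℝ) ^ κ ≤ 2 ^ (2 * κ) := by
    rw [pow_mul]
    exact pow_le_pow_left₀ (by norm_num) (by norm_num) _
  -- first term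
  have t1 : (2 : ℝ) ^ N * (1 / 2) ^ L ≤ 1 / 8 := by
    have e : N + 3 ≤ L := by
      have : 0 ≤ k * w := Nat.zero_le _
      omega
    calc (2 : ℝ) ^ N * (1 / 2) ^ L ≤ (2 : ℝ) ^ N * (1 / 2) ^ (N + 3) :=
          mul_le_mul_of_nonneg_left (pow_le_pow_of_le_one (by norm_num) (by norm_num) e)
            (by positivity)
      _ = (2 * (1 / 2)) ^ N * (1 / 2) ^ 3 := by rw [mul_pow, pow_add]; ring
      _ = 1 / 8 := by norm_num
  -- second term
  have t2 : (2 : ℝ) ^ N * (κ * ((1 / 2) ^ a * (2 ^ w * (1 / 2) ^ ((k + 1) * a)))) ≤ 1 / 8 := by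
    have e : N + w + κ + 3 ≤ a + (k + 1) * a := by
      have : a + (k + 1) * a = (k + 2) * a := by ring
      (clear * - hN this; omega)
    calc (2 : ℝ) ^ N * (κ * ((1 / 2) ^ a * (2 ^ w * (1 / 2) ^ ((k + 1) * a))))
        = κ * (2 ^ (N + w) * (1 / 2) ^ (a + (k + 1) * a)) := by rw [pow_add, pow_add]; ring
      _ ≤ 2 ^ κ * (2 ^ (N + w) * (1 / 2) ^ (N + w + κ + 3)) := by
          refine mul_le_mul hκ1 (mul_le_mul_of_nonneg_left
            (pow_le_pow_of_le_one (by (clear * -; norm_num)) (by norm_num) e) (by positivity))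
            (by positivity) (by positivity)
      _ = (2 * (1 / 2)) ^ (N + w + κ) * (1 / 2) ^ 3 := by
          rw [mul_pow, pow_add _ (N + w) κ, pow_add _ (N + w + κ) 3, pow_add _ (N + w) κ]; ring
      _ = 1 / 8 := by norm_num
  -- third term
  have t3 : (2 : ℝ) ^ N * (κ * ((k + 1) ^ 2 * 2 ^ (k + 1) * 3 ^ κ * 2 ^ (k * w) *
      (1 / 2) ^ L)) ≤ 1 / 8 := by
    have e : N + (κ + (2 * k + (k + 1) + 2 * κ + k * w)) + 3 ≤ L := by
      omega
    calc (2 : ℝ) ^ N * (κ * ((k + 1) ^ 2 * 2 ^ (k + 1) * 3 ^ κ * 2 ^ (k * w) * (1 / 2) ^ L))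
        ≤ 2 ^ N * (2 ^ κ * ((2 ^ k) ^ 2 * 2 ^ (k + 1) * 2 ^ (2 * κ) * 2 ^ (k * w) *
          (1 / 2) ^ (N + (κ + (2 * k + (k + 1) + 2 * κ + k * w)) + 3))) := by
          have p1 : ((k : ℝ) + 1) ^ 2 ≤ (2 ^ k) ^ 2 :=
            pow_le_pow_left₀ (by positivity) hk1 2
          have p2 : ((k : ℝ) + 1) ^ 2 * 2 ^ (k + 1) ≤ (2 ^ k) ^ 2 * 2 ^ (k + 1) :=
            mul_le_mul_of_nonneg_right p1 (by positivity)
          have p3 : ((k : ℝ) + 1) ^ 2 * 2 ^ (k + 1) * 3 ^ κ ≤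
              (2 ^ k) ^ 2 * 2 ^ (k + 1) * 2 ^ (2 * κ) :=
            mul_le_mul p2 h3 (by positivity) (by positivity)
          have p4 : ((k : ℝ) + 1) ^ 2 * 2 ^ (k + 1) * 3 ^ κ * 2 ^ (k * w) ≤
              (2 ^ k) ^ 2 * 2 ^ (k + 1) * 2 ^ (2 * κ) * 2 ^ (k * w) :=
            mul_le_mul_of_nonneg_right p3 (by positivity)
          have p5 : (1 / 2 : ℝ) ^ L ≤
              (1 / 2) ^ (N + (κ + (2 * k + (k + 1) + 2 * κ + k * w)) + 3) :=
            pow_le_pow_of_le_one (by norm_num) (by norm_num) e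
          have p6 := mul_le_mul p4 p5 (by positivity) (by positivity)
          exact mul_le_mul_of_nonneg_left (mul_le_mul hκ1 p6 (by positivity) (by positivity))
            (by positivity)
      _ = 2 ^ N * 2 ^ (κ + (2 * k + (k + 1) + 2 * κ + k * w)) *
          (1 / 2) ^ (N + (κ + (2 * k + (k + 1) + 2 * κ + k * w)) + 3) := by
          rw [pow_add 2 κ, pow_add 2 (2 * k + (k + 1) + 2 * κ), pow_add 2 (2 * k + (k + 1)),
            pow_add 2 (2 * k), pow_mul 2 2 k, pow_right_comm 2 2 k]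
          ring
      _ = (2 * (1 / 2)) ^ (N + (κ + (2 * k + (k + 1) + 2 * κ + k * w))) * (1 / 2) ^ 3 := by
          rw [mul_pow, pow_add _ _ 3, pow_add 2 N]
          ring
      _ = 1 / 8 := by norm_num
  have hpos : (0 : ℝ) < 2 ^ (k + 2) := by positivity
  have h := mul_le_mul_of_nonneg_left (add_le_add (add_le_add t1 t2) t3) hpos.le
  refine le_trans (le_of_eq ?_) (h.trans ?_)
  · ring
  · linarith only [hpos]

/-- the algebraic identity -/
theorem cw_f_alg {p : ℕ} (J : Finset (Fin m)) (G : Finset (Fin (p + 1)) → Fin m → ℝ)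
    (t : Finset (Fin (p + 1)) → ℝ) (t0 : ℝ) (u v : Fin m → ℝ) (i : Fin m) :
    ∑ S : Finset (Fin (p + 1)), (-1 : ℝ) ^ S.card *
        ((u i + t S * v i) - ∑ j ∈ J, G S j * (u j + t S * v j)) +
      ∑ j ∈ J, (∑ S : Finset (Fin (p + 1)), (-1 : ℝ) ^ S.card * G S j) * (u j + t0 * v j) =
    v i * ∑ S : Finset (Fin (p + 1)), (-1 : ℝ) ^ S.card * t S -
      ∑ j ∈ J, v j * ∑ S : Finset (Fin (p + 1)), (-1 : ℝ) ^ S.card * (t S - t0) * G S j := by
  have e1 : ∀ S : Finset (Fin (p + 1)), (-1 : ℝ) ^ S.card *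
        ((u i + t S * v i) - ∑ j ∈ J, G S j * (u j + t S * v j)) =
      (-1 : ℝ) ^ S.card * u i + v i * ((-1 : ℝ) ^ S.card * t S) -
        ∑ j ∈ J, (-1 : ℝ) ^ S.card * (G S j * (u j + t S * v j)) := by
    intro S
    rw [← Finset.mul_sum]
    ring
  rw [Finset.sum_congr rfl fun S _ => e1 S, Finset.sum_sub_distrib, Finset.sum_add_distrib,
    ← Finset.sum_mul, cw_f_signs, zero_mul, zero_add, ← Finset.mul_sum, Finset.sum_comm]
  rw [sub_add, sub_right_inj, ← Finset.sum_sub_distrib]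
  refine Finset.sum_congr rfl fun j _ => ?_
  rw [Finset.sum_mul, Finset.mul_sum, ← Finset.sum_sub_distrib]
  refine Finset.sum_congr rfl fun S _ => ?_
  ring

/-- the formula for `W` -/
theorem cW_formula (a w n N L : ℕ) (c : Cf Ω m) (o : Ob Ω m κ) (π : CI k → Ω' → Ω) (ω ω1 ω2 : Ω')
    (hx : ∀ ω i, 0 ≤ c.x ω i ∧ c.x ω i < 1) (hy : ∀ ω i, 0 ≤ c.y ω i ∧ c.y ω i < 1)
    (h01 : ∀ ω, 0 ≤ c.t ω ∧ c.t ω < 1)
    (hk : ∀ i j, key c a (π i ω) = key c a (π j ω))
    (hc : IsCube (fun S => fl1 L (c.t (π (Sum.inl S) ω)))) (ht : CTyp a w c o π ω)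
    (hN : N + w + 2 * k + 4 + 2 * κ ≤ (k + 2) * a)
    (hL : (k + 2) * a + k * w + 4 * k + 8 + 4 * κ ≤ L)
    (i : Fin m) :
    (i ∉ o.J → |((∑ S : Finset (Fin (k + 2)), (-1 : ℤ) ^ S.card *
        (cphi n N c o S (cB n c o π ω) (cq n c π ω2) i -
          cphi n N c o S (cB n c o π ω) (cq n c π ω1) i) : ℤ) : ℝ) +
      2 ^ N * ∑ j ∈ o.J, cE c o (cB n c o π ω) i j *
        (cC n c o (cB n c o π ω) (cq n c π ω2) j - cC n c o (cB n c o π ω) (cq n c π ω1) j)| ≤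
      2 ^ (k + 3)) ∧
    (i ∈ o.J → (∑ S : Finset (Fin (k + 2)), (-1 : ℤ) ^ S.card *
        (cphi n N c o S (cB n c o π ω) (cq n c π ω2) i -
          cphi n N c o S (cB n c o π ω) (cq n c π ω1) i)) = 0) := by
  constructor
  · intro hi
    have haL : a ≤ L := by
      have h1 : a ≤ (k + 2) * a := Nat.le_mul_of_pos_left a (by (clear * -; omega))
      (clear * - hL h1; omega)
    have hkey : ∀ i j, fl1 a (c.t (π i ω)) = fl1 a (c.t (π j ω)) := by
      intro i j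
      exact congrArg (fun z => z.2.2.2) (hk i j)
    have hI := fun j hj => cube_interp a w L c o π ω h01 hkey hc haL ht i j hi hj
    -- names
    set t : Finset (Fin (k + 2)) → ℝ := fun S => c.t (π (Sum.inl S) ω) with ht'
    set G : Finset (Fin (k + 2)) → Fin m → ℝ := fun S j => o.Γ (π (Sum.inl S) ω) i j with hG
    set u : Fin m → ℝ := fun j => ((cq n c π ω2).1 j : ℝ) / 2 ^ n -
      ((cq n c π ω1).1 j : ℝ) / 2 ^ n with hu
    set v : Fin m → ℝ := fun j => ((cq n c π ω2).2 j : ℝ) / 2 ^ n -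
      ((cq n c π ω1).2 j : ℝ) / 2 ^ n with hv
    have hv1 : ∀ j, |v j| ≤ 1 := fun j => cw_f_cell n (hy _ j) (hy _ j)
    -- the value of `linF`
    set lf : Finset (Fin (k + 2)) → ((Fin m → ℤ) × (Fin m → ℤ)) → ℝ := fun S q =>
      linF o.J (o.Gh ((cB n c o π ω).1 (Sum.inl S)).2) ((cB n c o π ω).1 (Sum.inl S)).1
        (fun i => q.1 i / 2 ^ n) (fun i => q.2 i / 2 ^ n) i with hlf
    have hlin : ∀ (S : Finset (Fin (k + 2))) (q : (Fin m → ℤ) × (Fin m → ℤ)),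
        lf S q = ((q.1 i : ℝ) / 2 ^ n + t S * ((q.2 i : ℝ) / 2 ^ n)) -
          ∑ j ∈ o.J, G S j * ((q.1 j : ℝ) / 2 ^ n + t S * ((q.2 j : ℝ) / 2 ^ n)) := by
      intro S q
      have e : o.Gh ((cB n c o π ω).1 (Sum.inl S)).2 = o.Γ (π (Sum.inl S) ω) := o.Gh_G _
      simp only [hlf]
      rw [e]
      unfold linF
      rw [if_neg hi]
      rfl
    have hcphi : ∀ (S : Finset (Fin (k + 2))) (q : (Fin m → ℤ) × (Fin m → ℤ)),
        cphi n N c o S (cB n c o π ω) q i = ⌊(2 : ℝ) ^ N * (lf S q - lf ∅ q)⌋ :=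
      fun _ _ => rfl
    have hlinu : ∀ S : Finset (Fin (k + 2)),
        (u i + t S * v i) - ∑ j ∈ o.J, G S j * (u j + t S * v j) =
          lf S (cq n c π ω2) - lf S (cq n c π ω1) := by
      intro S
      rw [hlin, hlin, sub_sub_sub_comm, ← Finset.sum_sub_distrib]
      congr 1
      · simp only [hu, hv]
        ring
      · refine Finset.sum_congr rfl fun j _ => ?_
        simp only [hu, hv]
        ring
    -- one vertex
    have hone : ∀ S : Finset (Fin (k + 2)),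
        |((cphi n N c o S (cB n c o π ω) (cq n c π ω2) i -
          cphi n N c o S (cB n c o π ω) (cq n c π ω1) i : ℤ) : ℝ) -
          2 ^ N * (((u i + t S * v i) - ∑ j ∈ o.J, G S j * (u j + t S * v j)) -
            ((u i + t ∅ * v i) - ∑ j ∈ o.J, G ∅ j * (u j + t ∅ * v j)))| ≤ 1 := by
      intro S
      rw [hcphi, hcphi, hlinu S, hlinu ∅]
      have h := cw_f_floor ((2 : ℝ) ^ N * (lf S (cq n c π ω2) - lf ∅ (cq n c π ω2)))
        ((2 : ℝ) ^ N * (lf S (cq n c π ω1) - lf ∅ (cq n c π ω1)))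
      have e : (2 : ℝ) ^ N * (lf S (cq n c π ω2) - lf ∅ (cq n c π ω2)) -
          (2 : ℝ) ^ N * (lf S (cq n c π ω1) - lf ∅ (cq n c π ω1)) =
          2 ^ N * (lf S (cq n c π ω2) - lf S (cq n c π ω1) -
            (lf ∅ (cq n c π ω2) - lf ∅ (cq n c π ω1))) := by ring
      rw [e] at h
      exact h
    have hcard : ∀ S : Finset (Fin (k + 2)), |(-1 : ℝ) ^ S.card| = 1 := fun S => by
      rw [abs_pow, abs_neg, abs_one, one_pow]
    -- the sum over the vertices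
    have hsum : |((∑ S : Finset (Fin (k + 2)), (-1 : ℤ) ^ S.card *
        (cphi n N c o S (cB n c o π ω) (cq n c π ω2) i -
          cphi n N c o S (cB n c o π ω) (cq n c π ω1) i) : ℤ) : ℝ) -
        2 ^ N * ∑ S : Finset (Fin (k + 2)), (-1 : ℝ) ^ S.card *
          ((u i + t S * v i) - ∑ j ∈ o.J, G S j * (u j + t S * v j))| ≤ 2 ^ (k + 2) := by
      have e1 : ((∑ S : Finset (Fin (k + 2)), (-1 : ℤ) ^ S.card *
          (cphi n N c o S (cB n c o π ω) (cq n c π ω2) i -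
          cphi n N c o S (cB n c o π ω) (cq n c π ω1) i) : ℤ) : ℝ) -
          2 ^ N * ∑ S : Finset (Fin (k + 2)), (-1 : ℝ) ^ S.card *
          ((u i + t S * v i) - ∑ j ∈ o.J, G S j * (u j + t S * v j)) =
          ∑ S : Finset (Fin (k + 2)), (-1 : ℝ) ^ S.card *
          (((cphi n N c o S (cB n c o π ω) (cq n c π ω2) i -
          cphi n N c o S (cB n c o π ω) (cq n c π ω1) i : ℤ) : ℝ) -
          2 ^ N * (((u i + t S * v i) - ∑ j ∈ o.J, G S j * (u j + t S * v j)) -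
            ((u i + t ∅ * v i) - ∑ j ∈ o.J, G ∅ j * (u j + t ∅ * v j)))) := by
        have e2 : ∑ S : Finset (Fin (k + 2)), (-1 : ℝ) ^ S.card *
            (2 ^ N * ((u i + t ∅ * v i) - ∑ j ∈ o.J, G ∅ j * (u j + t ∅ * v j))) = 0 := by
          rw [← Finset.sum_mul, cw_f_signs, zero_mul]
        rw [← add_zero (_ - 2 ^ N * _), ← e2, Finset.mul_sum]
        push_cast
        rw [← Finset.sum_sub_distrib, ← Finset.sum_add_distrib]
        refine Finset.sum_congr rfl fun S _ => ?_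
        ring
      rw [e1]
      refine (Finset.abs_sum_le_sum_abs _ _).trans ?_
      calc _ ≤ ∑ S : Finset (Fin (k + 2)), (1 : ℝ) := by
            refine Finset.sum_le_sum fun S _ => ?_
            rw [abs_mul, hcard, one_mul]
            exact hone S
        _ = 2 ^ (k + 2) := by
            rw [Finset.sum_const, Finset.card_univ, Fintype.card_finset, Fintype.card_fin]
            simp only [nsmul_eq_mul, Nat.cast_pow, Nat.cast_ofNat, mul_one]
    -- the cube sum and the cell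
    have hE : ∀ j, cE c o (cB n c o π ω) i j =
        ∑ S : Finset (Fin (k + 2)), (-1 : ℝ) ^ S.card * G S j := by
      intro j
      unfold cE
      refine Finset.sum_congr rfl fun S _ => ?_
      have e : o.Gh ((cB n c o π ω).1 (Sum.inl S)).2 = o.Γ (π (Sum.inl S) ω) := o.Gh_G _
      rw [e]
    have hC : ∀ j, cC n c o (cB n c o π ω) (cq n c π ω2) j -
        cC n c o (cB n c o π ω) (cq n c π ω1) j = u j + t ∅ * v j := by
      intro j
      have e : ((cB n c o π ω).1 (vb k)).1 = t ∅ := rfl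
      unfold cC
      rw [e]
      simp only [hu, hv]
      ring
    have halg := cw_f_alg o.J G t (t ∅) u v i
    have hrest : |v i * ∑ S : Finset (Fin (k + 2)), (-1 : ℝ) ^ S.card * t S -
        ∑ j ∈ o.J, v j * ∑ S : Finset (Fin (k + 2)), (-1 : ℝ) ^ S.card * (t S - t ∅) * G S j| ≤
        2 ^ (k + 2) * (1 / 2) ^ L + κ * (2 ^ (k + 2) * (1 / 2) ^ a *
          (2 ^ w * (1 / 2) ^ ((k + 1) * a)) +
          2 ^ (k + 2) * ((k + 1) ^ 2 * 2 ^ (k + 1) * 3 ^ κ * 2 ^ (k * w) * (1 / 2) ^ L)) := by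
      have hT : |∑ S : Finset (Fin (k + 2)), (-1 : ℝ) ^ S.card * t S| ≤
          2 ^ (k + 2) * (1 / 2) ^ L := cw_f_times k L t hc
      have h1 : |v i * ∑ S : Finset (Fin (k + 2)), (-1 : ℝ) ^ S.card * t S| ≤
          2 ^ (k + 2) * (1 / 2) ^ L := by
        rw [abs_mul]
        calc _ ≤ 1 * (2 ^ (k + 2) * (1 / 2) ^ L) :=
              mul_le_mul (hv1 i) hT (abs_nonneg _) zero_le_one
          _ = _ := one_mul _
      have h2 : |∑ j ∈ o.J, v j * ∑ S : Finset (Fin (k + 2)),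
          (-1 : ℝ) ^ S.card * (t S - t ∅) * G S j| ≤
          κ * (2 ^ (k + 2) * (1 / 2) ^ a * (2 ^ w * (1 / 2) ^ ((k + 1) * a)) +
          2 ^ (k + 2) * ((k + 1) ^ 2 * 2 ^ (k + 1) * 3 ^ κ * 2 ^ (k * w) * (1 / 2) ^ L)) := by
        refine (Finset.abs_sum_le_sum_abs _ _).trans ?_
        calc _ ≤ ∑ j ∈ o.J, (2 ^ (k + 2) * (1 / 2) ^ a * (2 ^ w * (1 / 2) ^ ((k + 1) * a)) +
              2 ^ (k + 2) * ((k + 1) ^ 2 * 2 ^ (k + 1) * 3 ^ κ * 2 ^ (k * w) *
                (1 / 2 : ℝ) ^ L)) := by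
              refine Finset.sum_le_sum fun j hj => ?_
              rw [abs_mul]
              calc _ ≤ 1 * _ := mul_le_mul (hv1 j) (hI j hj).2.1 (abs_nonneg _) zero_le_one
                _ = _ := one_mul _
          _ = _ := by rw [Finset.sum_const, o.card, nsmul_eq_mul]
      exact (abs_sub _ _).trans (add_le_add h1 h2)
    have hnum := cw_f_num κ k a w N L hN hL
    have hcell : ∑ j ∈ o.J, cE c o (cB n c o π ω) i j *
        (cC n c o (cB n c o π ω) (cq n c π ω2) j - cC n c o (cB n c o π ω) (cq n c π ω1) j) =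
        ∑ j ∈ o.J, (∑ S : Finset (Fin (k + 2)), (-1 : ℝ) ^ S.card * G S j) *
          (u j + t ∅ * v j) := Finset.sum_congr rfl fun j _ => by rw [hE, hC]
    rw [hcell]
    have h2N : (0 : ℝ) < 2 ^ N := by positivity
    have hfin : |2 ^ N * (∑ S : Finset (Fin (k + 2)), (-1 : ℝ) ^ S.card *
          ((u i + t S * v i) - ∑ j ∈ o.J, G S j * (u j + t S * v j)) +
        ∑ j ∈ o.J, (∑ S : Finset (Fin (k + 2)), (-1 : ℝ) ^ S.card * G S j) *
          (u j + t ∅ * v j))| ≤ 2 ^ (k + 2) := by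
      rw [halg, abs_mul, abs_of_pos h2N]
      exact (mul_le_mul_of_nonneg_left hrest h2N.le).trans hnum
    have h5 := abs_add_le _ _ |>.trans (add_le_add hsum hfin)
    refine le_trans (le_of_eq ?_) (h5.trans (le_of_eq ?_))
    · congr 1
      ring
    · ring
  · intro hi
    have h0 : ∀ (S : Finset (Fin (k + 2))) (q : (Fin m → ℤ) × (Fin m → ℤ)),
        cphi n N c o S (cB n c o π ω) q i = 0 := by
      intro S q
      unfold cphi linF
      rw [if_pos hi, if_pos hi]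
      simp
    simp only [Int.reduceNeg, h0, sub_self, mul_zero, sum_const_zero]

end det

end Vale.Agent.P127.Stk
end

section

/-!
# P127 / Stk : first half of the displacement lemma (PROOF.md, section 8)
-/

namespace Vale.Agent.P127.Stk

open Finset Vale.Agent.P127

section dispA

variable {Ω Ω' β γ ζ : Type} [Fintype Ω] [Fintype Ω'] {d : ℕ}

/-- the entropy of the digits before `r` given everything is large -/
theorem da_low {P : Law Ω} {P' : Law Ω'} {B : Ω → β} {q : Ω → γ} {X0 : Ω → Fin d → ℤ}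
    {Z : Ω' → ζ} {π π1 π2 : Ω' → Ω} {e1 : ℝ} (h : AbsOut P P' B q X0 Z π π1 π2 e1)
    (J : Finset (Fin d)) (C : β → γ → Fin d → ℝ) (j0 : Fin d) (σ r r' : ℕ) :
    hc P (fun ω => fl r (fun i => (X0 ω i : ℝ) / 2 ^ r')) (fun ω => (q ω, B ω)) - e1 ≤
      hc P' (fun ω => fl r (fun i => (X0 (π ω) i : ℝ) / 2 ^ r'))
        (fun ω => (q (π ω), B (π ω), Z ω, zd B q π π1 π2 J C j0 σ ω)) := by
  -- the law of `π` is `P`
  have a0 : hc P' (fun ω => fl r (fun i => (X0 (π ω) i : ℝ) / 2 ^ r'))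
      (fun ω => (q (π ω), B (π ω))) =
      hc P (fun ω => fl r (fun i => (X0 ω i : ℝ) / 2 ^ r')) (fun ω => (q ω, B ω)) :=
    hc_of_law P' P π h.law (fun ω => fl r (fun i => (X0 ω i : ℝ) / 2 ^ r'))
      (fun ω => (q ω, B ω))
  -- `Z` is cheap
  have a1 : mi P' (fun ω => fl r (fun i => (X0 (π ω) i : ℝ) / 2 ^ r')) Z
      (fun ω => (q (π ω), B (π ω))) ≤ e1 := by
    have b1 : mi P' (fun ω => fl r (fun i => (X0 (π ω) i : ℝ) / 2 ^ r')) Z
        (fun ω => (q (π ω), B (π ω))) ≤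
        mi P' (fun ω => (q (π ω), X0 (π ω))) Z (fun ω => (q (π ω), B (π ω))) := by
      refine mi_mono_left P' Z ?_
      intro ω ω' _ _ e
      have e1 : X0 (π ω) = X0 (π ω') := congrArg (fun p => p.1.2) e
      simp only [e1]
    have b2 : mi P' (fun ω => (q (π ω), X0 (π ω))) Z (fun ω => (q (π ω), B (π ω))) ≤
        mi P' (fun ω => (q (π ω), X0 (π ω))) Z (fun ω => B (π ω)) := by
      refine mi_cond_le P' Z _ ?_
      intro ω ω' _ _ e
      exact congrArg (fun p => p.1.1) e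
    exact b1.trans (b2.trans h.cheap)
  -- `(π1, π2)` is independent of `π`
  have a2 : mi P' (fun ω => fl r (fun i => (X0 (π ω) i : ℝ) / 2 ^ r')) (fun ω => (π1 ω, π2 ω))
      (fun ω => (q (π ω), B (π ω), Z ω)) ≤ 0 := by
    have b1 : mi P' (fun ω => fl r (fun i => (X0 (π ω) i : ℝ) / 2 ^ r'))
        (fun ω => (π1 ω, π2 ω)) (fun ω => (q (π ω), B (π ω), Z ω)) ≤
        mi P' π (fun ω => (π1 ω, π2 ω)) (fun ω => (q (π ω), B (π ω), Z ω)) := by
      refine mi_mono_left P' _ ?_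
      intro ω ω' _ _ e
      have e1 : π ω = π ω' := congrArg Prod.fst e
      simp only [e1]
    have b2 : mi P' π (fun ω => (π1 ω, π2 ω)) (fun ω => (q (π ω), B (π ω), Z ω)) ≤
        mi P' π (fun ω => (π1 ω, π2 ω)) (fun ω => (B (π ω), Z ω)) := by
      refine mi_cond_le P' _ _ ?_
      intro ω ω' _ _ e
      exact congrArg (fun p => q p.1) e
    exact b1.trans (b2.trans h.ind.le)
  -- put together
  have a3 : hc P' (fun ω => fl r (fun i => (X0 (π ω) i : ℝ) / 2 ^ r'))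
      (fun ω => ((π1 ω, π2 ω), q (π ω), B (π ω), Z ω)) ≤
      hc P' (fun ω => fl r (fun i => (X0 (π ω) i : ℝ) / 2 ^ r'))
        (fun ω => (q (π ω), B (π ω), Z ω, zd B q π π1 π2 J C j0 σ ω)) := by
    refine hc_mono_right P' _ ?_
    intro ω ω' _ _ e
    simp only [Prod.mk.injEq] at e ⊢
    obtain ⟨⟨e1, e2⟩, e3, e4, e5⟩ := e
    refine ⟨e3, e4, e5, ?_⟩
    unfold zd
    rw [e1, e2, e4]
  have a4 : hc P' (fun ω => fl r (fun i => (X0 (π ω) i : ℝ) / 2 ^ r'))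
      (fun ω => (Z ω, q (π ω), B (π ω))) ≤
      hc P' (fun ω => fl r (fun i => (X0 (π ω) i : ℝ) / 2 ^ r'))
        (fun ω => (q (π ω), B (π ω), Z ω)) := by
    refine hc_mono_right P' _ ?_
    intro ω ω' _ _ e
    simp only [Prod.mk.injEq] at e ⊢
    exact ⟨e.2.1, e.2.2, e.1⟩
  unfold mi at a1 a2
  linarith

/-- the displaced point has almost the same digits before `r` -/
theorem da_up {P : Law Ω} {P' : Law Ω'} {B : Ω → β} {q : Ω → γ} {X0 : Ω → Fin d → ℤ}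
    {Z : Ω' → ζ} {π π1 π2 : Ω' → Ω} {e1 : ℝ} (h : AbsOut P P' B q X0 Z π π1 π2 e1)
    (J : Finset (Fin d)) (C : β → γ → Fin d → ℝ) (E : β → Fin d → Fin d → ℝ) (W : Ω' → Fin d → ℤ)
    (i0 j0 : Fin d) (r r' w N1 : ℕ) (hrr : r ≤ r')
    (hE : ∀ ω, 0 < P.w ω → (∀ i j, i ∉ J → j ∈ J → |E (B ω) i j| ≤ |E (B ω) i0 j0|) ∧
      (2 : ℝ) ^ r * |E (B ω) i0 j0| ≤ 1 ∧ 1 < (2 : ℝ) ^ (r + w) * |E (B ω) i0 j0|)
    (hW : ∀ ω, 0 < P'.w ω → (∀ i, i ∉ J → |(W ω i : ℝ) + 2 ^ r' * ∑ j ∈ J, E (B (π ω)) i j *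
      (C (B (π ω)) (q (π2 ω)) j - C (B (π ω)) (q (π1 ω)) j)| ≤ N1) ∧ ∀ i ∈ J, W ω i = 0)
    (hz : ∀ ω, 0 < P'.w ω → ∀ j ∈ J,
      |C (B (π ω)) (q (π2 ω)) j - C (B (π ω)) (q (π1 ω)) j| ≤ 2)
    (ω : Ω') (hω : 0 < P'.w ω) (i : Fin d) :
    |(X0 (π ω) i : ℝ) / 2 ^ r' - ((X0 (π ω) i + W ω i : ℤ) : ℝ) / 2 ^ r'| ≤
      ((2 * d + N1 : ℕ) : ℝ) * (1 / 2 : ℝ) ^ r := by
  have hp : (0 : ℝ) < 2 ^ r' := by positivity
  have hq : (0 : ℝ) < 2 ^ r := by positivity
  have hpos : 0 < P.w (π ω) := by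
    rw [← h.law (π ω)]
    exact P'.pr_pos π hω
  obtain ⟨hE1, hE2, -⟩ := hE (π ω) hpos
  obtain ⟨hW1, hW2⟩ := hW ω hω
  have e0 : (X0 (π ω) i : ℝ) / 2 ^ r' - ((X0 (π ω) i + W ω i : ℤ) : ℝ) / 2 ^ r' =
      -((W ω i : ℝ) / 2 ^ r') := by
    push_cast
    ring
  rw [e0, abs_neg, abs_div, abs_of_pos hp]
  have hgoal : |(W ω i : ℝ)| ≤ 2 ^ r' * (2 * d * (1 / 2 : ℝ) ^ r) + N1 := by
    by_cases hi : i ∈ J
    · rw [hW2 i hi]
      simp only [Int.cast_zero, abs_zero]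
      (clear * -; positivity)
    · have h1 := hW1 i hi
      have h2 : |∑ j ∈ J, E (B (π ω)) i j *
          (C (B (π ω)) (q (π2 ω)) j - C (B (π ω)) (q (π1 ω)) j)| ≤
          2 * d * (1 / 2 : ℝ) ^ r := by
        refine (Finset.abs_sum_le_sum_abs _ _).trans ?_
        have h3 : ∀ j ∈ J, |E (B (π ω)) i j *
            (C (B (π ω)) (q (π2 ω)) j - C (B (π ω)) (q (π1 ω)) j)| ≤ (1 / 2 : ℝ) ^ r * 2 := by
          intro j hj
          rw [abs_mul]
          have h4 : |E (B (π ω)) i j| ≤ (1 / 2 : ℝ) ^ r := by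
            refine (hE1 i j hi hj).trans ?_
            rw [one_div, inv_pow]
            rw [← one_div, le_div_iff₀ hq, mul_comm]
            exact hE2
          exact mul_le_mul h4 (hz ω hω j hj) (abs_nonneg _) (by positivity)
        refine (Finset.sum_le_sum h3).trans ?_
        rw [Finset.sum_const, nsmul_eq_mul]
        have h5 : (J.card : ℝ) ≤ d := by
          have := Finset.card_le_univ J
          rw [Fintype.card_fin] at this
          exact_mod_cast this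
        have h6 : (0 : ℝ) ≤ (1 / 2 : ℝ) ^ r * 2 := by positivity
        nlinarith only [h5, h6]
      have h7 := abs_le.1 h1
      have h8 := abs_le.1 h2
      rw [abs_le]
      constructor
      · nlinarith only [h7, h8, hp]
      · nlinarith only [h7, h8, hp]
  rw [div_le_iff₀ hp]
  refine hgoal.trans ?_
  push_cast
  have h9 : (1 : ℝ) ≤ (1 / 2 : ℝ) ^ r * 2 ^ r' := by
    have : (2 : ℝ) ^ r ≤ 2 ^ r' := pow_le_pow_right₀ (by norm_num) hrr
    calc (1 : ℝ) = (1 / 2 : ℝ) ^ r * 2 ^ r := by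
          rw [← mul_pow]; norm_num
      _ ≤ (1 / 2 : ℝ) ^ r * 2 ^ r' := mul_le_mul_of_nonneg_left this (by positivity)
  have h10 : (0 : ℝ) ≤ N1 := Nat.cast_nonneg _
  nlinarith only [h9]

/-- first half of the displacement lemma: subtract the digits before `r` -/
theorem disp_A {P : Law Ω} {P' : Law Ω'} {B : Ω → β} {q : Ω → γ} {X0 : Ω → Fin d → ℤ}
    {Z : Ω' → ζ} {π π1 π2 : Ω' → Ω} {e1 : ℝ} (h : AbsOut P P' B q X0 Z π π1 π2 e1)
    (J : Finset (Fin d)) (C : β → γ → Fin d → ℝ) (E : β → Fin d → Fin d → ℝ) (W : Ω' → Fin d → ℤ)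
    (i0 j0 : Fin d) (hi0 : i0 ∉ J) (hj0 : j0 ∈ J) (f e2 : ℝ) (n r r' w N1 : ℕ)
    (hnr : n ≤ r) (hrr : r ≤ r')
    (hE : ∀ ω, 0 < P.w ω → (∀ i j, i ∉ J → j ∈ J → |E (B ω) i j| ≤ |E (B ω) i0 j0|) ∧
      (2 : ℝ) ^ r * |E (B ω) i0 j0| ≤ 1 ∧ 1 < (2 : ℝ) ^ (r + w) * |E (B ω) i0 j0|)
    (hW : ∀ ω, 0 < P'.w ω → (∀ i, i ∉ J → |(W ω i : ℝ) + 2 ^ r' * ∑ j ∈ J, E (B (π ω)) i j *
      (C (B (π ω)) (q (π2 ω)) j - C (B (π ω)) (q (π1 ω)) j)| ≤ N1) ∧ ∀ i ∈ J, W ω i = 0)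
    (hz : ∀ ω, 0 < P'.w ω → ∀ j ∈ J,
      |C (B (π ω)) (q (π2 ω)) j - C (B (π ω)) (q (π1 ω)) j| ≤ 2)
    (H1 : hc P' (fun ω i => X0 (π ω) i + W ω i) (fun ω => (q (π ω), B (π ω), Z ω)) ≤
      f * ((r' : ℝ) - n) * Real.log 2 + e1)
    (H2 : f * ((r : ℝ) - n) * Real.log 2 - e2 ≤
      hc P (fun ω => fl r (fun i => (X0 ω i : ℝ) / 2 ^ r')) (fun ω => (q ω, B ω))) :
    hc P' (fun ω i => X0 (π ω) i + W ω i)
      (fun ω => (fl r (fun i => (X0 (π ω) i : ℝ) / 2 ^ r'), q (π ω), B (π ω), Z ω,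
        zd B q π π1 π2 J C j0 (r' - r) ω)) ≤
      f * ((r' : ℝ) - r) * Real.log 2 + 2 * e1 + e2 + d * Real.log (8 * d + 8 * N1 + 8) := by
  have c1 := da_low h J C j0 (r' - r) r r'
  have c2 : hc P' (fun ω i => X0 (π ω) i + W ω i)
      (fun ω => (q (π ω), B (π ω), Z ω, zd B q π π1 π2 J C j0 (r' - r) ω)) ≤
      hc P' (fun ω i => X0 (π ω) i + W ω i) (fun ω => (q (π ω), B (π ω), Z ω)) := by
    refine hc_mono_right P' _ ?_
    intro ω ω' _ _ e
    simp only [Prod.mk.injEq] at e ⊢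
    exact ⟨e.1, e.2.1, e.2.2.1⟩
  have c3 : hc P' (fun ω => fl r (fun i => (X0 (π ω) i : ℝ) / 2 ^ r'))
      (fun ω => ((fun i => X0 (π ω) i + W ω i),
        (q (π ω), B (π ω), Z ω, zd B q π π1 π2 J C j0 (r' - r) ω))) ≤
      d * Real.log (8 * d + 8 * N1 + 8) := by
    have b1 := hc_fl_close P' (s := r) (2 * d + N1)
      (fun ω => fun i : Fin d => (X0 (π ω) i : ℝ) / 2 ^ r')
      (fun ω => fun i : Fin d => ((X0 (π ω) i + W ω i : ℤ) : ℝ) / 2 ^ r')
      (fun ω => (q (π ω), B (π ω), Z ω, zd B q π π1 π2 J C j0 (r' - r) ω))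
      (fun ω hω i => da_up h J C E W i0 j0 r r' w N1 hrr hE hW hz ω hω i)
    have b2 : hc P' (fun ω => fl r (fun i => (X0 (π ω) i : ℝ) / 2 ^ r'))
        (fun ω => ((fun i => X0 (π ω) i + W ω i),
          (q (π ω), B (π ω), Z ω, zd B q π π1 π2 J C j0 (r' - r) ω))) ≤
        hc P' (fun ω => fl r (fun i => (X0 (π ω) i : ℝ) / 2 ^ r'))
        (fun ω => (fl r (fun i : Fin d => ((X0 (π ω) i + W ω i : ℤ) : ℝ) / 2 ^ r'),
          (q (π ω), B (π ω), Z ω, zd B q π π1 π2 J C j0 (r' - r) ω))) := by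
      refine hc_mono_right P' _ ?_
      intro ω ω' _ _ e
      have e1 : (fun i => X0 (π ω) i + W ω i) = (fun i => X0 (π ω') i + W ω' i) :=
        congrArg Prod.fst e
      have e2 := congrArg Prod.snd e
      refine Prod.ext ?_ e2
      funext i
      have e3 : X0 (π ω) i + W ω i = X0 (π ω') i + W ω' i := congrFun e1 i
      simp only [fl, e3]
    refine b2.trans (b1.trans ?_)
    rw [Fintype.card_fin]
    refine mul_le_mul_of_nonneg_left ?_ (Nat.cast_nonneg _)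
    refine Real.log_le_log (by (clear * -; positivity)) ?_
    push_cast
    have h1 : (0 : ℝ) ≤ d := Nat.cast_nonneg _
    have h2 : (0 : ℝ) ≤ N1 := Nat.cast_nonneg _
    linarith only []
  -- chain rule
  have c4 := hc_pair P' (fun ω => fl r (fun i => (X0 (π ω) i : ℝ) / 2 ^ r'))
    (fun ω i => X0 (π ω) i + W ω i)
    (fun ω => (q (π ω), B (π ω), Z ω, zd B q π π1 π2 J C j0 (r' - r) ω))
  have c5 := hc_pair P' (fun ω i => X0 (π ω) i + W ω i)
    (fun ω => fl r (fun i => (X0 (π ω) i : ℝ) / 2 ^ r'))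
    (fun ω => (q (π ω), B (π ω), Z ω, zd B q π π1 π2 J C j0 (r' - r) ω))
  have c6 : hc P' (fun ω => (fl r (fun i => (X0 (π ω) i : ℝ) / 2 ^ r'),
        fun i => X0 (π ω) i + W ω i))
      (fun ω => (q (π ω), B (π ω), Z ω, zd B q π π1 π2 J C j0 (r' - r) ω)) ≤
      hc P' (fun ω => ((fun i => X0 (π ω) i + W ω i),
        fl r (fun i => (X0 (π ω) i : ℝ) / 2 ^ r')))
      (fun ω => (q (π ω), B (π ω), Z ω, zd B q π π1 π2 J C j0 (r' - r) ω)) := by
    refine hc_mono_left P' ?_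
    intro ω ω' _ _ e
    have e1 := congrArg (fun p => p.1.1) e
    have e2 := congrArg (fun p => p.1.2) e
    exact Prod.ext e2 e1
  linarith only [H1, H2, c1, c2, c3, c4, c5, c6]

end dispA

end Vale.Agent.P127.Stk
end

section

/-!
# P127 / Stk : second half of the displacement lemma (PROOF.md, section 8)
-/

namespace Vale.Agent.P127.Stk

open Finset Vale.Agent.P127

section dispB

variable {Ω Ω' β γ ζ : Type} [Fintype Ω] [Fintype Ω'] {d : ℕ}

/-- the digits as a vector on all coordinates -/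
noncomputable def db_ext (J : Finset (Fin d)) (j0 : Fin d) (σ : ℕ)
    (u : {j // j ∈ J ∧ j ≠ j0} → ℤ) (j : Fin d) : ℝ :=
  if h : j ∈ J ∧ j ≠ j0 then (u ⟨j, h⟩ : ℝ) / 2 ^ σ else 0

theorem db_ext_j0 (J : Finset (Fin d)) (j0 : Fin d) (σ : ℕ)
    (u : {j // j ∈ J ∧ j ≠ j0} → ℤ) : db_ext J j0 σ u j0 = 0 := by
  unfold db_ext
  rw [dif_neg]
  exact fun h => h.2 rfl

theorem db_ext_close (J : Finset (Fin d)) (j0 : Fin d) (σ : ℕ) (z : Fin d → ℝ) (j : Fin d)
    (hj : j ∈ J) (hj0 : j ≠ j0) :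
    |z j - db_ext J j0 σ (fl σ (fun j : {j // j ∈ J ∧ j ≠ j0} => z j)) j| ≤
      (1 / 2 : ℝ) ^ σ := by
  unfold db_ext
  rw [dif_pos ⟨hj, hj0⟩]
  have h2 : (0 : ℝ) < 2 ^ σ := by positivity
  show |z j - ((⌊(2 : ℝ) ^ σ * z j⌋ : ℤ) : ℝ) / 2 ^ σ| ≤ _
  have e1 := Int.floor_le ((2 : ℝ) ^ σ * z j)
  have e2 := Int.lt_floor_add_one ((2 : ℝ) ^ σ * z j)
  have e3 : (1 / 2 : ℝ) ^ σ = 1 / 2 ^ σ := by rw [div_pow, one_pow]
  have e4 : z j - ((⌊(2 : ℝ) ^ σ * z j⌋ : ℤ) : ℝ) / 2 ^ σ =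
      (2 ^ σ * z j - ⌊(2 : ℝ) ^ σ * z j⌋) / 2 ^ σ := by field_simp
  rw [e4, e3, abs_div, abs_of_pos h2]
  refine div_le_div_of_nonneg_right ?_ h2.le
  rw [abs_le]
  constructor <;> linarith only [e1, e2]

/-- the projection of the displaced point along the direction of the displacement -/
theorem db_det1 (J : Finset (Fin d)) (E : Fin d → Fin d → ℝ) (z : Fin d → ℝ) (i0 j0 i : Fin d)
    (hi : i ∉ J) (hi0 : i0 ∉ J) (hj0 : j0 ∈ J) (r r' : ℕ) (hrr : r ≤ r') (N1 : ℝ)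
    (hmax : ∀ i j, i ∉ J → j ∈ J → |E i j| ≤ |E i0 j0|) (hle : (2 : ℝ) ^ r * |E i0 j0| ≤ 1)
    (hne : E i0 j0 ≠ 0) (xi xi0 Wi Wi0 : ℝ)
    (h1 : |Wi + 2 ^ r' * ∑ j ∈ J, E i j * z j| ≤ N1)
    (h2 : |Wi0 + 2 ^ r' * ∑ j ∈ J, E i0 j * z j| ≤ N1) :
    |(xi / 2 ^ r' - xi0 / 2 ^ r' * (E i j0 / E i0 j0)) -
      ((xi + Wi) / 2 ^ r' - (xi0 + Wi0) / 2 ^ r' * (E i j0 / E i0 j0) +
        ∑ j ∈ J, (E i j - E i j0 / E i0 j0 * E i0 j) *
          db_ext J j0 (r' - r) (fl (r' - r) (fun j : {j // j ∈ J ∧ j ≠ j0} => z j)) j)| ≤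
      (2 * d + 2 * N1) * (1 / 2 : ℝ) ^ r' := by
  have hD : (0 : ℝ) < 2 ^ r' := by positivity
  have hq : (0 : ℝ) < 2 ^ r := by positivity
  have hpos : 0 < |E i0 j0| := abs_pos.2 hne
  have hnu : |E i j0 / E i0 j0| ≤ 1 := by
    rw [abs_div, div_le_one hpos]
    exact hmax i j0 hi hj0
  set ν : ℝ := E i j0 / E i0 j0 with hν
  have hνE : E i j0 - ν * E i0 j0 = 0 := by
    rw [hν, div_mul_cancel₀ _ hne, sub_self]
  set u : Fin d → ℝ :=
    db_ext J j0 (r' - r) (fl (r' - r) (fun j : {j // j ∈ J ∧ j ≠ j0} => z j)) with hu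
  have hle' : |E i0 j0| ≤ (1 / 2 : ℝ) ^ r := by
    rw [one_div, inv_pow, ← one_div, le_div_iff₀ hq, mul_comm]
    exact hle
  have hs1 : ∑ j ∈ J, (E i j - ν * E i0 j) * z j =
      ∑ j ∈ J, E i j * z j - ν * ∑ j ∈ J, E i0 j * z j := by
    rw [Finset.mul_sum, ← Finset.sum_sub_distrib]
    exact Finset.sum_congr rfl fun j _ => by ring
  have hs2 : ∑ j ∈ J, (E i j - ν * E i0 j) * (z j - u j) =
      ∑ j ∈ J, (E i j - ν * E i0 j) * z j - ∑ j ∈ J, (E i j - ν * E i0 j) * u j := by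
    rw [← Finset.sum_sub_distrib]
    exact Finset.sum_congr rfl fun j _ => by ring
  set a : ℝ := Wi + 2 ^ r' * ∑ j ∈ J, E i j * z j with ha
  set b : ℝ := Wi0 + 2 ^ r' * ∑ j ∈ J, E i0 j * z j with hb
  have key : (xi / 2 ^ r' - xi0 / 2 ^ r' * ν) -
      ((xi + Wi) / 2 ^ r' - (xi0 + Wi0) / 2 ^ r' * ν + ∑ j ∈ J, (E i j - ν * E i0 j) * u j) =
      -((a - ν * b) / 2 ^ r') + ∑ j ∈ J, (E i j - ν * E i0 j) * (z j - u j) := by
    rw [hs2, hs1, ha, hb]
    field_simp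
    ring
  rw [key]
  have b1 : |(a - ν * b) / 2 ^ r'| ≤ 2 * N1 * (1 / 2 : ℝ) ^ r' := by
    have e3 : (1 / 2 : ℝ) ^ r' = 1 / 2 ^ r' := by rw [div_pow, one_pow]
    rw [abs_div, abs_of_pos hD, e3, mul_one_div]
    refine div_le_div_of_nonneg_right ?_ hD.le
    have c1 : |a - ν * b| ≤ |a| + |ν * b| := abs_sub _ _
    have c2 : |ν * b| ≤ |b| := by
      rw [abs_mul]
      exact mul_le_of_le_one_left (abs_nonneg _) hnu
    linarith only [h1, h2, c1, c2]
  have b2 : |∑ j ∈ J, (E i j - ν * E i0 j) * (z j - u j)| ≤ 2 * d * (1 / 2 : ℝ) ^ r' := by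
    refine (Finset.abs_sum_le_sum_abs _ _).trans ?_
    have h3 : ∀ j ∈ J, |(E i j - ν * E i0 j) * (z j - u j)| ≤ 2 * (1 / 2 : ℝ) ^ r' := by
      intro j hj
      by_cases hjj : j = j0
      · rw [hjj, hνE, zero_mul, abs_zero]
        positivity
      · rw [abs_mul]
        have c1 : |E i j - ν * E i0 j| ≤ 2 * (1 / 2 : ℝ) ^ r := by
          have d1 : |E i j - ν * E i0 j| ≤ |E i j| + |ν * E i0 j| := abs_sub _ _
          have d2 : |ν * E i0 j| ≤ |E i0 j| := by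
            rw [abs_mul]
            exact mul_le_of_le_one_left (abs_nonneg _) hnu
          have d3 := hmax i j hi hj
          have d4 := hmax i0 j hi0 hj
          linarith only [hle', d1, d2, d3, d4]
        have c2 : |z j - u j| ≤ (1 / 2 : ℝ) ^ (r' - r) := db_ext_close J j0 (r' - r) z j hj hjj
        have c3 : (1 / 2 : ℝ) ^ r * (1 / 2 : ℝ) ^ (r' - r) = (1 / 2 : ℝ) ^ r' := by
          rw [← pow_add, Nat.add_sub_cancel' hrr]
        calc |E i j - ν * E i0 j| * |z j - u j| ≤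
            (2 * (1 / 2 : ℝ) ^ r) * (1 / 2 : ℝ) ^ (r' - r) :=
              mul_le_mul c1 c2 (abs_nonneg _) (by positivity)
          _ = 2 * (1 / 2 : ℝ) ^ r' := by rw [mul_assoc, c3]
    refine (Finset.sum_le_sum h3).trans ?_
    rw [Finset.sum_const, nsmul_eq_mul]
    have h5 : (J.card : ℝ) ≤ d := by
      have := Finset.card_le_univ J
      rw [Fintype.card_fin] at this
      exact_mod_cast this
    have h6 : (0 : ℝ) ≤ 2 * (1 / 2 : ℝ) ^ r' := by positivity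
    nlinarith only [h5, h6]
  have b3 := abs_add_le (-((a - ν * b) / 2 ^ r')) (∑ j ∈ J, (E i j - ν * E i0 j) * (z j - u j))
  rw [abs_neg] at b3
  linarith only [b1, b2, b3]

/-- the displacement determines the coordinate `j0` of `z` -/
theorem db_det2 (J : Finset (Fin d)) (E : Fin d → Fin d → ℝ) (z : Fin d → ℝ) (i0 j0 : Fin d)
    (hj0 : j0 ∈ J) (r r' w : ℕ) (hrr : r + w ≤ r') (N1 : ℝ)
    (hmax : ∀ j ∈ J, |E i0 j| ≤ |E i0 j0|) (hlo : 1 < (2 : ℝ) ^ (r + w) * |E i0 j0|)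
    (hne : E i0 j0 ≠ 0) (Wi0 : ℝ)
    (h2 : |Wi0 + 2 ^ r' * ∑ j ∈ J, E i0 j * z j| ≤ N1) :
    |z j0 - (-(Wi0 / 2 ^ r') - ∑ j ∈ J, E i0 j *
          db_ext J j0 (r' - r) (fl (r' - r) (fun j : {j // j ∈ J ∧ j ≠ j0} => z j)) j) /
        E i0 j0| ≤
      (d + N1) * (1 / 2 : ℝ) ^ (r' - r - w) := by
  have hD : (0 : ℝ) < 2 ^ r' := by positivity
  have hpos : 0 < |E i0 j0| := abs_pos.2 hne
  set u : Fin d → ℝ :=
    db_ext J j0 (r' - r) (fl (r' - r) (fun j : {j // j ∈ J ∧ j ≠ j0} => z j)) with hu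
  have hu0 : u j0 = 0 := db_ext_j0 J j0 _ _
  set b : ℝ := Wi0 + 2 ^ r' * ∑ j ∈ J, E i0 j * z j with hb
  have hs1 : ∑ j ∈ J, E i0 j * z j - ∑ j ∈ J, E i0 j * u j =
      E i0 j0 * z j0 + ∑ j ∈ J.erase j0, E i0 j * (z j - u j) := by
    rw [← Finset.sum_sub_distrib, ← Finset.add_sum_erase J _ hj0, hu0]
    congr 1
    · ring
    · exact Finset.sum_congr rfl fun j _ => by ring
  have key : z j0 - (-(Wi0 / 2 ^ r') - ∑ j ∈ J, E i0 j * u j) / E i0 j0 =
      (b / 2 ^ r' - ∑ j ∈ J.erase j0, E i0 j * (z j - u j)) / E i0 j0 := by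
    have k1 : b / 2 ^ r' = Wi0 / 2 ^ r' + ∑ j ∈ J, E i0 j * z j := by
      rw [hb]
      (clear * -; field_simp)
    rw [eq_div_iff hne, sub_mul, div_mul_cancel₀ _ hne, k1]
    linarith only [hs1]
  rw [key, abs_div, div_le_iff₀ hpos]
  have hN : 0 ≤ N1 := (abs_nonneg _).trans h2
  have b1 : |b / 2 ^ r'| ≤ N1 * (1 / 2 : ℝ) ^ (r' - r - w) * |E i0 j0| := by
    rw [abs_div, abs_of_pos hD, div_le_iff₀ hD]
    have c1 : (1 / 2 : ℝ) ^ (r' - r - w) * 2 ^ r' = 2 ^ (r + w) := by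
      have d1 : (2 : ℝ) ^ r' = 2 ^ (r' - r - w) * 2 ^ (r + w) := by
        rw [← pow_add]
        congr 1
        (clear * - hrr; omega)
      rw [d1, ← mul_assoc, ← mul_pow]
      norm_num
    have c2 : N1 * (1 / 2 : ℝ) ^ (r' - r - w) * |E i0 j0| * 2 ^ r' =
        N1 * (2 ^ (r + w) * |E i0 j0|) := by
      rw [← c1]
      ring
    rw [c2]
    nlinarith only [h2, hlo, hN]
  have b2 : |∑ j ∈ J.erase j0, E i0 j * (z j - u j)| ≤
      d * (1 / 2 : ℝ) ^ (r' - r - w) * |E i0 j0| := by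
    refine (Finset.abs_sum_le_sum_abs _ _).trans ?_
    have h3 : ∀ j ∈ J.erase j0, |E i0 j * (z j - u j)| ≤
        (1 / 2 : ℝ) ^ (r' - r - w) * |E i0 j0| := by
      intro j hj
      obtain ⟨hjj, hjJ⟩ := Finset.mem_erase.1 hj
      rw [abs_mul, mul_comm]
      have c2 : |z j - u j| ≤ (1 / 2 : ℝ) ^ (r' - r) := db_ext_close J j0 (r' - r) z j hjJ hjj
      have c3 : (1 / 2 : ℝ) ^ (r' - r) ≤ (1 / 2 : ℝ) ^ (r' - r - w) :=
        pow_le_pow_of_le_one (by norm_num) (by norm_num) (Nat.sub_le _ _)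
      exact mul_le_mul (c2.trans c3) (hmax j hjJ) (abs_nonneg _) (by positivity)
    refine (Finset.sum_le_sum h3).trans ?_
    rw [Finset.sum_const, nsmul_eq_mul]
    have h5 : ((J.erase j0).card : ℝ) ≤ d := by
      have := Finset.card_le_univ (J.erase j0)
      rw [Fintype.card_fin] at this
      exact_mod_cast this
    have h6 : (0 : ℝ) ≤ (1 / 2 : ℝ) ^ (r' - r - w) * |E i0 j0| := by positivity
    calc ((J.erase j0).card : ℝ) * ((1 / 2 : ℝ) ^ (r' - r - w) * |E i0 j0|) ≤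
        d * ((1 / 2 : ℝ) ^ (r' - r - w) * |E i0 j0|) := mul_le_mul_of_nonneg_right h5 h6
      _ = d * (1 / 2 : ℝ) ^ (r' - r - w) * |E i0 j0| := by ring
  have b3 := abs_sub (b / 2 ^ r') (∑ j ∈ J.erase j0, E i0 j * (z j - u j))
  calc |b / 2 ^ r' - ∑ j ∈ J.erase j0, E i0 j * (z j - u j)| ≤
      |b / 2 ^ r'| + |∑ j ∈ J.erase j0, E i0 j * (z j - u j)| := b3
    _ ≤ N1 * (1 / 2 : ℝ) ^ (r' - r - w) * |E i0 j0| +
        d * (1 / 2 : ℝ) ^ (r' - r - w) * |E i0 j0| := add_le_add b1 b2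
    _ = (d + N1) * (1 / 2 : ℝ) ^ (r' - r - w) * |E i0 j0| := by ring

/-- the entropy inequalities -/
theorem db_ent {S1 S2 S3 S4 S5 S6 S7 S8 S9 : Type*} (P' : Law Ω') (Y : Ω' → S1) (V : Ω' → S2)
    (V0 : Ω' → S3) (R : Ω' → S4) (S : Ω' → S5) (X : Ω' → S6) (t : Ω' → S7) (T : Ω' → S8)
    (X' : Ω' → S9) (c1 c2 : ℝ)
    (h1 : hc P' Y (fun ω => (V ω, (R ω, S ω))) ≤ c1)
    (h2 : Fn P' V0 V)
    (h3 : Fn P' Y (fun ω => (X ω, S ω))) (h4 : Fn P' R (fun ω => (X ω, S ω)))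
    (h5 : hc P' t (fun ω => (V0 ω, (X ω, S ω))) ≤ c2)
    (h6 : mi P' t X' T ≤ 0)
    (h7 : Fn P' (fun ω => (X ω, S ω)) (fun ω => (X' ω, T ω))) :
    hc P' Y (fun ω => (R ω, S ω)) + hc P' t T ≤
      hc P' V (fun ω => (R ω, S ω)) + (c1 + c2) := by
  have a1 : hc P' (fun ω => (Y ω, V0 ω)) (fun ω => (R ω, S ω)) ≤
      hc P' (fun ω => (V ω, Y ω)) (fun ω => (R ω, S ω)) := by
    refine hc_mono_left P' ?_
    intro ω ω' p p' e
    have e1 : V ω = V ω' := congrArg (fun x => x.1.1) e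
    have e2 : Y ω = Y ω' := congrArg (fun x => x.1.2) e
    exact Prod.ext e2 (h2 ω ω' p p' e1)
  rw [hc_pair, hc_pair] at a1
  have a2 : hc P' V0 (fun ω => (X ω, S ω)) ≤ hc P' V0 (fun ω => (Y ω, (R ω, S ω))) := by
    refine hc_mono_right P' _ ?_
    intro ω ω' p p' e
    have e2 : S ω = S ω' := congrArg (fun x => x.2) e
    exact Prod.ext (h3 ω ω' p p' e) (Prod.ext (h4 ω ω' p p' e) e2)
  have a3 := hc_le_add P' t V0 (fun ω => (X ω, S ω))
  have a4 : hc P' t (fun ω => (X' ω, T ω)) ≤ hc P' t (fun ω => (X ω, S ω)) :=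
    hc_mono_right P' t h7
  unfold mi at h6
  linarith

/-- close numbers have almost the same digits -/
theorem db_fl1_close {T : Type*} (P : Law Ω') {s : ℕ} (N : ℕ) (v w : Ω' → ℝ) (Z : Ω' → T)
    (h : ∀ ω, 0 < P.w ω → |v ω - w ω| ≤ N * (1 / 2 : ℝ) ^ s) :
    hc P (fun ω => fl1 s (v ω)) (fun ω => (fl1 s (w ω), Z ω)) ≤ Real.log (2 * N + 3) := by
  have h1 := hc_fl_close P (s := s) (ι := Unit) N (fun ω _ => v ω) (fun ω _ => w ω) Z
    (fun ω hω _ => h ω hω)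
  rw [Fintype.card_unit, Nat.cast_one, one_mul] at h1
  refine le_trans ?_ h1
  refine (hc_mono_left P (X' := fun ω => fl s (fun _ : Unit => v ω)) ?_).trans
    (hc_mono_right P _ ?_)
  · intro ω ω' _ _ e
    have e1 : fl s (fun _ : Unit => v ω) = fl s (fun _ : Unit => v ω') := congrArg Prod.fst e
    exact congrFun e1 ()
  · intro ω ω' _ _ e
    have e1 : fl1 s (w ω) = fl1 s (w ω') := congrArg (fun x => x.1) e
    have e2 : Z ω = Z ω' := congrArg (fun x => x.2) e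
    exact Prod.ext (funext fun _ => e1) e2

/-- a bounded number has few integer parts -/
theorem db_fl1_zero {T : Type*} (P : Law Ω') (v : Ω' → ℝ) (Z : Ω' → T)
    (h : ∀ ω, 0 < P.w ω → |v ω| ≤ 2) :
    hc P (fun ω => fl1 0 (v ω)) Z ≤ Real.log 5 := by
  have h1 := hc_le_log P (fun ω => fl1 0 (v ω)) Z 5 (fun ω _ => by
    refine ⟨Finset.Icc (-2 : ℤ) 2, by simp only [Int.reduceNeg, Int.card_Icc, Int.reduceAdd, sub_neg_eq_add, Int.reduceToNat, Std.le_refl], ?_⟩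
    intro ω' hω' _
    rw [Finset.mem_Icc]
    obtain ⟨a1, a2⟩ := abs_le.1 (h ω' hω')
    unfold fl1
    rw [pow_zero, one_mul]
    constructor
    · refine Int.le_floor.2 ?_
      push_cast
      exact a1
    · have h5 := (Int.floor_le (v ω')).trans a2
      exact_mod_cast h5)
  exact_mod_cast h1

/-- second half of the displacement lemma: the projection along the direction of the
displacement loses the entropy of the displacement -/
theorem disp_B {P : Law Ω} {P' : Law Ω'} {B : Ω → β} {q : Ω → γ} {X0 : Ω → Fin d → ℤ}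
    {Z : Ω' → ζ} {π π1 π2 : Ω' → Ω} {e1 : ℝ} (h : AbsOut P P' B q X0 Z π π1 π2 e1)
    (J : Finset (Fin d)) (C : β → γ → Fin d → ℝ) (E : β → Fin d → Fin d → ℝ) (W : Ω' → Fin d → ℤ)
    (i0 j0 : Fin d) (hi0 : i0 ∉ J) (hj0 : j0 ∈ J) (r r' w N1 : ℕ) (hrr : r ≤ r')
    (hE : ∀ ω, 0 < P.w ω → (∀ i j, i ∉ J → j ∈ J → |E (B ω) i j| ≤ |E (B ω) i0 j0|) ∧
      (2 : ℝ) ^ r * |E (B ω) i0 j0| ≤ 1 ∧ 1 < (2 : ℝ) ^ (r + w) * |E (B ω) i0 j0|)
    (hW : ∀ ω, 0 < P'.w ω → (∀ i, i ∉ J → |(W ω i : ℝ) + 2 ^ r' * ∑ j ∈ J, E (B (π ω)) i j *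
      (C (B (π ω)) (q (π2 ω)) j - C (B (π ω)) (q (π1 ω)) j)| ≤ N1) ∧ ∀ i ∈ J, W ω i = 0)
    (hz : ∀ ω, 0 < P'.w ω → ∀ j ∈ J,
      |C (B (π ω)) (q (π2 ω)) j - C (B (π ω)) (q (π1 ω)) j| ≤ 2) :
    hc P' (fun ω => fl r' (fun i => (X0 (π ω) i : ℝ) / 2 ^ r' - (X0 (π ω) i0 : ℝ) / 2 ^ r' *
          (if i ∈ J then 0 else E (B (π ω)) i j0 / E (B (π ω)) i0 j0)))
        (fun ω => (fl r (fun i => (X0 (π ω) i : ℝ) / 2 ^ r'), q (π ω), B (π ω), Z ω,
          zd B q π π1 π2 J C j0 (r' - r) ω)) +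
      hc P' (fun ω => fl1 (r' - r - w)
          (C (B (π ω)) (q (π2 ω)) j0 - C (B (π ω)) (q (π1 ω)) j0))
        (fun ω => (zd B q π π1 π2 J C j0 (r' - r) ω, B (π ω), Z ω)) ≤
      hc P' (fun ω i => X0 (π ω) i + W ω i)
        (fun ω => (fl r (fun i => (X0 (π ω) i : ℝ) / 2 ^ r'), q (π ω), B (π ω), Z ω,
          zd B q π π1 π2 J C j0 (r' - r) ω)) +
      (d + 2) * Real.log (8 * d + 8 * N1 + 8) := by
  have hd0 : (0 : ℝ) ≤ d := Nat.cast_nonneg _
  have hN0 : (0 : ℝ) ≤ N1 := Nat.cast_nonneg _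
  have hL : 0 ≤ Real.log (8 * d + 8 * N1 + 8) := Real.log_nonneg (by linarith only [])
  -- facts on the support
  have hsup : ∀ ω, 0 < P'.w ω → 0 < P.w (π ω) := by
    intro ω hω
    rw [← h.law (π ω)]
    exact P'.pr_pos π hω
  have hEne : ∀ ω, 0 < P'.w ω → E (B (π ω)) i0 j0 ≠ 0 := by
    intro ω hω h0
    obtain ⟨-, -, h3⟩ := hE (π ω) (hsup ω hω)
    rw [h0, abs_zero, mul_zero] at h3
    linarith only [h3]
  -- step 1: the approximation of `Y`
  have s1 : hc P' (fun ω => fl r' (fun i => (X0 (π ω) i : ℝ) / 2 ^ r' -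
        (X0 (π ω) i0 : ℝ) / 2 ^ r' *
          (if i ∈ J then 0 else E (B (π ω)) i j0 / E (B (π ω)) i0 j0)))
      (fun ω => ((fun i => X0 (π ω) i + W ω i), (fl r (fun i => (X0 (π ω) i : ℝ) / 2 ^ r'),
        (q (π ω), B (π ω), Z ω, zd B q π π1 π2 J C j0 (r' - r) ω)))) ≤
      d * Real.log (8 * d + 8 * N1 + 8) := by
    have b1 := hc_fl_close P' (s := r') (2 * d + 2 * N1)
      (fun ω => fun i : Fin d => (X0 (π ω) i : ℝ) / 2 ^ r' - (X0 (π ω) i0 : ℝ) / 2 ^ r' *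
          (if i ∈ J then 0 else E (B (π ω)) i j0 / E (B (π ω)) i0 j0))
      (fun ω => fun i : Fin d => ((X0 (π ω) i + W ω i : ℤ) : ℝ) / 2 ^ r' -
        ((X0 (π ω) i0 + W ω i0 : ℤ) : ℝ) / 2 ^ r' *
          (if i ∈ J then 0 else E (B (π ω)) i j0 / E (B (π ω)) i0 j0) +
        (if i ∈ J then 0 else ∑ j ∈ J, (E (B (π ω)) i j -
          E (B (π ω)) i j0 / E (B (π ω)) i0 j0 * E (B (π ω)) i0 j) *
            db_ext J j0 (r' - r) (zd B q π π1 π2 J C j0 (r' - r) ω) j))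
      (fun ω => ((fun i => X0 (π ω) i + W ω i), (fl r (fun i => (X0 (π ω) i : ℝ) / 2 ^ r'),
        (q (π ω), B (π ω), Z ω, zd B q π π1 π2 J C j0 (r' - r) ω))))
      (by
        intro ω hω i
        obtain ⟨hE1, hE2, -⟩ := hE (π ω) (hsup ω hω)
        obtain ⟨hW1, hW2⟩ := hW ω hω
        by_cases hi : i ∈ J
        · simp only [if_pos hi, hW2 i hi]
          simp only [add_zero, mul_zero, sub_zero, sub_self, abs_zero]
          (clear * -; positivity)
        · simp only [if_neg hi]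
          have k1 := db_det1 J (E (B (π ω)))
            (fun j => C (B (π ω)) (q (π2 ω)) j - C (B (π ω)) (q (π1 ω)) j) i0 j0 i hi hi0 hj0 r r'
            hrr N1 hE1 hE2 (hEne ω hω) (X0 (π ω) i) (X0 (π ω) i0) (W ω i) (W ω i0)
            (hW1 i hi) (hW1 i0 hi0)
          push_cast
          exact k1)
    refine le_trans (hc_mono_right P' _ ?_) (b1.trans ?_)
    · intro ω ω' _ _ e
      refine Prod.ext ?_ e
      have e1 : (fun i => X0 (π ω) i + W ω i) = (fun i => X0 (π ω') i + W ω' i) :=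
        congrArg (fun x => x.1) e
      have e2 : B (π ω) = B (π ω') := congrArg (fun x => x.2.2.2.1) e
      have e3 : zd B q π π1 π2 J C j0 (r' - r) ω = zd B q π π1 π2 J C j0 (r' - r) ω' :=
        congrArg (fun x => x.2.2.2.2.2) e
      have e4 : ∀ i, X0 (π ω) i + W ω i = X0 (π ω') i + W ω' i := fun i => congrFun e1 i
      funext i
      simp only [fl, e4, e2, e3]
    · rw [Fintype.card_fin]
      refine mul_le_mul_of_nonneg_left ?_ (Nat.cast_nonneg _)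
      refine Real.log_le_log (by (clear * -; positivity)) ?_
      push_cast
      linarith only []
  -- step 3: the displacement determines `z_j0`
  have s3 : hc P' (fun ω => fl1 (r' - r - w)
        (C (B (π ω)) (q (π2 ω)) j0 - C (B (π ω)) (q (π1 ω)) j0))
      (fun ω => (X0 (π ω) i0 + W ω i0, (X0 (π ω),
        (q (π ω), B (π ω), Z ω, zd B q π π1 π2 J C j0 (r' - r) ω)))) ≤
      Real.log (8 * d + 8 * N1 + 8) := by
    rcases le_or_gt (r + w) r' with hw | hw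
    · have b1 := db_fl1_close P' (s := r' - r - w) (d + N1)
        (fun ω => C (B (π ω)) (q (π2 ω)) j0 - C (B (π ω)) (q (π1 ω)) j0)
        (fun ω => (-((W ω i0 : ℝ) / 2 ^ r') - ∑ j ∈ J, E (B (π ω)) i0 j *
          db_ext J j0 (r' - r) (zd B q π π1 π2 J C j0 (r' - r) ω) j) / E (B (π ω)) i0 j0)
        (fun ω => (X0 (π ω) i0 + W ω i0, (X0 (π ω),
          (q (π ω), B (π ω), Z ω, zd B q π π1 π2 J C j0 (r' - r) ω))))
        (by
          intro ω hω
          obtain ⟨hE1, hE2, hE3⟩ := hE (π ω) (hsup ω hω)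
          obtain ⟨hW1, hW2⟩ := hW ω hω
          have k1 := db_det2 J (E (B (π ω)))
            (fun j => C (B (π ω)) (q (π2 ω)) j - C (B (π ω)) (q (π1 ω)) j) i0 j0 hj0 r r' w
            hw N1 (fun j hj => hE1 i0 j hi0 hj) hE3 (hEne ω hω) (W ω i0) (hW1 i0 hi0)
          push_cast
          exact k1)
      refine le_trans (hc_mono_right P' _ ?_) (b1.trans ?_)
      · intro ω ω' _ _ e
        refine Prod.ext ?_ e
        have e1 : X0 (π ω) i0 + W ω i0 = X0 (π ω') i0 + W ω' i0 := congrArg (fun x => x.1) e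
        have e2 : B (π ω) = B (π ω') := congrArg (fun x => x.2.2.2.1) e
        have e3 : zd B q π π1 π2 J C j0 (r' - r) ω = zd B q π π1 π2 J C j0 (r' - r) ω' :=
          congrArg (fun x => x.2.2.2.2.2) e
        have e4 : X0 (π ω) = X0 (π ω') := congrArg (fun x => x.2.1) e
        have e5 : W ω i0 = W ω' i0 := by
          rw [e4] at e1
          exact add_left_cancel e1
        simp only [e5, e2, e3]
      · refine Real.log_le_log (by (clear * -; positivity)) ?_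
        push_cast
        linarith only []
    · have hs0 : r' - r - w = 0 := by omega
      rw [hs0]
      refine (db_fl1_zero P' _ _ (fun ω hω => hz ω hω j0 hj0)).trans ?_
      refine Real.log_le_log (by norm_num) ?_
      linarith only []
  -- step 4: independence
  have s4 : mi P' (fun ω => fl1 (r' - r - w)
        (C (B (π ω)) (q (π2 ω)) j0 - C (B (π ω)) (q (π1 ω)) j0)) π
      (fun ω => (zd B q π π1 π2 J C j0 (r' - r) ω, B (π ω), Z ω)) ≤ 0 := by
    have b1 : mi P' (fun ω => fl1 (r' - r - w)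
          (C (B (π ω)) (q (π2 ω)) j0 - C (B (π ω)) (q (π1 ω)) j0)) π
        (fun ω => (zd B q π π1 π2 J C j0 (r' - r) ω, B (π ω), Z ω)) ≤
        mi P' (fun ω => (π1 ω, π2 ω)) π
          (fun ω => (zd B q π π1 π2 J C j0 (r' - r) ω, B (π ω), Z ω)) := by
      refine mi_mono_left P' _ ?_
      intro ω ω' _ _ e
      have e1 : π1 ω = π1 ω' := congrArg (fun x => x.1.1) e
      have e2 : π2 ω = π2 ω' := congrArg (fun x => x.1.2) e
      have e3 : B (π ω) = B (π ω') := congrArg (fun x => x.2.2.1) e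
      simp only [e1, e2, e3]
    have b2 : mi P' (fun ω => (π1 ω, π2 ω)) π
        (fun ω => (zd B q π π1 π2 J C j0 (r' - r) ω, B (π ω), Z ω)) ≤
        mi P' (fun ω => (π1 ω, π2 ω)) π (fun ω => (B (π ω), Z ω)) := by
      refine mi_cond_le P' _ _ ?_
      intro ω ω' _ _ e
      have e1 : π1 ω = π1 ω' := congrArg (fun x => x.1.1) e
      have e2 : π2 ω = π2 ω' := congrArg (fun x => x.1.2) e
      have e3 : B (π ω) = B (π ω') := congrArg (fun x => x.2.1) e
      show zd B q π π1 π2 J C j0 (r' - r) ω = zd B q π π1 π2 J C j0 (r' - r) ω'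
      unfold zd
      rw [e1, e2, e3]
    rw [mi_symm P' (fun ω => (π1 ω, π2 ω)) π (fun ω => (B (π ω), Z ω)), h.ind] at b2
    exact b1.trans b2
  -- put together
  have fin := db_ent P'
    (fun ω => fl r' (fun i => (X0 (π ω) i : ℝ) / 2 ^ r' - (X0 (π ω) i0 : ℝ) / 2 ^ r' *
          (if i ∈ J then 0 else E (B (π ω)) i j0 / E (B (π ω)) i0 j0)))
    (fun ω i => X0 (π ω) i + W ω i)
    (fun ω => X0 (π ω) i0 + W ω i0)
    (fun ω => fl r (fun i => (X0 (π ω) i : ℝ) / 2 ^ r'))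
    (fun ω => (q (π ω), B (π ω), Z ω, zd B q π π1 π2 J C j0 (r' - r) ω))
    (fun ω => X0 (π ω))
    (fun ω => fl1 (r' - r - w) (C (B (π ω)) (q (π2 ω)) j0 - C (B (π ω)) (q (π1 ω)) j0))
    (fun ω => (zd B q π π1 π2 J C j0 (r' - r) ω, B (π ω), Z ω))
    π _ _ s1 (fun ω ω' _ _ e => congrFun e i0)
    (by
      intro ω ω' _ _ e
      have e1 : X0 (π ω) = X0 (π ω') := congrArg (fun x => x.1) e
      have e2 : B (π ω) = B (π ω') := congrArg (fun x => x.2.2.1) e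
      simp only [e1, e2])
    (by
      intro ω ω' _ _ e
      have e1 : X0 (π ω) = X0 (π ω') := congrArg (fun x => x.1) e
      simp only [e1])
    s3 s4
    (by
      intro ω ω' _ _ e
      have e1 : π ω = π ω' := congrArg (fun x => x.1) e
      have e2 : zd B q π π1 π2 J C j0 (r' - r) ω = zd B q π π1 π2 J C j0 (r' - r) ω' :=
        congrArg (fun x => x.2.1) e
      have e3 : Z ω = Z ω' := congrArg (fun x => x.2.2.2) e
      simp only [e1, e2, e3])
  have e2 : (d + 2 : ℝ) * Real.log (8 * d + 8 * N1 + 8) =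
      (d * Real.log (8 * d + 8 * N1 + 8) + Real.log (8 * d + 8 * N1 + 8)) +
        Real.log (8 * d + 8 * N1 + 8) := by ring
  rw [e2]
  linarith only [hL, fin]

end dispB

end Vale.Agent.P127.Stk
end

section

/-!
# P127 / Stk : full entropy of one coordinate of `z` (PROOF.md, section 8)
-/

namespace Vale.Agent.P127.Stk

open Finset Vale.Agent.P127

section dz

variable {Ω Ω' β γ ζ : Type} [Fintype Ω] [Fintype Ω'] {d : ℕ}

/-- two random variables with the same law have the same expectations -/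
theorem dz_ex {S : Type*} (P : Law Ω') {X Y : Ω' → S} (h : ∀ s, P.pr X s = P.pr Y s)
    (g : S → ℝ) : P.ex (fun ω => g (X ω)) = P.ex (fun ω => g (Y ω)) := by
  classical
  have key : ∀ W : Ω' → S, img W ⊆ img X ∪ img Y →
      P.ex (fun ω => g (W ω)) = ∑ s ∈ img X ∪ img Y, P.pr W s * g s := by
    intro W hW
    rw [P.ex_comp W g]
    refine Finset.sum_subset hW ?_
    intro x _ hx
    have h1 : P.pr W x = 0 := by
      unfold Law.pr
      refine Finset.sum_eq_zero fun ω hω => ?_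
      exact absurd (mem_img.2 ⟨ω, (Finset.mem_filter.1 hω).2⟩) hx
    rw [h1, zero_mul]
  rw [key X subset_union_left, key Y subset_union_right]
  exact Finset.sum_congr rfl fun s _ => by rw [h]

theorem dz_H {S T : Type*} (P : Law Ω') {X Y : Ω' → S} (h : ∀ s, P.pr X s = P.pr Y s)
    (f : S → T) : P.H (fun ω => f (X ω)) = P.H (fun ω => f (Y ω)) := by
  have h1 : ∀ t, P.pr (fun ω => f (X ω)) t = P.pr (fun ω => f (Y ω)) t := by
    intro t
    rw [Law.pr_eq_ex, Law.pr_eq_ex]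
    exact dz_ex P h (fun s => Law.ind (f s = t))
  unfold Law.H
  simp only [h1]
  exact dz_ex P h (fun s => -Real.log (P.pr (fun ω => f (Y ω)) (f s)))

theorem dz_hc {S T U : Type*} (P : Law Ω') {X Y : Ω' → S} (h : ∀ s, P.pr X s = P.pr Y s)
    (f : S → T) (g : S → U) :
    hc P (fun ω => f (X ω)) (fun ω => g (X ω)) = hc P (fun ω => f (Y ω)) (fun ω => g (Y ω)) := by
  unfold hc
  rw [dz_H P h (fun s => (f s, g s)), dz_H P h g]

/-- step (a) -/
theorem dz_a {P : Law Ω} {P' : Law Ω'} {B : Ω → β} {q : Ω → γ} {X0 : Ω → Fin d → ℤ}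
    {Z : Ω' → ζ} {π π1 π2 : Ω' → Ω} {e1 : ℝ} (h : AbsOut P P' B q X0 Z π π1 π2 e1)
    {T : Type} (A : β → γ → T) :
    hc P (fun ω => A (B ω) (q ω)) (fun ω => (X0 ω, B ω)) - e1 ≤
      hc P' (fun ω => A (B (π ω)) (q (π2 ω))) (fun ω => (π1 ω, B (π ω), Z ω)) := by
  have s1 : hc P' (fun ω => A (B (π ω)) (q (π2 ω)))
      (fun ω => (π1 ω, X0 (π1 ω), B (π ω), Z ω)) ≤
      hc P' (fun ω => A (B (π ω)) (q (π2 ω))) (fun ω => (π1 ω, B (π ω), Z ω)) := by
    refine hc_mono_right P' _ ?_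
    intro ω ω' _ _ e
    simp only [Prod.mk.injEq] at e ⊢
    exact ⟨e.1, e.2.2⟩
  have s2 : mi P' (fun ω => A (B (π ω)) (q (π2 ω))) π1
      (fun ω => (X0 (π1 ω), B (π ω), Z ω)) ≤ 0 := by
    rw [← h.ind12, mi_symm P' π1 π2]
    refine mi_mono_left P' π1 ?_
    intro ω ω' _ _ e
    simp only [Prod.mk.injEq] at e
    show A (B (π ω)) (q (π2 ω)) = A (B (π ω')) (q (π2 ω'))
    rw [e.2.2.1, e.1]
  have s4 : hc P' (fun ω => A (B (π ω)) (q (π2 ω))) (fun ω => (X0 (π1 ω), B (π ω), Z ω)) =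
      hc P' (fun ω => A (B (π2 ω)) (q (π2 ω))) (fun ω => (X0 (π2 ω), B (π2 ω), Z ω)) := by
    refine hc_congr P' ?_ ?_ ?_ ?_
    · intro ω ω' p p' e
      simp only [Prod.mk.injEq] at e
      obtain ⟨_, a2, _⟩ := h.supp ω p
      obtain ⟨_, b2, _⟩ := h.supp ω' p'
      show A (B (π ω)) (q (π2 ω)) = A (B (π ω')) (q (π2 ω'))
      rw [← a2, ← b2]
      exact e.1
    · intro ω ω' p p' e
      simp only [Prod.mk.injEq] at e
      obtain ⟨_, a2, _⟩ := h.supp ω p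
      obtain ⟨_, b2, _⟩ := h.supp ω' p'
      show A (B (π2 ω)) (q (π2 ω)) = A (B (π2 ω')) (q (π2 ω'))
      rw [a2, b2]
      exact e.1
    · intro ω ω' p p' e
      simp only [Prod.mk.injEq] at e ⊢
      obtain ⟨_, a2, a3⟩ := h.supp ω p
      obtain ⟨_, b2, b3⟩ := h.supp ω' p'
      refine ⟨?_, ?_, e.2.2⟩
      · rw [a3, b3]; exact e.1
      · rw [← a2, ← b2]; exact e.2.1
    · intro ω ω' p p' e
      simp only [Prod.mk.injEq] at e ⊢
      obtain ⟨_, a2, a3⟩ := h.supp ω p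
      obtain ⟨_, b2, b3⟩ := h.supp ω' p'
      refine ⟨?_, ?_, e.2.2⟩
      · rw [← a3, ← b3]; exact e.1
      · rw [a2, b2]; exact e.2.1
  have s5 : hc P' (fun ω => A (B (π2 ω)) (q (π2 ω))) (fun ω => (X0 (π2 ω), B (π2 ω), Z ω)) =
      hc P' (fun ω => A (B (π ω)) (q (π ω))) (fun ω => (X0 (π ω), B (π ω), Z ω)) :=
    dz_hc P' (X := fun ω => (Z ω, π2 ω)) (Y := fun ω => (Z ω, π ω))
      (fun s => h.law2 s.1 s.2) (fun s => A (B s.2) (q s.2)) (fun s => (X0 s.2, B s.2, s.1))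
  have s6 : mi P' (fun ω => A (B (π ω)) (q (π ω))) Z (fun ω => (X0 (π ω), B (π ω))) ≤ e1 := by
    refine le_trans ?_ h.cheap
    refine le_trans ?_ (mi_cond_le P' (X := fun ω => (q (π ω), X0 (π ω))) Z
      (W := fun ω => X0 (π ω)) (fun ω => B (π ω)) ?_)
    · refine mi_mono_left P' Z ?_
      intro ω ω' _ _ e
      simp only [Prod.mk.injEq] at e
      show A (B (π ω)) (q (π ω)) = A (B (π ω')) (q (π ω'))
      rw [e.2.2, e.1.1]
    · intro ω ω' _ _ e
      simp only [Prod.mk.injEq] at e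
      exact e.1.2
  have s6' : hc P' (fun ω => A (B (π ω)) (q (π ω))) (fun ω => (Z ω, X0 (π ω), B (π ω))) =
      hc P' (fun ω => A (B (π ω)) (q (π ω))) (fun ω => (X0 (π ω), B (π ω), Z ω)) := by
    refine hc_congr P' (fun ω ω' _ _ e => congrArg Prod.fst e)
      (fun ω ω' _ _ e => congrArg Prod.fst e) ?_ ?_
    · intro ω ω' _ _ e
      simp only [Prod.mk.injEq] at e ⊢
      exact ⟨e.2.2, e.1, e.2.1⟩
    · intro ω ω' _ _ e
      simp only [Prod.mk.injEq] at e ⊢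
      exact ⟨e.2.1, e.2.2, e.1⟩
  have s7 : hc P' (fun ω => A (B (π ω)) (q (π ω))) (fun ω => (X0 (π ω), B (π ω))) =
      hc P (fun ω => A (B ω) (q ω)) (fun ω => (X0 ω, B ω)) :=
    hc_of_law P' P π h.law (fun ω => A (B ω) (q ω)) (fun ω => (X0 ω, B ω))
  unfold mi at s2 s6
  linarith only [s1, s2, s4, s5, s6, s6', s7]

/-- a vector in a box has few digits -/
theorem dz_box {ι : Type} [Fintype ι] {T : Type*} (P : Law Ω') (s : ℕ) (v : Ω' → ι → ℝ)
    (Y : Ω' → T) (h : ∀ ω, 0 < P.w ω → ∀ i, |v ω i| ≤ 2) :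
    hc P (fun ω => fl s (v ω)) Y ≤ Fintype.card ι * (s * Real.log 2 + Real.log 5) := by
  classical
  have h1 := hc_le_log P (fun ω => fl s (v ω)) Y ((5 * 2 ^ s) ^ Fintype.card ι) (fun ω _ => by
    refine ⟨Fintype.piFinset fun _ : ι => Finset.Icc (-(2 * 2 ^ s) : ℤ) (2 * 2 ^ s), ?_, ?_⟩
    · rw [Fintype.card_piFinset]
      simp only [Finset.prod_const, Finset.card_univ]
      refine Nat.pow_le_pow_left ?_ _
      rw [Int.card_Icc]
      have h2 : (0 : ℤ) < 2 ^ s := by positivity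
      have h3 : ((2 ^ s : ℕ) : ℤ) = 2 ^ s := by push_cast; rfl
      have h4 : 1 ≤ 2 ^ s := Nat.one_le_two_pow
      omega
    · intro ω' hω' _
      rw [Fintype.mem_piFinset]
      intro i
      rw [Finset.mem_Icc]
      have h2 : (0 : ℝ) < 2 ^ s := by positivity
      obtain ⟨a1, a2⟩ := abs_le.1 (h ω' hω' i)
      constructor
      · refine Int.le_floor.2 ?_
        push_cast
        nlinarith only [h2, a1]
      · have h5 : (2 : ℝ) ^ s * v ω' i ≤ 2 * 2 ^ s := by nlinarith only [h2, a2]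
        have h6 : ((fl s (v ω') i : ℤ) : ℝ) ≤ ((2 * 2 ^ s : ℤ) : ℝ) := by
          push_cast
          exact (Int.floor_le _).trans h5
        exact_mod_cast h6)
  refine h1.trans (le_of_eq ?_)
  push_cast
  rw [Real.log_pow, Real.log_mul (by norm_num) (by positivity), Real.log_pow]
  ring

/-- full entropy of one coordinate of `z` -/
theorem disp_z {P : Law Ω} {P' : Law Ω'} {B : Ω → β} {q : Ω → γ} {X0 : Ω → Fin d → ℤ}
    {Z : Ω' → ζ} {π π1 π2 : Ω' → Ω} {e1 : ℝ} (h : AbsOut P P' B q X0 Z π π1 π2 e1)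
    (J : Finset (Fin d)) (C : β → γ → Fin d → ℝ) (j0 : Fin d) (hj0 : j0 ∈ J) (e3 : ℝ) (s σ : ℕ)
    (hs : s ≤ σ)
    (H3 : (J.card : ℝ) * σ * Real.log 2 - e3 ≤
      hc P (fun ω => fl σ (fun j : {j // j ∈ J} => C (B ω) (q ω) j)) (fun ω => (X0 ω, B ω)))
    (hz : ∀ ω, 0 < P'.w ω → ∀ j ∈ J,
      |C (B (π ω)) (q (π2 ω)) j - C (B (π ω)) (q (π1 ω)) j| ≤ 2) :
    s * Real.log 2 - e3 - e1 - 2 * J.card * Real.log 5 ≤
      hc P' (fun ω => fl1 s (C (B (π ω)) (q (π2 ω)) j0 - C (B (π ω)) (q (π1 ω)) j0))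
        (fun ω => (zd B q π π1 π2 J C j0 σ ω, B (π ω), Z ω)) := by
  classical
  -- (a)
  have a1 := dz_a h (fun b g => fl σ (fun j : {j // j ∈ J} => C b g j))
  -- (b)
  set zJ : Ω' → {j // j ∈ J} → ℤ := fun ω => fl σ (fun j : {j // j ∈ J} =>
    C (B (π ω)) (q (π2 ω)) j - C (B (π ω)) (q (π1 ω)) j) with hzJ
  have b1 := hc_le_add P' (fun ω => fl σ (fun j : {j // j ∈ J} => C (B (π ω)) (q (π2 ω)) j))
    zJ (fun ω => (π1 ω, B (π ω), Z ω))
  have b2 : hc P' (fun ω => fl σ (fun j : {j // j ∈ J} => C (B (π ω)) (q (π2 ω)) j))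
      (fun ω => (zJ ω, π1 ω, B (π ω), Z ω)) ≤ J.card * Real.log 5 := by
    have c1 := hc_fl_close P' (s := σ) 1
      (fun ω => fun j : {j // j ∈ J} => C (B (π ω)) (q (π2 ω)) j)
      (fun ω => fun j : {j // j ∈ J} => (zJ ω j : ℝ) / 2 ^ σ + C (B (π ω)) (q (π1 ω)) j)
      (fun ω => (zJ ω, π1 ω, B (π ω), Z ω)) (by
        intro ω _ j
        have h2 : (0 : ℝ) < 2 ^ σ := by positivity
        have e1 : (zJ ω j : ℝ) ≤ 2 ^ σ * (C (B (π ω)) (q (π2 ω)) j - C (B (π ω)) (q (π1 ω)) j) :=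
          Int.floor_le _
        have e2 : 2 ^ σ * (C (B (π ω)) (q (π2 ω)) j - C (B (π ω)) (q (π1 ω)) j) <
            (zJ ω j : ℝ) + 1 := Int.lt_floor_add_one _
        have e3 : (1 / 2 : ℝ) ^ σ = 1 / 2 ^ σ := by rw [div_pow, one_pow]
        have e4 : C (B (π ω)) (q (π2 ω)) j -
            ((zJ ω j : ℝ) / 2 ^ σ + C (B (π ω)) (q (π1 ω)) j) =
            (2 ^ σ * (C (B (π ω)) (q (π2 ω)) j - C (B (π ω)) (q (π1 ω)) j) - zJ ω j) / 2 ^ σ := by
          field_simp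
          ring
        rw [e4, e3, Nat.cast_one, one_mul, abs_div, abs_of_pos h2]
        refine div_le_div_of_nonneg_right ?_ h2.le
        rw [abs_le]
        constructor <;> linarith only [e1, e2])
    have c2 : hc P' (fun ω => fl σ (fun j : {j // j ∈ J} => C (B (π ω)) (q (π2 ω)) j))
        (fun ω => (zJ ω, π1 ω, B (π ω), Z ω)) ≤
        hc P' (fun ω => fl σ (fun j : {j // j ∈ J} => C (B (π ω)) (q (π2 ω)) j))
          (fun ω => (fl σ (fun j : {j // j ∈ J} =>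
            (zJ ω j : ℝ) / 2 ^ σ + C (B (π ω)) (q (π1 ω)) j), zJ ω, π1 ω, B (π ω), Z ω)) := by
      refine hc_mono_right P' _ ?_
      intro ω ω' _ _ e
      simp only [Prod.mk.injEq] at e ⊢
      refine ⟨?_, e⟩
      rw [e.1, e.2.1, e.2.2.1]
    refine c2.trans (c1.trans (le_of_eq ?_))
    rw [Fintype.card_coe]
    norm_num
  have b3 : hc P' zJ (fun ω => (π1 ω, B (π ω), Z ω)) ≤ hc P' zJ (fun ω => (B (π ω), Z ω)) := by
    refine hc_mono_right P' _ ?_
    intro ω ω' _ _ e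
    exact congrArg Prod.snd e
  -- (c)
  have d1 : hc P' zJ (fun ω => (B (π ω), Z ω)) ≤
      hc P' (fun ω => (zd B q π π1 π2 J C j0 σ ω,
        fl1 σ (C (B (π ω)) (q (π2 ω)) j0 - C (B (π ω)) (q (π1 ω)) j0)))
        (fun ω => (B (π ω), Z ω)) := by
    refine hc_mono_left P' ?_
    intro ω ω' _ _ e
    simp only [Prod.mk.injEq] at e
    funext j
    by_cases hj : (j : Fin d) = j0
    · have := e.1.2
      have hj' : j = ⟨j0, hj0⟩ := Subtype.ext hj
      rw [hj']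
      exact this
    · exact congrFun e.1.1 ⟨j.1, j.2, hj⟩
  rw [hc_pair] at d1
  have d2 := dz_box P' σ (fun ω => fun j : {j // j ∈ J ∧ j ≠ j0} =>
    C (B (π ω)) (q (π2 ω)) j - C (B (π ω)) (q (π1 ω)) j) (fun ω => (B (π ω), Z ω))
    (fun ω hω j => hz ω hω j.1 j.2.1)
  have d3 : (Fintype.card {j // j ∈ J ∧ j ≠ j0} : ℝ) = J.card - 1 := by
    have e1 : Fintype.card {j // j ∈ J ∧ j ≠ j0} = (J.erase j0).card := by
      rw [Fintype.card_subtype]
      congr 1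
      ext j
      simp only [mem_filter, mem_univ, true_and, mem_erase]
      (clear * -; tauto)
    rw [e1, Finset.card_erase_of_mem hj0, Nat.cast_sub (Finset.card_pos.2 ⟨j0, hj0⟩)]
    norm_num
  rw [d3] at d2
  have d4 := hc_le_add P'
    (fun ω => fl1 σ (C (B (π ω)) (q (π2 ω)) j0 - C (B (π ω)) (q (π1 ω)) j0))
    (fun ω => fl1 s (C (B (π ω)) (q (π2 ω)) j0 - C (B (π ω)) (q (π1 ω)) j0))
    (fun ω => (zd B q π π1 π2 J C j0 σ ω, B (π ω), Z ω))
  have d5 := hc_fl1_digits_le P' hs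
    (fun ω => C (B (π ω)) (q (π2 ω)) j0 - C (B (π ω)) (q (π1 ω)) j0)
    (fun ω => (zd B q π π1 π2 J C j0 σ ω, B (π ω), Z ω))
  rw [Nat.cast_sub hs] at d5
  have d2' : hc P' (fun ω => zd B q π π1 π2 J C j0 σ ω) (fun ω => (B (π ω), Z ω)) ≤
      ((J.card : ℝ) - 1) * (σ * Real.log 2 + Real.log 5) := d2
  have l5 : 0 ≤ Real.log 5 := Real.log_nonneg (by norm_num)
  linarith

end dz

end Vale.Agent.P127.Stk
end

section

/-!
# P127 / Stk : the displacement lemma (PROOF.md, section 8)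
-/

namespace Vale.Agent.P127.Stk

open Finset Vale.Agent.P127

section disp

variable {Ω Ω' β γ ζ : Type} [Fintype Ω] [Fintype Ω'] {d : ℕ}

/-- removing `Z` and a function of `(π1, π2, B)` from the condition -/
theorem dd_drop {S T U : Type*} {P : Law Ω} {P' : Law Ω'} {B : Ω → β} {q : Ω → γ}
    {X0 : Ω → Fin d → ℤ} {Z : Ω' → ζ} {π π1 π2 : Ω' → Ω} {e1 : ℝ}
    (h : AbsOut P P' B q X0 Z π π1 π2 e1) (Y : Ω → S) (R : Ω → T) (D : Ω' → U)
    (hY : ∀ ω ω', X0 ω = X0 ω' → B ω = B ω' → Y ω = Y ω')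
    (hR : ∀ ω ω', X0 ω = X0 ω' → R ω = R ω')
    (hD : ∀ ω ω', π1 ω = π1 ω' → π2 ω = π2 ω' → B (π ω) = B (π ω') → D ω = D ω') :
    hc P Y (fun ω => (R ω, q ω, B ω)) ≤
      hc P' (fun ω => Y (π ω)) (fun ω => (R (π ω), q (π ω), B (π ω), Z ω, D ω)) + e1 := by
  -- pass to `P'`
  have h1 : hc P Y (fun ω => (R ω, q ω, B ω)) =
      hc P' (fun ω => Y (π ω)) (fun ω => (R (π ω), q (π ω), B (π ω))) := by
    have e : P = push P' π := law_ext fun ω => by rw [push_w]; exact (h.law ω).symm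
    have := push_hc P' π Y (fun ω => (R ω, q ω, B ω))
    rw [← e] at this
    exact this
  -- remove `Z`
  have h2 : hc P' (fun ω => Y (π ω)) (fun ω => (R (π ω), q (π ω), B (π ω))) -
      hc P' (fun ω => Y (π ω)) (fun ω => (Z ω, R (π ω), q (π ω), B (π ω))) ≤ e1 := by
    have a1 : mi P' (fun ω => Y (π ω)) Z (fun ω => (R (π ω), q (π ω), B (π ω))) ≤
        mi P' (fun ω => (q (π ω), X0 (π ω))) Z (fun ω => (R (π ω), q (π ω), B (π ω))) := by
      refine mi_mono_left P' Z ?_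
      intro ω ω' _ _ e
      simp only [Prod.mk.injEq] at e
      exact hY _ _ e.1.2 e.2.2.2
    have a2 : mi P' (fun ω => (q (π ω), X0 (π ω))) Z (fun ω => (R (π ω), q (π ω), B (π ω))) ≤
        mi P' (fun ω => (q (π ω), X0 (π ω))) Z (fun ω => (q (π ω), B (π ω))) := by
      refine mi_cond_le P' Z (X := fun ω => (q (π ω), X0 (π ω))) (W := fun ω => R (π ω))
        (fun ω => (q (π ω), B (π ω))) ?_
      intro ω ω' _ _ e
      simp only [Prod.mk.injEq] at e
      exact hR _ _ e.1.2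
    have a3 : mi P' (fun ω => (q (π ω), X0 (π ω))) Z (fun ω => (q (π ω), B (π ω))) ≤
        mi P' (fun ω => (q (π ω), X0 (π ω))) Z (fun ω => B (π ω)) := by
      refine mi_cond_le P' Z (X := fun ω => (q (π ω), X0 (π ω))) (W := fun ω => q (π ω))
        (fun ω => B (π ω)) ?_
      intro ω ω' _ _ e
      simp only [Prod.mk.injEq] at e
      exact e.1.1
    have a4 := h.cheap
    have a5 : hc P' (fun ω => Y (π ω)) (fun ω => (R (π ω), q (π ω), B (π ω))) -
      hc P' (fun ω => Y (π ω)) (fun ω => (Z ω, R (π ω), q (π ω), B (π ω))) =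
        mi P' (fun ω => Y (π ω)) Z (fun ω => (R (π ω), q (π ω), B (π ω))) := rfl
    linarith only [a1, a2, a3, a4, a5]
  -- remove `D`
  have h3 : hc P' (fun ω => Y (π ω)) (fun ω => (Z ω, R (π ω), q (π ω), B (π ω))) ≤
      hc P' (fun ω => Y (π ω)) (fun ω => (D ω, Z ω, R (π ω), q (π ω), B (π ω))) := by
    have a1 : mi P' (fun ω => Y (π ω)) D (fun ω => (Z ω, R (π ω), q (π ω), B (π ω))) ≤
        mi P' π D (fun ω => (Z ω, R (π ω), q (π ω), B (π ω))) := by
      refine mi_mono_left P' D ?_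
      intro ω ω' _ _ e
      simp only [Prod.mk.injEq] at e
      show Y (π ω) = Y (π ω')
      rw [e.1]
    have a2 : mi P' π D (fun ω => (Z ω, R (π ω), q (π ω), B (π ω))) =
        mi P' π D (fun ω => ((R (π ω), q (π ω)), B (π ω), Z ω)) := by
      refine mi_congr_cond P' π D ?_ ?_
      · intro ω ω' _ _ e
        simp only [Prod.mk.injEq] at e ⊢
        exact ⟨e.2.2, e.1.1, e.1.2, e.2.1⟩
      · intro ω ω' _ _ e
        simp only [Prod.mk.injEq] at e ⊢
        exact ⟨⟨e.2.1, e.2.2.1⟩, e.2.2.2, e.1⟩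
    have a3 : mi P' π D (fun ω => ((R (π ω), q (π ω)), B (π ω), Z ω)) ≤
        mi P' π D (fun ω => (B (π ω), Z ω)) := by
      refine mi_cond_le P' D (X := π) (W := fun ω => (R (π ω), q (π ω)))
        (fun ω => (B (π ω), Z ω)) ?_
      intro ω ω' _ _ e
      simp only [Prod.mk.injEq] at e
      show (R (π ω), q (π ω)) = (R (π ω'), q (π ω'))
      rw [e.1]
    have a4 : mi P' π D (fun ω => (B (π ω), Z ω)) ≤
        mi P' π (fun ω => (π1 ω, π2 ω)) (fun ω => (B (π ω), Z ω)) := by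
      refine mi_mono_right P' π ?_
      intro ω ω' _ _ e
      simp only [Prod.mk.injEq] at e
      exact hD _ _ e.1.1 e.1.2 e.2.1
    have a5 := h.ind
    have a6 : hc P' (fun ω => Y (π ω)) (fun ω => (Z ω, R (π ω), q (π ω), B (π ω))) -
      hc P' (fun ω => Y (π ω)) (fun ω => (D ω, Z ω, R (π ω), q (π ω), B (π ω))) =
        mi P' (fun ω => Y (π ω)) D (fun ω => (Z ω, R (π ω), q (π ω), B (π ω))) := rfl
    linarith only [a1, a2, a3, a4, a5, a6]
  have h4 : hc P' (fun ω => Y (π ω)) (fun ω => (D ω, Z ω, R (π ω), q (π ω), B (π ω))) =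
      hc P' (fun ω => Y (π ω)) (fun ω => (R (π ω), q (π ω), B (π ω), Z ω, D ω)) := by
    refine hc_congr P' (fun ω ω' _ _ e => congrArg Prod.fst e)
      (fun ω ω' _ _ e => congrArg Prod.fst e) ?_ ?_
    · intro ω ω' _ _ e
      simp only [Prod.mk.injEq] at e ⊢
      (clear * - e; tauto)
    · intro ω ω' _ _ e
      simp only [Prod.mk.injEq] at e ⊢
      (clear * - e; tauto)
  linarith only [h1, h2, h3, h4]

/-- the displacement lemma -/
theorem disp {P : Law Ω} {P' : Law Ω'} {B : Ω → β} {q : Ω → γ} {X0 : Ω → Fin d → ℤ}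
    {Z : Ω' → ζ} {π π1 π2 : Ω' → Ω} {e1 : ℝ} (h : AbsOut P P' B q X0 Z π π1 π2 e1)
    (J : Finset (Fin d)) (C : β → γ → Fin d → ℝ) (E : β → Fin d → Fin d → ℝ) (W : Ω' → Fin d → ℤ)
    (i0 j0 : Fin d) (hi0 : i0 ∉ J) (hj0 : j0 ∈ J) (f e2 e3 : ℝ) (n r r' w N1 : ℕ)
    (hnr : n ≤ r) (hrr : r ≤ r') (he1 : 0 ≤ e1)
    (hE : ∀ ω, 0 < P.w ω → (∀ i j, i ∉ J → j ∈ J → |E (B ω) i j| ≤ |E (B ω) i0 j0|) ∧
      (2 : ℝ) ^ r * |E (B ω) i0 j0| ≤ 1 ∧ 1 < (2 : ℝ) ^ (r + w) * |E (B ω) i0 j0|)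
    (hW : ∀ ω, 0 < P'.w ω → (∀ i, i ∉ J → |(W ω i : ℝ) + 2 ^ r' * ∑ j ∈ J, E (B (π ω)) i j *
      (C (B (π ω)) (q (π2 ω)) j - C (B (π ω)) (q (π1 ω)) j)| ≤ N1) ∧ ∀ i ∈ J, W ω i = 0)
    (hz : ∀ ω, 0 < P'.w ω → ∀ j ∈ J,
      |C (B (π ω)) (q (π2 ω)) j - C (B (π ω)) (q (π1 ω)) j| ≤ 2)
    (H1 : hc P' (fun ω i => X0 (π ω) i + W ω i) (fun ω => (q (π ω), B (π ω), Z ω)) ≤
      f * ((r' : ℝ) - n) * Real.log 2 + e1)
    (H2 : f * ((r : ℝ) - n) * Real.log 2 - e2 ≤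
      hc P (fun ω => fl r (fun i => (X0 ω i : ℝ) / 2 ^ r')) (fun ω => (q ω, B ω)))
    (H3 : (J.card : ℝ) * (r' - r : ℕ) * Real.log 2 - e3 ≤
      hc P (fun ω => fl (r' - r) (fun j : {j // j ∈ J} => C (B ω) (q ω) j))
        (fun ω => (X0 ω, B ω))) :
    hc P (fun ω => fl r' (fun i => (X0 ω i : ℝ) / 2 ^ r' -
        (X0 ω i0 : ℝ) / 2 ^ r' * (if i ∈ J then 0 else E (B ω) i j0 / E (B ω) i0 j0)))
      (fun ω => (fl r (fun i => (X0 ω i : ℝ) / 2 ^ r'), q ω, B ω)) ≤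
      (f - 1) * ((r' : ℝ) - r) * Real.log 2 + 4 * e1 + e2 + e3 + w * Real.log 2 +
        (4 * d + 8) * Real.log (8 * d + 8 * N1 + 8) := by
  have hA := disp_A h J C E W i0 j0 hi0 hj0 f e2 n r r' w N1 hnr hrr hE hW hz H1 H2
  have hB := disp_B h J C E W i0 j0 hi0 hj0 r r' w N1 hrr hE hW hz
  have hC := disp_z h J C j0 hj0 e3 (r' - r - w) (r' - r) (Nat.sub_le _ _) H3 hz
  have hD := dd_drop h
    (fun ω => fl r' (fun i => (X0 ω i : ℝ) / 2 ^ r' -
        (X0 ω i0 : ℝ) / 2 ^ r' * (if i ∈ J then 0 else E (B ω) i j0 / E (B ω) i0 j0)))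
    (fun ω => fl r (fun i => (X0 ω i : ℝ) / 2 ^ r'))
    (zd B q π π1 π2 J C j0 (r' - r)) (by
      intro ω ω' e1 e2
      simp only [e1, e2]) (by
      intro ω ω' e1
      simp only [e1]) (by
      intro ω ω' e1 e2 e3
      unfold zd
      rw [e1, e2, e3])
  have hl2 : 0 < Real.log 2 := Real.log_pos (by norm_num)
  have hcard : (J.card : ℝ) ≤ d := by
    have := Finset.card_le_univ J
    rw [Fintype.card_fin] at this
    exact_mod_cast this
  have hd0 : (0 : ℝ) ≤ d := Nat.cast_nonneg d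
  have hN0 : (0 : ℝ) ≤ N1 := Nat.cast_nonneg N1
  have h5 : Real.log 5 ≤ Real.log (8 * d + 8 * N1 + 8) :=
    Real.log_le_log (by norm_num) (by linarith only [])
  have h50 : 0 < Real.log 5 := Real.log_pos (by norm_num)
  have hc5 : (J.card : ℝ) * Real.log 5 ≤ d * Real.log (8 * d + 8 * N1 + 8) :=
    mul_le_mul hcard h5 h50.le hd0
  have hsub : ((r' : ℝ) - r - w) * Real.log 2 ≤ ((r' - r - w : ℕ) : ℝ) * Real.log 2 := by
    refine mul_le_mul_of_nonneg_right ?_ hl2.le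
    have h1 : (r' : ℝ) ≤ ((r' - r - w : ℕ) : ℝ) + r + w := by
      have : r' ≤ (r' - r - w) + r + w := by omega
      exact_mod_cast this
    linarith only [h1]
  have e1' : (f - 1) * ((r' : ℝ) - r) * Real.log 2 + w * Real.log 2 =
      f * ((r' : ℝ) - r) * Real.log 2 - ((r' : ℝ) - r - w) * Real.log 2 := by ring
  have e2' : (4 * (d : ℝ) + 8) * Real.log (8 * d + 8 * N1 + 8) =
      d * Real.log (8 * d + 8 * N1 + 8) + (d + 2) * Real.log (8 * d + 8 * N1 + 8) +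
      2 * (d * Real.log (8 * d + 8 * N1 + 8)) + 6 * Real.log (8 * d + 8 * N1 + 8) := by ring
  refine hD.trans ?_
  rw [e2']
  linarith only [hA, hB, hC, h5, h50, hc5, hsub]

end disp

end Vale.Agent.P127.Stk
end

section

/-!
# P127 / Stk / CLaw : the law of progressions of times: domination and cost (helper662)
-/

namespace Vale.Agent.P127.Stk

open Finset Vale.Agent.P127

section dens

variable {Ω Ω' : Type} [Fintype Ω] [Fintype Ω'] {S T U V : Type*}

/-- probabilities of equivalent values -/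
theorem claw_pr_congr (P : Law Ω) {X : Ω → S} {Y : Ω → T} (h : Fn P X Y) (h' : Fn P Y X)
    {ω : Ω} (hω : 0 < P.w ω) : P.pr X (X ω) = P.pr Y (Y ω) := by
  classical
  unfold Law.pr
  rw [Finset.sum_filter, Finset.sum_filter]
  refine Finset.sum_congr rfl fun ω' _ => ?_
  rcases (P.nn ω').eq_or_lt with h0 | h0
  · simp [← h0]
  · by_cases h1 : X ω' = X ω
    · rw [if_pos h1, if_pos (h' ω' ω h0 hω h1)]
    · rw [if_neg h1, if_neg fun h2 => h1 (h ω' ω h0 hω h2)]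

/-- information density -/
noncomputable def dens (P : Law Ω) (X : Ω → S) (Y : Ω → T) (Z : Ω → U) (ω : Ω) : ℝ :=
  Real.log (P.pr (fun ω => (X ω, Y ω, Z ω)) (X ω, Y ω, Z ω)) + Real.log (P.pr Z (Z ω)) -
    Real.log (P.pr (fun ω => (X ω, Z ω)) (X ω, Z ω)) -
    Real.log (P.pr (fun ω => (Y ω, Z ω)) (Y ω, Z ω))

theorem ex_dens (P : Law Ω) (X : Ω → S) (Y : Ω → T) (Z : Ω → U) :
    P.ex (dens P X Y Z) = mi P X Y Z := by
  unfold dens mi hc Law.H
  rw [P.ex_sub, P.ex_sub, P.ex_add, P.ex_neg, P.ex_neg, P.ex_neg, P.ex_neg]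
  ring

/-- a kernel integrates to at most one -/
theorem claw_kernel (P : Law Ω) (X : Ω → S) (Y : Ω → T) (q : S → T → ℝ)
    (hq0 : ∀ x y, 0 ≤ q x y) (hq1 : ∀ y, ∀ F : Finset S, ∑ x ∈ F, q x y ≤ 1) :
    P.ex (fun ω => q (X ω) (Y ω) * P.pr Y (Y ω) / P.pr (fun ω => (X ω, Y ω)) (X ω, Y ω)) ≤ 1 := by
  classical
  rw [P.ex_comp (fun ω => (X ω, Y ω))
    (fun z => q z.1 z.2 * P.pr Y z.2 / P.pr (fun ω => (X ω, Y ω)) z)]
  calc ∑ z ∈ img (fun ω => (X ω, Y ω)), P.pr (fun ω => (X ω, Y ω)) z *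
        (q z.1 z.2 * P.pr Y z.2 / P.pr (fun ω => (X ω, Y ω)) z)
      ≤ ∑ z ∈ img (fun ω => (X ω, Y ω)), q z.1 z.2 * P.pr Y z.2 := by
        refine Finset.sum_le_sum fun z _ => ?_
        rcases (P.pr_nonneg (fun ω => (X ω, Y ω)) z).eq_or_lt with h0 | h0
        · rw [← h0]
          simpa only [div_zero, mul_zero] using mul_nonneg (hq0 z.1 z.2) (P.pr_nonneg Y z.2)
        · rw [mul_div_cancel₀ _ h0.ne']
    _ ≤ ∑ z ∈ (img X) ×ˢ (img Y), q z.1 z.2 * P.pr Y z.2 := by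
          refine Finset.sum_le_sum_of_subset_of_nonneg ?_
            fun z _ _ => mul_nonneg (hq0 _ _) (P.pr_nonneg _ _)
          intro z hz
          simp only [mem_img, mem_product] at hz ⊢
          obtain ⟨ω, rfl⟩ := hz
          exact ⟨⟨ω, rfl⟩, ⟨ω, rfl⟩⟩
    _ = ∑ y ∈ img Y, (∑ x ∈ img X, q x y) * P.pr Y y := by
          rw [Finset.sum_product_right]
          refine Finset.sum_congr rfl fun y _ => ?_
          rw [Finset.sum_mul]
    _ ≤ ∑ y ∈ img Y, P.pr Y y := by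
          refine Finset.sum_le_sum fun y _ => ?_
          have := mul_le_mul_of_nonneg_right (hq1 y (img X)) (P.pr_nonneg Y y)
          simpa only [ge_iff_le, one_mul] using this
    _ ≤ 1 := (P.sum_pr_image Y).le

theorem dens_neg_le (P : Law Ω) (X : Ω → S) (Y : Ω → T) (Z : Ω → U) :
    P.ex (fun ω => max (-dens P X Y Z ω) 0) ≤ 1 := by
  have h := claw_kernel P X (fun ω => (Y ω, Z ω))
    (fun x yz => P.pr (fun ω => (X ω, Z ω)) (x, yz.2) / P.pr Z yz.2)
    (fun x yz => div_nonneg (P.pr_nonneg _ _) (P.pr_nonneg _ _)) ?_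
  · refine le_trans (P.ex_mono fun ω hω => ?_) h
    have h1 := P.pr_pos (fun ω => (X ω, Y ω, Z ω)) hω
    have h2 := P.pr_pos Z hω
    have h3 := P.pr_pos (fun ω => (X ω, Z ω)) hω
    have h4 := P.pr_pos (fun ω => (Y ω, Z ω)) hω
    have h5 : 0 < P.pr (fun ω => (X ω, Z ω)) (X ω, Z ω) / P.pr Z (Z ω) *
        P.pr (fun ω => (Y ω, Z ω)) (Y ω, Z ω) /
        P.pr (fun ω => (X ω, Y ω, Z ω)) (X ω, Y ω, Z ω) := by positivity
    refine max_le ?_ h5.le
    have h6 := Real.log_le_sub_one_of_pos h5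
    rw [Real.log_div (by positivity) h1.ne', Real.log_mul (by positivity) h4.ne',
      Real.log_div h3.ne' h2.ne'] at h6
    unfold dens
    show _ ≤ P.pr (fun ω => (X ω, Z ω)) (X ω, Z ω) / P.pr Z (Z ω) *
        P.pr (fun ω => (Y ω, Z ω)) (Y ω, Z ω) /
        P.pr (fun ω => (X ω, Y ω, Z ω)) (X ω, Y ω, Z ω)
    linarith only [h6]
  · intro yz F
    rw [← Finset.sum_div]
    exact div_le_one_of_le₀ (P.sum_pr_pair_le X Z yz.2 F) (P.pr_nonneg _ _)

theorem claw_ex_pull (Q : Law Ω') (π : Ω' → Ω) (f : Ω → ℝ) :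
    Q.ex (fun ω => f (π ω)) = ∑ ω, Q.pr π ω * f ω := by
  classical
  rw [Q.ex_comp π f]
  refine Finset.sum_subset (Finset.subset_univ _) fun ω _ hω => ?_
  have h0 : Q.pr π ω = 0 := by
    unfold Law.pr
    refine Finset.sum_eq_zero fun ω' hω' => ?_
    exfalso
    apply hω
    rw [mem_img]
    exact ⟨ω', by simpa only [mem_filter, mem_univ, true_and] using hω'⟩
  rw [h0, zero_mul]

/-- the mean of an information density under a dominated law -/
theorem dens_dom {Q : Law Ω'} {π : Ω' → Ω} {P : Law Ω} {K : ℝ} (h : Dom Q π P K)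
    (X : Ω → S) (Y : Ω → T) (Z : Ω → U) :
    Q.ex (fun ω => dens P X Y Z (π ω)) ≤ K * (mi P X Y Z + 1) := by
  have hK : 0 ≤ K := zero_le_one.trans h.one_le
  have h1 : Q.ex (fun ω => dens P X Y Z (π ω)) ≤
      Q.ex (fun ω => (fun ω => max (dens P X Y Z ω) 0) (π ω)) :=
    Q.ex_mono fun ω _ => le_max_left _ _
  have h2 : Q.ex (fun ω => (fun ω => max (dens P X Y Z ω) 0) (π ω)) ≤
      K * P.ex (fun ω => max (dens P X Y Z ω) 0) := by
    rw [claw_ex_pull Q π (fun ω => max (dens P X Y Z ω) 0)]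
    unfold Law.ex
    rw [Finset.mul_sum]
    refine Finset.sum_le_sum fun ω _ => ?_
    rw [← mul_assoc]
    exact mul_le_mul_of_nonneg_right (h ω) (le_max_right _ _)
  have h3 : P.ex (fun ω => max (dens P X Y Z ω) 0) =
      mi P X Y Z + P.ex (fun ω => max (-dens P X Y Z ω) 0) := by
    rw [← ex_dens, ← P.ex_add]
    refine P.ex_congr fun ω _ => ?_
    rcases le_total 0 (dens P X Y Z ω) with h4 | h4
    · rw [max_eq_left h4, max_eq_right (by linarith)]
      ring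
    · rw [max_eq_right h4, max_eq_left (by linarith only [h4])]
      ring
  have h4 := dens_neg_le P X Y Z
  have h5 : P.ex (fun ω => max (dens P X Y Z ω) 0) ≤ mi P X Y Z + 1 := by linarith
  calc _ ≤ _ := h1
    _ ≤ _ := h2
    _ ≤ _ := mul_le_mul_of_nonneg_left h5 hK

end dens

section progressions

variable {Ω : Type} [Fintype Ω] {S S' T T' U' V : Type*}

open Classical in
/-- progressions of length `p + 1` in `[0, M)` -/
noncomputable def apC (M p : ℕ) : Finset (Fin (p + 1) → ℤ) :=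
  (Fintype.piFinset fun _ => Ico (0 : ℤ) M).filter
    fun c => ∃ μ : ℤ, ∀ j : Fin (p + 1), c j = c 0 + (j : ℕ) * μ

theorem mem_apC {M p : ℕ} {c : Fin (p + 1) → ℤ} : c ∈ apC M p ↔
    (∀ j, 0 ≤ c j ∧ c j < M) ∧ ∃ μ : ℤ, ∀ j : Fin (p + 1), c j = c 0 + (j : ℕ) * μ := by
  simp only [apC, mem_filter, Fintype.mem_piFinset, mem_Ico]

theorem apC_inj {M p : ℕ} {c c' : Fin (p + 1) → ℤ} (hc : c ∈ apC M p) (hc' : c' ∈ apC M p)
    {i j : Fin (p + 1)} (hij : i ≠ j) (hi : c i = c' i) (hj : c j = c' j) : c = c' := by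
  obtain ⟨_, μ, h⟩ := mem_apC.1 hc
  obtain ⟨_, μ', h'⟩ := mem_apC.1 hc'
  have h1 : ((i : ℕ) : ℤ) * (μ - μ') = ((j : ℕ) : ℤ) * (μ - μ') := by
    have e1 := h i
    have e2 := h' i
    have e3 := h j
    have e4 := h' j
    linear_combination -e1 + e2 + e3 - e4 + hi - hj
  have h2 : μ = μ' := by
    by_contra hne
    have h3 : ((i : ℕ) : ℤ) = ((j : ℕ) : ℤ) := mul_right_cancel₀ (sub_ne_zero.2 hne) h1
    apply hij
    apply Fin.ext
    exact_mod_cast h3
  funext k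
  have e1 := h i
  have e2 := h' i
  have e5 := h k
  have e6 := h' k
  rw [h2] at e1 e5
  linear_combination e5 - e6 - e1 + e2 + hi

theorem apC_card_fix2 {M p : ℕ} {i j : Fin (p + 1)} (hij : i ≠ j) (x y : ℤ) :
    ((apC M p).filter fun c => c i = x ∧ c j = y).card ≤ 1 := by
  classical
  rw [Finset.card_le_one]
  intro c hc c' hc'
  rw [mem_filter] at hc hc'
  exact apC_inj hc.1 hc'.1 hij (hc.2.1.trans hc'.2.1.symm) (hc.2.2.trans hc'.2.2.symm)

theorem apC_card_fix {M p : ℕ} (hp : 1 ≤ p) (i : Fin (p + 1)) (x : ℤ) :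
    ((apC M p).filter fun c => c i = x).card ≤ M := by
  classical
  obtain ⟨j, hij⟩ : ∃ j : Fin (p + 1), i ≠ j := by
    by_cases h0 : i = 0
    · refine ⟨Fin.last p, ?_⟩
      rw [h0]
      intro h
      have := congrArg Fin.val h
      simp only [Fin.coe_ofNat_eq_mod, Nat.zero_mod, Fin.val_last] at this
      omega
    · exact ⟨0, h0⟩
  have : ((apC M p).filter fun c => c i = x).card ≤ (Ico (0 : ℤ) M).card := by
    refine Finset.card_le_card_of_injOn (fun c => c j) ?_ ?_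
    · intro c hc
      have hc1 := (mem_filter.1 (Finset.mem_coe.1 hc)).1
      have := (mem_apC.1 hc1).1 j
      simpa only [coe_Ico, Set.mem_Ico] using this
    · intro c hc c' hc' he
      have h1 := mem_filter.1 (Finset.mem_coe.1 hc)
      have h2 := mem_filter.1 (Finset.mem_coe.1 hc')
      exact apC_inj h1.1 h2.1 hij (h1.2.trans h2.2.symm) he
  simpa only [ge_iff_le, Int.card_Ico, sub_zero, Int.toNat_natCast] using this

theorem apC_card {M p : ℕ} (hp : 1 ≤ p) : (apC M p).card ≤ M ^ 2 := by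
  classical
  have h0 : (0 : Fin (p + 1)) ≠ Fin.last p := by
    intro h
    have := congrArg Fin.val h
    simp only [Fin.coe_ofNat_eq_mod, Nat.zero_mod, Fin.val_last] at this
    omega
  have : (apC M p).card ≤ (Ico (0 : ℤ) M ×ˢ Ico (0 : ℤ) M).card := by
    refine Finset.card_le_card_of_injOn (fun c => (c 0, c (Fin.last p))) ?_ ?_
    · intro c hc
      have h1 := (mem_apC.1 (Finset.mem_coe.1 hc)).1 0
      have h2 := (mem_apC.1 (Finset.mem_coe.1 hc)).1 (Fin.last p)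
      simp only [Finset.coe_product, Set.mem_prod, Finset.mem_coe, mem_Ico]
      exact ⟨h1, h2⟩
    · intro c hc c' hc' he
      simp only [Prod.mk.injEq] at he
      exact apC_inj (Finset.mem_coe.1 hc) (Finset.mem_coe.1 hc') h0 he.1 he.2
  rw [Finset.card_product] at this
  simp only [Int.card_Ico, sub_zero, Int.toNat_natCast] at this
  rw [sq]
  exact this

open Classical in
/-- product formula for sums over tuples whose positions lie in a set of configurations -/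
theorem sum_conf {ι : Type} [Fintype ι] [DecidableEq ι] (U : Ω → ℤ) (F : ι → Ω → ℝ) (𝒞 : Finset (ι → ℤ)) :
    ∑ w : ι → Ω, (if (fun j => U (w j)) ∈ 𝒞 then ∏ j, F j (w j) else 0) =
      ∑ c ∈ 𝒞, ∏ j, ∑ ω with U ω = c j, F j ω := by
  rw [← Finset.sum_filter]
  rw [← Finset.sum_fiberwise_of_maps_to (g := fun w : ι → Ω => fun j => U (w j)) (t := 𝒞)
    (s := univ.filter fun w : ι → Ω => (fun j => U (w j)) ∈ 𝒞)]
  · refine Finset.sum_congr rfl fun c hc => ?_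
    rw [Finset.prod_univ_sum]
    refine Finset.sum_congr ?_ fun _ _ => rfl
    ext w
    simp only [mem_filter, mem_univ, true_and, Fintype.mem_piFinset]
    constructor
    · rintro ⟨_, h2⟩ j
      exact congrFun h2 j
    · intro h
      have h2 : (fun j => U (w j)) = c := funext h
      exact ⟨by rw [h2]; exact hc, h2⟩
  · intro w hw
    simpa only [mem_filter, mem_univ, true_and] using hw

/-- product formula without constraint -/
theorem sum_prod_tuple {ι : Type} [Fintype ι] [DecidableEq ι] (F : ι → Ω → ℝ) :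
    ∑ w : ι → Ω, ∏ j, F j (w j) = ∏ j, ∑ ω, F j ω := by
  classical
  rw [Finset.prod_univ_sum]
  simp only [Fintype.piFinset_univ]

open Classical in
/-- the conditional weight of a good point given the key and the position -/
noncomputable def gF (P : Law Ω) (W : Ω → S) (U : Ω → ℤ) (M : ℕ) (ω : Ω) : ℝ :=
  if P.pr W (W ω) ≤ 2 * M * P.pr (fun ω => (W ω, U ω)) (W ω, U ω) then
    P.w ω / P.pr (fun ω => (W ω, U ω)) (W ω, U ω) else 0

theorem gF_nonneg (P : Law Ω) (W : Ω → S) (U : Ω → ℤ) (M : ℕ) (ω : Ω) : 0 ≤ gF P W U M ω := by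
  unfold gF
  split_ifs
  · exact div_nonneg (P.nn _) (P.pr_nonneg _ _)
  · exact le_rfl

theorem gF_le (P : Law Ω) (W : Ω → S) (U : Ω → ℤ) (M : ℕ) (ω : Ω) :
    gF P W U M ω ≤ P.w ω / P.pr (fun ω => (W ω, U ω)) (W ω, U ω) := by
  unfold gF
  split_ifs
  · exact le_rfl
  · exact div_nonneg (P.nn _) (P.pr_nonneg _ _)

theorem gF_pos {P : Law Ω} {W : Ω → S} {U : Ω → ℤ} {M : ℕ} {ω : Ω} (h : 0 < gF P W U M ω) :
    0 < P.w ω := by
  rcases (P.nn ω).eq_or_lt with h0 | h0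
  · have := gF_le P W U M ω
    rw [← h0, zero_div] at this
    exact absurd h (not_lt.2 this)
  · exact h0

/-- the upper bound for a good point -/
theorem gF_le_key (P : Law Ω) (W : Ω → S) (U : Ω → ℤ) (M : ℕ) (ω : Ω) :
    P.pr W (W ω) * gF P W U M ω ≤ 2 * M * P.w ω := by
  unfold gF
  split_ifs with h
  · rcases (P.nn ω).eq_or_lt with h0 | h0
    · rw [← h0]
      simp only [zero_div, mul_zero, Std.le_refl]
    · have h1 := P.pr_pos (fun ω => (W ω, U ω)) h0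
      rw [mul_div_assoc', div_le_iff₀ h1]
      have := mul_le_mul_of_nonneg_right h h0.le
      linarith
  · have := P.nn ω
    rw [mul_zero]
    (clear * - this; positivity)

theorem clw_eq (P : Law Ω) (W : Ω → S) (U : Ω → ℤ) {M p : ℕ} (hM : 1 ≤ M)
    (w : Fin (p + 1) → Ω) :
    apw P W U M p w = open Classical in
      if (∀ j, W (w j) = W (w 0)) ∧ ∃ μ : ℤ, ∀ j : Fin (p + 1), U (w j) = U (w 0) + (j : ℕ) * μ
      then P.pr W (W (w 0)) / (M : ℝ) ^ (p + 1) * ∏ j, gF P W U M (w j) else 0 := by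
  classical
  unfold apw cw
  by_cases h1 : ∃ μ : ℤ, ∀ j : Fin (p + 1), U (w j) = U (w 0) + (j : ℕ) * μ
  · by_cases h2 : ∀ j, W (w j) = W (w 0)
    · rw [if_pos h1, if_pos h2, if_pos ⟨h2, h1⟩]
      have hM0 : (0 : ℝ) < M := by exact_mod_cast hM
      rcases (P.pr_nonneg W (W (w 0))).eq_or_lt with h0 | h0
      · have h3 : P.w (w 0) = 0 := by
          have := P.w_le_pr W (w 0)
          rw [← h0] at this
          exact le_antisymm this (P.nn _)
        have h4 : ∏ i, P.w (w i) = 0 := Finset.prod_eq_zero (mem_univ 0) h3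
        rw [h4, ← h0]
        simp only [zero_div, zero_mul]
      · have h3 : ∀ j, P.w (w j) * idn P W U M (w j) =
            P.pr W (W (w 0)) / M * gF P W U M (w j) := by
          intro j
          unfold idn gF
          rw [h2 j]
          split_ifs
          · field_simp
          · simp
        have h4 : (∏ i, P.w (w i)) * ∏ j, idn P W U M (w j) =
            (P.pr W (W (w 0)) / M) ^ (p + 1) * ∏ j, gF P W U M (w j) := by
          rw [← Finset.prod_mul_distrib, Finset.prod_congr rfl fun j _ => h3 j,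
            Finset.prod_mul_distrib, Finset.prod_const, Finset.card_univ, Fintype.card_fin]
        rw [div_mul_eq_mul_div, h4, div_pow, pow_succ (P.pr W (W (w 0))) p]
        field_simp
    · rw [if_pos h1, if_neg h2, if_neg fun h => h2 h.1, zero_mul]
  · rw [if_neg h1, if_neg fun h => h1 h.2]

theorem clw_nonneg (P : Law Ω) (W : Ω → S) (U : Ω → ℤ) {M p : ℕ} (hM : 1 ≤ M)
    (w : Fin (p + 1) → Ω) : 0 ≤ apw P W U M p w := by
  classical
  rw [clw_eq P W U hM w]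
  split_ifs
  · exact mul_nonneg (div_nonneg (P.pr_nonneg _ _) (by positivity))
      (Finset.prod_nonneg fun j _ => gF_nonneg P W U M _)
  · exact le_rfl

/-- support of the progression weights -/
theorem clw_pos {P : Law Ω} {W : Ω → S} {U : Ω → ℤ} {M p : ℕ} (hM : 1 ≤ M)
    {w : Fin (p + 1) → Ω} (h : 0 < apw P W U M p w) :
    (∀ j, W (w j) = W (w 0)) ∧
    (∃ μ : ℤ, ∀ j : Fin (p + 1), U (w j) = U (w 0) + (j : ℕ) * μ) ∧ ∀ j, 0 < P.w (w j) := by
  classical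
  rw [clw_eq P W U hM w] at h
  split_ifs at h with h1
  · refine ⟨h1.1, h1.2, fun j => ?_⟩
    refine gF_pos (M := M) (W := W) (U := U) ?_
    rcases (gF_nonneg P W U M (w j)).eq_or_lt with h0 | h0
    · exfalso
      rw [Finset.prod_eq_zero (mem_univ j) h0.symm, mul_zero] at h
      exact lt_irrefl _ h
    · exact h0
  · exact absurd h (lt_irrefl _)

/-- the kernel of a sample with given key and position is at most a probability -/
theorem sum_gF_le (P : Law Ω) (W : Ω → S) (U : Ω → ℤ) (M : ℕ) (s : S) (u : ℤ) :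
    open Classical in
    ∑ ω with U ω = u, (if W ω = s then gF P W U M ω else 0) ≤ 1 := by
  classical
  rw [← Finset.sum_filter, Finset.filter_filter]
  have h1 : ∑ ω with U ω = u ∧ W ω = s, gF P W U M ω ≤
      ∑ ω with U ω = u ∧ W ω = s, P.w ω / P.pr (fun ω => (W ω, U ω)) (s, u) := by
    refine Finset.sum_le_sum fun ω hω => ?_
    have h2 : U ω = u ∧ W ω = s := by simpa only [mem_filter, mem_univ, true_and] using hω
    have := gF_le P W U M ω
    rw [h2.1, h2.2] at this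
    exact this
  refine h1.trans ?_
  rw [← Finset.sum_div]
  have h3 : ∑ ω with U ω = u ∧ W ω = s, P.w ω = P.pr (fun ω => (W ω, U ω)) (s, u) := by
    unfold Law.pr
    refine Finset.sum_congr ?_ fun _ _ => rfl
    ext ω
    simp only [and_comm, mem_filter, mem_univ, true_and, Prod.mk.injEq]
  rw [h3]
  exact div_self_le_one _

open Classical in
/-- sums of the progression weights with some vertices prescribed -/
theorem clw_marg (P : Law Ω) (W : Ω → S) (U : Ω → ℤ) {M p : ℕ} (hM : 1 ≤ M)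
    (hU : ∀ ω, 0 < P.w ω → 0 ≤ U ω ∧ U ω < M) (J : Finset (Fin (p + 1))) (hJ : J.Nonempty)
    (v : Fin (p + 1) → Ω) (s : S) (hs : ∀ j ∈ J, W (v j) = s) :
    ∑ w with (∀ j ∈ J, w j = v j), apw P W U M p w ≤
      P.pr W s / (M : ℝ) ^ (p + 1) *
        (((apC M p).filter fun c => ∀ j ∈ J, c j = U (v j)).card * ∏ j ∈ J, gF P W U M (v j)) := by
  set F : Fin (p + 1) → Ω → ℝ := fun j ω =>
    if j ∈ J then (if ω = v j then gF P W U M ω else 0)
    else (if W ω = s then gF P W U M ω else 0) with hF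
  have hF0 : ∀ j ω, 0 ≤ F j ω := by
    intro j ω
    simp only [hF]
    have := gF_nonneg P W U M ω
    split_ifs <;> simp [this]
  have hc0 : 0 ≤ P.pr W s / (M : ℝ) ^ (p + 1) := div_nonneg (P.pr_nonneg _ _) (by positivity)
  have h1 : ∑ w with (∀ j ∈ J, w j = v j), apw P W U M p w ≤
      ∑ w : Fin (p + 1) → Ω, P.pr W s / (M : ℝ) ^ (p + 1) *
        (if (fun j => U (w j)) ∈ apC M p then ∏ j, F j (w j) else 0) := by
    rw [Finset.sum_filter]
    refine Finset.sum_le_sum fun w _ => ?_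
    have hr : 0 ≤ P.pr W s / (M : ℝ) ^ (p + 1) *
        (if (fun j => U (w j)) ∈ apC M p then ∏ j, F j (w j) else 0) := by
      refine mul_nonneg hc0 ?_
      split_ifs
      · exact Finset.prod_nonneg fun j _ => hF0 j _
      · exact le_rfl
    by_cases h2 : ∀ j ∈ J, w j = v j
    · rw [if_pos h2]
      rcases (clw_nonneg P W U hM w).eq_or_lt with h3 | h3
      · rw [← h3]
        exact hr
      · obtain ⟨g1, g2, g3⟩ := clw_pos hM h3
        obtain ⟨j0, hj0⟩ := hJ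
        have g4 : W (w 0) = s := by
          rw [← g1 j0, h2 j0 hj0, hs j0 hj0]
        have g5 : (fun j => U (w j)) ∈ apC M p := mem_apC.2 ⟨fun j => hU _ (g3 j), g2⟩
        rw [if_pos g5, clw_eq P W U hM w, if_pos ⟨g1, g2⟩, g4]
        refine mul_le_mul_of_nonneg_left ?_ hc0
        refine le_of_eq (Finset.prod_congr rfl fun j _ => ?_)
        simp only [hF]
        by_cases hj : j ∈ J
        · rw [if_pos hj, if_pos (h2 j hj)]
        · rw [if_neg hj, if_pos ((g1 j).trans g4)]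
    · rw [if_neg h2]
      exact hr
  refine h1.trans ?_
  have hconf : ∑ w : Fin (p + 1) → Ω,
      (if (fun j => U (w j)) ∈ apC M p then ∏ j, F j (w j) else 0) =
      ∑ c ∈ apC M p, ∏ j, ∑ ω with U ω = c j, F j ω := by
    refine Eq.trans ?_ ((sum_conf U F (apC M p)).trans ?_)
    · refine Finset.sum_congr rfl fun w _ => ?_
      by_cases hw : (fun j => U (w j)) ∈ apC M p
      · simp only [if_pos hw]
      · simp only [if_neg hw]
    · refine Finset.sum_congr rfl fun c _ => Finset.prod_congr rfl fun j _ =>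
        Finset.sum_congr ?_ fun _ _ => rfl
      ext ω
      simp only [mem_filter]
  rw [← Finset.mul_sum, hconf]
  refine mul_le_mul_of_nonneg_left ?_ hc0
  have h2 : ∀ c : Fin (p + 1) → ℤ, ∏ j, ∑ ω with U ω = c j, F j ω ≤
      if ∀ j ∈ J, c j = U (v j) then ∏ j ∈ J, gF P W U M (v j) else 0 := by
    intro c
    have h3 : ∏ j, ∑ ω with U ω = c j, F j ω ≤
        ∏ j, (if j ∈ J then (if c j = U (v j) then gF P W U M (v j) else 0) else 1) := by
      refine Finset.prod_le_prod (fun j _ => Finset.sum_nonneg fun ω _ => hF0 j ω)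
        fun j _ => ?_
      by_cases hj : j ∈ J
      · simp only [hF, if_pos hj]
        rw [Finset.sum_ite_eq']
        by_cases h4 : c j = U (v j)
        · simp only [h4, mem_filter, mem_univ, and_self, ↓reduceIte, Std.le_refl]
        · have : ¬ (v j ∈ univ.filter fun ω => U ω = c j) := by
            simp only [mem_filter, mem_univ, true_and]
            exact fun h => h4 h.symm
          rw [if_neg this, if_neg h4]
      · simp only [hF, if_neg hj]
        exact sum_gF_le P W U M s (c j)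
    refine h3.trans ?_
    rw [Finset.prod_ite_mem]
    by_cases h4 : ∀ j ∈ J, c j = U (v j)
    · rw [if_pos h4]
      refine le_of_eq ?_
      rw [Finset.univ_inter]
      exact Finset.prod_congr rfl fun j hj => by rw [if_pos (h4 j hj)]
    · rw [if_neg h4]
      push_neg at h4
      obtain ⟨j, hj, h5⟩ := h4
      rw [Finset.univ_inter, Finset.prod_eq_zero hj (by rw [if_neg h5])]
  refine (Finset.sum_le_sum fun c _ => h2 c).trans ?_
  rw [← Finset.sum_filter, Finset.sum_const, nsmul_eq_mul]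

/-- domination of single vertices -/
theorem ap_dom1 {P : Law Ω} {W : Ω → S} {U : Ω → ℤ} {M p : ℕ} (hM : 1 ≤ M) (hp : 1 ≤ p)
    (hU : ∀ ω, 0 < P.w ω → 0 ≤ U ω ∧ U ω < M) {Q : Law (Fin (p + 1) → Ω)} {Z c : ℝ}
    (hQ : ∀ w, Q.w w = apw P W U M p w / Z) (hZ : 0 < Z)
    (hc : c / (M : ℝ) ^ (p - 1) ≤ Z) (hc0 : 0 < c) (i : Fin (p + 1)) :
    Dom Q (fun w => w i) P (8 / c) := by
  classical
  intro ω
  have hM0 : (0 : ℝ) < M := by exact_mod_cast hM
  have h1 := clw_marg P W U hM hU {i} ⟨i, mem_singleton_self i⟩ (fun _ => ω) (W ω)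
    (fun j _ => rfl)
  have h2 : (((apC M p).filter fun c => ∀ j ∈ ({i} : Finset (Fin (p + 1))), c j = U ω).card
      : ℝ) ≤ M := by
    have := apC_card_fix (M := M) hp i (U ω)
    simp only [mem_singleton, forall_eq]
    exact_mod_cast this
  rw [Finset.prod_singleton] at h1
  have h3 : Q.pr (fun w => w i) ω = (∑ w with (∀ j ∈ ({i} : Finset (Fin (p + 1))), w j = ω),
      apw P W U M p w) / Z := by
    unfold Law.pr
    rw [Finset.sum_div]
    refine Finset.sum_congr ?_ fun w _ => hQ w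
    ext w
    simp only [mem_filter, mem_univ, true_and, mem_singleton, forall_eq]
  rw [h3, div_le_iff₀ hZ]
  refine h1.trans ?_
  have h4 := gF_le_key P W U M ω
  have h5 := gF_nonneg P W U M ω
  have h6 := P.pr_nonneg W (W ω)
  have h7 : P.pr W (W ω) / (M : ℝ) ^ (p + 1) *
      ((((apC M p).filter fun c => ∀ j ∈ ({i} : Finset (Fin (p + 1))), c j = U ω).card : ℝ) *
        gF P W U M ω) ≤ P.pr W (W ω) / (M : ℝ) ^ (p + 1) * (M * gF P W U M ω) := by
    refine mul_le_mul_of_nonneg_left ?_ (div_nonneg h6 (by positivity))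
    exact mul_le_mul_of_nonneg_right h2 h5
  refine h7.trans ?_
  obtain ⟨q, rfl⟩ : ∃ q, p = q + 1 := ⟨p - 1, by omega⟩
  have h8 : P.pr W (W ω) / (M : ℝ) ^ (q + 1 + 1) * (M * gF P W U M ω) =
      (P.pr W (W ω) * gF P W U M ω) / (M : ℝ) ^ (q + 1) := by
    rw [pow_succ]
    field_simp
  rw [h8]
  have h9 : (P.pr W (W ω) * gF P W U M ω) / (M : ℝ) ^ (q + 1) ≤
      (2 * M * P.w ω) / (M : ℝ) ^ (q + 1) := div_le_div_of_nonneg_right h4 (by positivity)
  refine h9.trans ?_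
  have h10 : 2 * M * P.w ω / (M : ℝ) ^ (q + 1) = 2 / (M : ℝ) ^ q * P.w ω := by
    rw [pow_succ]
    field_simp
  rw [h10]
  have h11 : 2 / (M : ℝ) ^ q ≤ 8 / c * Z := by
    have : c / (M : ℝ) ^ q ≤ Z := by simpa only [add_tsub_cancel_right] using hc
    calc 2 / (M : ℝ) ^ q ≤ 8 / c * (c / (M : ℝ) ^ q) := by
          rw [div_mul_div_comm, mul_comm c, mul_div_mul_right _ _ hc0.ne']
          exact div_le_div_of_nonneg_right (by norm_num) (by (clear * - hM; positivity))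
      _ ≤ 8 / c * Z := mul_le_mul_of_nonneg_left this (by positivity)
  calc 2 / (M : ℝ) ^ q * P.w ω ≤ 8 / c * Z * P.w ω := mul_le_mul_of_nonneg_right h11 (P.nn ω)
    _ = 8 / c * P.w ω * Z := by ring

/-- domination of pairs of vertices -/
theorem ap_dom2 {P : Law Ω} {W : Ω → S} {U : Ω → ℤ} {M p : ℕ} (hM : 1 ≤ M) (hp : 1 ≤ p)
    (hU : ∀ ω, 0 < P.w ω → 0 ≤ U ω ∧ U ω < M) {Q : Law (Fin (p + 1) → Ω)} {Z c : ℝ}
    (hQ : ∀ w, Q.w w = apw P W U M p w / Z) (hZ : 0 < Z)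
    (hc : c / (M : ℝ) ^ (p - 1) ≤ Z) (hc0 : 0 < c) {i j : Fin (p + 1)} (hij : i ≠ j)
    (v : Fin 2 → Ω) :
    Q.pr (fun w => ![w i, w j]) v ≤ 4 / c * cw P W 1 v := by
  classical
  have hM0 : (0 : ℝ) < M := by exact_mod_cast hM
  by_cases hv : W (v 1) = W (v 0)
  · have hcw : cw P W 1 v = P.w (v 0) * P.w (v 1) / P.pr W (W (v 0)) := by
      unfold cw
      rw [if_pos (by
        intro k
        fin_cases k
        · rfl
        · exact hv)]
      rw [Fin.prod_univ_two, pow_one]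
    have h1 := clw_marg P W U hM hU {i, j} ⟨i, by simp⟩
      (fun k => if k = i then v 0 else v 1) (W (v 0)) (by
        intro k hk
        by_cases hki : k = i
        · simp [hki]
        · simp only [hki, ↓reduceIte, Fin.isValue, hv])
    have h2 : (((apC M p).filter fun c => ∀ k ∈ ({i, j} : Finset (Fin (p + 1))),
        c k = U (if k = i then v 0 else v 1)).card : ℝ) ≤ 1 := by
      have := apC_card_fix2 (M := M) hij (U (v 0)) (U (v 1))
      have h3 : ((apC M p).filter fun c => ∀ k ∈ ({i, j} : Finset (Fin (p + 1))),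
          c k = U (if k = i then v 0 else v 1)) =
          ((apC M p).filter fun c => c i = U (v 0) ∧ c j = U (v 1)) := by
        ext c
        simp only [mem_insert, mem_singleton, Fin.isValue, forall_eq_or_imp, ↓reduceIte, forall_eq, Ne.symm hij, mem_filter]
      rw [h3]
      exact_mod_cast this
    rw [Finset.prod_pair hij, if_pos rfl, if_neg (Ne.symm hij)] at h1
    have h3 : Q.pr (fun w => ![w i, w j]) v = (∑ w with
        (∀ k ∈ ({i, j} : Finset (Fin (p + 1))), w k = if k = i then v 0 else v 1),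
        apw P W U M p w) / Z := by
      unfold Law.pr
      rw [Finset.sum_div]
      refine Finset.sum_congr ?_ fun w _ => hQ w
      ext w
      simp only [mem_filter, mem_univ, true_and, mem_insert, mem_singleton, forall_eq_or_imp,
        forall_eq, if_true, if_neg (Ne.symm hij)]
      constructor
      · intro h
        exact ⟨by have := congrFun h 0; simpa using this,
          by have := congrFun h 1; simpa using this⟩
      · rintro ⟨h4, h5⟩
        funext k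
        fin_cases k
        · simpa using h4
        · simpa using h5
    rw [h3, div_le_iff₀ hZ, hcw]
    refine h1.trans ?_
    have g0 := gF_nonneg P W U M (v 0)
    have g1 := gF_nonneg P W U M (v 1)
    have g2 := gF_le_key P W U M (v 0)
    have g3 := gF_le_key P W U M (v 1)
    rw [hv] at g3
    have h6 := P.pr_nonneg W (W (v 0))
    set s := P.pr W (W (v 0)) with hs
    have h7 : s / (M : ℝ) ^ (p + 1) * ((((apC M p).filter fun c =>
        ∀ k ∈ ({i, j} : Finset (Fin (p + 1))), c k = U (if k = i then v 0 else v 1)).card : ℝ) *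
        (gF P W U M (v 0) * gF P W U M (v 1))) ≤
        s / (M : ℝ) ^ (p + 1) * (gF P W U M (v 0) * gF P W U M (v 1)) := by
      refine mul_le_mul_of_nonneg_left ?_ (div_nonneg h6 (by positivity))
      have := mul_le_mul_of_nonneg_right h2 (mul_nonneg g0 g1)
      simpa only [mem_insert, mem_singleton, Fin.isValue, forall_eq_or_imp, ↓reduceIte, forall_eq, ge_iff_le,     one_mul] using this
    refine h7.trans ?_
    rcases h6.eq_or_lt with h8 | h8
    · rw [← h8]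
      simp only [zero_div, Fin.isValue, zero_mul, div_zero, mul_zero, Std.le_refl]
    · obtain ⟨q, rfl⟩ : ∃ q, p = q + 1 := ⟨p - 1, by (clear * - hp; omega)⟩
      have h9 : s / (M : ℝ) ^ (q + 1 + 1) * (gF P W U M (v 0) * gF P W U M (v 1)) =
          ((s * gF P W U M (v 0)) * (s * gF P W U M (v 1))) / (s * (M : ℝ) ^ (q + 2)) := by
        (clear * - hM h8; field_simp)
      rw [h9]
      have h10 : (s * gF P W U M (v 0)) * (s * gF P W U M (v 1)) ≤
          (2 * M * P.w (v 0)) * (2 * M * P.w (v 1)) :=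
        mul_le_mul g2 g3 (mul_nonneg h8.le g1) (by have := P.nn (v 0); (clear * - hM this; positivity))
      have h11 : ((s * gF P W U M (v 0)) * (s * gF P W U M (v 1))) / (s * (M : ℝ) ^ (q + 2)) ≤
          ((2 * M * P.w (v 0)) * (2 * M * P.w (v 1))) / (s * (M : ℝ) ^ (q + 2)) :=
        div_le_div_of_nonneg_right h10 (by positivity)
      refine h11.trans ?_
      have h12 : ((2 * M * P.w (v 0)) * (2 * M * P.w (v 1))) / (s * (M : ℝ) ^ (q + 2)) =
          4 / (M : ℝ) ^ q * (P.w (v 0) * P.w (v 1) / s) := by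
        rw [pow_add]
        field_simp
        ring
      rw [h12]
      have h13 : 4 / (M : ℝ) ^ q ≤ 4 / c * Z := by
        have : c / (M : ℝ) ^ q ≤ Z := by simpa only [add_tsub_cancel_right] using hc
        calc 4 / (M : ℝ) ^ q = 4 / c * (c / (M : ℝ) ^ q) := by
              rw [div_mul_div_comm, mul_comm c, mul_div_mul_right _ _ hc0.ne']
          _ ≤ 4 / c * Z := mul_le_mul_of_nonneg_left this (by positivity)
      have h14 : 0 ≤ P.w (v 0) * P.w (v 1) / s :=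
        div_nonneg (mul_nonneg (P.nn _) (P.nn _)) h8.le
      calc 4 / (M : ℝ) ^ q * (P.w (v 0) * P.w (v 1) / s) ≤
            4 / c * Z * (P.w (v 0) * P.w (v 1) / s) := mul_le_mul_of_nonneg_right h13 h14
        _ = 4 / c * (P.w (v 0) * P.w (v 1) / s) * Z := by ring
  · have h3 : Q.pr (fun w => ![w i, w j]) v = 0 := by
      unfold Law.pr
      refine Finset.sum_eq_zero fun w hw => ?_
      have h4 : ![w i, w j] = v := by simpa only [Nat.succ_eq_add_one, Nat.reduceAdd, mem_filter, mem_univ, true_and] using hw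
      rw [hQ w]
      rcases (clw_nonneg P W U hM w).eq_or_lt with h5 | h5
      · rw [← h5, zero_div]
      · exfalso
        obtain ⟨g1, _, _⟩ := clw_pos hM h5
        apply hv
        have e0 : w i = v 0 := by have := congrFun h4 0; simpa using this
        have e1 : w j = v 1 := by have := congrFun h4 1; simpa using this
        rw [← e0, ← e1, g1 i, g1 j]
    rw [h3]
    have : 0 ≤ cw P W 1 v := by
      unfold cw
      split_ifs
      · exact div_nonneg (Finset.prod_nonneg fun _ _ => P.nn _)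
          (pow_nonneg (P.pr_nonneg _ _) _)
      · exact le_rfl
    (clear * - hc0 this; positivity)

end progressions

end Vale.Agent.P127.Stk
end

section

/-!
# P127 / Stk / CCost : the cost of the law of progressions (helper662)
-/

namespace Vale.Agent.P127.Stk

open Finset Vale.Agent.P127

section cost

variable {Ω : Type} [Fintype Ω] {S S' T T' U' V : Type*}

/-- the positional kernel sums to at most one -/
theorem ccost_sum_le (P : Law Ω) (W' : Ω → T') (U : Ω → ℤ) (s : T') (u : ℤ) :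
    open Classical in
    ∑ ω with U ω = u, (if W' ω = s then P.w ω / P.pr (fun ω => (U ω, W' ω)) (U ω, s) else 0) ≤
      1 := by
  classical
  rw [← Finset.sum_filter, Finset.filter_filter]
  have h1 : ∑ ω with U ω = u ∧ W' ω = s, P.w ω / P.pr (fun ω => (U ω, W' ω)) (U ω, s) =
      ∑ ω with U ω = u ∧ W' ω = s, P.w ω / P.pr (fun ω => (U ω, W' ω)) (u, s) := by
    refine Finset.sum_congr rfl fun ω hω => ?_
    have h2 : U ω = u ∧ W' ω = s := by simpa only [mem_filter, mem_univ, true_and] using hω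
    rw [h2.1]
  rw [h1, ← Finset.sum_div]
  have h3 : ∑ ω with U ω = u ∧ W' ω = s, P.w ω = P.pr (fun ω => (U ω, W' ω)) (u, s) := by
    unfold Law.pr
    refine Finset.sum_congr ?_ fun _ _ => rfl
    ext ω
    simp only [mem_filter, mem_univ, true_and, Prod.mk.injEq]
  rw [h3]
  exact div_self_le_one _

open Classical in
/-- reference kernel for the samples along a progression -/
noncomputable def apNu (P : Law Ω) (W' : Ω → T') (U : Ω → ℤ) (B : Ω → V) (M p : ℕ)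
    (τ : Fin (p + 1) → V) (s : T') : ℝ :=
  1 / (M : ℝ) ^ 2 * ∑ w : Fin (p + 1) → Ω,
    (if (fun j => U (w j)) ∈ apC M p ∧ (∀ j, W' (w j) = s) ∧ ∀ j, B (w j) = τ j then
      ∏ j, P.w (w j) / P.pr (fun ω => (U ω, W' ω)) (U (w j), s) else 0)

theorem apNu_nonneg (P : Law Ω) (W' : Ω → T') (U : Ω → ℤ) (B : Ω → V) (M p : ℕ)
    (τ : Fin (p + 1) → V) (s : T') : 0 ≤ apNu P W' U B M p τ s := by
  classical
  unfold apNu
  refine mul_nonneg (by positivity) (Finset.sum_nonneg fun w _ => ?_)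
  split_ifs
  · exact Finset.prod_nonneg fun j _ => div_nonneg (P.nn _) (P.pr_nonneg _ _)
  · exact le_rfl

theorem apNu_sum (P : Law Ω) (W' : Ω → T') (U : Ω → ℤ) (B : Ω → V) {M p : ℕ} (hM : 1 ≤ M)
    (hp : 1 ≤ p) (s : T') (F : Finset (Fin (p + 1) → V)) :
    ∑ τ ∈ F, apNu P W' U B M p τ s ≤ 1 := by
  classical
  have hM0 : (0 : ℝ) < M := by exact_mod_cast hM
  unfold apNu
  rw [← Finset.mul_sum, Finset.sum_comm]
  set f : Ω → ℝ := fun ω =>
    if W' ω = s then P.w ω / P.pr (fun ω => (U ω, W' ω)) (U ω, s) else 0 with hf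
  have hf0 : ∀ ω, 0 ≤ f ω := by
    intro ω
    simp only [hf]
    split_ifs
    · exact div_nonneg (P.nn _) (P.pr_nonneg _ _)
    · exact le_rfl
  have h1 : ∀ w : Fin (p + 1) → Ω, ∑ τ ∈ F,
      (if (fun j => U (w j)) ∈ apC M p ∧ (∀ j, W' (w j) = s) ∧ ∀ j, B (w j) = τ j then
      ∏ j, P.w (w j) / P.pr (fun ω => (U ω, W' ω)) (U (w j), s) else 0) ≤
      if (fun j => U (w j)) ∈ apC M p then ∏ j, f (w j) else 0 := by
    intro w
    by_cases h2 : (fun j => U (w j)) ∈ apC M p ∧ (∀ j, W' (w j) = s)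
    · rw [if_pos h2.1]
      have h3 : ∏ j, P.w (w j) / P.pr (fun ω => (U ω, W' ω)) (U (w j), s) = ∏ j, f (w j) :=
        Finset.prod_congr rfl fun j _ => by simp only [hf]; rw [if_pos (h2.2 j)]
      have h4 : ∀ τ : Fin (p + 1) → V,
          (if (fun j => U (w j)) ∈ apC M p ∧ (∀ j, W' (w j) = s) ∧ ∀ j, B (w j) = τ j then
          ∏ j, P.w (w j) / P.pr (fun ω => (U ω, W' ω)) (U (w j), s) else 0) =
          if (fun j => B (w j)) = τ then ∏ j, f (w j) else 0 := by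
        intro τ
        by_cases h5 : (fun j => B (w j)) = τ
        · rw [if_pos h5, if_pos ⟨h2.1, h2.2, fun j => congrFun h5 j⟩, h3]
        · rw [if_neg h5, if_neg fun h => h5 (funext h.2.2)]
      rw [Finset.sum_congr rfl fun τ _ => h4 τ, Finset.sum_ite_eq]
      have h6 : 0 ≤ ∏ j, f (w j) := Finset.prod_nonneg fun j _ => hf0 _
      split_ifs
      · exact le_rfl
      · exact h6
    · have h3 : ∑ τ ∈ F,
          (if (fun j => U (w j)) ∈ apC M p ∧ (∀ j, W' (w j) = s) ∧ ∀ j, B (w j) = τ j then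
          ∏ j, P.w (w j) / P.pr (fun ω => (U ω, W' ω)) (U (w j), s) else 0) = 0 :=
        Finset.sum_eq_zero fun τ _ => if_neg fun h => h2 ⟨h.1, h.2.1⟩
      rw [h3]
      split_ifs
      · exact Finset.prod_nonneg fun j _ => hf0 _
      · exact le_rfl
  have h2 : ∑ w : Fin (p + 1) → Ω, (if (fun j => U (w j)) ∈ apC M p then ∏ j, f (w j) else 0) ≤
      (M : ℝ) ^ 2 := by
    have hconf : ∑ w : Fin (p + 1) → Ω,
        (if (fun j => U (w j)) ∈ apC M p then ∏ j, f (w j) else 0) =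
        ∑ c ∈ apC M p, ∏ j, ∑ ω with U ω = c j, f ω := by
      refine Eq.trans ?_ ((sum_conf U (fun _ => f) (apC M p)).trans ?_)
      · refine Finset.sum_congr rfl fun w _ => ?_
        by_cases hw : (fun j => U (w j)) ∈ apC M p
        · simp only [if_pos hw]
        · simp only [if_neg hw]
      · refine Finset.sum_congr rfl fun c _ => Finset.prod_congr rfl fun j _ =>
          Finset.sum_congr ?_ fun _ _ => rfl
        ext ω
        simp only [mem_filter]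
    rw [hconf]
    have h3 : ∀ c ∈ apC M p, ∏ j, ∑ ω with U ω = c j, f ω ≤ 1 := by
      intro c _
      refine Finset.prod_le_one (fun j _ => Finset.sum_nonneg fun ω _ => hf0 _) fun j _ => ?_
      exact ccost_sum_le P W' U s (c j)
    refine (Finset.sum_le_sum h3).trans ?_
    rw [Finset.sum_const, nsmul_eq_mul, mul_one]
    exact_mod_cast apC_card hp
  calc 1 / (M : ℝ) ^ 2 * _ ≤ 1 / (M : ℝ) ^ 2 * (M : ℝ) ^ 2 :=
        mul_le_mul_of_nonneg_left ((Finset.sum_le_sum fun w _ => h1 w).trans h2) (by positivity)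
    _ = 1 := by
        field_simp

/-- lower bound for the reference kernel -/
theorem apNu_ge (P : Law Ω) (W' : Ω → T') (U : Ω → ℤ) (B : Ω → V) {M p : ℕ}
    (w0 : Fin (p + 1) → Ω) (hC : (fun j => U (w0 j)) ∈ apC M p)
    (hW : ∀ j, W' (w0 j) = W' (w0 0)) :
    1 / (M : ℝ) ^ 2 * ∏ j, (P.pr (fun ω => (B ω, U ω, W' ω)) (B (w0 j), U (w0 j), W' (w0 j)) /
      P.pr (fun ω => (U ω, W' ω)) (U (w0 j), W' (w0 j))) ≤
      apNu P W' U B M p (fun j => B (w0 j)) (W' (w0 0)) := by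
  classical
  unfold apNu
  refine mul_le_mul_of_nonneg_left ?_ (by (clear * -; positivity))
  set f : Fin (p + 1) → Ω → ℝ := fun j ω =>
    if B ω = B (w0 j) ∧ U ω = U (w0 j) ∧ W' ω = W' (w0 j) then
      P.w ω / P.pr (fun ω => (U ω, W' ω)) (U (w0 j), W' (w0 j)) else 0 with hf
  have h1 : ∀ j, ∑ ω, f j ω =
      P.pr (fun ω => (B ω, U ω, W' ω)) (B (w0 j), U (w0 j), W' (w0 j)) /
      P.pr (fun ω => (U ω, W' ω)) (U (w0 j), W' (w0 j)) := by
    intro j
    simp only [hf]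
    rw [← Finset.sum_filter, ← Finset.sum_div]
    congr 1
    unfold Law.pr
    refine Finset.sum_congr ?_ fun _ _ => rfl
    ext ω
    simp only [mem_filter, mem_univ, true_and, Prod.mk.injEq]
  rw [← Finset.prod_congr rfl fun j _ => h1 j, ← sum_prod_tuple f]
  refine Finset.sum_le_sum fun w _ => ?_
  by_cases h2 : ∀ j, B (w j) = B (w0 j) ∧ U (w j) = U (w0 j) ∧ W' (w j) = W' (w0 j)
  · have h3 : (fun j => U (w j)) = fun j => U (w0 j) := funext fun j => (h2 j).2.1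
    rw [if_pos ⟨by rw [h3]; exact hC, fun j => (h2 j).2.2.trans (hW j), fun j => (h2 j).1⟩]
    refine le_of_eq (Finset.prod_congr rfl fun j _ => ?_)
    simp only [hf]
    rw [if_pos (h2 j), (h2 j).2.1, hW j]
  · push_neg at h2
    obtain ⟨j, hj⟩ := h2
    have h3 : f j (w j) = 0 := by
      simp only [hf]
      exact if_neg fun h => hj h.1 h.2.1 h.2.2
    rw [Finset.prod_eq_zero (mem_univ j) h3]
    split_ifs
    · exact Finset.prod_nonneg fun j _ => div_nonneg (P.nn _) (P.pr_nonneg _ _)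
    · exact le_rfl

/-- upper bound for the probability of the data of a progression -/
theorem ap_pr_le {P : Law Ω} {W : Ω → S} {U : Ω → ℤ} {M p : ℕ} (hM : 1 ≤ M)
    {Q : Law (Fin (p + 1) → Ω)} {Z : ℝ}
    (hQ : ∀ w, Q.w w = apw P W U M p w / Z) (hZ : 0 < Z)
    (l : Ω → T) (W' : Ω → T') (B : Ω → V) (hW : Fn P W (fun ω => (l ω, W' ω)))
    (hW' : Fn P (fun ω => (l ω, W' ω)) W) (hUB : Fn P U B)
    (w0 : Fin (p + 1) → Ω) (h0 : 0 < Q.w w0) :
    Q.pr (fun w => ((fun j => B (w j)), l (w 0), W' (w 0)))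
        ((fun j => B (w0 j)), l (w0 0), W' (w0 0)) ≤
      1 / (Z * (M : ℝ) ^ (p + 1)) * (P.pr (fun ω => (l ω, W' ω)) (l (w0 0), W' (w0 0)) *
        ∏ j, (P.pr (fun ω => (l ω, B ω, U ω, W' ω)) (l (w0 j), B (w0 j), U (w0 j), W' (w0 j)) /
          P.pr (fun ω => (l ω, U ω, W' ω)) (l (w0 j), U (w0 j), W' (w0 j)))) := by
  classical
  have hM0 : (0 : ℝ) < M := by exact_mod_cast hM
  have h0' : 0 < apw P W U M p w0 := by
    rw [hQ] at h0
    exact (div_pos_iff_of_pos_right hZ).1 h0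
  obtain ⟨k1, _, k3⟩ := clw_pos hM h0'
  have hlW : ∀ j, (l (w0 j), W' (w0 j)) = (l (w0 0), W' (w0 0)) := fun j =>
    hW' (w0 j) (w0 0) (k3 j) (k3 0) (k1 j)
  simp only [Prod.mk.injEq] at hlW
  set f : Fin (p + 1) → Ω → ℝ := fun j ω =>
    if l ω = l (w0 j) ∧ B ω = B (w0 j) ∧ U ω = U (w0 j) ∧ W' ω = W' (w0 j) then
      P.w ω / P.pr (fun ω => (l ω, U ω, W' ω)) (l (w0 j), U (w0 j), W' (w0 j)) else 0 with hf
  have hf0 : ∀ j ω, 0 ≤ f j ω := by
    intro j ω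
    simp only [hf]
    split_ifs
    · exact div_nonneg (P.nn _) (P.pr_nonneg _ _)
    · exact le_rfl
  have h1 : ∀ j, ∑ ω, f j ω =
      P.pr (fun ω => (l ω, B ω, U ω, W' ω)) (l (w0 j), B (w0 j), U (w0 j), W' (w0 j)) /
          P.pr (fun ω => (l ω, U ω, W' ω)) (l (w0 j), U (w0 j), W' (w0 j)) := by
    intro j
    simp only [hf]
    rw [← Finset.sum_filter, ← Finset.sum_div]
    congr 1
    unfold Law.pr
    refine Finset.sum_congr ?_ fun _ _ => rfl
    ext ω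
    simp only [mem_filter, mem_univ, true_and, Prod.mk.injEq]
  rw [← Finset.prod_congr rfl fun j _ => h1 j, ← sum_prod_tuple f]
  set pk := P.pr (fun ω => (l ω, W' ω)) (l (w0 0), W' (w0 0)) with hpk
  have hpk0 : 0 ≤ pk := P.pr_nonneg _ _
  have hpr : Q.pr (fun w => ((fun j => B (w j)), l (w 0), W' (w 0)))
        ((fun j => B (w0 j)), l (w0 0), W' (w0 0)) = ∑ w : Fin (p + 1) → Ω,
      (if ((fun j => B (w j)), l (w 0), W' (w 0)) = ((fun j => B (w0 j)), l (w0 0), W' (w0 0))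
        then Q.w w else 0) := by
    unfold Law.pr
    rw [Finset.sum_filter]
    refine Finset.sum_congr rfl fun w _ => ?_
    split_ifs <;> rfl
  rw [hpr]
  have h2 : ∀ w : Fin (p + 1) → Ω,
      (if ((fun j => B (w j)), l (w 0), W' (w 0)) = ((fun j => B (w0 j)), l (w0 0), W' (w0 0))
        then Q.w w else 0) ≤ 1 / (Z * (M : ℝ) ^ (p + 1)) * (pk * ∏ j, f j (w j)) := by
    intro w
    have hr : 0 ≤ 1 / (Z * (M : ℝ) ^ (p + 1)) * (pk * ∏ j, f j (w j)) :=
      mul_nonneg (by positivity) (mul_nonneg hpk0 (Finset.prod_nonneg fun j _ => hf0 j _))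
    split_ifs with h3
    · rw [hQ w]
      rcases (clw_nonneg P W U hM w).eq_or_lt with h4 | h4
      · rw [← h4, zero_div]
        exact hr
      · obtain ⟨g1, g2, g3⟩ := clw_pos hM h4
        simp only [Prod.mk.injEq] at h3
        have e1 : ∀ j, B (w j) = B (w0 j) := fun j => congrFun h3.1 j
        have e2 : ∀ j, U (w j) = U (w0 j) := fun j => hUB _ _ (g3 j) (k3 j) (e1 j)
        have e3 : ∀ j, l (w j) = l (w0 j) ∧ W' (w j) = W' (w0 j) := by
          intro j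
          have := hW' (w j) (w 0) (g3 j) (g3 0) (g1 j)
          simp only [Prod.mk.injEq] at this
          exact ⟨this.1.trans (h3.2.1.trans (hlW j).1.symm),
            this.2.trans (h3.2.2.trans (hlW j).2.symm)⟩
        rw [clw_eq P W U hM w, if_pos ⟨g1, g2⟩]
        have e4 : P.pr W (W (w 0)) = pk := by
          have := claw_pr_congr P hW hW' (g3 0)
          rw [this, hpk, (e3 0).1, (e3 0).2]
        rw [e4]
        have e5 : ∏ j, gF P W U M (w j) ≤ ∏ j, f j (w j) := by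
          refine Finset.prod_le_prod (fun j _ => gF_nonneg _ _ _ _ _) fun j _ => ?_
          refine (gF_le P W U M (w j)).trans (le_of_eq ?_)
          simp only [hf]
          rw [if_pos ⟨(e3 j).1, e1 j, e2 j, (e3 j).2⟩]
          have e6 : P.pr (fun ω => (W ω, U ω)) (W (w j), U (w j)) =
              P.pr (fun ω => (l ω, U ω, W' ω)) (l (w j), U (w j), W' (w j)) := by
            refine claw_pr_congr P (X := fun ω => (W ω, U ω))
              (Y := fun ω => (l ω, U ω, W' ω)) ?_ ?_ (g3 j)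
            · intro ω ω' q1 q2 he
              simp only [Prod.mk.injEq] at he ⊢
              exact ⟨hW ω ω' q1 q2 (by simp only [Prod.mk.injEq]; exact ⟨he.1, he.2.2⟩), he.2.1⟩
            · intro ω ω' q1 q2 he
              simp only [Prod.mk.injEq] at he ⊢
              have := hW' ω ω' q1 q2 he.1
              simp only [Prod.mk.injEq] at this
              exact ⟨this.1, he.2, this.2⟩
          rw [e6, (e3 j).1, e2 j, (e3 j).2]
        calc (pk / (M : ℝ) ^ (p + 1) * ∏ j, gF P W U M (w j)) / Z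
            = 1 / (Z * (M : ℝ) ^ (p + 1)) * (pk * ∏ j, gF P W U M (w j)) := by
              (clear * - hZ hM; field_simp)
          _ ≤ 1 / (Z * (M : ℝ) ^ (p + 1)) * (pk * ∏ j, f j (w j)) :=
              mul_le_mul_of_nonneg_left (mul_le_mul_of_nonneg_left e5 hpk0) (by positivity)
    · exact hr
  refine (Finset.sum_le_sum fun w _ => h2 w).trans (le_of_eq ?_)
  rw [← Finset.mul_sum, ← Finset.mul_sum]

/-- cost of a progression law, conditional version -/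
theorem ap_cost_core {P : Law Ω} {W : Ω → S} {U : Ω → ℤ} {M p : ℕ} (hM : 1 ≤ M) (hp : 1 ≤ p)
    (hU : ∀ ω, 0 < P.w ω → 0 ≤ U ω ∧ U ω < M) {Q : Law (Fin (p + 1) → Ω)} {Z c : ℝ}
    (hQ : ∀ w, Q.w w = apw P W U M p w / Z) (hZ : 0 < Z)
    (hcZ : c / (M : ℝ) ^ (p - 1) ≤ Z) (hc0 : 0 < c)
    (l : Ω → T) (W' : Ω → T') (B : Ω → V) (hW : Fn P W (fun ω => (l ω, W' ω)))
    (hW' : Fn P (fun ω => (l ω, W' ω)) W) (hUB : Fn P U B) :
    mi Q (fun w => l (w 0)) (fun w j => B (w j)) (fun w => W' (w 0)) ≤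
      Real.log (1 / c) + (p + 1) * (8 / c * (mi P l B (fun ω => (U ω, W' ω)) + 1)) := by
  classical
  have hM0 : (0 : ℝ) < M := by exact_mod_cast hM
  set Tw : (Fin (p + 1) → Ω) → (Fin (p + 1) → V) := fun w j => B (w j) with hTw
  set l0 : (Fin (p + 1) → Ω) → T := fun w => l (w 0) with hl0
  set W0 : (Fin (p + 1) → Ω) → T' := fun w => W' (w 0) with hW0
  -- support
  have hsup : ∀ w, 0 < Q.w w → (∀ j, W (w j) = W (w 0)) ∧
      (∃ μ : ℤ, ∀ j : Fin (p + 1), U (w j) = U (w 0) + (j : ℕ) * μ) ∧ ∀ j, 0 < P.w (w j) := by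
    intro w hw
    rw [hQ] at hw
    exact clw_pos hM ((div_pos_iff_of_pos_right hZ).1 hw)
  have hlW : ∀ w, 0 < Q.w w → ∀ j, l (w j) = l (w 0) ∧ W' (w j) = W' (w 0) := by
    intro w hw j
    obtain ⟨k1, _, k3⟩ := hsup w hw
    have := hW' (w j) (w 0) (k3 j) (k3 0) (k1 j)
    simpa only [Prod.mk.injEq] using this
  -- the four probabilities
  set b : Ω → ℝ := fun ω => P.pr (fun ω => (B ω, U ω, W' ω)) (B ω, U ω, W' ω) with hb
  set a : Ω → ℝ := fun ω => P.pr (fun ω => (U ω, W' ω)) (U ω, W' ω) with ha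
  set d : Ω → ℝ := fun ω => P.pr (fun ω => (l ω, B ω, U ω, W' ω)) (l ω, B ω, U ω, W' ω) with hd
  set e : Ω → ℝ := fun ω => P.pr (fun ω => (l ω, U ω, W' ω)) (l ω, U ω, W' ω) with he
  have hb0 : ∀ {ω}, 0 < P.w ω → 0 < b ω := fun h => P.pr_pos (fun ω => (B ω, U ω, W' ω)) h
  have ha0 : ∀ {ω}, 0 < P.w ω → 0 < a ω := fun h => P.pr_pos (fun ω => (U ω, W' ω)) h
  have hd0 : ∀ {ω}, 0 < P.w ω → 0 < d ω :=
    fun h => P.pr_pos (fun ω => (l ω, B ω, U ω, W' ω)) h
  have he0 : ∀ {ω}, 0 < P.w ω → 0 < e ω := fun h => P.pr_pos (fun ω => (l ω, U ω, W' ω)) h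
  have hdens : ∀ ω, dens P l B (fun ω => (U ω, W' ω)) ω =
      Real.log (d ω) + Real.log (a ω) - Real.log (e ω) - Real.log (b ω) := fun ω => rfl
  -- first entropy
  have s1 : hc Q Tw W0 ≤ Q.ex (fun w => - Real.log (apNu P W' U B M p (Tw w) (W0 w))) := by
    refine Q.gibbs_cond Tw W0 (fun τ s => apNu P W' U B M p τ s)
      (fun τ s => apNu_nonneg P W' U B M p τ s)
      (fun s F => apNu_sum P W' U B hM hp s F) ?_
    intro w hw
    obtain ⟨k1, k2, k3⟩ := hsup w hw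
    refine lt_of_lt_of_le ?_ (apNu_ge P W' U B w
      (mem_apC.2 ⟨fun j => hU _ (k3 j), k2⟩) (fun j => (hlW w hw j).2))
    refine mul_pos (by positivity) (Finset.prod_pos fun j _ => ?_)
    exact div_pos (hb0 (k3 j)) (ha0 (k3 j))
  have s2 : Q.ex (fun w => - Real.log (apNu P W' U B M p (Tw w) (W0 w))) ≤
      Q.ex (fun w => Real.log ((M : ℝ) ^ 2) -
        ∑ j, (Real.log (b (w j)) - Real.log (a (w j)))) := by
    refine Q.ex_mono fun w hw => ?_
    obtain ⟨k1, k2, k3⟩ := hsup w hw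
    have g1 := apNu_ge P W' U B w
      (mem_apC.2 ⟨fun j => hU _ (k3 j), k2⟩) (fun j => (hlW w hw j).2)
    have g2 : 0 < ∏ j, (b (w j) / a (w j)) :=
      Finset.prod_pos fun j _ => div_pos (hb0 (k3 j)) (ha0 (k3 j))
    have g3 : 0 < 1 / (M : ℝ) ^ 2 * ∏ j, (b (w j) / a (w j)) := by (clear * - hM g2; positivity)
    have g4 := Real.log_le_log g3 g1
    rw [Real.log_mul (by positivity) g2.ne', one_div, Real.log_inv,
      Real.log_prod (s := univ) (fun j _ => (div_pos (hb0 (k3 j)) (ha0 (k3 j))).ne'),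
      Finset.sum_congr rfl fun j _ => Real.log_div (hb0 (k3 j)).ne' (ha0 (k3 j)).ne'] at g4
    show - Real.log (apNu P W' U B M p (fun j => B (w j)) (W' (w 0))) ≤ _
    linarith only [g4]
  -- joint entropy
  have s3 : Q.ex (fun w => Real.log (Z * (M : ℝ) ^ (p + 1)) -
        Real.log (P.pr (fun ω => (l ω, W' ω)) (l0 w, W0 w)) -
        ∑ j, (Real.log (d (w j)) - Real.log (e (w j)))) ≤
      Q.H (fun w => (Tw w, l0 w, W0 w)) := by
    unfold Law.H
    refine Q.ex_mono fun w hw => ?_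
    obtain ⟨k1, k2, k3⟩ := hsup w hw
    have g1 := ap_pr_le hM hQ hZ l W' B hW hW' hUB w hw
    have g0 : 0 < Q.pr (fun w => (Tw w, l0 w, W0 w)) (Tw w, l0 w, W0 w) :=
      Q.pr_pos (fun w => (Tw w, l0 w, W0 w)) hw
    have g2 : 0 < ∏ j, (d (w j) / e (w j)) :=
      Finset.prod_pos fun j _ => div_pos (hd0 (k3 j)) (he0 (k3 j))
    have g3 : 0 < P.pr (fun ω => (l ω, W' ω)) (l0 w, W0 w) :=
      P.pr_pos (fun ω => (l ω, W' ω)) (k3 0)
    have g4 := Real.log_le_log g0 g1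
    have g5 : Real.log (1 / (Z * (M : ℝ) ^ (p + 1)) *
        (P.pr (fun ω => (l ω, W' ω)) (l0 w, W0 w) * ∏ j, (d (w j) / e (w j)))) =
        - Real.log (Z * (M : ℝ) ^ (p + 1)) +
        (Real.log (P.pr (fun ω => (l ω, W' ω)) (l0 w, W0 w)) +
        ∑ j, (Real.log (d (w j)) - Real.log (e (w j)))) := by
      rw [Real.log_mul (by positivity) (by (clear * - g3 g2; positivity)), one_div, Real.log_inv,
        Real.log_mul g3.ne' g2.ne',
        Real.log_prod (s := univ) (fun j _ => (div_pos (hd0 (k3 j)) (he0 (k3 j))).ne'),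
        Finset.sum_congr rfl fun j _ => Real.log_div (hd0 (k3 j)).ne' (he0 (k3 j)).ne']
    have g6 := g4.trans_eq g5
    linarith only [g4, g5]
  -- entropy of the line
  have s4 : Q.H (fun w => (l0 w, W0 w)) ≤
      Q.ex (fun w => - Real.log (P.pr (fun ω => (l ω, W' ω)) (l0 w, W0 w))) := by
    refine Q.gibbs (fun w => (l0 w, W0 w)) (fun x => P.pr (fun ω => (l ω, W' ω)) x)
      (fun x => P.pr_nonneg _ x) ?_ ?_
    · have h1 : img (fun w : Fin (p + 1) → Ω => (l0 w, W0 w)) ⊆ img (fun ω => (l ω, W' ω)) := by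
        intro x hx
        rw [mem_img] at hx ⊢
        obtain ⟨w, rfl⟩ := hx
        exact ⟨w 0, rfl⟩
      refine (Finset.sum_le_sum_of_subset_of_nonneg h1 fun x _ _ => P.pr_nonneg _ x).trans ?_
      exact (P.sum_pr_image _).le
    · intro w hw
      exact P.pr_pos (fun ω => (l ω, W' ω)) ((hsup w hw).2.2 0)
  -- the densities
  have s5 : Q.ex (fun w => Real.log ((M : ℝ) ^ 2) -
        ∑ j, (Real.log (b (w j)) - Real.log (a (w j)))) -
      Q.ex (fun w => Real.log (Z * (M : ℝ) ^ (p + 1)) -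
        Real.log (P.pr (fun ω => (l ω, W' ω)) (l0 w, W0 w)) -
        ∑ j, (Real.log (d (w j)) - Real.log (e (w j)))) +
      Q.ex (fun w => - Real.log (P.pr (fun ω => (l ω, W' ω)) (l0 w, W0 w))) =
      Q.ex (fun w => (Real.log ((M : ℝ) ^ 2) - Real.log (Z * (M : ℝ) ^ (p + 1))) +
        ∑ j, dens P l B (fun ω => (U ω, W' ω)) (w j)) := by
    rw [← Q.ex_sub, ← Q.ex_add]
    refine Q.ex_congr fun w _ => ?_
    have : ∑ j, dens P l B (fun ω => (U ω, W' ω)) (w j) =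
        ∑ j, (Real.log (d (w j)) - Real.log (e (w j))) -
          ∑ j, (Real.log (b (w j)) - Real.log (a (w j))) := by
      rw [← Finset.sum_sub_distrib]
      refine Finset.sum_congr rfl fun j _ => ?_
      rw [hdens]
      ring
    rw [this]
    ring
  have s6 : Q.ex (fun w => (Real.log ((M : ℝ) ^ 2) - Real.log (Z * (M : ℝ) ^ (p + 1))) +
        ∑ j, dens P l B (fun ω => (U ω, W' ω)) (w j)) =
      (Real.log ((M : ℝ) ^ 2) - Real.log (Z * (M : ℝ) ^ (p + 1))) +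
        ∑ j : Fin (p + 1), Q.ex (fun w => dens P l B (fun ω => (U ω, W' ω)) (w j)) := by
    rw [Q.ex_add, Q.ex_const]
    congr 1
    unfold Law.ex
    rw [Finset.sum_comm]
    refine Finset.sum_congr rfl fun w _ => ?_
    rw [Finset.mul_sum]
  have s7 : ∑ j : Fin (p + 1), Q.ex (fun w => dens P l B (fun ω => (U ω, W' ω)) (w j)) ≤
      (p + 1) * (8 / c * (mi P l B (fun ω => (U ω, W' ω)) + 1)) := by
    have h1 : ∀ j ∈ (univ : Finset (Fin (p + 1))),
        Q.ex (fun w => dens P l B (fun ω => (U ω, W' ω)) (w j)) ≤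
        8 / c * (mi P l B (fun ω => (U ω, W' ω)) + 1) := fun j _ =>
      dens_dom (ap_dom1 hM hp hU hQ hZ hcZ hc0 j) l B (fun ω => (U ω, W' ω))
    refine (Finset.sum_le_sum h1).trans (le_of_eq ?_)
    rw [Finset.sum_const, Finset.card_univ, Fintype.card_fin, nsmul_eq_mul]
    push_cast
    ring
  have s8 : Real.log ((M : ℝ) ^ 2) - Real.log (Z * (M : ℝ) ^ (p + 1)) ≤ Real.log (1 / c) := by
    rw [← Real.log_div (by positivity) (by positivity)]
    refine Real.log_le_log (by positivity) ?_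
    obtain ⟨q, rfl⟩ : ∃ q, p = q + 1 := ⟨p - 1, by (clear * - hp; omega)⟩
    have h1 : c / (M : ℝ) ^ q ≤ Z := by simpa only [add_tsub_cancel_right] using hcZ
    rw [div_le_iff₀ (by positivity)] at h1
    rw [div_le_div_iff₀ (by positivity) hc0]
    have h2 : Z * (M : ℝ) ^ (q + 1 + 1) = (M : ℝ) ^ 2 * (Z * (M : ℝ) ^ q) := by ring
    rw [one_mul, h2]
    exact mul_le_mul_of_nonneg_left h1 (by positivity)
  have s9 : mi Q l0 Tw W0 = hc Q Tw W0 - hc Q Tw (fun w => (l0 w, W0 w)) := by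
    rw [mi_symm]
    rfl
  have s10 : hc Q Tw (fun w => (l0 w, W0 w)) =
      Q.H (fun w => (Tw w, l0 w, W0 w)) - Q.H (fun w => (l0 w, W0 w)) := rfl
  rw [s9, s10]
  linarith only [s1, s2, s3, s4, s5, s6, s7, s8]

/-- cost of a progression law -/
theorem ap_cost {P : Law Ω} {W : Ω → S} {U : Ω → ℤ} {M p : ℕ} (hM : 1 ≤ M) (hp : 1 ≤ p)
    (hU : ∀ ω, 0 < P.w ω → 0 ≤ U ω ∧ U ω < M) {Q : Law (Fin (p + 1) → Ω)} {Z c : ℝ}
    (hQ : ∀ w, Q.w w = apw P W U M p w / Z) (hZ : 0 < Z)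
    (hcZ : c / (M : ℝ) ^ (p - 1) ≤ Z) (hc0 : 0 < c)
    (l : Ω → T) (A : Ω → T') (B : Ω → V) (I : Ω → S') (hI : Fn P I B) (hUB : Fn P U B)
    (hW : Fn P W (fun ω => (l ω, A ω, I ω)))
    (hW' : Fn P (fun ω => (l ω, A ω, I ω)) W) :
    mi Q (fun w => l (w 0)) (fun w j => B (w j)) (fun w => A (w 0)) ≤
      Real.log (1 / c) + (p + 2) * (8 / c * (mi P l B A + 1)) := by
  have hsup : ∀ w, 0 < Q.w w → (∀ j, W (w j) = W (w 0)) ∧
      (∃ μ : ℤ, ∀ j : Fin (p + 1), U (w j) = U (w 0) + (j : ℕ) * μ) ∧ ∀ j, 0 < P.w (w j) := by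
    intro w hw
    rw [hQ] at hw
    exact clw_pos hM ((div_pos_iff_of_pos_right hZ).1 hw)
  have hdom := ap_dom1 hM hp hU hQ hZ hcZ hc0 (0 : Fin (p + 1))
  have h1 : mi Q (fun w => l (w 0)) (fun w j => B (w j)) (fun w => A (w 0)) ≤
      mi Q (fun w => l (w 0)) (fun w => (I (w 0), fun j => B (w j))) (fun w => A (w 0)) := by
    refine mi_mono_right Q (fun w => l (w 0)) ?_
    intro w w' _ _ he
    simp only [Prod.mk.injEq] at he
    exact he.1.2
  have h2 := mi_pair Q (fun w => l (w 0)) (fun w => I (w 0)) (fun w j => B (w j))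
    (fun w => A (w 0))
  have h3 := hdom.mi_le l I A
  have h3' : mi Q (fun w => l (w 0)) (fun w => I (w 0)) (fun w => A (w 0)) ≤
      8 / c * (mi P l I A + Real.log 2) := h3
  have h4 := ap_cost_core hM hp hU hQ hZ hcZ hc0 l (fun ω => (I ω, A ω)) B (by
    intro ω ω' q1 q2 he
    simp only [Prod.mk.injEq] at he
    exact hW ω ω' q1 q2 (by simp only [Prod.mk.injEq]; exact ⟨he.1, he.2.2, he.2.1⟩)) (by
    intro ω ω' q1 q2 he
    have := hW' ω ω' q1 q2 he
    simp only [Prod.mk.injEq] at this ⊢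
    exact ⟨this.1, this.2.2, this.2.1⟩) hUB
  have h5 : mi P l I A ≤ mi P l B A := by
    refine mi_mono_right P l ?_
    intro ω ω' q1 q2 he
    simp only [Prod.mk.injEq] at he
    exact hI ω ω' q1 q2 he.1
  have h6 : mi P l B (fun ω => (U ω, I ω, A ω)) ≤ mi P l B A := by
    have e1 : mi P l B (fun ω => (U ω, I ω, A ω)) =
        mi P B l (fun ω => ((U ω, I ω), A ω)) := by
      rw [mi_symm]
      refine mi_congr_cond P B l ?_ ?_
      · intro ω ω' _ _ he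
        simp only [Prod.mk.injEq] at he ⊢
        exact ⟨he.1.1, he.1.2, he.2⟩
      · intro ω ω' _ _ he
        simp only [Prod.mk.injEq] at he ⊢
        exact ⟨⟨he.1, he.2.1⟩, he.2.2⟩
    rw [e1, mi_symm P l B A]
    refine mi_cond_le P (X := B) l (W := fun ω => (U ω, I ω)) A ?_
    intro ω ω' q1 q2 he
    simp only [Prod.mk.injEq] at he ⊢
    exact ⟨hUB ω ω' q1 q2 he.1, hI ω ω' q1 q2 he.1⟩
  have hK : 0 < 8 / c := by positivity
  have h7 : Real.log 2 ≤ 1 := by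
    have := Real.log_two_lt_d9
    linarith only [this]
  have h8 : 8 / c * (mi P l I A + Real.log 2) ≤ 8 / c * (mi P l B A + 1) :=
    mul_le_mul_of_nonneg_left (by linarith only [h5, h7]) hK.le
  have h9 : (p + 1 : ℝ) * (8 / c * (mi P l B (fun ω => (U ω, I ω, A ω)) + 1)) ≤
      (p + 1) * (8 / c * (mi P l B A + 1)) := by
    refine mul_le_mul_of_nonneg_left (mul_le_mul_of_nonneg_left (by linarith only [h6]) hK.le) ?_
    positivity
  have h10 : mi Q (fun w => l (w 0)) (fun w j => B (w j)) (fun w => (I (w 0), A (w 0))) ≤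
      Real.log (1 / c) + (p + 1) * (8 / c * (mi P l B (fun ω => (U ω, I ω, A ω)) + 1)) := h4
  linarith only [h1, h2, h3', h4, h8, h9]

end cost

end Vale.Agent.P127.Stk
end
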