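import Vale.Agent.P127.Bdl.B1
import Vale.Agent.P127.Bdl.B2
attribute [-instance] ProperSMul.toContinuousSMul IsTopologicalTorsor.toContinuousSMul IdemSemiring.toCanonicallyOrderedAdd IdemSemiring.toMulLeftMono IdemSemiring.toMulRightMono AddQuantale.instAddLeftMono AddQuantale.instAddRightMono Quantale.instMulLeftMono Quantale.instMulRightMono FiniteDimensional.rclike_to_real IsScalarTower.complexToReal FiniteDimensional.complexToReal

set_option linter.all false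

section

/-!
# P127 / Stk / StepR : rare events and straight displacement
-/

namespace Vale.Agent.P127.Stk.R

open Finset Vale.Agent.P127

theorem rare_aux {Ω : Type} [Fintype Ω] (Q : Law Ω) (E : Ω → Prop) (h : prE Q E = 0) {ω : Ω}
    (hω : E ω) : Q.w ω = 0 := by
  classical
  exact (Finset.sum_eq_zero_iff_of_nonneg fun ω _ => Q.nn ω).1 h ω
    (Finset.mem_filter.2 ⟨Finset.mem_univ _, hω⟩)

/-- an event on which `X` takes few values given `Y` is rare when `hc Q X Y` is almost maximal -/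
theorem rare {Ω : Type} [Fintype Ω] {S T : Type*} (Q : Law Ω) (E : Ω → Prop) (X : Ω → S)
    (Y : Ω → T) (N : ℕ) (R0 : ℝ) (hN : 1 ≤ N)
    (h1 : ∀ ω, 0 < Q.w ω → E ω → ∃ F : Finset S, F.card ≤ N ∧
      ∀ ω', 0 < Q.w ω' → E ω' → Y ω' = Y ω → X ω' ∈ F)
    (h2 : ∀ R : Law Ω, (∀ ω, Q.w ω = 0 → R.w ω = 0) → hc R X Y ≤ R0) :
    prE Q E * (R0 - Real.log N) ≤ R0 - hc Q X Y + Real.log 2 := by
  have hl2 : 0 ≤ Real.log 2 := Real.log_nonneg (by norm_num)
  have hQ := h2 Q fun _ h => h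
  have hp0 := prE_nonneg Q E
  have hp1 := prE_le_one Q E
  rcases hp0.eq_or_lt with h0 | h0
  · rw [← h0, zero_mul]
    linarith only [hl2, hQ]
  have hon : hc (on Q E) X Y ≤ Real.log N := by
    refine hc_le_log (on Q E) X Y N fun ω hω => ?_
    obtain ⟨g1, g2⟩ := on_pos h0 hω
    obtain ⟨F, hF1, hF2⟩ := h1 ω g2 g1
    refine ⟨F, hF1, fun ω' hω' hY => ?_⟩
    obtain ⟨g3, g4⟩ := on_pos h0 hω'
    exact hF2 ω' g4 g3 hY
  rcases hp1.eq_or_lt with h3 | h3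
  · have h4 : on Q E = Q := by
      refine law_ext fun ω => ?_
      rw [on_w h0, h3, div_one]
      split_ifs with hE
      · rfl
      · have h5 : prE Q (fun ω => ¬ E ω) = 0 := by rw [prE_not, h3, sub_self]
        exact (rare_aux Q (fun ω => ¬ E ω) h5 hE).symm
    rw [h4] at hon
    rw [h3, one_mul]
    linarith only [hl2, hon]
  · have h4 := hc_le_on Q E h0 h3 X Y
    have h5 : hc (on Q fun ω => ¬ E ω) X Y ≤ R0 := by
      refine h2 _ fun ω hω => ?_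
      rw [on_w (by rw [prE_not]; linarith only [h3]), hω, zero_div, ite_self]
    have h6 : prE Q E * hc (on Q E) X Y ≤ prE Q E * Real.log N :=
      mul_le_mul_of_nonneg_left hon h0.le
    have h7 : (1 - prE Q E) * hc (on Q fun ω => ¬ E ω) X Y ≤ (1 - prE Q E) * R0 :=
      mul_le_mul_of_nonneg_left h5 (by linarith only [h3])
    linarith only [h4, h6, h7]

/-- lower bound for an entropy under conditioning on an event -/
theorem le_hc_on {Ω : Type} [Fintype Ω] {S T : Type*} (Q : Law Ω) (E : Ω → Prop) (p : ℝ)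
    (hp : 0 < p) (hE : p ≤ prE Q E) (X : Ω → S) (Y : Ω → T) (R0 : ℝ)
    (h2 : ∀ R : Law Ω, (∀ ω, Q.w ω = 0 → R.w ω = 0) → hc R X Y ≤ R0) :
    R0 - 2 / p * (R0 - hc Q X Y + Real.log 2) ≤ hc (on Q E) X Y := by
  have hl2 : 0 ≤ Real.log 2 := Real.log_nonneg (by norm_num)
  have hQ := h2 Q fun _ h => h
  have h0 : 0 < prE Q E := hp.trans_le hE
  have hp1 := prE_le_one Q E
  have hx : 0 ≤ R0 - hc Q X Y + Real.log 2 := by linarith only [hl2, hQ]
  have h1p : 1 ≤ 1 / p := by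
    rw [le_div_iff₀ hp]
    linarith only [hE, hp1]
  have e1 : 2 / p * (R0 - hc Q X Y + Real.log 2) =
      1 / p * (R0 - hc Q X Y + Real.log 2) + 1 / p * (R0 - hc Q X Y + Real.log 2) := by ring
  have e2 : 0 ≤ 1 / p * (R0 - hc Q X Y + Real.log 2) := by (clear * - hp hQ; positivity)
  rcases hp1.eq_or_lt with h3 | h3
  · have h4 : on Q E = Q := by
      refine law_ext fun ω => ?_
      rw [on_w h0, h3, div_one]
      split_ifs with hE
      · rfl
      · have h5 : prE Q (fun ω => ¬ E ω) = 0 := by rw [prE_not, h3, sub_self]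
        exact (rare_aux Q (fun ω => ¬ E ω) h5 hE).symm
    have e3 : 1 * (R0 - hc Q X Y + Real.log 2) ≤ 1 / p * (R0 - hc Q X Y + Real.log 2) :=
      mul_le_mul_of_nonneg_right h1p hx
    rw [h4, e1]
    linarith
  · have h4 := hc_le_on Q E h0 h3 X Y
    have h5 : hc (on Q fun ω => ¬ E ω) X Y ≤ R0 := by
      refine h2 _ fun ω hω => ?_
      rw [on_w (by rw [prE_not]; linarith only [h3]), hω, zero_div, ite_self]
    have h7 : (1 - prE Q E) * hc (on Q fun ω => ¬ E ω) X Y ≤ (1 - prE Q E) * R0 :=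
      mul_le_mul_of_nonneg_left h5 (by linarith only [h3])
    have h8 : prE Q E * (R0 - hc (on Q E) X Y) ≤ R0 - hc Q X Y + Real.log 2 := by linarith only [h4, h7]
    have h9 : R0 - hc (on Q E) X Y ≤ 1 / p * (R0 - hc Q X Y + Real.log 2) := by
      rw [one_div, inv_mul_eq_div, le_div_iff₀ hp]
      rcases le_total 0 (R0 - hc (on Q E) X Y) with h10 | h10
      · have := mul_le_mul_of_nonneg_right hE h10
        linarith only [h4, h7, this]
      · have := mul_nonneg_of_nonpos_of_nonpos h10 (neg_nonpos.2 hp.le)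
        linarith only [hl2, hQ, this]
    rw [e1]
    (clear * - e2 h9; linarith)


/-- digits recover the number up to one unit -/
theorem so_dig_aux (s : ℕ) (x : ℝ) : |x - (1 / 2 : ℝ) ^ s * (⌊(2 : ℝ) ^ s * x⌋ : ℤ)| ≤
    (1 / 2 : ℝ) ^ s := by
  have h2 : (0 : ℝ) < (1 / 2 : ℝ) ^ s := by (clear * -; positivity)
  have h3 : (1 / 2 : ℝ) ^ s * (2 : ℝ) ^ s = 1 := by
    rw [← mul_pow]
    norm_num
  have h4 := Int.floor_le ((2 : ℝ) ^ s * x)
  have h5 := (Int.lt_floor_add_one ((2 : ℝ) ^ s * x)).le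
  have h6 : x - (1 / 2 : ℝ) ^ s * (⌊(2 : ℝ) ^ s * x⌋ : ℤ) =
      (1 / 2 : ℝ) ^ s * ((2 : ℝ) ^ s * x - (⌊(2 : ℝ) ^ s * x⌋ : ℤ)) := by
    rw [mul_sub, ← mul_assoc, h3, one_mul]
  rw [h6, abs_mul, abs_of_pos h2]
  have h7 : |(2 : ℝ) ^ s * x - (⌊(2 : ℝ) ^ s * x⌋ : ℤ)| ≤ 1 := by
    rw [abs_le]
    constructor <;> linarith only [h4, h5]
  calc (1 / 2 : ℝ) ^ s * |(2 : ℝ) ^ s * x - (⌊(2 : ℝ) ^ s * x⌋ : ℤ)| ≤ (1 / 2 : ℝ) ^ s * 1 :=
        mul_le_mul_of_nonneg_left h7 h2.le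
    _ = _ := mul_one _

/-- if the vector `V` is within `N 2^{-s}` of a function `u` of `Z`, its digits are cheap given
`Z` -/
theorem so_cheap_aux {Ω : Type} [Fintype Ω] {ι : Type} [Fintype ι] {T : Type*} (P : Law Ω)
    {s : ℕ} (N : ℕ) (V u : Ω → ι → ℝ) (Z : Ω → T) (hu : Fn P u Z)
    (h : ∀ ω, 0 < P.w ω → ∀ i, |V ω i - u ω i| ≤ N * (1 / 2 : ℝ) ^ s) :
    hc P (fun ω => fl s (V ω)) Z ≤ Fintype.card ι * Real.log (2 * N + 3) := by
  refine le_trans (hc_mono_right P (fun ω => fl s (V ω)) (Y := fun ω => (fl s (u ω), Z ω)) ?_)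
    (hc_fl_close P N V u Z h)
  intro ω ω' h1 h2 he
  simp only [Prod.mk.injEq]
  exact ⟨by rw [hu ω ω' h1 h2 he], he⟩

/-- straight displacement -/
theorem straight (m C0 : ℕ) : ∃ K : ℝ, ∀ {Ω : Type} [Fintype Ω] {τ : Type} (Q : Law Ω)
    (S : Ω → τ) (X X' w v : Ω → Fin m → ℝ) (μ : Ω → ℝ) (r s : ℕ) (i0 : Fin m),
    r ≤ s → Fn Q w S → Fn Q v S →
    (∀ ω, 0 < Q.w ω → v ω i0 = 1) → (∀ ω, 0 < Q.w ω → ∀ i, |v ω i| ≤ 1) →
    (∀ ω, 0 < Q.w ω → ∀ i, |X' ω i - (X ω i + w ω i + μ ω * v ω i)| ≤ C0 * (1 / 2 : ℝ) ^ s) →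
    (∀ ω, 0 < Q.w ω → |μ ω| ≤ C0 * (1 / 2 : ℝ) ^ r) →
    hc Q (fun ω => fl s (fun i => X ω i - X ω i0 * v ω i)) (fun ω => (fl r (X ω), S ω)) +
        hc Q (fun ω => fl s (X' ω)) (fun ω => (fl s (X ω), S ω)) ≤
      hc Q (fun ω => fl s (X' ω)) (fun ω => (fl r (X' ω), S ω)) + K := by
  refine ⟨(m : ℝ) * Real.log (2 * ((2 * (C0 + 1) : ℕ) : ℝ) + 3) +
    2 * ((m : ℝ) * Real.log (2 * ((2 * C0 + 1 : ℕ) : ℝ) + 3)) +
    (m : ℝ) * Real.log (2 * ((2 : ℕ) : ℝ) + 3), ?_⟩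
  intro Ω _ τ Q S X X' w v μ r s i0 hrs hw hv hv1 hvb hX hμ
  -- the cheap variables
  have hP1 : hc Q (fun ω => fl s (fun i => X ω i - X ω i0 * v ω i))
      (fun ω => (fl s (X' ω), S ω)) ≤
      (m : ℝ) * Real.log (2 * ((2 * (C0 + 1) : ℕ) : ℝ) + 3) := by
    have := so_cheap_aux Q (s := s) (2 * (C0 + 1))
      (fun ω i => X ω i - X ω i0 * v ω i)
      (fun ω i => ((1 / 2 : ℝ) ^ s * (fl s (X' ω) i : ℤ) - w ω i) -
        ((1 / 2 : ℝ) ^ s * (fl s (X' ω) i0 : ℤ) - w ω i0) * v ω i)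
      (fun ω => (fl s (X' ω), S ω)) ?_ ?_
    · simpa only [Nat.cast_mul, Nat.cast_ofNat, Nat.cast_add, Nat.cast_one, ge_iff_le, Fintype.card_fin] using this
    · intro ω ω' h1 h2 he
      simp only [Prod.mk.injEq] at he
      have e1 := hw ω ω' h1 h2 he.2
      have e2 := hv ω ω' h1 h2 he.2
      simp only [he.1, e1, e2]
    · intro ω hω i
      have a1 := so_dig_aux s (X' ω i)
      have a2 := so_dig_aux s (X' ω i0)
      have a3 := hX ω hω i
      have a4 := hX ω hω i0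
      have a5 := hvb ω hω i
      have a6 := hv1 ω hω
      simp only [fl]
      set p := (1 / 2 : ℝ) ^ s
      set b1 := p * ((⌊(2 : ℝ) ^ s * X' ω i⌋ : ℤ) : ℝ)
      set b2 := p * ((⌊(2 : ℝ) ^ s * X' ω i0⌋ : ℤ) : ℝ)
      have e1 : |b1 - (X ω i + w ω i + μ ω * v ω i)| ≤ (C0 + 1) * p := by
        have := abs_sub_le b1 (X' ω i) (X ω i + w ω i + μ ω * v ω i)
        rw [abs_sub_comm b1 (X' ω i)] at this
        linarith only [a3, a1, this]
      have e2 : |b2 - (X ω i0 + w ω i0 + μ ω * v ω i0)| ≤ (C0 + 1) * p := by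
        have := abs_sub_le b2 (X' ω i0) (X ω i0 + w ω i0 + μ ω * v ω i0)
        rw [abs_sub_comm b2 (X' ω i0)] at this
        linarith only [a4, a2, this]
      have e3 : X ω i - X ω i0 * v ω i - (b1 - w ω i - (b2 - w ω i0) * v ω i) =
          -(b1 - (X ω i + w ω i + μ ω * v ω i)) +
            (b2 - (X ω i0 + w ω i0 + μ ω * v ω i0)) * v ω i := by
        rw [a6]
        ring
      rw [e3]
      have e4 := abs_add_le (-(b1 - (X ω i + w ω i + μ ω * v ω i)))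
        ((b2 - (X ω i0 + w ω i0 + μ ω * v ω i0)) * v ω i)
      rw [abs_neg, abs_mul] at e4
      have e5 : |b2 - (X ω i0 + w ω i0 + μ ω * v ω i0)| * |v ω i| ≤
          |b2 - (X ω i0 + w ω i0 + μ ω * v ω i0)| * 1 :=
        mul_le_mul_of_nonneg_left a5 (abs_nonneg _)
      push_cast
      linarith only [e1, e2, e4, e5]
  have hP2 : hc Q (fun ω => fl r (X' ω)) (fun ω => (fl r (X ω), S ω)) ≤
      (m : ℝ) * Real.log (2 * ((2 * C0 + 1 : ℕ) : ℝ) + 3) := by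
    have := so_cheap_aux Q (s := r) (2 * C0 + 1)
      (fun ω => X' ω) (fun ω i => (1 / 2 : ℝ) ^ r * (fl r (X ω) i : ℤ) + w ω i)
      (fun ω => (fl r (X ω), S ω)) ?_ ?_
    · simpa only [Nat.cast_add, Nat.cast_mul, Nat.cast_ofNat, Nat.cast_one, ge_iff_le, Fintype.card_fin] using this
    · intro ω ω' h1 h2 he
      simp only [Prod.mk.injEq] at he
      have e1 := hw ω ω' h1 h2 he.2
      simp only [he.1, e1]
    · intro ω hω i
      have a1 := so_dig_aux r (X ω i)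
      have a3 := hX ω hω i
      have a5 := hvb ω hω i
      have a6 := hμ ω hω
      have a7 : (1 / 2 : ℝ) ^ s ≤ (1 / 2 : ℝ) ^ r :=
        pow_le_pow_of_le_one (by norm_num) (by norm_num) hrs
      simp only [fl]
      set p := (1 / 2 : ℝ) ^ r
      set p' := (1 / 2 : ℝ) ^ s
      set b := p * ((⌊(2 : ℝ) ^ r * X ω i⌋ : ℤ) : ℝ)
      have hC : (0 : ℝ) ≤ C0 := Nat.cast_nonneg _
      have a8 : (C0 : ℝ) * p' ≤ C0 * p := mul_le_mul_of_nonneg_left a7 hC
      have a9 : |μ ω * v ω i| ≤ C0 * p := by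
        rw [abs_mul]
        calc |μ ω| * |v ω i| ≤ |μ ω| * 1 := mul_le_mul_of_nonneg_left a5 (abs_nonneg _)
          _ ≤ C0 * p := by linarith only [a6]
      have e3 : X' ω i - (b + w ω i) =
          (X' ω i - (X ω i + w ω i + μ ω * v ω i)) + (X ω i - b) + μ ω * v ω i := by ring
      rw [e3]
      have e4 := abs_add_three (X' ω i - (X ω i + w ω i + μ ω * v ω i)) (X ω i - b)
        (μ ω * v ω i)
      push_cast
      linarith only [a3, a1, a8, a9, e4]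
  have hP3 : hc Q (fun ω => fl s (fun i => X ω i - X ω i0 * v ω i))
      (fun ω => (fl s (X ω), S ω)) ≤ (m : ℝ) * Real.log (2 * ((2 : ℕ) : ℝ) + 3) := by
    have := so_cheap_aux Q (s := s) 2
      (fun ω i => X ω i - X ω i0 * v ω i)
      (fun ω i => (1 / 2 : ℝ) ^ s * (fl s (X ω) i : ℤ) -
        ((1 / 2 : ℝ) ^ s * (fl s (X ω) i0 : ℤ)) * v ω i)
      (fun ω => (fl s (X ω), S ω)) ?_ ?_
    · simpa only [Nat.cast_ofNat, ge_iff_le, Fintype.card_fin] using this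
    · intro ω ω' h1 h2 he
      simp only [Prod.mk.injEq] at he
      have e2 := hv ω ω' h1 h2 he.2
      simp only [he.1, e2]
    · intro ω hω i
      have a1 := so_dig_aux s (X ω i)
      have a2 := so_dig_aux s (X ω i0)
      have a5 := hvb ω hω i
      simp only [fl]
      set p := (1 / 2 : ℝ) ^ s
      set b1 := p * ((⌊(2 : ℝ) ^ s * X ω i⌋ : ℤ) : ℝ)
      set b2 := p * ((⌊(2 : ℝ) ^ s * X ω i0⌋ : ℤ) : ℝ)
      have e3 : X ω i - X ω i0 * v ω i - (b1 - b2 * v ω i) =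
          (X ω i - b1) + (-((X ω i0 - b2) * v ω i)) := by ring
      rw [e3]
      have e4 := abs_add_le (X ω i - b1) (-((X ω i0 - b2) * v ω i))
      rw [abs_neg, abs_mul] at e4
      have e5 : |X ω i0 - b2| * |v ω i| ≤ |X ω i0 - b2| * 1 :=
        mul_le_mul_of_nonneg_left a5 (abs_nonneg _)
      push_cast
      linarith
  -- entropy bookkeeping
  set Pv : Ω → Fin m → ℤ := fun ω => fl s (fun i => X ω i - X ω i0 * v ω i) with hP
  set A : Ω → Fin m → ℤ := fun ω => fl s (X' ω) with hA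
  set B : Ω → Fin m → ℤ := fun ω => fl r (X' ω) with hB
  set C : Ω → Fin m → ℤ := fun ω => fl r (X ω) with hC
  set D : Ω → Fin m → ℤ := fun ω => fl s (X ω) with hD
  have hCD : ∀ ω ω', D ω = D ω' → C ω = C ω' := fun ω ω' h => fl_of_fl hrs _ _ h
  have c1 : hc Q A (fun ω => (B ω, C ω, S ω)) ≤ hc Q A (fun ω => (B ω, S ω)) := by
    refine hc_mono_right Q A ?_
    intro ω ω' _ _ he
    simp only [Prod.mk.injEq] at he ⊢
    exact ⟨he.1, he.2.2⟩
  have c2 := hc_pair Q A Pv (fun ω => (B ω, C ω, S ω))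
  have c3 := hc_pair Q Pv A (fun ω => (B ω, C ω, S ω))
  have c4 : hc Q (fun ω => (A ω, Pv ω)) (fun ω => (B ω, C ω, S ω)) =
      hc Q (fun ω => (Pv ω, A ω)) (fun ω => (B ω, C ω, S ω)) := by
    refine hc_congr Q ?_ ?_ ?_ ?_
    · intro ω ω' _ _ he
      simp only [Prod.mk.injEq] at he ⊢
      exact ⟨he.1.2, he.1.1⟩
    · intro ω ω' _ _ he
      simp only [Prod.mk.injEq] at he ⊢
      exact ⟨he.1.2, he.1.1⟩
    · intro ω ω' _ _ he
      exact he
    · intro ω ω' _ _ he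
      exact he
  have c5 : hc Q Pv (fun ω => (A ω, B ω, C ω, S ω)) ≤ hc Q Pv (fun ω => (A ω, S ω)) := by
    refine hc_mono_right Q Pv ?_
    intro ω ω' _ _ he
    simp only [Prod.mk.injEq] at he ⊢
    exact ⟨he.1, he.2.2.2⟩
  have c6 := hc_le_add' Q Pv B (fun ω => (C ω, S ω))
  have c7 := hc_le_add' Q A (fun ω => (Pv ω, B ω)) (fun ω => (D ω, S ω))
  have c8 : hc Q A (fun ω => ((Pv ω, B ω), (D ω, S ω))) ≤
      hc Q A (fun ω => (Pv ω, (B ω, C ω, S ω))) := by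
    refine hc_mono_right Q A ?_
    intro ω ω' _ _ he
    simp only [Prod.mk.injEq] at he ⊢
    exact ⟨he.1.1, he.1.2, hCD _ _ he.2.1, he.2.2⟩
  have c9 := hc_pair Q Pv B (fun ω => (D ω, S ω))
  have c10 : hc Q B (fun ω => (Pv ω, D ω, S ω)) ≤ hc Q B (fun ω => (C ω, S ω)) := by
    refine hc_mono_right Q B ?_
    intro ω ω' _ _ he
    simp only [Prod.mk.injEq] at he ⊢
    exact ⟨hCD _ _ he.2.1, he.2.2⟩
  linarith only [hP1, hP3, hP2, c1, c2, c3, c4, c5, c6, c7, c8, c9, c10]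

/-- the displacement along a line of known slope determines the time -/
theorem time_le (m C0 : ℕ) : ∃ K : ℝ, ∀ {Ω : Type} [Fintype Ω] {τ : Type} (Q : Law Ω)
    (S : Ω → τ) (X X' w : Ω → Fin m → ℝ) (u u1 lam : Ω → ℝ) (s j B' : ℕ) (i0 : Fin m),
    Fn Q w S → Fn Q lam S → Fn Q u1 S → j + B' ≤ s →
    (∀ ω, 0 < Q.w ω → |X' ω i0 - (X ω i0 + w ω i0 + (u ω - u1 ω) * lam ω)| ≤
      C0 * (1 / 2 : ℝ) ^ s) →
    (∀ ω, 0 < Q.w ω → (1 / 2 : ℝ) ^ B' ≤ |lam ω|) →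
    hc Q (fun ω => fl1 j (u ω)) (fun ω => (fl s (X ω), S ω)) ≤
      hc Q (fun ω => fl s (X' ω)) (fun ω => (fl s (X ω), S ω)) + K := by
  refine ⟨Real.log (2 * ((C0 + 2 : ℕ) : ℝ) + 3), ?_⟩
  intro Ω _ τ Q S X X' w u u1 lam s j B' i0 hw hlam hu1 hjs hX hlam2
  have h1 := hc_le_add' Q (fun ω => fl1 j (u ω)) (fun ω => fl s (X' ω))
    (fun ω => (fl s (X ω), S ω))
  have h2 : hc Q (fun ω => fl1 j (u ω)) (fun ω => (fl s (X' ω), fl s (X ω), S ω)) ≤
      hc Q (fun ω => fl (ι := Unit) j (fun _ => u ω))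
        (fun ω => (fl s (X' ω), fl s (X ω), S ω)) := by
    refine hc_mono_left Q ?_
    intro ω ω' _ _ he
    simp only [Prod.mk.injEq] at he
    have := congrFun he.1 ()
    simpa only [fl1, fl] using this
  have h3 := so_cheap_aux Q (s := j) (ι := Unit) (C0 + 2) (fun ω _ => u ω)
    (fun ω _ => u1 ω + ((1 / 2 : ℝ) ^ s * (fl s (X' ω) i0 : ℤ) -
      (1 / 2 : ℝ) ^ s * (fl s (X ω) i0 : ℤ) - w ω i0) / lam ω)
    (fun ω => (fl s (X' ω), fl s (X ω), S ω)) ?_ ?_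
  · simp only [Fintype.card_unit, Nat.cast_one, one_mul] at h3
    linarith only [h1, h2, h3]
  · intro ω ω' g1 g2 he
    simp only [Prod.mk.injEq] at he
    have e1 := hw ω ω' g1 g2 he.2.2
    have e2 := hlam ω ω' g1 g2 he.2.2
    have e3 := hu1 ω ω' g1 g2 he.2.2
    simp only [he.1, he.2.1, e1, e2, e3]
  · intro ω hω _
    have a1 := so_dig_aux s (X' ω i0)
    have a2 := so_dig_aux s (X ω i0)
    have a3 := hX ω hω
    have a4 := hlam2 ω hω
    simp only [fl]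
    have hB0 : (0 : ℝ) < (1 / 2 : ℝ) ^ B' := by positivity
    have hl0 : 0 < |lam ω| := hB0.trans_le a4
    have hl1 : lam ω ≠ 0 := abs_pos.1 hl0
    have a5 : (1 / 2 : ℝ) ^ s ≤ (1 / 2 : ℝ) ^ j * (1 / 2 : ℝ) ^ B' := by
      rw [← pow_add]
      exact pow_le_pow_of_le_one (by norm_num) (by norm_num) hjs
    set p := (1 / 2 : ℝ) ^ s
    set b1 := p * ((⌊(2 : ℝ) ^ s * X' ω i0⌋ : ℤ) : ℝ)
    set b2 := p * ((⌊(2 : ℝ) ^ s * X ω i0⌋ : ℤ) : ℝ)
    have e3 : u ω - (u1 ω + (b1 - b2 - w ω i0) / lam ω) =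
        (-(X' ω i0 - (X ω i0 + w ω i0 + (u ω - u1 ω) * lam ω)) + (X' ω i0 - b1) +
          (-(X ω i0 - b2))) / lam ω := by
      field_simp
      ring
    rw [e3, abs_div, div_le_iff₀ hl0]
    have e4 := abs_add_three (-(X' ω i0 - (X ω i0 + w ω i0 + (u ω - u1 ω) * lam ω)))
      (X' ω i0 - b1) (-(X ω i0 - b2))
    rw [abs_neg, abs_neg] at e4
    have hC : (0 : ℝ) ≤ C0 := Nat.cast_nonneg _
    have e5 : ((C0 : ℝ) + 2) * p ≤ (C0 + 2) * ((1 / 2 : ℝ) ^ j * |lam ω|) := by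
      refine mul_le_mul_of_nonneg_left (a5.trans ?_) (by linarith only [])
      exact mul_le_mul_of_nonneg_left a4 (by positivity)
    push_cast
    linarith

end Vale.Agent.P127.Stk.R
end

section

/-!
# P127 / Stk / StepR : rare events for polynomials, choice of the level, union bound
-/

namespace Vale.Agent.P127.Stk.R

open Finset Polynomial Vale.Agent.P127

theorem rare_poly {Ω : Type} [Fintype Ω] {τ : Type} (D : ℕ) (hD : 1 ≤ D) (Q : Law Ω)
    (S : Ω → τ) (P : Ω → ℝ[X]) (u v : Ω → ℝ) (j : ℕ)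
    (hu : ∀ ω, 0 < Q.w ω → 0 ≤ u ω ∧ u ω < 1)
    (hv : ∀ ω, 0 < Q.w ω → 0 ≤ v ω ∧ v ω < 1)
    (huv : ∀ ω, 0 < Q.w ω → fl1 j (v ω) = fl1 j (u ω)) (hP : Fn Q P S)
    (hd : ∀ ω, 0 < Q.w ω → (P ω).natDegree ≤ D) (E : Ω → Prop)
    (hE : ∀ ω, 0 < Q.w ω → E ω →
      |(P ω).eval (v ω)| * ((D + 1) * 2 ^ ((j + 1) * D)) < pn (P ω)) :
    prE Q E * (j * Real.log 2 - Real.log (2 * D)) ≤
      j * Real.log 2 - hc Q (fun ω => fl1 j (u ω)) S + Real.log 2 := by
  have h := rare Q E (fun ω => fl1 j (u ω)) S (2 * D) (j * Real.log 2) (by omega)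
    (fun ω hω hEω => by
      obtain ⟨F, hF, hF2⟩ := cells_card D j (P ω) (hd ω hω)
      refine ⟨F, hF, fun ω' hω' hEω' hS => ?_⟩
      have e1 : P ω' = P ω := hP ω' ω hω' hω hS
      show fl1 j (u ω') ∈ F
      rw [← huv ω' hω']
      exact hF2 (v ω') (hv ω' hω').1 (hv ω' hω').2 (by rw [← e1]; exact hE ω' hω' hEω'))
    (fun R hR => by
      refine hc_fl1_le R j u S fun ω hω => hu ω ?_
      rcases (Q.nn ω).eq_or_lt with h0 | h0
      · rw [hR ω h0.symm] at hω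
        exact absurd hω (lt_irrefl _)
      · exact h0)
  rw [show ((2 * D : ℕ) : ℝ) = 2 * D by push_cast; ring] at h
  exact h

theorem level (D c : ℕ) (hD : 1 ≤ D) (g q : ℝ) (hg : 0 < g) (hq : 0 < q) :
    ∃ ε2 : ℝ, 0 < ε2 ∧ ∃ L0 : ℕ, ∀ L w : ℕ, L0 ≤ L → g * L ≤ w →
      ∃ j : ℕ, j ≤ w ∧ (c : ℝ) * 2 ^ ((j + 1) * D) ≤ 2 ^ w ∧
        ∀ x ε : ℝ, ε ≤ ε2 → x * (j * Real.log 2 - Real.log (2 * D)) ≤ ε * L + Real.log 2 →
          x ≤ q := by
  have hD' : (1 : ℝ) ≤ D := by exact_mod_cast hD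
  have hD0 : (0 : ℝ) < D := by linarith only [hD']
  have hb : 0 < Real.log 2 := Real.log_pos (by norm_num)
  have hl2 : 0 ≤ Real.log (2 * D) := Real.log_nonneg (by linarith only [hD'])
  refine ⟨q * g * Real.log 2 / (4 * D), by positivity,
    ⌈2 * D / (g * Real.log 2) * ((c + 2 * D) / D * Real.log 2 + Real.log (2 * D)) +
      4 * D / (q * g)⌉₊, fun L w hL hw => ?_⟩
  have hL' := (Nat.ceil_le.1 hL)
  have hA : 0 ≤ 2 * D / (g * Real.log 2) * ((c + 2 * D) / D * Real.log 2 + Real.log (2 * D)) := by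
    (clear * - hD hg hl2; positivity)
  have hB : 0 < 4 * D / (q * g) := by positivity
  have hL1 : 2 * D / (g * Real.log 2) * ((c + 2 * D) / D * Real.log 2 + Real.log (2 * D)) ≤ L := by
    linarith only [hL', hB]
  have hL2 : 4 * D / (q * g) ≤ L := by linarith only [hL', hA]
  have hLpos : (0 : ℝ) < L := lt_of_lt_of_le hB hL2
  have h1 : (c + 2 * D) / D * Real.log 2 + Real.log (2 * D) ≤ g * Real.log 2 / (2 * D) * L := by
    generalize (c + 2 * D) / D * Real.log 2 + Real.log (2 * D) = Y at hL1 ⊢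
    rw [div_mul_eq_mul_div, div_le_iff₀ (by positivity)] at hL1
    rw [div_mul_eq_mul_div, le_div_iff₀ (by positivity)]
    linarith only [hL1]
  have h2 : Real.log 2 ≤ q * g * Real.log 2 / (4 * D) * L := by
    rw [div_le_iff₀ (by positivity)] at hL2
    rw [div_mul_eq_mul_div, le_div_iff₀ (by positivity)]
    nlinarith only [hb, hL2]
  have h3 : (c : ℝ) + 2 * D ≤ w := by
    have : (c + 2 * D) / D * Real.log 2 ≤ g * Real.log 2 / (2 * D) * L := by linarith only [hl2, h1]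
    have h4 : (c + 2 * D) / (D : ℝ) ≤ g / (2 * D) * L := by
      have e : g * Real.log 2 / (2 * D) * L = (g / (2 * D) * L) * Real.log 2 := by ring
      rw [e] at this
      exact le_of_mul_le_mul_right this hb
    rw [div_mul_eq_mul_div, div_le_div_iff₀ hD0 (by positivity)] at h4
    have h5 : ((c : ℝ) + 2 * D) * 2 ≤ g * L := by
      have : ((c : ℝ) + 2 * D) * 2 * D ≤ g * L * D := by linarith only [h4]
      exact le_of_mul_le_mul_right this hD0
    have : (0 : ℝ) ≤ (c : ℝ) + 2 * D := by (clear * - hD; positivity)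
    linarith only [hw, h5]
  have h3' : c + 2 * D ≤ w := by exact_mod_cast h3
  set j := (w - c - D) / D with hj
  have hj1 : j * D ≤ w - c - D := Nat.div_mul_le_self _ _
  have hj2 : w - c - D < (j + 1) * D := by
    have := Nat.lt_mul_div_succ (w - c - D) (show 0 < D by (clear * - hD; omega))
    rw [mul_comm]; exact this
  have hj3 : (j + 1) * D + c ≤ w := by
    have : (j + 1) * D = j * D + D := by ring
    omega
  have hj4 : (w : ℝ) - c - 2 * D ≤ j * D := by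
    have : w ≤ (j + 1) * D + D + c := by omega
    have : (w : ℝ) ≤ (j + 1) * D + D + c := by exact_mod_cast this
    linarith only [this]
  refine ⟨j, ?_, ?_, fun x ε hε hx => ?_⟩
  · have : j ≤ j * D := Nat.le_mul_of_pos_right j (by omega)
    omega
  · calc (c : ℝ) * 2 ^ ((j + 1) * D) ≤ 2 ^ c * 2 ^ ((j + 1) * D) := by
          refine mul_le_mul_of_nonneg_right ?_ (by positivity)
          exact_mod_cast (Nat.lt_two_pow_self (n := c)).le
      _ = 2 ^ (c + (j + 1) * D) := by rw [pow_add]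
      _ ≤ 2 ^ w := pow_le_pow_right₀ (by norm_num) (by omega)
  · by_contra hcon
    push Not at hcon
    have hj5 : g * Real.log 2 / (2 * D) * L ≤ j * Real.log 2 - Real.log (2 * D) := by
      have h6 : (g * L - c - 2 * D) / D ≤ j := by
        rw [div_le_iff₀ hD0]; linarith only [hw, hj4]
      have h7 : (g * L - c - 2 * D) / D * Real.log 2 ≤ j * Real.log 2 :=
        mul_le_mul_of_nonneg_right h6 hb.le
      have e : (g * L - c - 2 * D) / D * Real.log 2 =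
          2 * (g * Real.log 2 / (2 * D) * L) - (c + 2 * D) / D * Real.log 2 := by
        field_simp
        ring
      rw [e] at h7
      linarith only [h1, h7]
    have hpos : 0 < g * Real.log 2 / (2 * D) * L := by (clear * - hg hD hLpos; positivity)
    have h8 : q * (g * Real.log 2 / (2 * D) * L) < x * (j * Real.log 2 - Real.log (2 * D)) := by
      calc q * (g * Real.log 2 / (2 * D) * L) < x * (g * Real.log 2 / (2 * D) * L) :=
            mul_lt_mul_of_pos_right hcon hpos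
        _ ≤ x * (j * Real.log 2 - Real.log (2 * D)) :=
            mul_le_mul_of_nonneg_left hj5 (by linarith only [hq, hcon])
    have h9 : ε * L ≤ q * g * Real.log 2 / (4 * D) * L := mul_le_mul_of_nonneg_right hε hLpos.le
    have e : q * (g * Real.log 2 / (2 * D) * L) = 2 * (q * g * Real.log 2 / (4 * D) * L) := by
      field_simp
      ring
    rw [e] at h8
    linarith only [h2, hx, h8, h9]

theorem prE_le_sum {Ω ι : Type} [Fintype Ω] (Q : Law Ω) (s : Finset ι) (E : ι → Ω → Prop)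
    (F : Ω → Prop) (h : ∀ ω, 0 < Q.w ω → F ω → ∃ i ∈ s, E i ω) :
    prE Q F ≤ ∑ i ∈ s, prE Q (E i) := by
  classical
  unfold prE
  simp only [Finset.sum_filter]
  rw [Finset.sum_comm]
  refine Finset.sum_le_sum fun ω _ => ?_
  have h0 : ∀ i ∈ s, 0 ≤ (if E i ω then Q.w ω else 0) := fun i _ => by
    split_ifs
    · exact Q.nn ω
    · exact le_rfl
  split_ifs with hF
  · rcases (Q.nn ω).eq_or_lt with h1 | h1
    · rw [← h1]
      exact Finset.sum_nonneg fun i hi => by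
        split_ifs <;> simp
    · obtain ⟨i, hi, hE⟩ := h ω h1 hF
      have h2 := Finset.single_le_sum h0 hi
      rw [if_pos hE] at h2
      exact h2
  · exact Finset.sum_nonneg h0

end Vale.Agent.P127.Stk.R
end

section

set_option linter.all false

/-!
# P127 / Stk / StepR : the contradiction inside one bin (parts (c), (e) of `coreR`)
-/

namespace Vale.Agent.P127.Stk.R

open Finset Polynomial Vale.Agent.P127

/-- the time rounded to `s` digits -/
noncomputable def rd (s : ℕ) (u : ℝ) : ℝ := (fl1 s u : ℝ) / 2 ^ s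

theorem rd_nonneg {s : ℕ} {u : ℝ} (h : 0 ≤ u) : 0 ≤ rd s u := by
  unfold rd fl1
  have : 0 ≤ ⌊(2 : ℝ) ^ s * u⌋ := Int.floor_nonneg.2 (by positivity)
  have h2 : (0 : ℝ) ≤ (⌊(2 : ℝ) ^ s * u⌋ : ℝ) := by exact_mod_cast this
  positivity

theorem rd_le {s : ℕ} {u : ℝ} : rd s u ≤ u := by
  unfold rd fl1
  rw [div_le_iff₀ (by positivity)]
  have := Int.floor_le ((2 : ℝ) ^ s * u)
  linarith

theorem sub_rd_le {s : ℕ} {u : ℝ} : |u - rd s u| ≤ (1 / 2 : ℝ) ^ s := by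
  rw [abs_of_nonneg (sub_nonneg.2 rd_le)]
  unfold rd fl1
  have h2 : (0 : ℝ) < 2 ^ s := by positivity
  have h3 := Int.lt_floor_add_one ((2 : ℝ) ^ s * u)
  rw [one_div, inv_pow, sub_le_iff_le_add, ← one_div, ← add_div, le_div_iff₀ h2]
  linarith only [h3]

theorem fl1_rd {s j : ℕ} (h : j ≤ s) (u : ℝ) : fl1 j (rd s u) = fl1 j u := by
  unfold fl1
  rw [floor_pow_aux h, floor_pow_aux h u]
  congr 1
  unfold rd fl1
  have h2 : (2 : ℝ) ^ s ≠ 0 := by positivity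
  rw [mul_div_cancel₀ _ h2, Int.floor_intCast]

/-- the contradiction inside one bin -/
theorem core_bin (m D C0 : ℕ) : ∃ K : ℝ, 0 ≤ K ∧ ∀ (L n s w B s1 r j : ℕ) (f δ ε2 p0 : ℝ)
    (Ω : Type) [Fintype Ω] (Q : Law Ω) (τ : Type) (σ : Ω → τ) (J : Finset (Fin m))
    (u : Ω → ℝ) (X X' : Ω → Fin m → ℝ) (pol : Ω → Fin m → ℝ[X]) (E : Ω → Prop) (i0 : Fin m),
    0 < p0 → p0 ≤ prE Q E → s + w ≤ B + 2 * s1 → B + s1 = r + w → j + (B + w) = s → r ≤ s →
    (∀ ω, 0 < Q.w ω → 0 ≤ u ω ∧ u ω < 1) →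
    Fn Q pol σ →
    (∀ ω, 0 < Q.w ω → ∀ i, (pol ω i).natDegree ≤ D) →
    (∀ ω, 0 < Q.w ω → ∀ i ∈ J, pol ω i = 0) →
    (∀ ω, 0 < Q.w ω → ∀ i,
      |X' ω i - X ω i + (pol ω i).eval (u ω)| ≤ C0 * (1 / 2 : ℝ) ^ s) →
    (∀ ω, 0 < Q.w ω → E ω → ∀ i, pn (pol ω i) ≤ 2 ^ w * (1 / 2 : ℝ) ^ B) →
    (∀ ω, 0 < Q.w ω → E ω → (1 / 2 : ℝ) ^ (B + w) ≤
      |(pol ω i0).derivative.eval (rd s1 (u ω))|) →
    (∀ ω, 0 < Q.w ω → E ω → ∀ i, |(pol ω i).derivative.eval (rd s1 (u ω))| ≤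
      |(pol ω i0).derivative.eval (rd s1 (u ω))|) →
    hc (on Q E) (fun ω => fl s (X' ω)) (fun ω => (fl r (X' ω), σ ω)) ≤
      f * ((s : ℝ) - r) * Real.log 2 + ε2 * L →
    (j : ℝ) * Real.log 2 - ε2 * L ≤
      hc Q (fun ω => fl1 j (u ω)) (fun ω => (fl s (X ω), σ ω)) →
    (∀ v : Ω → Fin m → ℝ, Fn (on Q E) v (fun ω => (σ ω, fl1 s1 (u ω))) →
      (∀ ω, 0 < (on Q E).w ω → v ω i0 = 1) →
      (∀ ω, 0 < (on Q E).w ω → ∀ i ∈ J, v ω i = 0) →
      (∀ ω, 0 < (on Q E).w ω → ∀ i, |v ω i| ≤ 1) →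
      (f - 1) * ((s : ℝ) - r) * Real.log 2 + δ * L <
        hc (on Q E) (fun ω => fl s (fun i => X ω i - X ω i0 * v ω i))
          (fun ω => (fl r (X ω), σ ω, fl1 s1 (u ω)))) →
    δ * L < 2 * w * Real.log 2 + (2 / p0 + 1) * ε2 * L + 2 / p0 * Real.log 2 + K := by
  obtain ⟨K1, hK1⟩ := straight m (C0 + D ^ 2 + D)
  obtain ⟨K2, hK2⟩ := time_le m (C0 + D ^ 2 + D)
  refine ⟨|K1| + |K2|, by (clear * -; positivity), ?_⟩
  intro L n s w B s1 r j f δ ε2 p0 Ω _ Q τ σ J u X X' pol E i0 hp0 hpE hs1 hr hj hrs hu hpol hdeg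
    hJ hX hpn hlow hmax H1 H2 H3
  have hE0 : 0 < prE Q E := hp0.trans_le hpE
  set R := on Q E with hR
  have hRp : ∀ ω, 0 < R.w ω → E ω ∧ 0 < Q.w ω := fun ω hω => on_pos hE0 hω
  set u1 : Ω → ℝ := fun ω => rd s1 (u ω) with hu1
  have hu10 : ∀ ω, 0 < Q.w ω → 0 ≤ u1 ω := fun ω hω => rd_nonneg (hu ω hω).1
  have hu11 : ∀ ω, 0 < Q.w ω → u1 ω < 1 := fun ω hω => rd_le.trans_lt (hu ω hω).2
  set lam : Ω → ℝ := fun ω => (pol ω i0).derivative.eval (u1 ω) with hlam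
  have hlam0 : ∀ ω, 0 < R.w ω → lam ω ≠ 0 := by
    intro ω hω h0
    have h1 := hlow ω (hRp ω hω).2 (hRp ω hω).1
    have h2 : |(pol ω i0).derivative.eval (rd s1 (u ω))| = 0 := by
      rw [abs_eq_zero]
      exact h0
    rw [h2] at h1
    have : (0 : ℝ) < (1 / 2 : ℝ) ^ (B + w) := by positivity
    linarith only [h1, this]
  set v : Ω → Fin m → ℝ := fun ω i => (pol ω i).derivative.eval (u1 ω) / lam ω with hv
  set W : Ω → Fin m → ℝ := fun ω i => -(pol ω i).eval (u1 ω) with hW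
  set S : Ω → τ × ℤ := fun ω => (σ ω, fl1 s1 (u ω)) with hS
  have hSpol : ∀ ω ω', 0 < R.w ω → 0 < R.w ω' → S ω = S ω' → pol ω = pol ω' ∧ u1 ω = u1 ω' := by
    intro ω ω' h1 h2 e
    have e1 : σ ω = σ ω' := congrArg Prod.fst e
    have e2 : fl1 s1 (u ω) = fl1 s1 (u ω') := congrArg Prod.snd e
    refine ⟨hpol ω ω' (hRp ω h1).2 (hRp ω' h2).2 e1, ?_⟩
    simp only [hu1, rd, e2]
  have hFv : Fn R v S := by
    intro ω ω' h1 h2 e
    obtain ⟨e1, e2⟩ := hSpol ω ω' h1 h2 e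
    simp only [hv, hlam, e2, e1]
  have hFW : Fn R W S := by
    intro ω ω' h1 h2 e
    obtain ⟨e1, e2⟩ := hSpol ω ω' h1 h2 e
    simp only [hW, e1, e2]
  have hFlam : Fn R (fun ω => -lam ω) S := by
    intro ω ω' h1 h2 e
    obtain ⟨e1, e2⟩ := hSpol ω ω' h1 h2 e
    simp only [hlam, e1, e2]
  have hFu1 : Fn R u1 S := by
    intro ω ω' h1 h2 e
    exact (hSpol ω ω' h1 h2 e).2
  have hvi0 : ∀ ω, 0 < R.w ω → v ω i0 = 1 := by
    intro ω hω
    simp only [hv]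
    exact div_self (hlam0 ω hω)
  have hvJ : ∀ ω, 0 < R.w ω → ∀ i ∈ J, v ω i = 0 := by
    intro ω hω i hi
    simp only [hv]
    rw [hJ ω (hRp ω hω).2 i hi]
    simp only [derivative_zero, eval_zero, zero_div]
  have hv1 : ∀ ω, 0 < R.w ω → ∀ i, |v ω i| ≤ 1 := by
    intro ω hω i
    simp only [hv]
    rw [abs_div]
    exact div_le_one_of_le₀ (hmax ω (hRp ω hω).2 (hRp ω hω).1 i) (abs_nonneg _)
  -- Taylor
  have hpw : (2 : ℝ) ^ w * (1 / 2 : ℝ) ^ B * ((1 / 2 : ℝ) ^ s1) ^ 2 ≤ (1 / 2 : ℝ) ^ s := by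
    have h1 : (2 : ℝ) ^ w * (1 / 2 : ℝ) ^ w = 1 := by
      rw [← mul_pow]; norm_num
    have h2 : (2 : ℝ) ^ w * (1 / 2 : ℝ) ^ B * ((1 / 2 : ℝ) ^ s1) ^ 2 =
        (2 : ℝ) ^ w * (1 / 2 : ℝ) ^ (B + 2 * s1) := by
      rw [pow_add, ← pow_mul, mul_comm s1 2]; ring
    rw [h2]
    have h3 : (1 / 2 : ℝ) ^ (B + 2 * s1) ≤ (1 / 2 : ℝ) ^ (s + w) :=
      pow_le_pow_of_le_one (by norm_num) (by norm_num) hs1
    calc (2 : ℝ) ^ w * (1 / 2 : ℝ) ^ (B + 2 * s1) ≤ 2 ^ w * (1 / 2 : ℝ) ^ (s + w) :=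
          mul_le_mul_of_nonneg_left h3 (by positivity)
      _ = (1 / 2 : ℝ) ^ s * ((2 : ℝ) ^ w * (1 / 2 : ℝ) ^ w) := by rw [pow_add]; ring
      _ = (1 / 2 : ℝ) ^ s := by rw [h1, mul_one]
  have hps : (0 : ℝ) < (1 / 2 : ℝ) ^ s := by positivity
  have hTay : ∀ ω, 0 < R.w ω → ∀ i,
      |X' ω i - (X ω i + W ω i + -((u ω - u1 ω) * (pol ω i).derivative.eval (u1 ω)))| ≤
        ((C0 + D ^ 2 + D : ℕ) : ℝ) * (1 / 2 : ℝ) ^ s := by
    intro ω hω i
    obtain ⟨hEω, hQω⟩ := hRp ω hω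
    have t1 := taylor_two D (pol ω i) (hdeg ω hQω i) (hu10 ω hQω) (hu11 ω hQω).le (hu ω hQω).1
      (hu ω hQω).2.le
    have t2 := hX ω hQω i
    have t3 : (D : ℝ) ^ 2 * pn (pol ω i) * (u ω - u1 ω) ^ 2 ≤ D ^ 2 * (1 / 2 : ℝ) ^ s := by
      have a1 : (u ω - u1 ω) ^ 2 ≤ ((1 / 2 : ℝ) ^ s1) ^ 2 := by
        rw [← sq_abs (u ω - u1 ω)]
        exact pow_le_pow_left₀ (abs_nonneg _) sub_rd_le 2
      have a2 := hpn ω hQω hEω i
      calc (D : ℝ) ^ 2 * pn (pol ω i) * (u ω - u1 ω) ^ 2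
          = D ^ 2 * (pn (pol ω i) * (u ω - u1 ω) ^ 2) := by ring
        _ ≤ D ^ 2 * (2 ^ w * (1 / 2 : ℝ) ^ B * ((1 / 2 : ℝ) ^ s1) ^ 2) := by
            refine mul_le_mul_of_nonneg_left ?_ (by (clear * -; positivity))
            exact mul_le_mul a2 a1 (sq_nonneg _) (by positivity)
        _ ≤ D ^ 2 * (1 / 2 : ℝ) ^ s := mul_le_mul_of_nonneg_left hpw (by (clear * -; positivity))
    have t4 : X' ω i - (X ω i + W ω i + -((u ω - u1 ω) * (pol ω i).derivative.eval (u1 ω))) =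
        (X' ω i - X ω i + (pol ω i).eval (u ω)) -
          ((pol ω i).eval (u ω) - (pol ω i).eval (u1 ω) -
            (u ω - u1 ω) * (pol ω i).derivative.eval (u1 ω)) := by
      simp only [hW]; ring
    rw [t4]
    refine (abs_sub _ _).trans ?_
    have t5 : (0 : ℝ) ≤ D * (1 / 2 : ℝ) ^ s := by (clear * -; positivity)
    push_cast
    linarith only [t1, t2, t3, t5]
  -- bound for the displacement
  have hmu : ∀ ω, 0 < R.w ω → |-((u ω - u1 ω) * lam ω)| ≤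
      ((C0 + D ^ 2 + D : ℕ) : ℝ) * (1 / 2 : ℝ) ^ r := by
    intro ω hω
    obtain ⟨hEω, hQω⟩ := hRp ω hω
    have a1 : |u ω - u1 ω| ≤ (1 / 2 : ℝ) ^ s1 := sub_rd_le
    have a2 : |lam ω| ≤ D * (2 ^ w * (1 / 2 : ℝ) ^ B) := by
      have b1 := abs_eval_le_pn (pol ω i0).derivative (hu10 ω hQω) (hu11 ω hQω).le
      have b2 := pn_derivative_le D (pol ω i0) (hdeg ω hQω i0)
      have b3 := mul_le_mul_of_nonneg_left (hpn ω hQω hEω i0) (Nat.cast_nonneg (α := ℝ) D)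
      exact (b1.trans b2).trans b3
    have a3 : (1 / 2 : ℝ) ^ s1 * (D * (2 ^ w * (1 / 2 : ℝ) ^ B)) = D * (1 / 2 : ℝ) ^ r := by
      have h1 : (2 : ℝ) ^ w * (1 / 2 : ℝ) ^ w = 1 := by
        rw [← mul_pow]; norm_num
      calc (1 / 2 : ℝ) ^ s1 * (D * (2 ^ w * (1 / 2 : ℝ) ^ B))
          = D * (2 ^ w * (1 / 2 : ℝ) ^ (B + s1)) := by rw [pow_add]; ring
        _ = D * ((1 / 2 : ℝ) ^ r * (2 ^ w * (1 / 2 : ℝ) ^ w)) := by rw [hr, pow_add]; ring
        _ = D * (1 / 2 : ℝ) ^ r := by rw [h1, mul_one]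
    rw [abs_neg, abs_mul]
    calc |u ω - u1 ω| * |lam ω| ≤ (1 / 2 : ℝ) ^ s1 * (D * (2 ^ w * (1 / 2 : ℝ) ^ B)) :=
          mul_le_mul a1 a2 (abs_nonneg _) (by positivity)
      _ = D * (1 / 2 : ℝ) ^ r := a3
      _ ≤ ((C0 + D ^ 2 + D : ℕ) : ℝ) * (1 / 2 : ℝ) ^ r := by
          refine mul_le_mul_of_nonneg_right ?_ (by positivity)
          push_cast
          have : (0 : ℝ) ≤ C0 := Nat.cast_nonneg _
          nlinarith only []
  have G1 := hK1 R S X X' W v (fun ω => -((u ω - u1 ω) * lam ω)) r s i0 hrs hFW hFv hvi0 hv1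
    (by
      intro ω hω i
      have e1 : -((u ω - u1 ω) * lam ω) * v ω i =
          -((u ω - u1 ω) * (pol ω i).derivative.eval (u1 ω)) := by
        simp only [hv]
        have := hlam0 ω hω
        (clear * - this; field_simp)
      simp only [e1]
      exact hTay ω hω i) hmu
  have G2 := hK2 R S X X' W u u1 (fun ω => -lam ω) s j (B + w) i0 hFW hFlam hFu1 (by omega)
    (by
      intro ω hω
      have := hTay ω hω i0
      have e1 : (u ω - u1 ω) * -lam ω = -((u ω - u1 ω) * (pol ω i0).derivative.eval (u1 ω)) := by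
        simp only [hlam]; ring
      simp only [e1]
      exact this)
    (by
      intro ω hω
      rw [abs_neg]
      exact hlow ω (hRp ω hω).2 (hRp ω hω).1)
  have G3 := H3 v hFv hvi0 hvJ hv1
  have G4 := le_hc_on Q E p0 hp0 hpE (fun ω => fl1 j (u ω)) (fun ω => (fl s (X ω), σ ω))
    ((j : ℝ) * Real.log 2) (by
      intro R' hR'
      refine hc_fl1_le R' j u _ fun ω hω => hu ω ?_
      rcases (Q.nn ω).eq_or_lt with h0 | h0
      · rw [hR' ω h0.symm] at hω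
        exact absurd hω (lt_irrefl _)
      · exact h0)
  have G5 := hc_le_add' R (fun ω => fl1 j (u ω)) (fun ω => fl1 s1 (u ω))
    (fun ω => (fl s (X ω), σ ω))
  have G6 : hc R (fun ω => fl1 s1 (u ω)) (fun ω => (fl s (X ω), σ ω)) ≤ s1 * Real.log 2 :=
    hc_fl1_le R s1 u _ fun ω hω => hu ω (hRp ω hω).2
  have G7 : hc R (fun ω => fl1 j (u ω)) (fun ω => (fl1 s1 (u ω), fl s (X ω), σ ω)) ≤
      hc R (fun ω => fl1 j (u ω)) (fun ω => (fl s (X ω), S ω)) := by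
    refine hc_mono_right R _ fun ω ω' _ _ e => ?_
    simp only [Prod.mk.injEq, hS] at e ⊢
    exact ⟨e.2.1, e.2.2, e.1⟩
  have G8 : hc R (fun ω => fl s (X' ω)) (fun ω => (fl r (X' ω), S ω)) ≤
      hc R (fun ω => fl s (X' ω)) (fun ω => (fl r (X' ω), σ ω)) := by
    refine hc_mono_right R _ fun ω ω' _ _ e => ?_
    simp only [Prod.mk.injEq, hS] at e ⊢
    exact ⟨e.1, e.2.1⟩
  have c1 : (B : ℝ) + s1 = r + w := by exact_mod_cast hr
  have c2 : (j : ℝ) + (B + w) = s := by exact_mod_cast hj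
  have hlog : 0 < Real.log 2 := Real.log_pos (by norm_num)
  have c3 : ((j : ℝ) - s1) * Real.log 2 = ((s : ℝ) - r) * Real.log 2 - 2 * w * Real.log 2 := by
    have : (j : ℝ) - s1 = (s : ℝ) - r - 2 * w := by linarith only [c1, c2]
    rw [this]; ring
  have c4 : (f - 1) * ((s : ℝ) - r) * Real.log 2 =
      f * ((s : ℝ) - r) * Real.log 2 - ((s : ℝ) - r) * Real.log 2 := by ring
  have hp2 : 0 < 2 / p0 := by positivity
  have c5 : 2 / p0 * ((j : ℝ) * Real.log 2 -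
      hc Q (fun ω => fl1 j (u ω)) (fun ω => (fl s (X ω), σ ω)) + Real.log 2) ≤
      2 / p0 * (ε2 * L + Real.log 2) := mul_le_mul_of_nonneg_left (by linarith only [H2]) hp2.le
  have c6 : 2 / p0 * (ε2 * L + Real.log 2) + ε2 * L =
      (2 / p0 + 1) * ε2 * L + 2 / p0 * Real.log 2 := by ring
  have c7 := le_abs_self K1
  have c8 := le_abs_self K2
  have G3' : (f - 1) * ((s : ℝ) - r) * Real.log 2 + δ * L <
      hc R (fun ω => fl s (fun i => X ω i - X ω i0 * v ω i)) (fun ω => (fl r (X ω), S ω)) := G3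
  linarith only [H1, G1, G2, G3, G4, G5, G6, G7, G8, c3, c5, c7, c8]

end Vale.Agent.P127.Stk.R
end

section

set_option linter.all false

/-!
# P127 / Stk / StepR : the abstract core of section 9

Setting: `X` = projected point of the first line, `X'` = projected point of the second line (both
at the base time), `σ` = side information, `u ∈ [0,1)` the rescaled time, `pol` a vector of
polynomials of degree at most `D`, a function of `σ`, with a common root in `[0,1]`, and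
`X' = X - pol(u) + O(2^{-s})`.  `N = max_i pn (pol i)`.

Proof of `coreR` (write `b = log 2`, `g` small against `ε1` and `δ`, `w = ⌈g L⌉`,
`ε2` small against `g, p, δ`).

(a) `|pol_i(u)| ≤ (1+C0) 2^{-n}` as `fl n X = fl n X'`.  If `N > 2^{-n+gL}` and the maximum is at
`i1` then `u` lies in one of `2D` cells of length `2^{-j}`, `j ~ gL/D` (`cells_card`); by `rare`
(for every fixed `i1`) and the entropy of `u` given `σ` this has probability `≤ p/4` (sum over `i1`).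
(b) Otherwise `2^{-s+ε1 L} < N ≤ 2^{-n+gL}`; there are `O(1/g)` bins
`2^{-(B+w)} < N ≤ 2^{-B}` with `B ≥ n - w`, `B ≤ s - ε1 L + 1`; if the probability of the bad event
is more than `p`, one bin together with the index `i1` of the maximum has probability
`≥ p g / (8 m)`.
(c) `s1 = ⌈(s-B)/2⌉`, `u1 = 2^{-s1} ⌊2^{s1} u⌋`, a function of `fl1 s1 u`.  Taylor:
`X' = X - pol(u1) - (u-u1) pol'(u1) + O(2^{-s})`, since `2 s1 ≥ s - B`.
(d) `pn (pol_{i1})' ≥ N/2`; by `cells_card` for `(pol_{i1})'` at the point `u1`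
(its cell is the cell of `u` for `j ≤ s1`) and `rare`, with probability close to one (inside the
bin) `|pol_{i1}'(u1)| ≥ 2^{-w} N`.  Choose `i0` with maximal `|pol_i'(u1)|` (lose a factor `m`).
`v_i = pol_i'(u1) / pol_{i0}'(u1)`, `μ = -(u-u1) pol_{i0}'(u1)`,
`2^{-B-2w} ≤ |pol_{i0}'(u1)| ≤ D 2^{-B}`, `|μ| ≤ D 2^{-r}` with `r = B + s1`.
(e) `straight` with `S = (σ, fl1 s1 u)`, `w = -pol(u1)`, on the event `E` found so far
(probability `≥ p0`): `hc (fl s π(X)) (fl r X, S) + hc (fl s X') (fl s X, S) ≤ hc (fl s X') (fl r X', S) + K`,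
and `hc (fl1 j u) (fl s X, S) ≤ hc (fl s X') (fl s X, S) + K` with `j = s - B - 2w` (`time_le`); the
left side is `≥ (j - s1) b - small = (s - r) b - 2 w b - small`.  So
`hc (fl s π(X)) (fl r X, S) ≤ (f-1)(s-r) b + 2wb + small`, contradiction.
-/

namespace Vale.Agent.P127.Stk.R

open Finset Polynomial Vale.Agent.P127

theorem two_half (w : ℕ) : (2 : ℝ) ^ w * (1 / 2 : ℝ) ^ w = 1 := by
  rw [← mul_pow]; norm_num

theorem exists_of_prE {Ω : Type} [Fintype Ω] {Q : Law Ω} {E : Ω → Prop} (h : 0 < prE Q E) :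
    ∃ ω, 0 < Q.w ω ∧ E ω := by
  classical
  by_contra hcon
  push Not at hcon
  have : prE Q E = 0 := by
    unfold prE
    refine Finset.sum_eq_zero fun ω hω => ?_
    have hE := (Finset.mem_filter.1 hω).2
    rcases (Q.nn ω).eq_or_lt with h0 | h0
    · exact h0.symm
    · exact absurd hE (hcon ω h0)
  linarith

theorem bin_rel {n k w : ℕ} {t : ℝ} (h1 : (2 : ℝ) ^ t < 2 ^ w * (1 / 2 : ℝ) ^ (n + k * w)) :
    t < w - ((n + k * w : ℕ) : ℝ) := by
  have h2 : (2 : ℝ) ^ w * (1 / 2 : ℝ) ^ (n + k * w) =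
      (2 : ℝ) ^ ((w : ℝ) - ((n + k * w : ℕ) : ℝ)) := by
    rw [Real.rpow_sub (by norm_num), Real.rpow_natCast, one_div, inv_pow, Real.rpow_natCast]
    rfl
  rwa [h2, Real.rpow_lt_rpow_left_iff (by norm_num)] at h1

/-- the bins -/
theorem bins {m n w Kb : ℕ} (N : Fin m → ℝ) (hw : 0 < w) (t : ℝ)
    (hKb : ∀ k : ℕ, t < w - ((n + k * w : ℕ) : ℝ) → k < Kb)
    (hB : ∃ i, (2 : ℝ) ^ t < N i) (hA : ∀ i, N i ≤ 2 ^ w * (1 / 2 : ℝ) ^ n) :
    ∃ k i1, k < Kb ∧ (1 / 2 : ℝ) ^ (n + k * w) < N i1 ∧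
      ∀ i, N i ≤ 2 ^ w * (1 / 2 : ℝ) ^ (n + k * w) := by
  obtain ⟨i, hi⟩ := hB
  haveI : Nonempty (Fin m) := ⟨i⟩
  obtain ⟨i1, hi1⟩ := Finite.exists_max N
  have hpos : 0 < N i1 := by
    have h1 : (0 : ℝ) < (2 : ℝ) ^ t := Real.rpow_pos_of_pos (by norm_num) _
    exact (h1.trans hi).trans_le (hi1 i)
  have hex : ∃ k : ℕ, (1 / 2 : ℝ) ^ (n + k * w) < N i1 := by
    obtain ⟨k, hk⟩ := exists_pow_lt_of_lt_one hpos (show (1 / 2 : ℝ) < 1 by norm_num)
    refine ⟨k, lt_of_le_of_lt ?_ hk⟩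
    refine pow_le_pow_of_le_one (by norm_num) (by norm_num) ?_
    nlinarith
  classical
  set k := Nat.find hex with hk
  have hk1 : (1 / 2 : ℝ) ^ (n + k * w) < N i1 := Nat.find_spec hex
  have hk2 : N i1 ≤ 2 ^ w * (1 / 2 : ℝ) ^ (n + k * w) := by
    rcases Nat.eq_zero_or_pos k with h0 | h0
    · rw [h0, zero_mul, add_zero]
      exact hA i1
    · have h1 := Nat.find_min hex (show k - 1 < k by omega)
      rw [not_lt] at h1
      refine h1.trans (le_of_eq ?_)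
      have h2 : n + k * w = n + (k - 1) * w + w := by
        obtain ⟨k', hk'⟩ : ∃ k', k = k' + 1 := ⟨k - 1, by omega⟩
        rw [hk', Nat.add_sub_cancel]; ring
      rw [h2, pow_add _ _ w]
      calc (1 / 2 : ℝ) ^ (n + (k - 1) * w)
          = (1 / 2 : ℝ) ^ (n + (k - 1) * w) * ((2 : ℝ) ^ w * (1 / 2 : ℝ) ^ w) := by
            rw [two_half, mul_one]
        _ = _ := by ring
  exact ⟨k, i1, hKb k (bin_rel (hi.trans_le ((hi1 i).trans hk2))), hk1,
    fun i' => (hi1 i').trans hk2⟩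

/-- the number of bins -/
theorem bins_card {g L ε w n s : ℝ} {k Kb : ℕ} (hg0 : 0 < g) (hKb : Kb = ⌈1 / g⌉₊ + 2)
    (hw1 : g * L ≤ w) (hε : 0 ≤ ε * L) (hs : s ≤ n + L) (hw : 0 ≤ w)
    (h : -s + ε * L < w - (n + k * w)) : k < Kb := by
  have h3 : (k : ℝ) * w < L + w := by linarith only [hε, hs, h]
  have h4 : (k : ℝ) < 1 / g + 1 := by
    by_contra hcon
    push Not at hcon
    have h5 : (1 / g + 1) * w ≤ (k : ℝ) * w := mul_le_mul_of_nonneg_right hcon hw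
    have h6 : (L : ℝ) ≤ 1 / g * w := by
      rw [one_div, inv_mul_eq_div, le_div_iff₀ hg0]
      linarith only [hw1]
    linarith only [hε, hs, h, h5, h6]
  have h5 : (k : ℝ) < Kb := by
    have h6 := Nat.le_ceil (1 / g)
    rw [hKb]
    push_cast
    linarith only [h4, h6]
  exact_mod_cast h5

/-- (a), deterministic part -/
theorem small_eval {m n s w j D C0 : ℕ} {x x' : Fin m → ℝ} {e y : ℝ} {i : Fin m} (hns : n ≤ s)
    (hfl : fl n x = fl n x') (hX : |x' i - x i + e| ≤ C0 * (1 / 2 : ℝ) ^ s)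
    (hjc : (((2 + C0) * (D + 1 + 1) : ℕ) : ℝ) * 2 ^ ((j + 1) * (D + 1)) ≤ 2 ^ w)
    (hy : (2 : ℝ) ^ w * (1 / 2 : ℝ) ^ n < y) :
    |e| * ((((D + 1 : ℕ) : ℝ) + 1) * 2 ^ ((j + 1) * (D + 1))) < y := by
  have h1 : |e| ≤ (1 + C0) * (1 / 2 : ℝ) ^ n := by
    have a2 : |x' i - x i| ≤ (1 / 2 : ℝ) ^ n := by
      have b1 : ⌊(2 : ℝ) ^ n * x i⌋ = ⌊(2 : ℝ) ^ n * x' i⌋ := congrFun hfl i
      have b2 := Int.abs_sub_lt_one_of_floor_eq_floor b1.symm
      rw [← mul_sub, abs_mul, abs_of_pos (show (0 : ℝ) < 2 ^ n by positivity)] at b2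
      rw [one_div, inv_pow, ← one_div, le_div_iff₀ (by positivity)]
      linarith only [b2]
    have a3 : (1 / 2 : ℝ) ^ s ≤ (1 / 2 : ℝ) ^ n :=
      pow_le_pow_of_le_one (by norm_num) (by norm_num) hns
    have a4 : e = (x' i - x i + e) - (x' i - x i) := by ring
    rw [a4]
    refine (abs_sub _ _).trans ?_
    have a5 : (C0 : ℝ) * (1 / 2 : ℝ) ^ s ≤ C0 * (1 / 2 : ℝ) ^ n :=
      mul_le_mul_of_nonneg_left a3 (Nat.cast_nonneg _)
    linarith only [hX, a2, a5]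
  refine lt_of_le_of_lt ?_ hy
  calc |e| * ((((D + 1 : ℕ) : ℝ) + 1) * 2 ^ ((j + 1) * (D + 1)))
      ≤ ((1 + C0) * (1 / 2 : ℝ) ^ n) * ((((D + 1 : ℕ) : ℝ) + 1) * 2 ^ ((j + 1) * (D + 1))) :=
        mul_le_mul_of_nonneg_right h1 (by positivity)
    _ ≤ ((((2 + C0) * (D + 1 + 1) : ℕ) : ℝ) * 2 ^ ((j + 1) * (D + 1))) * (1 / 2 : ℝ) ^ n := by
        push_cast
        have : (0 : ℝ) ≤ (1 / 2 : ℝ) ^ n * ((((D : ℝ) + 1) + 1) * 2 ^ ((j + 1) * (D + 1))) := by
          (clear * -; positivity)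
        nlinarith only [this]
    _ ≤ 2 ^ w * (1 / 2 : ℝ) ^ n := mul_le_mul_of_nonneg_right hjc (by positivity)

/-- (d), deterministic part -/
theorem slope_low {w j D C0 B : ℕ} {y N N' : ℝ} (hy0 : 0 ≤ y) (h1 : (1 / 2 : ℝ) ^ B < N)
    (h4 : N ≤ 2 * N')
    (hjc : (((2 + C0) * (D + 1 + 1) : ℕ) : ℝ) * 2 ^ ((j + 1) * (D + 1)) ≤ 2 ^ w)
    (h2 : N' ≤ y * ((((D + 1 : ℕ) : ℝ) + 1) * 2 ^ ((j + 1) * (D + 1)))) :
    (1 / 2 : ℝ) ^ (B + w) ≤ y := by
  have h5 : (1 / 2 : ℝ) ^ B ≤ y * 2 ^ w := by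
    calc (1 / 2 : ℝ) ^ B ≤ 2 * (y * ((((D + 1 : ℕ) : ℝ) + 1) * 2 ^ ((j + 1) * (D + 1)))) := by
          linarith
      _ ≤ y * ((((2 + C0) * (D + 1 + 1) : ℕ) : ℝ) * 2 ^ ((j + 1) * (D + 1))) := by
          push_cast
          have : (0 : ℝ) ≤ C0 * (y * (((D : ℝ) + 1 + 1) * 2 ^ ((j + 1) * (D + 1)))) := by
            (clear * - hy0; positivity)
          linarith
      _ ≤ y * 2 ^ w := mul_le_mul_of_nonneg_left hjc hy0
  calc (1 / 2 : ℝ) ^ (B + w) = (1 / 2 : ℝ) ^ B * (1 / 2 : ℝ) ^ w := pow_add _ _ _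
    _ ≤ (y * 2 ^ w) * (1 / 2 : ℝ) ^ w := mul_le_mul_of_nonneg_right h5 (by positivity)
    _ = y * ((2 : ℝ) ^ w * (1 / 2 : ℝ) ^ w) := by ring
    _ = y := by rw [two_half, mul_one]

/-- pigeonhole on the bins -/
theorem pigeon_bins {Ω : Type} [Fintype Ω] (Q : Law Ω) (m Kb : ℕ) (p p1 : ℝ) (hKb : 1 ≤ Kb)
    (hp1 : p1 * (2 * Kb * (m + 1)) = p) (hp1pos : 0 < p1) (Bad : Ω → Prop)
    (A : Fin m → Ω → Prop) (E0 : ℕ → Fin m → Ω → Prop) (hbad : p < prE Q Bad)
    (hA : ∀ i, prE Q (A i) ≤ p1 / 2)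
    (hcov : ∀ ω, 0 < Q.w ω → Bad ω → (∃ i, A i ω) ∨ ∃ k i1, k < Kb ∧ E0 k i1 ω) :
    ∃ k i1, p1 ≤ prE Q (E0 k i1) := by
  have hsum := prE_le_sum Q ((univ : Finset (Fin m)).disjSum (range Kb ×ˢ univ))
    (Sum.elim A (fun t => E0 t.1 t.2) : Fin m ⊕ (ℕ × Fin m) → Ω → Prop) Bad (by
      intro ω hω hB
      rcases hcov ω hω hB with ⟨i, hi⟩ | ⟨k, i1, hk, h⟩
      · exact ⟨Sum.inl i, by simp only [inl_mem_disjSum, mem_univ], hi⟩
      · refine ⟨Sum.inr (k, i1), ?_, h⟩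
        rw [Finset.inr_mem_disjSum, Finset.mem_product, Finset.mem_range]
        exact ⟨hk, Finset.mem_univ _⟩)
  rw [Finset.sum_disjSum] at hsum
  simp only [Sum.elim_inl, Sum.elim_inr] at hsum
  have hKb1 : (1 : ℝ) ≤ Kb := by exact_mod_cast hKb
  have hmR : (0 : ℝ) ≤ m := Nat.cast_nonneg _
  have hsA : ∑ i, prE Q (A i) ≤ m * (p1 / 2) := by
    refine (Finset.sum_le_card_nsmul _ _ _ fun i _ => hA i).trans (le_of_eq ?_)
    rw [Finset.card_univ, Fintype.card_fin, nsmul_eq_mul]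
  by_contra hcon
  push Not at hcon
  have h1 : ∑ t ∈ range Kb ×ˢ (univ : Finset (Fin m)), prE Q (E0 t.1 t.2) ≤
      (Kb * m) * p1 := by
    refine (Finset.sum_le_card_nsmul _ _ p1 fun t _ => (hcon t.1 t.2).le).trans (le_of_eq ?_)
    rw [Finset.card_product, Finset.card_range, Finset.card_univ, Fintype.card_fin,
      nsmul_eq_mul]
    push_cast
    ring
  have h2 : p < m * (p1 / 2) + Kb * m * p1 := lt_of_lt_of_le hbad (by linarith only [hsum, hsA, h1])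
  have h3 : (m : ℝ) * (p1 / 2) ≤ Kb * m * p1 := by
    have : (m : ℝ) * p1 * 1 ≤ m * p1 * Kb := mul_le_mul_of_nonneg_left hKb1 (by (clear * - hp1pos; positivity))
    have h4 : 0 ≤ (m : ℝ) * p1 := by (clear * - hp1pos; positivity)
    linarith only [this, h4]
  have h4 : p = 2 * (Kb * m * p1) + 2 * (Kb * p1) := by rw [← hp1]; ring
  have h5 : 0 < Kb * p1 := by positivity
  linarith only [hp1, hbad, hsum, hsA, h1, h3, h5]

/-- pigeonhole on the index of the maximal slope -/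
theorem pigeon_slope {Ω : Type} [Fintype Ω] (Q : Law Ω) (m : ℕ) (p1 p0 : ℝ)
    (hp0 : p0 * (2 * (m + 1)) = p1) (hp0pos : 0 < p0) (F Rd : Ω → Prop)
    (E : Fin m → Ω → Prop) (hF : p1 ≤ prE Q F) (hRd : prE Q Rd ≤ p1 / 2)
    (hcov : ∀ ω, 0 < Q.w ω → F ω → Rd ω ∨ ∃ i, E i ω) : ∃ i0, p0 ≤ prE Q (E i0) := by
  by_contra hcon
  push Not at hcon
  have h1 := prE_le_sum Q (univ : Finset (Option (Fin m)))
    (fun o => Option.elim o Rd E) F (by
      intro ω hω h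
      rcases hcov ω hω h with h1 | ⟨i, h1⟩
      · exact ⟨none, Finset.mem_univ _, h1⟩
      · exact ⟨some i, Finset.mem_univ _, h1⟩)
  rw [Fintype.sum_option] at h1
  simp only [Option.elim_none, Option.elim_some] at h1
  have h2 : ∑ i, prE Q (E i) ≤ m * p0 := by
    refine (Finset.sum_le_card_nsmul _ _ _ fun i _ => (hcon i).le).trans (le_of_eq ?_)
    rw [Finset.card_univ, Fintype.card_fin, nsmul_eq_mul]
  have h4 : p1 = 2 * (m * p0) + 2 * p0 := by rw [← hp0]; ring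
  linarith only [hp0, hp0pos, hF, hRd, h1, h2]

/-- the choice of the scales -/
theorem scales {n s B w : ℕ} {L ε : ℝ} (hnB : n ≤ B) (hBs : (B : ℝ) < s - ε * L + w)
    (hw : 4 * (w : ℝ) ≤ ε * L) (hw1 : 1 ≤ w) (hε8 : 8 ≤ ε * L) :
    ∃ s1 r j2 : ℕ, s + w ≤ B + 2 * s1 ∧ w ≤ s1 ∧ B + s1 = r + w ∧ n ≤ r ∧ r ≤ s ∧
      j2 + (B + w) = s ∧ ε / 8 * L ≤ (s : ℝ) - r ∧ (j2 : ℝ) ≤ s - n + ε * L := by
  have hnBR : (n : ℝ) ≤ B := by exact_mod_cast hnB
  have hwR : (0 : ℝ) ≤ w := Nat.cast_nonneg _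
  have hBsN : B + w ≤ s := by
    have : ((B + w : ℕ) : ℝ) ≤ s := by push_cast; linarith only [hBs, hw]
    exact_mod_cast this
  set s1 : ℕ := (s + w - B + 1) / 2 with hs1
  have hs1a : s + w ≤ B + 2 * s1 := by (clear * -; omega)
  have hs1b : B + 2 * s1 ≤ s + w + 1 := by (clear * - hw1 hBsN; omega)
  have hws1 : w ≤ s1 := by omega
  obtain ⟨r, hr⟩ : ∃ r, B + s1 = r + w := ⟨B + s1 - w, by omega⟩
  obtain ⟨j2, hj2⟩ : ∃ j2, j2 + (B + w) = s := ⟨s - (B + w), by omega⟩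
  have hrR : (B : ℝ) + s1 = r + w := by exact_mod_cast hr
  have hs1bR : (B : ℝ) + 2 * s1 ≤ s + w + 1 := by exact_mod_cast hs1b
  have hj2R : (j2 : ℝ) + (B + w) = s := by exact_mod_cast hj2
  refine ⟨s1, r, j2, hs1a, hws1, hr, by omega, by omega, hj2, ?_, ?_⟩
  · linarith only [hBs, hε8, hrR, hs1bR]
  · linarith only [hε8, hnBR, hj2R]

/-- the final comparison of constants -/
theorem final_const {g δ L w p0 ε2 K b : ℝ} (hδ : 0 < δ) (hL : 0 < L) (hb : 0 ≤ b) (hb1 : b ≤ 1)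
    (hw0 : 0 ≤ w) (hw : w ≤ 2 * g * L) (hg : g ≤ δ / 32) (hp0 : 0 < p0)
    (hε : ε2 ≤ δ / (8 * (2 / p0 + 1))) (hL3 : (2 / p0 * b + K) * 8 / δ ≤ L) :
    2 * w * b + (2 / p0 + 1) * ε2 * L + 2 / p0 * b + K ≤ δ * L := by
  have f1 : 2 * w * b ≤ δ * L / 8 := by
    have h1 : 2 * w * b ≤ 2 * w * 1 := mul_le_mul_of_nonneg_left hb1 (by (clear * - hw0; positivity))
    have h2 : g * L ≤ δ / 32 * L := mul_le_mul_of_nonneg_right hg hL.le
    linarith only [hw, h1, h2]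
  have f2 : (2 / p0 + 1) * ε2 * L ≤ δ * L / 8 := by
    have h0 : 0 < 2 / p0 + 1 := by positivity
    have h1 : (2 / p0 + 1) * ε2 ≤ δ / 8 := by
      rw [le_div_iff₀ (by positivity)] at hε
      linarith only [hε]
    have := mul_le_mul_of_nonneg_right h1 hL.le
    linarith only [this]
  have f3 : 2 / p0 * b + K ≤ δ * L / 8 := by
    rw [div_le_iff₀ hδ] at hL3
    linarith only [hL3]
  have f4 : 0 < δ * L := by positivity
  linarith only [f1, f2, f3, f4]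

/-- the abstract core of section 9 -/
theorem coreR (m D C0 : ℕ) (ε1 p δ : ℝ) (hε : 0 < ε1) (hp : 0 < p) (hδ : 0 < δ) :
    ∃ p0 : ℝ, 0 < p0 ∧ ∃ ε2 : ℝ, 0 < ε2 ∧ ∃ L0 : ℕ, ∀ L n s : ℕ, L0 ≤ L → n ≤ s → s ≤ n + L →
      ∀ (Ω : Type) [Fintype Ω] (Q : Law Ω) (τ : Type) (σ : Ω → τ) (f : ℝ) (J : Finset (Fin m))
        (u : Ω → ℝ) (X X' : Ω → Fin m → ℝ) (pol : Ω → Fin m → ℝ[X]),
        (∀ ω, 0 < Q.w ω → 0 ≤ u ω ∧ u ω < 1) →
        Fn Q pol σ →
        (∀ ω, 0 < Q.w ω → ∀ i, (pol ω i).natDegree ≤ D) →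
        (∀ ω, 0 < Q.w ω → ∀ i ∈ J, pol ω i = 0) →
        (∀ ω, 0 < Q.w ω → ∃ v : ℝ, 0 ≤ v ∧ v ≤ 1 ∧ ∀ i, (pol ω i).eval v = 0) →
        (∀ ω, 0 < Q.w ω → fl n (X ω) = fl n (X' ω)) →
        (∀ ω, 0 < Q.w ω → ∀ i,
          |X' ω i - X ω i + (pol ω i).eval (u ω)| ≤ C0 * (1 / 2 : ℝ) ^ s) →
        (∀ E : Ω → Prop, p0 ≤ prE Q E → ∀ r : ℕ, n ≤ r → r ≤ s →
          hc (on Q E) (fun ω => fl s (X' ω)) (fun ω => (fl r (X' ω), σ ω)) ≤
            f * ((s : ℝ) - r) * Real.log 2 + ε2 * L) →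
        (∀ j : ℕ, (j : ℝ) ≤ (s : ℝ) - n + ε1 * L →
          (j : ℝ) * Real.log 2 - ε2 * L ≤
            hc Q (fun ω => fl1 j (u ω)) (fun ω => (fl s (X ω), σ ω))) →
        (∀ E : Ω → Prop, p0 ≤ prE Q E → ∀ r j : ℕ, n ≤ r → ε1 / 8 * L ≤ (s : ℝ) - r →
          ∀ i0 ∉ J, ∀ v : Ω → Fin m → ℝ, Fn (on Q E) v (fun ω => (σ ω, fl1 j (u ω))) →
            (∀ ω, 0 < (on Q E).w ω → v ω i0 = 1) →
            (∀ ω, 0 < (on Q E).w ω → ∀ i ∈ J, v ω i = 0) →
            (∀ ω, 0 < (on Q E).w ω → ∀ i, |v ω i| ≤ 1) →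
            (f - 1) * ((s : ℝ) - r) * Real.log 2 + δ * L <
              hc (on Q E) (fun ω => fl s (fun i => X ω i - X ω i0 * v ω i))
                (fun ω => (fl r (X ω), σ ω, fl1 j (u ω)))) →
        prE Q (fun ω => ∃ i, (2 : ℝ) ^ (-(s : ℝ) + ε1 * L) < pn (pol ω i)) ≤ p := by
  classical
  obtain ⟨K, hK0, hK⟩ := core_bin m D C0
  have hlog : 0 < Real.log 2 := Real.log_pos (by norm_num)
  have hlog1 : Real.log 2 ≤ 1 := by
    have := Real.log_le_sub_one_of_pos (show (0 : ℝ) < 2 by norm_num)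
    linarith
  -- constants
  obtain ⟨g, hg0, hg1, hg2⟩ : ∃ g : ℝ, 0 < g ∧ g ≤ ε1 / 8 ∧ g ≤ δ / 32 :=
    ⟨min (ε1 / 8) (δ / 32), lt_min (by positivity) (by positivity), min_le_left _ _,
      min_le_right _ _⟩
  obtain ⟨Kb, hKb⟩ : ∃ Kb : ℕ, Kb = ⌈1 / g⌉₊ + 2 := ⟨_, rfl⟩
  have hKb1 : 1 ≤ Kb := by omega
  have hKbpos : (0 : ℝ) < Kb := by exact_mod_cast hKb1
  obtain ⟨p1, hp1pos, hp1⟩ : ∃ p1 : ℝ, 0 < p1 ∧ p1 * (2 * Kb * (m + 1)) = p :=
    ⟨p / (2 * Kb * (m + 1)), by (clear * - hp hKb1; positivity), div_mul_cancel₀ _ (by (clear * - hKb1; positivity))⟩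
  obtain ⟨p0, hp0pos, hp0⟩ : ∃ p0 : ℝ, 0 < p0 ∧ p0 * (2 * (m + 1)) = p1 :=
    ⟨p1 / (2 * (m + 1)), by (clear * - hp1pos; positivity), div_mul_cancel₀ _ (by positivity)⟩
  obtain ⟨εl, hεl0, L1, hL1⟩ := level (D + 1) ((2 + C0) * (D + 1 + 1)) (by omega) g (p1 / 2) hg0
    (by (clear * - hp1pos; positivity))
  obtain ⟨ε2, he0, he1, he2⟩ : ∃ ε2 : ℝ, 0 < ε2 ∧ ε2 ≤ εl ∧ ε2 ≤ δ / (8 * (2 / p0 + 1)) :=
    ⟨min εl (δ / (8 * (2 / p0 + 1))), lt_min hεl0 (by positivity), min_le_left _ _,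
      min_le_right _ _⟩
  obtain ⟨L2, hL2⟩ := exists_nat_ge (1 / g)
  obtain ⟨L3, hL3⟩ := exists_nat_ge ((2 / p0 * Real.log 2 + K) * 8 / δ)
  refine ⟨p0, hp0pos, ε2, he0, max L1 (max L2 L3), ?_⟩
  intro L n s hL hns hsn Ω _ Q τ σ f J u X X' pol hu hpol hdeg hJ hroot hfl hX H1 H2 H3
  have hLL1 : L1 ≤ L := (le_max_left _ _).trans hL
  have hLL2 : (1 / g : ℝ) ≤ L := hL2.trans (by
    exact_mod_cast (le_max_left _ _).trans ((le_max_right _ _).trans hL))
  have hLL3 : ((2 / p0 * Real.log 2 + K) * 8 / δ : ℝ) ≤ L := hL3.trans (by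
    exact_mod_cast (le_max_right _ _).trans ((le_max_right _ _).trans hL))
  have hgL : 1 ≤ g * L := by
    rw [div_le_iff₀ hg0] at hLL2
    linarith only [hLL2]
  obtain ⟨w, hw1, hw2⟩ : ∃ w : ℕ, g * L ≤ w ∧ (w : ℝ) ≤ 2 * g * L := by
    refine ⟨⌈g * L⌉₊, Nat.le_ceil _, ?_⟩
    have := Nat.ceil_lt_add_one (show 0 ≤ g * (L : ℝ) by linarith only [hgL])
    linarith only [hgL, this]
  have hLpos : (0 : ℝ) < L := by
    have : 0 < 1 / g := by positivity
    linarith only [hLL2, this]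
  have hgε : g * L ≤ ε1 / 8 * L := mul_le_mul_of_nonneg_right hg1 hLpos.le
  have hwε : 4 * (w : ℝ) ≤ ε1 * L := by linarith only [hw2, hgε]
  have hε8 : 8 ≤ ε1 * L := by linarith only [hgL, hgε]
  have hwpos : 1 ≤ w := by
    have : (0 : ℝ) < w := by linarith only [hgL, hw1]
    exact_mod_cast this
  obtain ⟨j, hjw, hjc, hjq⟩ := hL1 L w hLL1 hw1
  have hnsR : (n : ℝ) ≤ s := by exact_mod_cast hns
  have hsnR : (s : ℝ) ≤ n + L := by exact_mod_cast hsn
  have hjwR : (j : ℝ) ≤ w := by exact_mod_cast hjw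
  have hwR : (0 : ℝ) ≤ w := Nat.cast_nonneg _
  -- rare events
  have hrare : ∀ (P : Ω → ℝ[X]) (v : Ω → ℝ), (∀ ω, 0 < Q.w ω → 0 ≤ v ω ∧ v ω < 1) →
      (∀ ω, 0 < Q.w ω → fl1 j (v ω) = fl1 j (u ω)) → Fn Q P σ →
      (∀ ω, 0 < Q.w ω → (P ω).natDegree ≤ D + 1) → ∀ E : Ω → Prop,
      (∀ ω, 0 < Q.w ω → E ω →
        |(P ω).eval (v ω)| * ((((D + 1 : ℕ) : ℝ) + 1) * 2 ^ ((j + 1) * (D + 1))) < pn (P ω)) →
      prE Q E ≤ p1 / 2 := by
    intro P v hv hvu hP hd E hE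
    have h1 := rare_poly (D + 1) (by omega) Q σ P u v j hu hv hvu hP hd E hE
    refine hjq _ ε2 he1 (h1.trans ?_)
    have h2 := H2 j (by linarith only [hw2, hgε, hnsR, hjwR])
    have h3 := hc_mono_right Q (fun ω => fl1 j (u ω)) (Y := σ)
      (Y' := fun ω => (fl s (X ω), σ ω)) (fun ω ω' _ _ e => congrArg Prod.snd e)
    linarith only [h2, h3]
  by_contra hbad
  push Not at hbad
  obtain ⟨k, i1, hki⟩ := pigeon_bins Q m Kb p p1 hKb1 hp1 hp1pos
    (fun ω => ∃ i, (2 : ℝ) ^ (-(s : ℝ) + ε1 * L) < pn (pol ω i))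
    (fun i ω => (2 : ℝ) ^ w * (1 / 2 : ℝ) ^ n < pn (pol ω i))
    (fun k i1 ω => (∃ i, (2 : ℝ) ^ (-(s : ℝ) + ε1 * L) < pn (pol ω i)) ∧
      (1 / 2 : ℝ) ^ (n + k * w) < pn (pol ω i1) ∧
      ∀ i, pn (pol ω i) ≤ 2 ^ w * (1 / 2 : ℝ) ^ (n + k * w)) hbad
    (fun i => hrare (fun ω => pol ω i) u hu (fun _ _ => rfl)
      (fun ω ω' h1 h2 e => congrFun (hpol ω ω' h1 h2 e) i)
      (fun ω hω => (hdeg ω hω i).trans (by (clear * -; omega))) _
      (fun ω hω hA => small_eval hns (hfl ω hω) (hX ω hω i) hjc hA))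
    (by
      intro ω hω hB
      by_cases hAA : ∃ i, (2 : ℝ) ^ w * (1 / 2 : ℝ) ^ n < pn (pol ω i)
      · exact Or.inl hAA
      · push Not at hAA
        obtain ⟨k, i1, h1, h2, h3⟩ := bins (Kb := Kb) (fun i => pn (pol ω i)) hwpos
          (-(s : ℝ) + ε1 * L) (fun k hk => by
            push_cast at hk
            exact bins_card hg0 hKb hw1 (by linarith only [hgL, hgε]) hsnR hwR hk) hB hAA
        exact Or.inr ⟨k, i1, h1, hB, h2, h3⟩)
  obtain ⟨ω0, _, ⟨i, hi⟩, _, hω0⟩ := exists_of_prE (hp1pos.trans_le hki)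
  have hBs := bin_rel (hi.trans_le (hω0 i))
  obtain ⟨B, hB⟩ : ∃ B : ℕ, B = n + k * w := ⟨_, rfl⟩
  rw [← hB] at hBs
  simp only [← hB] at hki
  have hnB : n ≤ B := by omega
  obtain ⟨s1, r, j2, hs1, hws1, hr, hnr, hrs, hj2, hsr, hj2R⟩ :=
    scales (n := n) (s := s) (B := B) (w := w) (L := L) (ε := ε1) hnB (by linarith only [hBs]) hwε hwpos hε8
  -- (d)
  have hRdp : prE Q (fun ω => |(pol ω i1).derivative.eval (rd s1 (u ω))| *
      ((((D + 1 : ℕ) : ℝ) + 1) * 2 ^ ((j + 1) * (D + 1))) < pn (pol ω i1).derivative) ≤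
      p1 / 2 := by
    refine hrare (fun ω => (pol ω i1).derivative) (fun ω => rd s1 (u ω))
      (fun ω hω => ⟨rd_nonneg (hu ω hω).1, rd_le.trans_lt (hu ω hω).2⟩)
      (fun ω hω => fl1_rd (hjw.trans hws1) (u ω))
      (fun ω ω' h1 h2 e => by
        have := hpol ω ω' h1 h2 e
        simp only [this])
      (fun ω hω => ?_) _ (fun ω _ h => h)
    have h1 := Polynomial.natDegree_derivative_le (pol ω i1)
    have h2 := hdeg ω hω i1
    omega
  obtain ⟨i0, hi0⟩ := pigeon_slope Q m p1 p0 hp0 hp0pos _ _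
    (fun i0 ω => ((1 / 2 : ℝ) ^ B < pn (pol ω i1) ∧
      ∀ i, pn (pol ω i) ≤ 2 ^ w * (1 / 2 : ℝ) ^ B) ∧
      pn (pol ω i1).derivative ≤ |(pol ω i1).derivative.eval (rd s1 (u ω))| *
        ((((D + 1 : ℕ) : ℝ) + 1) * 2 ^ ((j + 1) * (D + 1))) ∧
      ∀ i, |(pol ω i).derivative.eval (rd s1 (u ω))| ≤
        |(pol ω i0).derivative.eval (rd s1 (u ω))|) hki hRdp (by
      intro ω hω h
      by_cases hR : |(pol ω i1).derivative.eval (rd s1 (u ω))| *
          ((((D + 1 : ℕ) : ℝ) + 1) * 2 ^ ((j + 1) * (D + 1))) < pn (pol ω i1).derivative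
      · exact Or.inl hR
      · haveI : Nonempty (Fin m) := ⟨i1⟩
        obtain ⟨i0, hi0⟩ := Finite.exists_max
          (fun i => |(pol ω i).derivative.eval (rd s1 (u ω))|)
        exact Or.inr ⟨i0, h.2, not_lt.1 hR, hi0⟩)
  -- lower bound for the slope
  have hlow : ∀ ω, 0 < Q.w ω → (((1 / 2 : ℝ) ^ B < pn (pol ω i1) ∧
      ∀ i, pn (pol ω i) ≤ 2 ^ w * (1 / 2 : ℝ) ^ B) ∧
      pn (pol ω i1).derivative ≤ |(pol ω i1).derivative.eval (rd s1 (u ω))| *
        ((((D + 1 : ℕ) : ℝ) + 1) * 2 ^ ((j + 1) * (D + 1))) ∧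
      ∀ i, |(pol ω i).derivative.eval (rd s1 (u ω))| ≤
        |(pol ω i0).derivative.eval (rd s1 (u ω))|) → (1 / 2 : ℝ) ^ (B + w) ≤
      |(pol ω i0).derivative.eval (rd s1 (u ω))| := by
    intro ω hω hEω
    obtain ⟨⟨h1, _⟩, h2, h3⟩ := hEω
    refine le_trans ?_ (h3 i1)
    obtain ⟨v, hv0, hv1, hv⟩ := hroot ω hω
    exact slope_low (abs_nonneg _) h1 (pn_le_derivative (pol ω i1) hv0 hv1 (hv i1)) hjc h2
  have hi0J : i0 ∉ J := by
    intro hcon
    obtain ⟨ω, hω, hEω⟩ := exists_of_prE (hp0pos.trans_le hi0)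
    have h1 := hlow ω hω hEω
    rw [hJ ω hω i0 hcon] at h1
    simp only [derivative_zero, eval_zero, abs_zero] at h1
    have : (0 : ℝ) < (1 / 2 : ℝ) ^ (B + w) := by positivity
    linarith only [h1, this]
  have hfin := hK L n s w B s1 r j2 f δ ε2 p0 Ω Q τ σ J u X X' pol _ i0 hp0pos hi0 hs1 hr hj2
    hrs hu hpol hdeg hJ hX (fun ω _ h => h.1.2) hlow (fun ω _ h => h.2.2)
    (H1 _ hi0 r hnr hrs) (H2 j2 hj2R)
    (fun v h1 h2 h3 h4 => H3 _ hi0 r s1 hnr hsr i0 hi0J v h1 h2 h3 h4)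
  have hcmp := final_const hδ hLpos hlog.le hlog1 hwR hw2 hg2 hp0pos he2 hLL3
  linarith only [hfin, hcmp]

end Vale.Agent.P127.Stk.R
end

section

/-!
# P127 / Stk : sums and differences (Madiman, Ruzsa, Balog-Szemeredi-Gowers, the swap trick)

Everything is conditional on a variable `C` and carries explicit error terms.
-/

namespace Vale.Agent.P127.Stk.Add

open Finset Vale.Agent.P127 Vale.Agent.P127.Stk

variable {Ω : Type} [Fintype Ω] {S T U V W : Type*}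

/-- submodularity for variables determined by others -/
theorem sub2 (P : Law Ω) (X : Ω → S) (Y : Ω → T) (M : Ω → U) (J : Ω → V)
    (h1 : ∀ ω ω', X ω = X ω' → M ω = M ω') (h2 : ∀ ω ω', Y ω = Y ω' → M ω = M ω')
    (h3 : ∀ ω ω', X ω = X ω' → Y ω = Y ω' → J ω = J ω') :
    P.H J + P.H M ≤ P.H X + P.H Y := by
  have h := P.submod X Y M
  have e1 : P.H (fun ω => (X ω, M ω)) ≤ P.H X := P.H_mono fun ω ω' e => by
    rw [e, h1 ω ω' e]
  have e2 : P.H (fun ω => (Y ω, M ω)) ≤ P.H Y := P.H_mono fun ω ω' e => by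
    rw [e, h2 ω ω' e]
  have e3 : P.H J ≤ P.H (fun ω => (X ω, Y ω, M ω)) := P.H_mono fun ω ω' e => by
    simp only [Prod.mk.injEq] at e
    exact h3 ω ω' e.1 e.2.1
  linarith

/-- monotonicity of the conditional entropy in the first variable -/
theorem hc_mono (P : Law Ω) {X : Ω → S} {Y : Ω → T} {C : Ω → U}
    (h : ∀ ω ω', X ω = X ω' → C ω = C ω' → Y ω = Y ω') : hc P Y C ≤ hc P X C := by
  unfold hc
  have : P.H (fun ω => (Y ω, C ω)) ≤ P.H (fun ω => (X ω, C ω)) := P.H_mono fun ω ω' e => by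
    simp only [Prod.mk.injEq] at e
    rw [h ω ω' e.1 e.2, e.2]
  linarith only [this]

/-- equality of conditional entropies -/
theorem hc_eq (P : Law Ω) {X : Ω → S} {Y : Ω → T} {C : Ω → U}
    (h : ∀ ω ω', C ω = C ω' → (X ω = X ω' ↔ Y ω = Y ω')) : hc P Y C = hc P X C :=
  le_antisymm (hc_mono P fun ω ω' h1 h2 => (h ω ω' h2).1 h1)
    (hc_mono P fun ω ω' h1 h2 => (h ω ω' h2).2 h1)

/-- more information in the condition -/
theorem hc_anti (P : Law Ω) {X : Ω → S} {C : Ω → T} {D : Ω → U}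
    (h : ∀ ω ω', C ω = C ω' → D ω = D ω') : hc P X C ≤ hc P X D := by
  unfold hc
  have := sub2 P (fun ω => (X ω, D ω)) C D (fun ω => (X ω, C ω))
    (fun ω ω' e => by simp only [Prod.mk.injEq] at e; exact e.2) h
    (fun ω ω' e1 e2 => by simp only [Prod.mk.injEq] at e1; rw [e1.1, e2])
  linarith only [this]

/-- chain rule -/
theorem hc_chain (P : Law Ω) (X : Ω → S) (Y : Ω → T) (C : Ω → U) :
    hc P (fun ω => (X ω, Y ω)) C = hc P X (fun ω => (Y ω, C ω)) + hc P Y C := by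
  unfold hc
  have : P.H (fun ω => ((X ω, Y ω), C ω)) = P.H (fun ω => (X ω, (Y ω, C ω))) :=
    P.H_congr fun ω ω' => by simp only [Prod.mk.injEq, and_assoc]
  rw [this]
  ring

/-- subadditivity -/
theorem hc_pair_le (P : Law Ω) (X : Ω → S) (Y : Ω → T) (C : Ω → U) :
    hc P (fun ω => (X ω, Y ω)) C ≤ hc P X C + hc P Y C := by
  rw [hc_chain]
  have := hc_anti P (X := X) (C := fun ω => (Y ω, C ω)) (D := C)
    (fun ω ω' e => by simp only [Prod.mk.injEq] at e; exact e.2)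
  linarith

/-- conditional submodularity for variables determined by others -/
theorem csub (P : Law Ω) (X : Ω → S) (Y : Ω → T) (M : Ω → U) (J : Ω → V) (C : Ω → W)
    (h1 : ∀ ω ω', X ω = X ω' → M ω = M ω') (h2 : ∀ ω ω', Y ω = Y ω' → M ω = M ω')
    (h3 : ∀ ω ω', X ω = X ω' → Y ω = Y ω' → J ω = J ω') :
    hc P J C + hc P M C ≤ hc P X C + hc P Y C := by
  unfold hc
  have := sub2 P (fun ω => (X ω, C ω)) (fun ω => (Y ω, C ω)) (fun ω => (M ω, C ω))
    (fun ω => (J ω, C ω))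
    (fun ω ω' e => by simp only [Prod.mk.injEq] at e; rw [h1 ω ω' e.1, e.2])
    (fun ω ω' e => by simp only [Prod.mk.injEq] at e; rw [h2 ω ω' e.1, e.2])
    (fun ω ω' e e' => by
      simp only [Prod.mk.injEq] at e e'
      rw [h3 ω ω' e.1 e'.1, e.2])
  linarith only [this]

section group

variable {G : Type*} [AddCommGroup G] (P : Law Ω) (X Y Z : Ω → G) (C : Ω → W) {δ : ℝ}

/-- `H(X|C) - I(X;Y|C) ≤ H(X+Y|C)` in the form `H(X|Y,C) ≤ H(X+Y|C)` -/
theorem add_lower : hc P X (fun ω => (Y ω, C ω)) ≤ hc P (fun ω => X ω + Y ω) C := by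
  refine le_trans ?_ (hc_anti P (X := fun ω => X ω + Y ω) (C := fun ω => (Y ω, C ω)) (D := C)
    (fun ω ω' e => by simp only [Prod.mk.injEq] at e; exact e.2))
  refine hc_mono P fun ω ω' e1 e2 => ?_
  simp only [Prod.mk.injEq] at e2
  rw [e2.1] at e1
  exact add_right_cancel e1

/-- the same with the mutual information -/
theorem add_lower' : hc P X C - mi P X Y C ≤ hc P (fun ω => X ω + Y ω) C := by
  have := add_lower P X Y C
  unfold mi
  linarith

/-- Madiman's inequality: `H(X+Y+Z)+H(Y) ≤ H(X+Y)+H(Y+Z)` for almost independent variables -/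
theorem madiman (hI : hc P X C + hc P Y C + hc P Z C - δ ≤ hc P (fun ω => (X ω, Y ω, Z ω)) C) :
    hc P (fun ω => X ω + Y ω + Z ω) C + hc P Y C ≤
      hc P (fun ω => X ω + Y ω) C + hc P (fun ω => Y ω + Z ω) C + δ := by
  have h := csub P (fun ω => (X ω + Y ω, Z ω)) (fun ω => (X ω, Y ω + Z ω))
    (fun ω => X ω + Y ω + Z ω) (fun ω => (X ω, Y ω, Z ω)) C
    (fun ω ω' e => by simp only [Prod.mk.injEq] at e; rw [e.1, e.2])
    (fun ω ω' e => by
      simp only [Prod.mk.injEq] at e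
      rw [add_assoc, add_assoc, e.1, e.2])
    (fun ω ω' e e' => by
      simp only [Prod.mk.injEq] at e e' ⊢
      refine ⟨e'.1, ?_, e.2⟩
      have := e.1
      rw [e'.1] at this
      exact add_left_cancel this)
  have h1 := hc_pair_le P (fun ω => X ω + Y ω) Z C
  have h2 := hc_pair_le P X (fun ω => Y ω + Z ω) C
  (clear * - hI h h1 h2; linarith)

/-- Balog-Szemeredi-Gowers: `(A₁,B₁)` and `(A₂,B₂)` with the same sum `Z`, almost conditionally
independent given the sum. -/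
theorem bsg (A₁ B₁ A₂ B₂ : Ω → G) (hs : ∀ ω, A₁ ω + B₁ ω = A₂ ω + B₂ ω)
    (hI : hc P (fun ω => (A₁ ω, B₁ ω)) C + hc P (fun ω => (A₂ ω, B₂ ω)) C
      - hc P (fun ω => A₁ ω + B₁ ω) C - δ ≤
      hc P (fun ω => ((A₁ ω, B₁ ω), (A₂ ω, B₂ ω))) C) :
    hc P (fun ω => A₁ ω - B₂ ω) C + hc P (fun ω => (A₁ ω, B₁ ω)) C
      + hc P (fun ω => (A₂ ω, B₂ ω)) C ≤
      hc P (fun ω => A₁ ω + B₁ ω) C + hc P A₁ C + hc P B₂ C + hc P B₁ C + hc P A₂ C + δ := by
  have h := csub P (fun ω => (A₁ ω, B₂ ω)) (fun ω => (B₁ ω, A₂ ω))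
    (fun ω => A₁ ω - B₂ ω) (fun ω => ((A₁ ω, B₁ ω), (A₂ ω, B₂ ω))) C
    (fun ω ω' e => by
      simp only [Prod.mk.injEq] at e
      rw [e.1, e.2])
    (fun ω ω' e => by
      simp only [Prod.mk.injEq] at e
      have : ∀ w, A₁ w - B₂ w = A₂ w - B₁ w := fun w => by
        have := hs w
        rw [sub_eq_sub_iff_add_eq_add]
        exact this
      rw [this ω, this ω', e.1, e.2])
    (fun ω ω' e e' => by
      simp only [Prod.mk.injEq] at e e' ⊢
      exact ⟨⟨e.1, e'.1⟩, e'.2, e.2⟩)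
  have h1 := hc_pair_le P A₁ B₂ C
  have h2 := hc_pair_le P B₁ A₂ C
  linarith

/-- the swap trick: replace `Y` by `Z` in the sum `X + Y` -/
theorem swap : hc P (fun ω => X ω + Z ω) C + hc P Y (fun ω => (X ω, Z ω, C ω)) ≤
    hc P (fun ω => X ω + Y ω) C + hc P (fun ω => Z ω - Y ω) C := by
  have h1 := hc_chain P (fun ω => X ω + Y ω) (fun ω => X ω + Z ω) C
  have h2 := hc_pair_le P (fun ω => X ω + Y ω) (fun ω => Z ω - Y ω) C
  have h3 : hc P (fun ω => (X ω + Y ω, X ω + Z ω)) C =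
      hc P (fun ω => (X ω + Y ω, Z ω - Y ω)) C := by
    refine hc_eq P fun ω ω' _ => ?_
    simp only [Prod.mk.injEq]
    constructor
    · rintro ⟨e1, e2⟩
      refine ⟨e1, ?_⟩
      have : ∀ w, X w + Z w = (X w + Y w) + (Z w - Y w) := fun w => by abel
      rw [this ω, this ω', e1, e2]
    · rintro ⟨e1, e2⟩
      refine ⟨e1, ?_⟩
      have : ∀ w, Z w - Y w = (X w + Z w) - (X w + Y w) := fun w => by abel
      rw [this ω, this ω', e1, e2]
  have h4 : hc P Y (fun ω => (X ω, Z ω, C ω)) ≤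
      hc P (fun ω => X ω + Y ω) (fun ω => (X ω + Z ω, C ω)) := by
    refine le_trans ?_ (hc_anti P (X := fun ω => X ω + Y ω) (C := fun ω => (X ω, Z ω, C ω))
      (D := fun ω => (X ω + Z ω, C ω)) (fun ω ω' e => by
        simp only [Prod.mk.injEq] at e ⊢
        rw [e.1, e.2.1]
        exact ⟨rfl, e.2.2⟩))
    refine hc_mono P fun ω ω' e1 e2 => ?_
    simp only [Prod.mk.injEq] at e2
    rw [e2.1] at e1
    exact add_left_cancel e1
  linarith

end group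

end Vale.Agent.P127.Stk.Add
end

section

/-!
# P127 / Stk / Abs : samples and extensions
-/

namespace Vale.Agent.P127.Stk.Abs

open Finset Vale.Agent.P127 Vale.Agent.P127.Stk

variable {Ω Ω' Ω'' : Type} [Fintype Ω] [Fintype Ω'] [Fintype Ω''] {S S' T U V : Type*}

theorem Smp.push {Q : Law Ω'} {p : Ω' → Ω} {P : Law Ω} (h : Smp Q p P) :
    Vale.Agent.P127.Stk.push Q p = P := law_ext fun ω => h ω

theorem Smp.pr {Q : Law Ω'} {p : Ω' → Ω} {P : Law Ω} (h : Smp Q p P) (f : Ω → S) (x : S) :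
    Q.pr (fun ω => f (p ω)) x = P.pr f x := by
  rw [← h.push, push_pr]
  rfl

theorem Smp.H {Q : Law Ω'} {p : Ω' → Ω} {P : Law Ω} (h : Smp Q p P) (f : Ω → S) :
    Q.H (fun ω => f (p ω)) = P.H f := by
  rw [← h.push, push_H]
  rfl

theorem Smp.hc {Q : Law Ω'} {p : Ω' → Ω} {P : Law Ω} (h : Smp Q p P) (f : Ω → S) (g : Ω → T) :
    hc Q (fun ω => f (p ω)) (fun ω => g (p ω)) = hc P f g := by
  rw [← h.push, push_hc]
  rfl

theorem Smp.mi {Q : Law Ω'} {p : Ω' → Ω} {P : Law Ω} (h : Smp Q p P) (f : Ω → S) (g : Ω → T)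
    (k : Ω → U) : mi Q (fun ω => f (p ω)) (fun ω => g (p ω)) (fun ω => k (p ω)) = mi P f g k := by
  unfold Vale.Agent.P127.Stk.mi
  rw [h.hc f k, h.hc f (fun ω => (g ω, k ω))]

theorem Smp.comp {Q : Law Ω''} {p : Ω'' → Ω'} {P : Law Ω'} {r : Ω' → Ω} {R : Law Ω}
    (h : Smp Q p P) (h' : Smp P r R) : Smp Q (fun ω => r (p ω)) R := fun ω => by
  rw [h.pr r ω]
  exact h' ω

theorem Smp.refl (P : Law Ω) : Smp P (fun ω => ω) P := pr_id P

/-- the information in terms of entropies -/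
theorem mi_eq (P : Law Ω) (X : Ω → S) (Y : Ω → T) (Z : Ω → U) :
    mi P X Y Z = P.H (fun ω => (X ω, Z ω)) + P.H (fun ω => (Y ω, Z ω)) -
      P.H (fun ω => (X ω, Y ω, Z ω)) - P.H Z := by
  unfold mi hc
  ring

/-- data processing, with the condition enlarged by functions of the two sides -/
theorem mi_zero_of {P : Law Ω} {X : Ω → S} {Y : Ω → T} {Z : Ω → U} {X' : Ω → S'} {Y' : Ω → V}
    (h : mi P X Y Z = 0) (hX : ∀ ω ω', X ω = X ω' → Z ω = Z ω' → X' ω = X' ω')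
    (hY : ∀ ω ω', Y ω = Y ω' → Z ω = Z ω' → Y' ω = Y' ω') : mi P X' Y' Z = 0 := by
  refine le_antisymm ?_ (mi_nonneg P _ _ _)
  rw [← h]
  refine (mi_mono_left P Y' (X' := X) ?_).trans (mi_mono_right P X (Y' := Y) ?_)
  · intro ω ω' _ _ e
    simp only [Prod.mk.injEq] at e
    exact hX ω ω' e.1 e.2
  · intro ω ω' _ _ e
    simp only [Prod.mk.injEq] at e
    exact hY ω ω' e.1 e.2

/-- a function of `X` may be moved to the condition -/
theorem mi_zero_cond {P : Law Ω} {X : Ω → S} {Y : Ω → T} {Z : Ω → U} {W : Ω → V}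
    (h : mi P X Y Z = 0) (hW : ∀ ω ω', X ω = X ω' → Z ω = Z ω' → W ω = W ω') :
    mi P X Y (fun ω => (W ω, Z ω)) = 0 := by
  refine le_antisymm ?_ (mi_nonneg P _ _ _)
  rw [← h]
  exact mi_cond_le P Y Z fun ω ω' _ _ e => by
    simp only [Prod.mk.injEq] at e
    exact hW ω ω' e.1 e.2

/-- existence of conditionally independent extensions -/
theorem pext : PExt := by
  intro Ω₁ Ω₂ _ _ γ P₁ P₂ c₁ c₂ h
  refine ⟨Law.GT c₁ c₂, inferInstance, Law.glue P₁ P₂ c₁ c₂ h, fun p => p.fst, fun p => p.snd,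
    fun ω => ?_, fun ω => ?_, fun ω => ω.eq, ?_⟩
  · rw [← pr_id P₁ ω]
    exact Law.glue_pr h id ω
  · rw [← pr_id P₂ ω]
    exact Law.glue_pr' h id ω
  · have h1 := Law.glue_indep h (fun a => a) (fun b => b)
    rw [mi_eq]
    have h2 : (Law.glue P₁ P₂ c₁ c₂ h).H (fun p => (p.fst, c₁ p.fst)) = P₁.H (fun a => (a, c₁ a)) :=
      Law.glue_H h (fun a => (a, c₁ a))
    have h3 : (Law.glue P₁ P₂ c₁ c₂ h).H (fun p => (p.snd, c₁ p.fst)) = P₂.H (fun a => (a, c₂ a)) := by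
      rw [← Law.glue_H' h (fun a => (a, c₂ a))]
      refine Law.H_congr _ fun ω ω' => ?_
      simp only [Prod.mk.injEq, ω.eq, ω'.eq]
    have h4 : (Law.glue P₁ P₂ c₁ c₂ h).H (fun p => c₁ p.fst) = P₁.H c₁ := Law.glue_H h c₁
    rw [h2, h3, h4, h1]
    ring

end Vale.Agent.P127.Stk.Abs
end

section

/-!
# P127 / Stk / Abs : the iteration and the assembly of the absorption lemma
-/

namespace Vale.Agent.P127.Stk.Abs

open Finset Vale.Agent.P127 Vale.Agent.P127.Stk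

section

variable {Ω : Type} [Fintype Ω] {β κ : Type} {d : ℕ} {P : Law Ω} {B : Ω → β} {q : Ω → κ}
  {x0 : Ω → Fin d → ℤ} {ρ η η' e : ℝ}

/-- monotonicity in the level -/
def State.up (S : State P B q x0 ρ η) (h : η ≤ η') : State P B q x0 ρ η' where
  Ωs := S.Ωs
  finS := S.finS
  Ps := S.Ps
  π := S.π
  βs := S.βs
  b := S.b
  Ξ := S.Ξ
  finX := S.finX
  R := S.R
  bR := S.bR
  Pi := S.Pi
  smp := S.smp
  det := S.det
  cost := S.cost.trans h
  same := S.same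
  abs := fun Ω' _ T w ξ h1 h2 h3 h4 => (S.abs Ω' T w ξ h1 h2 h3 h4).trans (by linarith)

theorem State.upp (S : State P B q x0 ρ η) (X : Ω → Fin d → ℤ) :
    hc S.Ps (fun w => X (S.π w)) S.b ≤ hc P X B := by
  rw [← S.smp.hc X B]
  exact Add.hc_anti S.Ps S.det

theorem State.low (S : State P B q x0 ρ η) (h : ρ - e ≤ hc P x0 (fun ω => (q ω, B ω))) :
    ρ - (e + η) ≤ hc S.Ps (fun w => x0 (S.π w)) (fun w => (q (S.π w), S.b w)) := by
  have h1 := S.smp.hc x0 (fun ω => (q ω, B ω))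
  have h2 : mi S.Ps (fun w => x0 (S.π w)) S.b (fun w => (q (S.π w), B (S.π w))) ≤ η := by
    refine le_trans ?_ S.cost
    refine le_trans ?_ (mi_cond_le S.Ps S.b (W := fun w => q (S.π w)) (fun w => B (S.π w)) ?_)
    · exact mi_mono_left S.Ps S.b fun ω ω' _ _ e => by
        simp only [Prod.mk.injEq] at e
        rw [e.1]
    · intro ω ω' _ _ e
      simp only [Prod.mk.injEq] at e
      simp only [e.1]
  have h3 : hc S.Ps (fun w => x0 (S.π w)) (fun w => (S.b w, q (S.π w), B (S.π w))) ≤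
      hc S.Ps (fun w => x0 (S.π w)) (fun w => (q (S.π w), S.b w)) := by
    refine Add.hc_anti S.Ps fun ω ω' e => ?_
    simp only [Prod.mk.injEq] at e ⊢
    exact ⟨e.2.1, e.1⟩
  have h4 : hc S.Ps (fun w => x0 (S.π w)) (fun w => (q (S.π w), B (S.π w))) -
      hc S.Ps (fun w => x0 (S.π w)) (fun w => (S.b w, q (S.π w), B (S.π w))) ≤ η := h2
  linarith only [h, h1, h3, h4]

theorem State.eta_nonneg (S : State P B q x0 ρ η) : 0 ≤ η :=
  (mi_nonneg S.Ps S.π S.b (fun w => B (S.π w))).trans S.cost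

end

theorem AbsCon.mono {Ω : Type} [Fintype Ω] {β κ : Type} {d J : ℕ} {ρ e e' : ℝ} {P : Law Ω}
    {B : Ω → β} {q : Ω → κ} {X : Fin (J + 1) → Ω → Fin d → ℤ}
    {φ : Fin (J + 1) → β → κ → Fin d → ℤ} {σ : Fin (J + 1) → ℤ}
    {Ω' : Type} [Fintype Ω'] {P' : Law Ω'} {ζ : Type} {Z : Ω' → ζ} {π π1 π2 : Ω' → Ω}
    (h : AbsCon ρ e P B q X φ σ P' Z π π1 π2) (he : e ≤ e') :
    AbsCon ρ e' P B q X φ σ P' Z π π1 π2 :=
  { h with
    cost := h.cost.trans he
    main := h.main.trans (by linarith only [he]) }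

/-- the conclusion of the absorption lemma -/
def Concl {Ω : Type} [Fintype Ω] {β κ : Type} {d J : ℕ} (ρ e' : ℝ) (P : Law Ω)
    (B : Ω → β) (q : Ω → κ) (X : Fin (J + 1) → Ω → Fin d → ℤ)
    (φ : Fin (J + 1) → β → κ → Fin d → ℤ) (σ : Fin (J + 1) → ℤ) : Prop :=
  ∃ (Ω' : Type) (_ : Fintype Ω') (P' : Law Ω') (ζ : Type) (Z : Ω' → ζ) (π π1 π2 : Ω' → Ω),
      AbsCon ρ e' P B q X φ σ P' Z π π1 π2

theorem AbsHyp.e_nonneg {Ω : Type} [Fintype Ω] {β κ : Type} {d J : ℕ} {N0 θ : ℕ} {ρ e : ℝ}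
    {P : Law Ω} {B : Ω → β} {q : Ω → κ} {X : Fin (J + 1) → Ω → Fin d → ℤ}
    {φ : Fin (J + 1) → β → κ → Fin d → ℤ} (h : AbsHyp N0 θ ρ e P B q X φ) : 0 ≤ e := by
  have h1 := h.upp 0
  have h2 := h.low
  have h3 : hc P (X 0) (fun ω => (q ω, B ω)) ≤ hc P (X 0) B := Add.hc_anti P fun ω ω' e => by
    simp only [Prod.mk.injEq] at e
    exact e.2
  linarith only [h1, h2, h3]

theorem AbsHyp.rho_le {Ω : Type} [Fintype Ω] {β κ : Type} {d J : ℕ} {N0 θ : ℕ} {ρ e : ℝ}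
    {P : Law Ω} {B : Ω → β} {q : Ω → κ} {X : Fin (J + 1) → Ω → Fin d → ℤ}
    {φ : Fin (J + 1) → β → κ → Fin d → ℤ} (h : AbsHyp N0 θ ρ e P B q X φ) (hθ : 2 ≤ θ) :
    ρ ≤ e + 2 * d * θ := by
  classical
  have h2 := h.low
  have h3 : hc P (X 0) (fun ω => (q ω, B ω)) ≤ hc P (X 0) B := Add.hc_anti P fun ω ω' e => by
    simp only [Prod.mk.injEq] at e
    exact e.2
  have h4 : hc P (X 0) B ≤ Real.log (((2 * 2 ^ θ + 1) ^ d : ℕ) : ℝ) := by
    refine hc_le_log P _ _ _ fun ω hω => ?_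
    refine ⟨Fintype.piFinset fun i => Finset.Icc (X 0 ω i - 2 ^ θ) (X 0 ω i + 2 ^ θ), ?_, ?_⟩
    · rw [Fintype.card_piFinset]
      have : ∀ i, (Finset.Icc (X 0 ω i - 2 ^ θ) (X 0 ω i + 2 ^ θ)).card = 2 * 2 ^ θ + 1 := by
        intro i
        rw [Int.card_Icc]
        have : X 0 ω i + 2 ^ θ + 1 - (X 0 ω i - 2 ^ θ) = ((2 * 2 ^ θ + 1 : ℕ) : ℤ) := by
          push_cast
          ring
        rw [this, Int.toNat_natCast]
      simp only [this, Finset.prod_const, Finset.card_univ, Fintype.card_fin]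
      exact le_rfl
    · intro ω' hω' e
      rw [Fintype.mem_piFinset]
      intro i
      have h2 := abs_le.1 (h.rng 0 ω' ω e i)
      rw [Finset.mem_Icc]
      constructor <;> linarith only [h2]
  have h5 : Real.log (((2 * 2 ^ θ + 1) ^ d : ℕ) : ℝ) ≤ 2 * d * θ := by
    push_cast
    rw [Real.log_pow]
    have h6 : (2 * 2 ^ θ + 1 : ℝ) ≤ 2 ^ (θ + 2) := by
      have : (1 : ℝ) ≤ 2 ^ θ := one_le_pow₀ (by norm_num)
      rw [pow_add]
      linarith only [this]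
    have h7 : Real.log (2 * 2 ^ θ + 1 : ℝ) ≤ (θ + 2 : ℕ) * Real.log 2 := by
      rw [← Real.log_pow]
      exact Real.log_le_log (by positivity) h6
    have h8 : Real.log 2 ≤ 1 := by
      have := Real.log_two_lt_d9
      linarith only [this]
    have h9 : Real.log (2 * 2 ^ θ + 1 : ℝ) ≤ 2 * θ := by
      refine h7.trans ?_
      have : ((θ + 2 : ℕ) : ℝ) * Real.log 2 ≤ ((θ + 2 : ℕ) : ℝ) * 1 :=
        mul_le_mul_of_nonneg_left h8 (by positivity)
      refine this.trans ?_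
      push_cast
      have : (2 : ℝ) ≤ θ := by exact_mod_cast hθ
      linarith only [this]
    have : (d : ℝ) * Real.log (2 * 2 ^ θ + 1) ≤ d * (2 * θ) :=
      mul_le_mul_of_nonneg_left h9 (by (clear * -; positivity))
    linarith only [this]
  linarith only [h2, h3, h4, h5]

/-- the iteration -/
theorem iter (hChain : PChain) (hNew : PNew) (hGain : PGain) (hBd : PBound) (hFin : PFinish)
    (d J N0 : ℕ) (ε' : ℝ) (hε : 0 < ε') (γ c0 : ℝ) (hγ : γ = ε' / (4 * (J + 1)))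
    (hc0 : 0 < c0) (hc1 : c0 ≤ 1 / 4) (hc2 : c0 ≤ γ) (n : ℕ) :
    ∃ c : ℝ, 0 < c ∧ c ≤ c0 ∧ ∃ θ0 : ℕ, ∀ θ : ℕ, θ0 ≤ θ →
      ∀ (Ω : Type) [Fintype Ω] (P : Law Ω) (β κ : Type) (B : Ω → β) (q : Ω → κ)
        (X : Fin (J + 1) → Ω → Fin d → ℤ) (φ : Fin (J + 1) → β → κ → Fin d → ℤ) (ρ e : ℝ)
        (σ : Fin (J + 1) → ℤ), (∀ i, σ i = 1 ∨ σ i = -1) →
        AbsHyp N0 θ ρ e P B q X φ → e ≤ c * θ →
        ∀ S : State P B q (X 0) ρ (c * θ),
          (2 * d + 1) * θ - n * (γ * θ) < hc S.R S.Pi S.bR → Concl ρ (ε' * θ) P B q X φ σ := by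
  induction n with
  | zero =>
    refine ⟨c0, hc0, le_rfl, 2, ?_⟩
    intro θ hθ Ω _ P β κ B q X φ ρ e σ hσ hH he S hS
    exfalso
    have h1 := hBd P B q (X 0) ρ (c0 * θ) S
    have h2 := AbsHyp.rho_le hH hθ
    have h3 : (2 : ℝ) ≤ θ := by exact_mod_cast hθ
    have h4 : c0 * θ ≤ 1 / 4 * θ := mul_le_mul_of_nonneg_right hc1 (by linarith only [])
    simp only [Nat.cast_zero, zero_mul, sub_zero] at hS
    linarith
  | succ n ih =>
    obtain ⟨c, hcp, hcc, θ1, ih⟩ := ih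
    obtain ⟨ε1, hε1, θ2, hCh⟩ := hChain d N0 (c / 8) (by positivity)
    obtain ⟨c', hc'0, hc'1, hc'2⟩ : ∃ c' : ℝ, 0 < c' ∧ c' ≤ c / 8 ∧ c' ≤ ε1 / 2 :=
      ⟨min (c / 8) (ε1 / 2), by (clear * - hcp hε1; positivity), min_le_left _ _, min_le_right _ _⟩
    refine ⟨c', hc'0, hc'1.trans (by linarith only [hcc, hc'0, hc'1]), max θ1 (max θ2 2), ?_⟩
    intro θ hθ Ω _ P β κ B q X φ ρ e σ hσ hH he S hS
    have hθ1 : θ1 ≤ θ := (le_max_left _ _).trans hθ
    have hθ2 : θ2 ≤ θ := (le_max_left _ _).trans ((le_max_right _ _).trans hθ)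
    have hθ3 : 2 ≤ θ := (le_max_right _ _).trans ((le_max_right _ _).trans hθ)
    have hθr : (2 : ℝ) ≤ θ := by exact_mod_cast hθ3
    have hc'1' : c' * θ ≤ c / 8 * θ := mul_le_mul_of_nonneg_right hc'1 (by linarith only [])
    have hc'2' : c' * θ ≤ ε1 / 2 * θ := mul_le_mul_of_nonneg_right hc'2 (by linarith only [])
    have he0 : 0 ≤ e := AbsHyp.e_nonneg hH
    have hη0 : 0 ≤ c' * θ := S.eta_nonneg
    have hC : ∀ i, Nonempty (S.Ch (fun ω => φ i (B ω) (q ω)) (c / 8 * θ)) := by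
      intro i
      refine hCh θ hθ2 S.Ωs S.Ps S.βs κ S.b (fun w => q (S.π w)) (fun w => X 0 (S.π w))
        (fun w => X i (S.π w)) (fun w => φ i (B (S.π w)) (q (S.π w))) ρ ?_ ?_ ?_ ?_ ?_ ?_
      · intro w w' h1 h2
        rw [S.det w w' h1, h2]
      · intro w k
        exact hH.err i (S.π w) k
      · intro w w' h1 k
        exact hH.rng i (S.π w) (S.π w') (S.det w w' h1) k
      · have h1 := S.upp (X 0)
        have h2 := hH.upp 0
        have h3 : 0 ≤ ε1 / 2 * θ := by positivity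
        linarith only [he, hc'2', he0, h1, h2]
      · have h1 := S.upp (X i)
        have h2 := hH.upp i
        have h3 : 0 ≤ ε1 / 2 * θ := by (clear * - hε1 hθ3; positivity)
        linarith only [he, hc'2', he0, h1, h2]
      · have h1 := S.low hH.low
        linarith only [he, hc'2', h1]
    by_cases hg : ∀ i, ∃ C : S.Ch (fun ω => φ i (B ω) (q ω)) (c / 8 * θ),
        ∀ (Ω' : Type) [Fintype Ω'] (T : Law Ω') (ξ : Ω' → S.Ξ) (m : Ω' → C.Ωm), Smp T ξ S.R →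
          Smp T m C.M → (∀ w, S.bR (ξ w) = S.b (C.s (m w))) →
          mi T ξ m (fun w => S.b (C.s (m w))) = 0 →
          hc T (fun w => S.Pi (ξ w) + C.Pi (m w)) (fun w => (S.b (C.s (m w)), C.Z (m w))) ≤
            hc S.R S.Pi S.bR + γ * θ
    · -- no gain
      have h2 : ∀ i, Abs2 S.L (fun l => S.b l.fst)
          (fun l => φ i (B (S.π l.snd)) (q (S.π l.snd)) - φ i (B (S.π l.fst)) (q (S.π l.fst)))
          S.R S.bR S.Pi (γ * θ + 2 * (c / 8 * θ)) := by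
        intro i
        obtain ⟨C, hC'⟩ := hg i
        exact hGain P B q (X 0) ρ (c' * θ) (c / 8 * θ) (γ * θ) (fun ω => φ i (B ω) (q ω)) S C hC'
      have hγ0 : 0 < γ := by rw [hγ]; (clear * - hε; positivity)
      obtain ⟨Ω', f, P', ζ, Z, π, π1, π2, hcon⟩ := hFin N0 θ ρ (c' * θ) e
        (γ * θ + 2 * (c / 8 * θ)) P B q X φ σ hσ hH (by (clear * - hγ0 hθ3 hcp; positivity)) S h2
      refine ⟨Ω', f, P', ζ, Z, π, π1, π2, AbsCon.mono hcon ?_⟩
      have hJ : (0 : ℝ) < J + 1 := by (clear * -; positivity)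
      have h5 : 2 * (c' * θ) + e + (γ * θ + 2 * (c / 8 * θ)) ≤ 4 * γ * θ := by
        have h6 : c * θ ≤ γ * θ := mul_le_mul_of_nonneg_right (hcc.trans hc2) (by linarith only [])
        have h7 : 0 ≤ γ * θ := by (clear * - hγ0 hθ3; positivity)
        linarith only [he, hc'1', he0, h6]
      calc ((J : ℝ) + 1) * (2 * (c' * θ) + e + (γ * θ + 2 * (c / 8 * θ)))
          ≤ (J + 1) * (4 * γ * θ) := mul_le_mul_of_nonneg_left h5 hJ.le
        _ = ε' * θ := by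
            rw [hγ]
            (clear * - hθ3 hε; field_simp)
    · -- gain
      push Not at hg
      obtain ⟨i, hi⟩ := hg
      obtain ⟨C⟩ := hC i
      obtain ⟨Ω', _, T, ξ, m, h1, h2, h3, h4, h5⟩ := hi C
      obtain ⟨S', hS'⟩ := hNew P B q (X 0) ρ (c' * θ) (c / 8 * θ) e (fun ω => φ i (B ω) (q ω)) S C
        he0 hH.low Ω' T ξ m h1 h2 h3 h4
      have hlev : 2 * (c' * θ) + 2 * (c / 8 * θ) + e ≤ c * θ := by linarith only [he, hc'1', he0]
      have hec : e ≤ c * θ := by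
        have : 0 ≤ c * θ := by (clear * - hcp hθ3; positivity)
        linarith only [he, hc'1', he0]
      refine ih θ hθ1 Ω P β κ B q X φ ρ e σ hσ hH hec (S'.up hlev) ?_
      change _ < hc S'.R S'.Pi S'.bR
      rw [hS']
      push_cast at hS
      linarith only [h5, hS]

/-- the absorption lemma from its parts -/
theorem abs_of (hChain : PChain) (hNew : PNew) (hGain : PGain) (hBd : PBound) (hInit : PInit)
    (hFin : PFinish) : PAbs := by
  intro d J N0 ε' hε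
  set γ : ℝ := ε' / (4 * (J + 1)) with hγ
  have hγ0 : 0 < γ := by (clear * - hε; positivity)
  obtain ⟨n, hn⟩ := exists_nat_gt ((2 * d + 1) / γ)
  obtain ⟨c, hc, -, θ0, h⟩ := iter hChain hNew hGain hBd hFin d J N0 ε' hε γ (min γ (1 / 4)) hγ
    (by positivity) (min_le_right _ _) (min_le_left _ _) n
  refine ⟨c, hc, max θ0 1, ?_⟩
  intro θ hθ Ω _ P β κ B q X φ ρ σ hσ hH
  have hθ0 : θ0 ≤ θ := (le_max_left _ _).trans hθ
  have hθ1 : (1 : ℝ) ≤ θ := by exact_mod_cast (le_max_right _ _).trans hθ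
  obtain ⟨S, hS⟩ := hInit P B q (X 0) ρ (c * θ) (by (clear * - hc hθ1; positivity)) (hH.upp 0)
  refine h θ hθ0 Ω P β κ B q X φ ρ (c * θ) σ hσ hH le_rfl S (lt_of_lt_of_le ?_ hS)
  have h1 : (2 * d + 1 : ℝ) < n * γ := by
    rwa [div_lt_iff₀ hγ0] at hn
  nlinarith only [h1, hθ1]

end Vale.Agent.P127.Stk.Abs
end

section

/-!
# P127 / Stk / Abs : the chain argument, definitions and exact statements of the parts

A `Link` is a law with two samples `s`, `e` of `P` (same `b`) and a displacement `D` of `x`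
(`x e = x s + D` up to a bounded error), with `D` nearly independent of `x s`.
A `Triple` is a Markov chain of three links `A, L, A`; with `P, D, Q` the three displacements it is
again a link (with displacement `P + D + Q`) and `Z = P + Q` is the variable of `Chain`.
-/

namespace Vale.Agent.P127.Stk.Abs

open Finset Vale.Agent.P127 Vale.Agent.P127.Stk

variable {Ω : Type} [Fintype Ω] {β κ : Type} {d : ℕ}

/-- a link -/
structure Link (P : Law Ω) (b : Ω → β) (x : Ω → Fin d → ℤ) (K : ℕ) (E : ℝ) : Type 1 where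
  Ωl : Type
  fin : Fintype Ωl
  M : Law Ωl
  s : Ωl → Ω
  e : Ωl → Ω
  D : Ωl → Fin d → ℤ
  smp_s : Smp M s P
  smp_e : Smp M e P
  hb : ∀ m, b (s m) = b (e m)
  noise : ∀ m c, |x (e m) c - x (s m) c - D m c| ≤ K
  info : mi M D (fun m => x (s m)) (fun m => b (s m)) ≤ E

attribute [instance] Link.fin

/-- the entropy of the displacement -/
noncomputable def Link.h {P : Law Ω} {b : Ω → β} {x : Ω → Fin d → ℤ} {K : ℕ} {E : ℝ}
    (A : Link P b x K E) : ℝ := hc A.M A.D (fun m => b (A.s m))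

/-- three links in a row: `u`, then `l`, then `v` -/
structure Triple {P : Law Ω} {b : Ω → β} {x : Ω → Fin d → ℤ} {K K1 : ℕ} {E E1 : ℝ}
    (A : Link P b x K E) (L : Link P b x K1 E1) : Type 1 where
  Ωt : Type
  fin : Fintype Ωt
  M : Law Ωt
  u : Ωt → A.Ωl
  l : Ωt → L.Ωl
  v : Ωt → A.Ωl
  smp_u : Smp M u A.M
  smp_l : Smp M l L.M
  smp_v : Smp M v A.M
  hul : ∀ m, b (A.s (u m)) = b (L.s (l m))
  hlv : ∀ m, b (L.s (l m)) = b (A.s (v m))
  xul : ∀ m, x (A.e (u m)) = x (L.s (l m))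
  xlv : ∀ m, x (L.e (l m)) = x (A.s (v m))
  ci_l : mi M l u (fun m => (x (L.s (l m)), b (L.s (l m)))) = 0
  ci_v : mi M v (fun m => (u m, l m)) (fun m => (x (A.s (v m)), b (A.s (v m)))) = 0

attribute [instance] Triple.fin

/-- the entropic facts on the three displacements `P, D, Q` of a triple (`bt` = the conditioning,
`xs` = the value of `x` at the start) -/
structure Facts {Ωt : Type} [Fintype Ωt] {β : Type} {d : ℕ} (M : Law Ωt) (bt : Ωt → β)
    (P D Q xs : Ωt → Fin d → ℤ) (h h' E E1 : ℝ) : Prop where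
  hP : hc M P bt = h
  hQ : hc M Q bt = h
  hS : hc M (fun m => P m + D m + Q m) bt = h'
  iPQ : mi M P Q bt ≤ E
  hPD : hc M (fun m => P m + D m) bt ≤ h' + E
  hPQ : hc M (fun m => P m + Q m) bt ≤ h' + E + E1
  iD : mi M (fun m => (P m, Q m)) D bt ≤ E + E1
  ix : mi M (fun m => (P m, Q m)) xs bt ≤ 2 * E

/-- A2. the base link -/
def PBaseLink : Prop := ∀ {Ω : Type} [Fintype Ω] {β κ : Type} {d : ℕ} (P : Law Ω) (b : Ω → β)
  (q : Ω → κ) (x0 x φ : Ω → Fin d → ℤ) (N0 : ℕ) (ρ e : ℝ),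
  (∀ ω ω', b ω = b ω' → q ω = q ω' → φ ω = φ ω') →
  (∀ ω c, |x ω c - x0 ω c - φ ω c| ≤ N0) →
  hc P x0 b ≤ ρ + e → hc P x b ≤ ρ + e → ρ - e ≤ hc P x0 (fun ω => (q ω, b ω)) →
  ∃ L : Link P b x (2 * N0) (6 * e + d * Real.log (2 * N0 + 1)),
    ∃ l : L.Ωl → Law.GT (fun ω => (x0 ω, b ω)) (fun ω => (x0 ω, b ω)),
      Smp L.M l (pairL P (fun ω => (x0 ω, b ω))) ∧ (∀ m, L.s m = (l m).fst) ∧
      (∀ m, L.e m = (l m).snd) ∧ (∀ m, L.D m = φ (l m).snd - φ (l m).fst)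

/-- A3. existence of triples -/
def PTriple : Prop := ∀ {Ω : Type} [Fintype Ω] {β : Type} {d : ℕ} {P : Law Ω} {b : Ω → β}
  {x : Ω → Fin d → ℤ} {K K1 : ℕ} {E E1 : ℝ} (A : Link P b x K E) (L : Link P b x K1 E1),
  Nonempty (Triple A L)

/-- A4. the facts for a triple (`0 ≤ E, E1` follow from `mi_nonneg`) -/
def PFacts : Prop := ∀ {Ω : Type} [Fintype Ω] {β : Type} {d : ℕ} {P : Law Ω} {b : Ω → β}
  {x : Ω → Fin d → ℤ} {K K1 : ℕ} {E E1 : ℝ} (A : Link P b x K E) (L : Link P b x K1 E1)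
  (T : Triple A L), ∃ h' : ℝ,
  Facts T.M (fun m => b (A.s (T.u m))) (fun m => A.D (T.u m)) (fun m => L.D (T.l m))
    (fun m => A.D (T.v m)) (fun m => x (A.s (T.u m))) A.h h' E E1 ∧
  mi T.M (fun m => A.s (T.u m)) (fun m => A.D (T.u m) + A.D (T.v m)) (fun m => b (A.s (T.u m)))
    ≤ h' - A.h + 2 * E + E1

/-- A5. a triple is a link -/
def PTripleLink : Prop := ∀ {Ω : Type} [Fintype Ω] {β : Type} {d : ℕ} {P : Law Ω} {b : Ω → β}
  {x : Ω → Fin d → ℤ} {K K1 : ℕ} {E E1 : ℝ} (A : Link P b x K E) (L : Link P b x K1 E1)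
  (T : Triple A L), ∃ A' : Link P b x (2 * K + K1) (2 * E + E1),
    A'.h = hc T.M (fun m => A.D (T.u m) + L.D (T.l m) + A.D (T.v m)) (fun m => b (A.s (T.u m)))

/-- A6. `x0` absorbs `- P` given `(b, Z)`, `Z = P + Q` -/
def PAbsA : Prop := ∀ {Ωt : Type} [Fintype Ωt] {β κ : Type} {d : ℕ} (M : Law Ωt) (bt : Ωt → β)
  (qs : Ωt → κ) (P D Q x0s xs xe φs : Ωt → Fin d → ℤ) (h h' E E1 ρ e : ℝ) (K N0 : ℕ),
  Facts M bt P D Q xs h h' E E1 →
  (∀ m m', bt m = bt m' → qs m = qs m' → φs m = φs m') →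
  (∀ m c, |xs m c - x0s m c - φs m c| ≤ N0) →
  (∀ m c, |xe m c - xs m c - P m c| ≤ K) → hc M xe bt ≤ ρ + e →
  Abs1 M (fun m => (bt m, P m + Q m)) qs x0s M (fun m => (bt m, P m + Q m)) (fun m => - P m)
    (ρ + e + d * Real.log (2 * K + 1) + d * Real.log (2 * N0 + 1) + 2 * (h' - h) + 7 * E + 2 * E1)

/-- A7. `- P` absorbs `D` given `(b, Z)`, `Z = P + Q` -/
def PAbsB : Prop := ∀ {Ωt : Type} [Fintype Ωt] {β : Type} {d : ℕ} (M : Law Ωt) (bt : Ωt → β)
  (P D Q xs : Ωt → Fin d → ℤ) (h h' E E1 : ℝ), Facts M bt P D Q xs h h' E E1 →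
  Abs2 M (fun m => (bt m, P m + Q m)) D M (fun m => (bt m, P m + Q m)) (fun m => - P m)
    (4 * (h' - h) + 9 * E + 4 * E1)

end Vale.Agent.P127.Stk.Abs
end

section

/-!
# P127 / Stk / Abs : the chain argument from its parts (pigeonhole and parameters)
-/

namespace Vale.Agent.P127.Stk.Abs

open Finset Vale.Agent.P127 Vale.Agent.P127.Stk

theorem Abs1.mono {Ω Ξ : Type} [Fintype Ω] [Fintype Ξ] {β κ : Type} {d : ℕ} {P : Law Ω}
    {b : Ω → β} {q : Ω → κ} {x : Ω → Fin d → ℤ} {R : Law Ξ} {bR : Ξ → β} {Pi : Ξ → Fin d → ℤ}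
    {r r' : ℝ} (h : Abs1 P b q x R bR Pi r) (hr : r ≤ r') : Abs1 P b q x R bR Pi r' :=
  fun Ω' _ T w ξ h1 h2 h3 h4 => (h Ω' T w ξ h1 h2 h3 h4).trans hr

theorem Abs2.mono {Λ Ξ : Type} [Fintype Λ] [Fintype Ξ] {β : Type} {d : ℕ} {L : Law Λ}
    {bL : Λ → β} {D : Λ → Fin d → ℤ} {R : Law Ξ} {bR : Ξ → β} {Pi : Ξ → Fin d → ℤ}
    {r r' : ℝ} (h : Abs2 L bL D R bR Pi r) (hr : r ≤ r') : Abs2 L bL D R bR Pi r' :=
  fun Ω' _ T w ξ h1 h2 h3 h4 => (h Ω' T w ξ h1 h2 h3 h4).trans (by linarith)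

/-- the errors of the iterated triples -/
def kk (K1 : ℕ) : ℕ → ℕ
  | 0 => K1
  | n + 1 => 2 * kk K1 n + K1

/-- the errors of the iterated triples -/
noncomputable def ee (E1 : ℝ) : ℕ → ℝ
  | 0 => E1
  | n + 1 => 2 * ee E1 n + E1

theorem kk_le (K1 : ℕ) {r n : ℕ} (h : r ≤ n) : kk K1 r ≤ 2 ^ (n + 1) * K1 := by
  have h1 : ∀ r, kk K1 r + K1 = 2 ^ (r + 1) * K1 := by
    intro r
    induction r with
    | zero => simp only [kk, zero_add, pow_one]; ring
    | succ r ih =>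
      rw [kk, pow_succ, mul_assoc, mul_comm 2 K1, ← mul_assoc, ← ih]
      ring
  have h2 : 2 ^ (r + 1) * K1 ≤ 2 ^ (n + 1) * K1 :=
    Nat.mul_le_mul_right _ (Nat.pow_le_pow_right (by norm_num) (by omega))
  have := h1 r
  omega

theorem ee_le {E1 : ℝ} (h0 : 0 ≤ E1) {r n : ℕ} (h : r ≤ n) : ee E1 r ≤ 2 ^ (n + 1) * E1 := by
  have h1 : ∀ r, ee E1 r + E1 = 2 ^ (r + 1) * E1 := by
    intro r
    induction r with
    | zero => simp only [ee, zero_add, pow_one]; ring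
    | succ r ih =>
      rw [ee, pow_succ, mul_assoc, mul_comm 2 E1, ← mul_assoc, ← ih]
      ring
  have h2 : (2 : ℝ) ^ (r + 1) * E1 ≤ 2 ^ (n + 1) * E1 :=
    mul_le_mul_of_nonneg_right (pow_le_pow_right₀ (by norm_num) (by omega)) h0
  have := h1 r
  linarith only [h0, h2, this]

section

variable {Ω : Type} [Fintype Ω] {β κ : Type} {d : ℕ} {P : Law Ω} {b : Ω → β}
  {x : Ω → Fin d → ℤ} {K1 : ℕ} {E1 : ℝ}

theorem chain_pigeon (h3 : PTriple) (h5 : PTripleLink) (L : Link P b x K1 E1) (δ : ℝ) (n : ℕ) :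
    (∃ r, r < n ∧ ∃ A : Link P b x (kk K1 r) (ee E1 r), ∃ T : Triple A L,
      hc T.M (fun m => A.D (T.u m) + L.D (T.l m) + A.D (T.v m)) (fun m => b (A.s (T.u m))) ≤
        A.h + δ) ∨ (∃ A : Link P b x (kk K1 n) (ee E1 n), n * δ ≤ A.h) := by
  induction n with
  | zero =>
    refine Or.inr ⟨L, ?_⟩
    simp only [Nat.cast_zero, zero_mul]
    exact hc_nonneg _ _ _
  | succ n ih =>
    rcases ih with ⟨r, hr, h⟩ | ⟨A, hA⟩
    · exact Or.inl ⟨r, by omega, h⟩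
    · obtain ⟨T⟩ := h3 A L
      by_cases hc1 : hc T.M (fun m => A.D (T.u m) + L.D (T.l m) + A.D (T.v m))
          (fun m => b (A.s (T.u m))) ≤ A.h + δ
      · exact Or.inl ⟨n, by omega, A, T, hc1⟩
      · obtain ⟨A', hA'⟩ := h5 A L T
        have h1 : ((n + 1 : ℕ) : ℝ) * δ ≤ A'.h := by
          rw [hA']
          push_cast
          linarith only [hA, hc1]
        exact Or.inr ⟨A', h1⟩

theorem link_h_le {K : ℕ} {E : ℝ} (A : Link P b x K E) (θ : ℕ)
    (hr : ∀ ω ω', b ω = b ω' → ∀ c, |x ω c - x ω' c| ≤ 2 ^ θ) :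
    A.h ≤ d * Real.log (2 * (2 ^ θ + K) + 1) := by
  have h1 := hc_sub_le A.M A.D (fun _ _ => 0) (fun m => b (A.s m)) (2 ^ θ + K) (by
    intro m _ i
    have h2 := A.noise m i
    have h3 := hr (A.e m) (A.s m) (A.hb m).symm i
    push_cast
    rw [sub_zero]
    have : A.D m i = (x (A.e m) i - x (A.s m) i) - (x (A.e m) i - x (A.s m) i - A.D m i) := by
      ring
    rw [this]
    exact (abs_sub _ _).trans (add_le_add h3 h2))
  have h2 : hc A.M (fun (_ : A.Ωl) (_ : Fin d) => (0 : ℤ)) (fun m => b (A.s m)) = 0 :=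
    hc_zero A.M fun _ _ _ _ _ => rfl
  rw [h2, zero_add, Fintype.card_fin] at h1
  push_cast at h1
  exact h1

end

theorem range_bound (d θ KR k R : ℕ) (g : ℝ) (hg : 0 < g) (hk : (k : ℝ) ≤ KR) (hθ : (0 : ℝ) < θ)
    (hθ1 : d * Real.log (2 * KR + 3) ≤ θ) (hR : 16 * (d + 1) / g < R) :
    d * Real.log (2 * (2 ^ θ + k) + 1) < R * (g * θ / 16) := by
  have hp : (1 : ℝ) ≤ 2 ^ θ := one_le_pow₀ (by norm_num)
  have hKR0 : (0 : ℝ) ≤ KR := by (clear * -; positivity)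
  have h9 : (2 * (2 ^ θ + k) + 1 : ℝ) ≤ 2 ^ θ * (2 * KR + 3) := by
    have h1 : (KR : ℝ) ≤ 2 ^ θ * KR := le_mul_of_one_le_left hKR0 hp
    linarith only [hk, hp, h1]
  have h10 : Real.log (2 * (2 ^ θ + k) + 1 : ℝ) ≤ θ * Real.log 2 + Real.log (2 * KR + 3) := by
    refine (Real.log_le_log (by (clear * -; positivity)) h9).trans ?_
    rw [Real.log_mul (by positivity) (by (clear * -; positivity)), Real.log_pow]
  have h11 : Real.log 2 ≤ 1 := by
    have := Real.log_two_lt_d9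
    linarith only [this]
  have h12 : (θ : ℝ) * Real.log 2 ≤ θ * 1 := mul_le_mul_of_nonneg_left h11 hθ.le
  have h13 : (d : ℝ) * Real.log (2 * (2 ^ θ + k) + 1 : ℝ) ≤
      d * (θ + Real.log (2 * KR + 3)) :=
    mul_le_mul_of_nonneg_left (by linarith only [h10, h12]) (by (clear * -; positivity))
  have h15 : 16 * ((d : ℝ) + 1) * θ < R * g * θ := by
    rw [div_lt_iff₀ hg] at hR
    exact mul_lt_mul_of_pos_right hR hθ
  have h16 : (d : ℝ) * (θ + Real.log (2 * KR + 3)) = d * θ + d * Real.log (2 * KR + 3) := by ring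
  linarith only [hθ1, h13, h15]

/-- the final numerical inequalities -/
theorem num_bound (W E1 E e lg lK lk gθ δ : ℝ) (hW : 1 ≤ W) (hE1 : E1 = 6 * e + lg)
    (hE10 : 0 ≤ E1) (hE : E ≤ W * E1) (hWe : W * e = gθ / 1000) (hlg : 0 ≤ lg) (hlk : lk ≤ lK)
    (he0 : 0 ≤ e) (hlk0 : 0 ≤ lk)
    (hδ : δ ≤ gθ / 16) (hθ2 : lK + (1 + 13 * W) * lg ≤ gθ / 8) :
    e + lk + lg + 2 * δ + 7 * E + 2 * E1 ≤ gθ ∧ 4 * δ + 9 * E + 4 * E1 ≤ gθ ∧
      δ + 2 * E + E1 ≤ gθ ∧ E + E1 ≤ gθ := by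
  have h1 : E1 ≤ W * E1 := le_mul_of_one_le_left hE10 hW
  have h2 : W * E1 = 6 * (gθ / 1000) + W * lg := by
    rw [hE1, ← hWe]
    ring
  have h3 : e ≤ W * e := le_mul_of_one_le_left he0 hW
  have h4 : 0 ≤ W * lg := by (clear * - hW hlg; positivity)
  have h5 : (1 + 13 * W) * lg = lg + 13 * (W * lg) := by ring
  rw [h5] at hθ2
  have h6 : 0 ≤ W * e := by (clear * - hW he0; positivity)
  refine ⟨?_, ?_, ?_, ?_⟩ <;> linarith

/-- the chain from a triple -/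
theorem mkChain (h4 : PFacts) (h6 : PAbsA) (h7 : PAbsB) {Ω : Type} [Fintype Ω] {β κ : Type}
    {d : ℕ} (P : Law Ω) (b : Ω → β) (q : Ω → κ) (x0 x φ : Ω → Fin d → ℤ) (N0 : ℕ) (ρ e : ℝ)
    (hφ : ∀ ω ω', b ω = b ω' → q ω = q ω' → φ ω = φ ω')
    (herr : ∀ ω c, |x ω c - x0 ω c - φ ω c| ≤ N0) (hx : hc P x b ≤ ρ + e)
    {K K1 : ℕ} {E E1 : ℝ} (L : Link P b x K1 E1)
    (l0 : L.Ωl → Law.GT (fun ω => (x0 ω, b ω)) (fun ω => (x0 ω, b ω)))
    (hl0 : Smp L.M l0 (pairL P (fun ω => (x0 ω, b ω)))) (hls : ∀ m, L.s m = (l0 m).fst)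
    (hlD : ∀ m, L.D m = φ (l0 m).snd - φ (l0 m).fst)
    (A : Link P b x K E) (T : Triple A L) (δ G : ℝ)
    (hδ : hc T.M (fun m => A.D (T.u m) + L.D (T.l m) + A.D (T.v m)) (fun m => b (A.s (T.u m))) ≤
      A.h + δ)
    (g1 : e + d * Real.log (2 * K + 1) + d * Real.log (2 * N0 + 1) + 2 * δ + 7 * E + 2 * E1 ≤ G)
    (g2 : 4 * δ + 9 * E + 4 * E1 ≤ G) (g3 : δ + 2 * E + E1 ≤ G) (g4 : E + E1 ≤ G) :
    Nonempty (Chain P b q x0 (pairL P (fun ω => (x0 ω, b ω))) (fun l => b l.fst)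
      (fun l => φ l.snd - φ l.fst) ρ G) := by
  obtain ⟨h', F, hcost⟩ := h4 A L T
  have hδ' : h' - A.h ≤ δ := by
    have := F.hS
    rw [this] at hδ
    linarith only [hδ]
  have hD : (fun m => φ (l0 (T.l m)).snd - φ (l0 (T.l m)).fst) = fun m => L.D (T.l m) :=
    funext fun m => (hlD (T.l m)).symm
  exact ⟨{
    Ωm := T.Ωt
    fin := T.fin
    M := T.M
    s := fun m => A.s (T.u m)
    l := fun m => l0 (T.l m)
    Z := fun m => A.D (T.u m) + A.D (T.v m)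
    Pi := fun m => - A.D (T.u m)
    smp_s := T.smp_u.comp A.smp_s
    smp_l := T.smp_l.comp hl0
    hb := fun m => by rw [T.hul m, hls]
    cost := hcost.trans (by linarith only [g3, hδ'])
    costD := by
      rw [hD]
      refine le_trans ?_ g4
      refine le_trans ?_ F.iD
      rw [mi_symm]
      refine mi_mono_left _ _ fun ω ω' _ _ e => ?_
      simp only [Prod.mk.injEq] at e
      rw [e.1.1, e.1.2]
    abs1 := by
      refine (h6 T.M (fun m => b (A.s (T.u m))) (fun m => q (A.s (T.u m)))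
        (fun m => A.D (T.u m)) (fun m => L.D (T.l m)) (fun m => A.D (T.v m))
        (fun m => x0 (A.s (T.u m))) (fun m => x (A.s (T.u m))) (fun m => x (A.e (T.u m)))
        (fun m => φ (A.s (T.u m))) A.h h' E E1 ρ e K N0 F (fun m m' => hφ _ _)
        (fun m => herr _) (fun m => A.noise _) ?_).mono (by linarith only [g1, hδ'])
      have h8 := (T.smp_u.comp A.smp_e).hc x b
      rw [← h8] at hx
      have h9 : (fun m => b (A.e (T.u m))) = fun m => b (A.s (T.u m)) :=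
        funext fun m => (A.hb (T.u m)).symm
      rw [h9] at hx
      exact hx
    abs2 := by
      have h8 := (h7 T.M (fun m => b (A.s (T.u m))) (fun m => A.D (T.u m)) (fun m => L.D (T.l m))
        (fun m => A.D (T.v m)) (fun m => x (A.s (T.u m))) A.h h' E E1 F).mono
        (r' := G) (by linarith only [g2, hδ'])
      rw [← hD] at h8
      exact h8 }⟩

/-- the chain argument -/
theorem chain_of (h2 : PBaseLink) (h3 : PTriple) (h4 : PFacts) (h5 : PTripleLink) (h6 : PAbsA)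
    (h7 : PAbsB) : PChain := by
  intro d N0 g hg
  obtain ⟨R, hR⟩ := exists_nat_gt (16 * (d + 1) / g)
  obtain ⟨W, hW⟩ : ∃ W : ℝ, W = 2 ^ (R + 1) := ⟨_, rfl⟩
  have hW1 : 1 ≤ W := by
    rw [hW]
    exact one_le_pow₀ (by norm_num)
  obtain ⟨KR, hKR⟩ : ∃ KR : ℕ, KR = 2 ^ (R + 1) * (2 * N0) := ⟨_, rfl⟩
  obtain ⟨lg, hlg⟩ : ∃ lg : ℝ, lg = d * Real.log (2 * N0 + 1) := ⟨_, rfl⟩
  have hlg0 : 0 ≤ lg := by
    have : (0 : ℝ) ≤ Real.log (2 * N0 + 1) := Real.log_nonneg (by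
      have : (0 : ℝ) ≤ N0 := by (clear * -; positivity)
      linarith only [])
    rw [hlg]
    (clear * - this; positivity)
  obtain ⟨lK, hlK⟩ : ∃ lK : ℝ, lK = d * Real.log (2 * KR + 1) := ⟨_, rfl⟩
  obtain ⟨θ0, hθ0⟩ := exists_nat_gt (max (max (d * Real.log (2 * KR + 3))
    (8 * (lK + (1 + 13 * W) * lg) / g)) 0)
  have hε : 0 < g / (W * 1000) := by (clear * - hg hW1; positivity)
  refine ⟨g / (W * 1000), hε, θ0, ?_⟩
  intro θ hθ Ω _ P β κ b q x0 x φ ρ hφ herr hrng hx0 hx hlow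
  have hθr : (θ0 : ℝ) ≤ θ := by exact_mod_cast hθ
  have hθpos : (0 : ℝ) < θ := lt_of_lt_of_le (lt_of_le_of_lt (le_max_right _ _) hθ0) hθr
  have hθ0' := ((le_max_left _ _).trans hθ0.le).trans hθr
  have hθ1 : d * Real.log (2 * KR + 3) ≤ θ := (le_max_left _ _).trans hθ0'
  have hθ2 : lK + (1 + 13 * W) * lg ≤ g * θ / 8 := by
    have h1 : 8 * (lK + (1 + 13 * W) * lg) / g ≤ θ := (le_max_right _ _).trans hθ0'
    rw [div_le_iff₀ hg] at h1
    linarith only [h1]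
  obtain ⟨e, he⟩ : ∃ e : ℝ, e = g / (W * 1000) * θ := ⟨_, rfl⟩
  rw [← he] at hx0 hx hlow
  obtain ⟨L, l0, hl0, hls, hle, hlD⟩ := h2 P b q x0 x φ N0 ρ e hφ herr hx0 hx hlow
  have he0 : 0 ≤ e := by rw [he]; (clear * - hg hW1 hθpos; positivity)
  have hWe : W * e = g * θ / 1000 := by
    rw [he]
    (clear * - hW1 hθpos hg; field_simp)
  have hE10 : 0 ≤ 6 * e + d * Real.log (2 * N0 + 1) := by
    rw [← hlg]
    (clear * - he0 hlg0; positivity)
  rcases chain_pigeon h3 h5 L (g * θ / 16) R with ⟨r, hr, A, T, hT⟩ | ⟨A, hA⟩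
  · have hk : kk (2 * N0) r ≤ KR := by
      rw [hKR]
      exact kk_le (2 * N0) hr.le
    have hkr : ((kk (2 * N0) r : ℕ) : ℝ) ≤ KR := by exact_mod_cast hk
    have hE : ee (6 * e + d * Real.log (2 * N0 + 1)) r ≤ W * (6 * e + d * Real.log (2 * N0 + 1)) := by
      rw [hW]
      exact ee_le hE10 hr.le
    have hk0 : (0 : ℝ) ≤ (kk (2 * N0) r : ℕ) := by (clear * -; positivity)
    have hlk : d * Real.log (2 * (kk (2 * N0) r : ℕ) + 1) ≤ lK := by
      rw [hlK]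
      exact mul_le_mul_of_nonneg_left (Real.log_le_log (by linarith only []) (by linarith only [hkr])) (by (clear * -; positivity))
    have hlk0 : 0 ≤ d * Real.log (2 * (kk (2 * N0) r : ℕ) + 1) := by
      have := Real.log_nonneg (show (1 : ℝ) ≤ 2 * (kk (2 * N0) r : ℕ) + 1 by linarith only [])
      (clear * - this; positivity)
    obtain ⟨n1, n2, n3, n4⟩ := num_bound W (6 * e + d * Real.log (2 * N0 + 1))
      (ee (6 * e + d * Real.log (2 * N0 + 1)) r) e lg lK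
      (d * Real.log (2 * (kk (2 * N0) r : ℕ) + 1)) (g * θ) (g * θ / 16) hW1 (by rw [hlg]) hE10 hE
      hWe hlg0 hlk he0 hlk0 le_rfl hθ2
    rw [hlg] at n1
    exact mkChain h4 h6 h7 P b q x0 x φ N0 ρ e hφ herr hx L l0 hl0 hls hlD A T (g * θ / 16)
      (g * θ) hT n1 n2 n3 n4
  · exfalso
    have h8 := link_h_le A θ hrng
    have hk : ((kk (2 * N0) R : ℕ) : ℝ) ≤ KR := by
      rw [hKR]
      exact_mod_cast kk_le (2 * N0) (le_refl R)
    have h9 := range_bound d θ KR (kk (2 * N0) R) R g hg hk hθpos hθ1 hR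
    linarith only [hA, h8, h9]

end Vale.Agent.P127.Stk.Abs
end

section

/-!
# P127 / Stk / Abs : the base link
-/

namespace Vale.Agent.P127.Stk.Abs

open Finset Vale.Agent.P127 Vale.Agent.P127.Stk

variable {Ω : Type} [Fintype Ω] {β κ γ : Type} {d : ℕ}

theorem pairL_fst (P : Law Ω) (c : Ω → γ) : Smp (pairL P c) (fun p => p.fst) P := fun ω => by
  rw [← pr_id P ω]
  exact Law.glue_pr (fun _ => rfl) id ω

theorem pairL_snd (P : Law Ω) (c : Ω → γ) : Smp (pairL P c) (fun p => p.snd) P := fun ω => by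
  rw [← pr_id P ω]
  exact Law.glue_pr' (fun _ => rfl) id ω

theorem pairL_ci (P : Law Ω) (c : Ω → γ) :
    mi (pairL P c) (fun p => p.fst) (fun p => p.snd) (fun p => c p.fst) = 0 := by
  have h1 := Law.glue_indep (P := P) (Q := P) (X₁ := c) (X₂ := c) (fun _ => rfl) (fun a => a)
    (fun b => b)
  rw [mi_eq]
  have h2 : (pairL P c).H (fun p => (p.fst, c p.fst)) = P.H (fun a => (a, c a)) :=
    (pairL_fst P c).H (fun a => (a, c a))
  have h3 : (pairL P c).H (fun p => (p.snd, c p.fst)) = P.H (fun a => (a, c a)) := by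
    rw [← (pairL_snd P c).H (fun a => (a, c a))]
    refine Law.H_congr _ fun ω ω' => ?_
    simp only [Prod.mk.injEq, ω.eq, ω'.eq]
  have h4 : (pairL P c).H (fun p => c p.fst) = P.H c := (pairL_fst P c).H c
  have h5 : (pairL P c).H (fun p => (p.fst, p.snd, c p.fst)) =
      P.H (fun a => (a, c a)) + P.H (fun a => (a, c a)) - P.H c := h1
  rw [h2, h3, h4, h5]
  ring

theorem pbaseLink : PBaseLink := by
  intro Ω _ β κ d P b q x0 x φ N0 ρ e hφ herr hx0 hx hlow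
  have hs := pairL_fst P (fun ω => (x0 ω, b ω))
  have he := pairL_snd P (fun ω => (x0 ω, b ω))
  have hci := pairL_ci P (fun ω => (x0 ω, b ω))
  have hbeq : ∀ p : Law.GT (fun ω => (x0 ω, b ω)) (fun ω => (x0 ω, b ω)),
      b p.fst = b p.snd := fun p => (Prod.mk.inj p.eq).2
  have hxeq : ∀ p : Law.GT (fun ω => (x0 ω, b ω)) (fun ω => (x0 ω, b ω)),
      x0 p.fst = x0 p.snd := fun p => (Prod.mk.inj p.eq).1
  refine ⟨{
    Ωl := Law.GT (fun ω => (x0 ω, b ω)) (fun ω => (x0 ω, b ω))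
    fin := inferInstance
    M := pairL P (fun ω => (x0 ω, b ω))
    s := fun p => p.fst
    e := fun p => p.snd
    D := fun p => φ p.snd - φ p.fst
    smp_s := hs
    smp_e := he
    hb := hbeq
    noise := ?_
    info := ?_ }, fun p => p, ?_, fun _ => rfl, fun _ => rfl, fun _ => rfl⟩
  · intro p c
    have h1 := abs_le.1 (herr p.fst c)
    have h2 := abs_le.1 (herr p.snd c)
    have h3 := congrFun (hxeq p) c
    simp only [Pi.sub_apply]
    rw [abs_le]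
    push_cast
    constructor <;> linarith only [h1, h2, h3]
  · set M := pairL P (fun ω => (x0 ω, b ω)) with hM
    -- D is a function of (q s, q e, b)
    have h1 : mi M (fun p => φ p.snd - φ p.fst) (fun p => x p.fst) (fun p => b p.fst) ≤
        mi M (fun p => (q p.fst, q p.snd)) (fun p => x p.fst) (fun p => b p.fst) := by
      refine mi_mono_left M _ ?_
      intro p p' _ _ e
      simp only [Prod.mk.injEq] at e
      show φ p.snd - φ p.fst = φ p'.snd - φ p'.fst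
      rw [hφ p.fst p'.fst e.2 e.1.1, hφ p.snd p'.snd (by rw [← hbeq, ← hbeq, e.2]) e.1.2]
    have h2 : mi M (fun p => (q p.fst, q p.snd)) (fun p => x p.fst) (fun p => b p.fst) =
        hc M (fun p => x p.fst) (fun p => b p.fst) -
          hc M (fun p => x p.fst) (fun p => ((q p.fst, q p.snd), b p.fst)) := by
      rw [mi_symm]
      rfl
    have h3 : hc M (fun p => x p.fst) (fun p => b p.fst) = hc P x b := hs.hc x b
    -- x0 = x - φ - noise
    have h4 : hc M (fun p => x0 p.fst) (fun p => ((q p.fst, q p.snd), b p.fst)) ≤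
        hc M (fun p => x p.fst - φ p.fst) (fun p => ((q p.fst, q p.snd), b p.fst)) +
          d * Real.log (2 * N0 + 1) := by
      have := hc_sub_le M (fun p => x0 p.fst) (fun p => x p.fst - φ p.fst)
        (fun p => ((q p.fst, q p.snd), b p.fst)) N0 (fun p _ i => by
          have h := abs_le.1 (herr p.fst i)
          simp only [Pi.sub_apply]
          rw [abs_le]
          constructor <;> linarith only [h])
      rw [Fintype.card_fin] at this
      exact this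
    have h5 : hc M (fun p => x p.fst - φ p.fst) (fun p => ((q p.fst, q p.snd), b p.fst)) =
        hc M (fun p => x p.fst) (fun p => ((q p.fst, q p.snd), b p.fst)) := by
      refine (Add.hc_eq M fun p p' e => ?_).symm
      simp only [Prod.mk.injEq] at e
      rw [hφ p.fst p'.fst e.2 e.1.1]
      exact sub_left_inj
    -- information of (q, q') with x0
    have h6 : mi M (fun p => x0 p.fst) (fun p => (q p.fst, q p.snd)) (fun p => b p.fst) ≤
        2 * (hc P x0 b - hc P x0 (fun ω => (q ω, b ω))) := by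
      have a1 : mi M (fun p => x0 p.fst) (fun p => q p.fst) (fun p => b p.fst) =
          hc P x0 b - hc P x0 (fun ω => (q ω, b ω)) := hs.mi x0 q b
      have a2 : mi M (fun p => x0 p.fst) (fun p => q p.snd) (fun p => b p.fst) =
          hc P x0 b - hc P x0 (fun ω => (q ω, b ω)) := by
        have := he.mi x0 q b
        simp only [← hbeq, ← hxeq] at this
        exact this
      rw [mi_pair]
      have a3 : mi M (fun p => x0 p.fst) (fun p => q p.snd) (fun p => (q p.fst, b p.fst)) ≤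
          mi M (fun p => x0 p.fst) (fun p => q p.snd) (fun p => b p.fst) := by
        -- mi(q'; (x0,q) | b) = mi(q';x0|b) + mi(q';q|x0,b) = mi(q';x0|b)
        have b1 : mi M (fun p => q p.snd) (fun p => (x0 p.fst, q p.fst)) (fun p => b p.fst) =
            mi M (fun p => q p.snd) (fun p => x0 p.fst) (fun p => b p.fst) +
            mi M (fun p => q p.snd) (fun p => q p.fst) (fun p => (x0 p.fst, b p.fst)) :=
          mi_pair M _ _ _ _
        have b2 : mi M (fun p => q p.snd) (fun p => q p.fst) (fun p => (x0 p.fst, b p.fst)) = 0 := by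
          rw [mi_symm]
          exact mi_zero_of hci (fun p p' e _ => by rw [e]) (fun p p' e _ => by rw [e])
        have b3 : mi M (fun p => q p.snd) (fun p => (q p.fst, x0 p.fst)) (fun p => b p.fst) =
            mi M (fun p => q p.snd) (fun p => q p.fst) (fun p => b p.fst) +
            mi M (fun p => q p.snd) (fun p => x0 p.fst) (fun p => (q p.fst, b p.fst)) :=
          mi_pair M _ _ _ _
        have b4 : mi M (fun p => q p.snd) (fun p => (q p.fst, x0 p.fst)) (fun p => b p.fst) ≤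
            mi M (fun p => q p.snd) (fun p => (x0 p.fst, q p.fst)) (fun p => b p.fst) := by
          refine mi_mono_right M _ ?_
          intro p p' _ _ e
          simp only [Prod.mk.injEq] at e
          exact Prod.ext e.1.2 e.1.1
        have b5 := mi_nonneg M (fun p => q p.snd) (fun p => q p.fst) (fun p => b p.fst)
        rw [mi_symm M (fun p => x0 p.fst), mi_symm M (fun p => x0 p.fst) (fun p => q p.snd)]
        linarith only [b1, b2, b3, b4, b5]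
      linarith only [a1, a2, a3]
    have h7 : hc M (fun p => x0 p.fst) (fun p => b p.fst) = hc P x0 b := hs.hc x0 b
    have h8 : mi M (fun p => x0 p.fst) (fun p => (q p.fst, q p.snd)) (fun p => b p.fst) =
        hc M (fun p => x0 p.fst) (fun p => b p.fst) -
          hc M (fun p => x0 p.fst) (fun p => ((q p.fst, q p.snd), b p.fst)) := rfl
    have h9 : hc P x0 (fun ω => (q ω, b ω)) ≤ hc P x0 b := Add.hc_anti P fun ω ω' e => by
      simp only [Prod.mk.injEq] at e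
      exact e.2
    linarith only [hx0, hx, hlow, h1, h2, h3, h4, h5, h6, h7, h8, h9]
  · intro ω
    exact pr_id _ ω

end Vale.Agent.P127.Stk.Abs
end

section

/-!
# P127 / Stk / Abs : existence of triples
-/

namespace Vale.Agent.P127.Stk.Abs

open Finset Vale.Agent.P127 Vale.Agent.P127.Stk

theorem ptriple : PTriple := by
  intro Ω _ β d P b x K K1 E E1 A L
  have hc1 : ∀ y, L.M.pr (fun m => (x (L.e m), b (L.e m))) y =
      A.M.pr (fun m => (x (A.s m), b (A.s m))) y := by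
    intro y
    rw [L.smp_e.pr (fun ω => (x ω, b ω)) y, A.smp_s.pr (fun ω => (x ω, b ω)) y]
  obtain ⟨Ω1, _, N, l1, v1, hl1, hv1, eq1, ci1⟩ := pext L.Ωl A.Ωl _ L.M A.M _ _ hc1
  have hs1 : Smp N (fun ω => L.s (l1 ω)) P := hl1.comp L.smp_s
  have hc2 : ∀ y, A.M.pr (fun m => (x (A.e m), b (A.e m))) y =
      N.pr (fun ω => (x (L.s (l1 ω)), b (L.s (l1 ω)))) y := by
    intro y
    rw [A.smp_e.pr (fun ω => (x ω, b ω)) y, hs1.pr (fun ω => (x ω, b ω)) y]
  obtain ⟨Ω2, _, T, u, n, hu, hn, eq2, ci2⟩ := pext A.Ωl Ω1 _ A.M N _ _ hc2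
  have eq1' : ∀ ω, x (L.e (l1 ω)) = x (A.s (v1 ω)) ∧ b (L.e (l1 ω)) = b (A.s (v1 ω)) :=
    fun ω => Prod.mk.injEq _ _ _ _ ▸ eq1 ω
  have eq2' : ∀ ω, x (A.e (u ω)) = x (L.s (l1 (n ω))) ∧ b (A.e (u ω)) = b (L.s (l1 (n ω))) :=
    fun ω => Prod.mk.injEq _ _ _ _ ▸ eq2 ω
  -- the condition of the second gluing in terms of `l`
  have hfun : (fun ω => (x (A.e (u ω)), b (A.e (u ω)))) =
      fun ω => (x (L.s (l1 (n ω))), b (L.s (l1 (n ω)))) := funext eq2
  have ci2' : mi T n u (fun ω => (x (L.s (l1 (n ω))), b (L.s (l1 (n ω))))) = 0 := by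
    rw [mi_symm, ← hfun]
    exact ci2
  have hfun1 : (fun ω => (x (A.s (v1 ω)), b (A.s (v1 ω)))) =
      fun ω => (x (L.e (l1 ω)), b (L.e (l1 ω))) := (funext eq1).symm
  refine ⟨⟨Ω2, inferInstance, T, u, fun ω => l1 (n ω), fun ω => v1 (n ω), hu, hn.comp hl1,
    hn.comp hv1, fun m => (A.hb (u m)).trans (eq2' m).2, fun m => (L.hb _).trans (eq1' (n m)).2,
    fun m => (eq2' m).1, fun m => (eq1' (n m)).1, ?_, ?_⟩⟩
  · exact mi_zero_of ci2' (fun ω ω' h _ => congrArg l1 h) (fun ω ω' h _ => h)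
  · have h0 : mi T (fun m => v1 (n m)) (fun m => (u m, l1 (n m)))
        (fun m => (x (A.s (v1 (n m))), b (A.s (v1 (n m))))) ≤
        mi T (fun m => v1 (n m)) (fun m => (l1 (n m), u m))
        (fun m => (x (A.s (v1 (n m))), b (A.s (v1 (n m))))) := by
      refine mi_mono_right T _ fun ω ω' _ _ e => ?_
      simp only [Prod.mk.injEq] at e ⊢
      exact ⟨e.1.2, e.1.1⟩
    refine le_antisymm (h0.trans ?_) (mi_nonneg T _ _ _)
    rw [mi_pair]
    have h1 : mi T (fun m => v1 (n m)) (fun m => l1 (n m))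
        (fun m => (x (A.s (v1 (n m))), b (A.s (v1 (n m))))) = 0 := by
      have h2 := hn.mi v1 l1 (fun ω => (x (A.s (v1 ω)), b (A.s (v1 ω))))
      rw [h2, mi_symm, hfun1]
      exact ci1
    have h3 : mi T (fun m => v1 (n m)) u
        (fun m => (l1 (n m), x (A.s (v1 (n m))), b (A.s (v1 (n m))))) = 0 := by
      have h4 : mi T n u (fun ω => (l1 (n ω), x (L.s (l1 (n ω))), b (L.s (l1 (n ω))))) = 0 :=
        mi_zero_cond ci2' fun ω ω' h _ => congrArg l1 h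
      have h5 : mi T (fun m => v1 (n m)) u
          (fun ω => (l1 (n ω), x (L.s (l1 (n ω))), b (L.s (l1 (n ω))))) = 0 :=
        mi_zero_of h4 (fun ω ω' h _ => congrArg v1 h) (fun ω ω' h _ => h)
      rw [← h5]
      refine mi_congr_cond T _ _ ?_ ?_
      · intro ω ω' _ _ e
        simp only [Prod.mk.injEq] at e ⊢
        refine ⟨e.1, ?_, ?_⟩
        · rw [← (eq1' (n ω)).1, ← (eq1' (n ω')).1, e.1]
        · rw [← (eq1' (n ω)).2, ← (eq1' (n ω')).2, e.1]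
      · intro ω ω' _ _ e
        simp only [Prod.mk.injEq] at e ⊢
        exact ⟨e.1, by rw [e.1], by rw [e.1]⟩
    rw [h1, h3, add_zero]

end Vale.Agent.P127.Stk.Abs
end

section

/-!
# P127 / Stk / Abs : the facts for a triple
-/

namespace Vale.Agent.P127.Stk.Abs

open Finset Vale.Agent.P127 Vale.Agent.P127.Stk

section a4
variable {Ωt : Type} [Fintype Ωt] {α δ β σ : Type} {d : ℕ}

/-- the facts from three bounds on informations -/
theorem a4_facts (M : Law Ωt) (bt : Ωt → β) (u : Ωt → α) (l : Ωt → δ)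
    (P D Q xs : Ωt → Fin d → ℤ) (s : Ωt → σ) (h E E1 : ℝ)
    (fP : ∀ m m', u m = u m' → P m = P m') (fD : ∀ m m', l m = l m' → D m = D m')
    (fx : ∀ m m', u m = u m' → xs m = xs m') (fs : ∀ m m', u m = u m' → s m = s m')
    (hP : hc M P bt = h) (hQ : hc M Q bt = h)
    (iQ : mi M Q (fun m => (u m, l m)) bt ≤ E) (iD : mi M D u bt ≤ E1)
    (iP : mi M P xs bt ≤ E) :
    Facts M bt P D Q xs h (hc M (fun m => P m + D m + Q m) bt) E E1 ∧
      mi M s (fun m => P m + Q m) bt ≤ hc M (fun m => P m + D m + Q m) bt - h + 2 * E + E1 := by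
  have i1 : mi M (fun m => P m + D m) Q bt ≤ E := by
    rw [mi_symm]
    refine (mi_mono_right M Q (Y' := fun m => (u m, l m)) ?_).trans iQ
    intro m m' _ _ e
    simp only [Prod.mk.injEq] at e
    show P m + D m = P m' + D m'
    rw [fP m m' e.1.1, fD m m' e.1.2]
  have i2 : mi M Q (fun m => (P m, D m)) bt ≤ E := by
    refine (mi_mono_right M Q (Y' := fun m => (u m, l m)) ?_).trans iQ
    intro m m' _ _ e
    simp only [Prod.mk.injEq] at e
    exact Prod.ext (fP m m' e.1.1) (fD m m' e.1.2)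
  have i3 : mi M Q (fun m => (P m, xs m)) bt ≤ E := by
    refine (mi_mono_right M Q (Y' := fun m => (u m, l m)) ?_).trans iQ
    intro m m' _ _ e
    simp only [Prod.mk.injEq] at e
    exact Prod.ext (fP m m' e.1.1) (fx m m' e.1.1)
  have i4 : mi M Q u bt ≤ E := by
    refine (mi_mono_right M Q (Y' := fun m => (u m, l m)) ?_).trans iQ
    intro m m' _ _ e
    simp only [Prod.mk.injEq] at e
    exact e.1.1
  have i5 : mi M D P bt ≤ E1 := by
    refine (mi_mono_right M D (Y' := u) ?_).trans iD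
    intro m m' _ _ e
    simp only [Prod.mk.injEq] at e
    exact fP m m' e.1
  have iPQ : mi M P Q bt ≤ E := by
    have h1 := mi_pair M Q P D bt
    have h2 := mi_nonneg M Q D (fun m => (P m, bt m))
    rw [mi_symm M P Q]
    linarith only [i2, h1, h2]
  have iDD : mi M (fun m => (P m, Q m)) D bt ≤ E + E1 := by
    rw [mi_symm, mi_pair]
    have h1 := mi_pair M Q P D bt
    have h2 := mi_nonneg M Q P bt
    have h3 := mi_symm M D Q (fun m => (P m, bt m))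
    linarith only [i2, i5, h1, h2, h3]
  have ixx : mi M (fun m => (P m, Q m)) xs bt ≤ 2 * E := by
    rw [mi_symm, mi_pair]
    have h1 := mi_pair M Q P xs bt
    have h2 := mi_nonneg M Q P bt
    have h3 := mi_symm M xs Q (fun m => (P m, bt m))
    have h4 := mi_symm M xs P bt
    linarith only [iP, i3, h1, h2, h3, h4]
  have hPD : hc M (fun m => P m + D m) bt ≤ hc M (fun m => P m + D m + Q m) bt + E := by
    have h1 : hc M (fun m => P m + D m) (fun m => (Q m, bt m)) ≤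
        hc M (fun m => P m + D m + Q m) (fun m => (Q m, bt m)) := by
      refine hc_mono_left M ?_
      intro m m' _ _ e
      simp only [Prod.mk.injEq] at e
      have e1 := e.1
      rw [e.2.1] at e1
      exact add_right_cancel e1
    have h2 : hc M (fun m => P m + D m + Q m) (fun m => (Q m, bt m)) ≤
        hc M (fun m => P m + D m + Q m) bt :=
      hc_mono_right M _ (fun m m' _ _ e => congrArg Prod.snd e)
    have h3 : mi M (fun m => P m + D m) Q bt = hc M (fun m => P m + D m) bt -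
      hc M (fun m => P m + D m) (fun m => (Q m, bt m)) := rfl
    linarith only [i1, h1, h2, h3]
  have hPQ : hc M (fun m => P m + Q m) bt ≤ hc M (fun m => P m + D m + Q m) bt + E + E1 := by
    have h1 : hc M (fun m => P m + Q m) (fun m => (D m, bt m)) ≤
        hc M (fun m => P m + D m + Q m) (fun m => (D m, bt m)) := by
      refine hc_mono_left M ?_
      intro m m' _ _ e
      simp only [Prod.mk.injEq] at e
      have e1 := e.1
      rw [e.2.1, add_right_comm, add_right_comm (P m') (D m') (Q m')] at e1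
      exact add_right_cancel e1
    have h2 : hc M (fun m => P m + D m + Q m) (fun m => (D m, bt m)) ≤
        hc M (fun m => P m + D m + Q m) bt :=
      hc_mono_right M _ (fun m m' _ _ e => congrArg Prod.snd e)
    have h3 : mi M (fun m => P m + Q m) D bt = hc M (fun m => P m + Q m) bt -
      hc M (fun m => P m + Q m) (fun m => (D m, bt m)) := rfl
    have h4 : mi M (fun m => P m + Q m) D bt ≤ mi M (fun m => (P m, Q m)) D bt := by
      refine mi_mono_left M D ?_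
      intro m m' _ _ e
      simp only [Prod.mk.injEq] at e
      show P m + Q m = P m' + Q m'
      rw [e.1.1, e.1.2]
    linarith only [iDD, h1, h2, h3, h4]
  refine ⟨⟨hP, hQ, rfl, iPQ, hPD, hPQ, iDD, ixx⟩, ?_⟩
  have c1 : mi M s (fun m => P m + Q m) bt ≤ mi M (fun m => P m + Q m) u bt := by
    rw [mi_symm M _ u]
    refine mi_mono_left M _ ?_
    intro m m' _ _ e
    simp only [Prod.mk.injEq] at e
    exact fs m m' e.1
  have c2 : mi M (fun m => P m + Q m) u bt = hc M (fun m => P m + Q m) bt -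
    hc M (fun m => P m + Q m) (fun m => (u m, bt m)) := rfl
  have c3 : hc M Q (fun m => (u m, bt m)) ≤ hc M (fun m => P m + Q m) (fun m => (u m, bt m)) := by
    refine hc_mono_left M ?_
    intro m m' _ _ e
    simp only [Prod.mk.injEq] at e
    have e1 := e.1
    rw [fP m m' e.2.1] at e1
    exact add_left_cancel e1
  have c4 : mi M Q u bt = hc M Q bt - hc M Q (fun m => (u m, bt m)) := rfl
  linarith only [hQ, i4, hPQ, c1, c2, c3, c4]

end a4

/-- A4 -/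
theorem pfacts : PFacts := by
  intro Ω _ β d P b x K K1 E E1 A L T
  have hb1 : ∀ m, b (A.s (T.v m)) = b (A.s (T.u m)) := fun m => ((T.hul m).trans (T.hlv m)).symm
  have iQ : mi T.M (fun m => A.D (T.v m)) (fun m => (T.u m, T.l m))
      (fun m => b (A.s (T.u m))) ≤ E := by
    have h1 : mi T.M (fun m => A.D (T.v m)) (fun m => (T.u m, T.l m)) (fun m => b (A.s (T.u m))) ≤
        mi T.M (fun m => A.D (T.v m)) (fun m => (x (A.s (T.v m)), (T.u m, T.l m)))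
          (fun m => b (A.s (T.u m))) := by
      refine mi_mono_right T.M _ ?_
      intro m m' _ _ e
      simp only [Prod.mk.injEq] at e ⊢
      exact e.1.2
    rw [mi_pair T.M (fun m => A.D (T.v m)) (fun m => x (A.s (T.v m)))
      (fun m => (T.u m, T.l m))] at h1
    have h2 : mi T.M (fun m => A.D (T.v m)) (fun m => x (A.s (T.v m)))
        (fun m => b (A.s (T.u m))) ≤ E := by
      have h3 := T.smp_v.mi A.D (fun m => x (A.s m)) (fun m => b (A.s m))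
      have h4 := A.info
      simp only [hb1] at h3
      rw [h3]
      exact h4
    have h5 : mi T.M (fun m => A.D (T.v m)) (fun m => (T.u m, T.l m))
        (fun m => (x (A.s (T.v m)), b (A.s (T.u m)))) = 0 := by
      have h6 := T.ci_v
      simp only [hb1] at h6
      refine mi_zero_of h6 ?_ ?_
      · intro m m' e _
        rw [e]
      · intro m m' e _
        exact e
    linarith only [h1, h2, h5]
  have iD : mi T.M (fun m => L.D (T.l m)) T.u (fun m => b (A.s (T.u m))) ≤ E1 := by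
    have h1 : mi T.M (fun m => L.D (T.l m)) T.u (fun m => b (A.s (T.u m))) ≤
        mi T.M (fun m => L.D (T.l m)) (fun m => (x (L.s (T.l m)), T.u m))
          (fun m => b (A.s (T.u m))) := by
      refine mi_mono_right T.M _ ?_
      intro m m' _ _ e
      simp only [Prod.mk.injEq] at e
      exact e.1.2
    rw [mi_pair] at h1
    have h2 : mi T.M (fun m => L.D (T.l m)) (fun m => x (L.s (T.l m)))
        (fun m => b (A.s (T.u m))) ≤ E1 := by
      have h3 := T.smp_l.mi L.D (fun m => x (L.s m)) (fun m => b (L.s m))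
      have h4 := L.info
      simp only [← T.hul] at h3
      rw [h3]
      exact h4
    have h5 : mi T.M (fun m => L.D (T.l m)) T.u
        (fun m => (x (L.s (T.l m)), b (A.s (T.u m)))) = 0 := by
      have h6 := T.ci_l
      simp only [← T.hul] at h6
      refine mi_zero_of h6 ?_ ?_
      · intro m m' e _
        rw [e]
      · intro m m' e _
        exact e
    linarith
  have iP : mi T.M (fun m => A.D (T.u m)) (fun m => x (A.s (T.u m)))
      (fun m => b (A.s (T.u m))) ≤ E := by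
    rw [T.smp_u.mi A.D (fun m => x (A.s m)) (fun m => b (A.s m))]
    exact A.info
  have hP : hc T.M (fun m => A.D (T.u m)) (fun m => b (A.s (T.u m))) = A.h :=
    T.smp_u.hc A.D (fun m => b (A.s m))
  have hQ : hc T.M (fun m => A.D (T.v m)) (fun m => b (A.s (T.u m))) = A.h := by
    have h3 := T.smp_v.hc A.D (fun m => b (A.s m))
    simp only [hb1] at h3
    exact h3
  exact ⟨_, a4_facts T.M (fun m => b (A.s (T.u m))) T.u T.l (fun m => A.D (T.u m))
    (fun m => L.D (T.l m)) (fun m => A.D (T.v m)) (fun m => x (A.s (T.u m)))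
    (fun m => A.s (T.u m)) A.h E E1 (fun m m' e => by simp only [e]) (fun m m' e => by simp only [e])
    (fun m m' e => by simp only [e]) (fun m m' e => by simp only [e]) hP hQ iQ iD iP⟩

end Vale.Agent.P127.Stk.Abs
end

section

/-!
# P127 / Stk / Abs : a triple is a link
-/

namespace Vale.Agent.P127.Stk.Abs

open Finset Vale.Agent.P127 Vale.Agent.P127.Stk

theorem ptripleLink : PTripleLink := by
  intro Ω _ β d P b x K K1 E E1 A L T
  have hb1 : ∀ m, b (A.s (T.v m)) = b (A.s (T.u m)) := fun m => ((T.hul m).trans (T.hlv m)).symm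
  have iQ : mi T.M (fun m => A.D (T.v m)) (fun m => (T.u m, T.l m))
      (fun m => b (A.s (T.u m))) ≤ E := by
    have h1 : mi T.M (fun m => A.D (T.v m)) (fun m => (T.u m, T.l m)) (fun m => b (A.s (T.u m))) ≤
        mi T.M (fun m => A.D (T.v m)) (fun m => (x (A.s (T.v m)), (T.u m, T.l m)))
          (fun m => b (A.s (T.u m))) := by
      refine mi_mono_right T.M _ ?_
      intro m m' _ _ e
      simp only [Prod.mk.injEq] at e ⊢
      exact e.1.2
    rw [mi_pair T.M (fun m => A.D (T.v m)) (fun m => x (A.s (T.v m)))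
      (fun m => (T.u m, T.l m))] at h1
    have h2 : mi T.M (fun m => A.D (T.v m)) (fun m => x (A.s (T.v m)))
        (fun m => b (A.s (T.u m))) ≤ E := by
      have h3 := T.smp_v.mi A.D (fun m => x (A.s m)) (fun m => b (A.s m))
      have h4 := A.info
      simp only [hb1] at h3
      rw [h3]
      exact h4
    have h5 : mi T.M (fun m => A.D (T.v m)) (fun m => (T.u m, T.l m))
        (fun m => (x (A.s (T.v m)), b (A.s (T.u m)))) = 0 := by
      have h6 := T.ci_v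
      simp only [hb1] at h6
      refine mi_zero_of h6 ?_ ?_
      · intro m m' e _
        rw [e]
      · intro m m' e _
        exact e
    linarith only [h1, h2, h5]
  have iD : mi T.M (fun m => L.D (T.l m)) T.u (fun m => b (A.s (T.u m))) ≤ E1 := by
    have h1 : mi T.M (fun m => L.D (T.l m)) T.u (fun m => b (A.s (T.u m))) ≤
        mi T.M (fun m => L.D (T.l m)) (fun m => (x (L.s (T.l m)), T.u m))
          (fun m => b (A.s (T.u m))) := by
      refine mi_mono_right T.M _ ?_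
      intro m m' _ _ e
      simp only [Prod.mk.injEq] at e
      exact e.1.2
    rw [mi_pair] at h1
    have h2 : mi T.M (fun m => L.D (T.l m)) (fun m => x (L.s (T.l m)))
        (fun m => b (A.s (T.u m))) ≤ E1 := by
      have h3 := T.smp_l.mi L.D (fun m => x (L.s m)) (fun m => b (L.s m))
      have h4 := L.info
      simp only [← T.hul] at h3
      rw [h3]
      exact h4
    have h5 : mi T.M (fun m => L.D (T.l m)) T.u
        (fun m => (x (L.s (T.l m)), b (A.s (T.u m)))) = 0 := by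
      have h6 := T.ci_l
      simp only [← T.hul] at h6
      refine mi_zero_of h6 ?_ ?_
      · intro m m' e _
        rw [e]
      · intro m m' e _
        exact e
    linarith only [h1, h2, h5]
  have iP : mi T.M (fun m => A.D (T.u m)) (fun m => x (A.s (T.u m)))
      (fun m => b (A.s (T.u m))) ≤ E := by
    rw [T.smp_u.mi A.D (fun m => x (A.s m)) (fun m => b (A.s m))]
    exact A.info
  refine ⟨{
    Ωl := T.Ωt
    fin := T.fin
    M := T.M
    s := fun m => A.s (T.u m)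
    e := fun m => A.e (T.v m)
    D := fun m => A.D (T.u m) + L.D (T.l m) + A.D (T.v m)
    smp_s := T.smp_u.comp A.smp_s
    smp_e := T.smp_v.comp A.smp_e
    hb := fun m => by rw [← A.hb, hb1]
    noise := ?_
    info := ?_ }, rfl⟩
  · intro m c
    have h1 := abs_le.1 (A.noise (T.u m) c)
    have h2 := abs_le.1 (L.noise (T.l m) c)
    have h3 := abs_le.1 (A.noise (T.v m) c)
    have h4 := congrFun (T.xul m) c
    have h5 := congrFun (T.xlv m) c
    simp only [Pi.add_apply]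
    rw [abs_le]
    push_cast
    constructor <;> linarith only [h1, h2, h3, h4, h5]
  · have h1 : mi T.M (fun m => A.D (T.u m) + L.D (T.l m) + A.D (T.v m))
        (fun m => x (A.s (T.u m))) (fun m => b (A.s (T.u m))) ≤
        mi T.M (fun m => x (A.s (T.u m))) (fun m => (A.D (T.u m), (L.D (T.l m), A.D (T.v m))))
          (fun m => b (A.s (T.u m))) := by
      rw [mi_symm T.M (fun m => x (A.s (T.u m)))]
      refine mi_mono_left T.M _ ?_
      intro m m' _ _ e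
      simp only [Prod.mk.injEq] at e
      show _ + _ + _ = _ + _ + _
      rw [e.1.1, e.1.2.1, e.1.2.2]
    rw [mi_pair, mi_pair] at h1
    have h2 : mi T.M (fun m => x (A.s (T.u m))) (fun m => A.D (T.u m))
        (fun m => b (A.s (T.u m))) ≤ E := by
      rw [mi_symm]
      exact iP
    have h3 : mi T.M (fun m => x (A.s (T.u m))) (fun m => L.D (T.l m))
        (fun m => (A.D (T.u m), b (A.s (T.u m)))) ≤ E1 := by
      rw [mi_symm]
      refine le_trans ?_ iD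
      rw [mi_symm T.M _ T.u]
      refine le_trans ?_ (mi_cond_le T.M (fun m => L.D (T.l m)) (W := fun m => A.D (T.u m))
        (fun m => b (A.s (T.u m))) ?_)
      · rw [mi_symm]
        refine mi_mono_left T.M _ ?_
        intro m m' _ _ e
        simp only [Prod.mk.injEq] at e
        simp only [e.1]
      · intro m m' _ _ e
        simp only [Prod.mk.injEq] at e
        simp only [e.1]
    have h4 : mi T.M (fun m => x (A.s (T.u m))) (fun m => A.D (T.v m))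
        (fun m => (L.D (T.l m), A.D (T.u m), b (A.s (T.u m)))) ≤ E := by
      refine le_trans ?_ iQ
      rw [mi_symm T.M _ (fun m => (T.u m, T.l m))]
      have h5 : mi T.M (fun m => x (A.s (T.u m))) (fun m => A.D (T.v m))
          (fun m => (L.D (T.l m), A.D (T.u m), b (A.s (T.u m)))) =
          mi T.M (fun m => x (A.s (T.u m))) (fun m => A.D (T.v m))
          (fun m => ((L.D (T.l m), A.D (T.u m)), b (A.s (T.u m)))) := by
        refine mi_congr_cond T.M _ _ ?_ ?_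
        · intro m m' _ _ e
          simp only [Prod.mk.injEq] at e ⊢
          exact ⟨e.1.1, e.1.2, e.2⟩
        · intro m m' _ _ e
          simp only [Prod.mk.injEq] at e ⊢
          exact ⟨⟨e.1, e.2.1⟩, e.2.2⟩
      rw [h5]
      refine le_trans ?_ (mi_cond_le T.M (fun m => A.D (T.v m))
        (W := fun m => (L.D (T.l m), A.D (T.u m))) (fun m => b (A.s (T.u m))) ?_)
      · refine mi_mono_left T.M _ ?_
        intro m m' _ _ e
        simp only [Prod.mk.injEq] at e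
        simp only [e.1.1]
      · intro m m' _ _ e
        simp only [Prod.mk.injEq] at e
        simp only [e.1.1, e.1.2]
    linarith only [h1, h2, h3, h4]

end Vale.Agent.P127.Stk.Abs
end

section

/-!
# P127 / Stk / Abs : `x0` absorbs `- P`
-/

namespace Vale.Agent.P127.Stk.Abs

open Finset Vale.Agent.P127 Vale.Agent.P127.Stk

/-- the conditional entropy depends only on the partition given by the condition -/
theorem absA_cond {Ω : Type} [Fintype Ω] {S T U : Type*} (P : Law Ω) (X : Ω → S) {Y : Ω → T}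
    {Y' : Ω → U} (h : ∀ ω ω', Y ω = Y ω' ↔ Y' ω = Y' ω') : hc P X Y = hc P X Y' :=
  le_antisymm (Add.hc_anti P fun ω ω' e => (h ω ω').1 e)
    (Add.hc_anti P fun ω ω' e => (h ω ω').2 e)

/-- A6 -/
theorem pabsA : PAbsA := by
  intro Ωt _ β κ d M bt qs P D Q x0s xs xe φs h h' E E1 ρ e K N0 hF hφ hn0 hn hxe
  intro Ω' _ T w ξ hw hξ hbZ hci
  have hb : ∀ ω, bt (w ω) = bt (ξ ω) := fun ω => (Prod.mk.injEq _ _ _ _ ▸ hbZ ω).1
  have hZ : ∀ ω, P (w ω) + Q (w ω) = P (ξ ω) + Q (ξ ω) :=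
    fun ω => (Prod.mk.injEq _ _ _ _ ▸ hbZ ω).2
  have hbf : (fun ω => bt (ξ ω)) = (fun ω => bt (w ω)) := funext fun ω => (hb ω).symm
  -- entropies of the two samples
  have hP1 : hc T (fun ω => P (w ω)) (fun ω => bt (w ω)) = h := (hw.hc P bt).trans hF.hP
  have hQ1 : hc T (fun ω => Q (w ω)) (fun ω => bt (w ω)) = h := (hw.hc Q bt).trans hF.hQ
  have hP2 : hc T (fun ω => P (ξ ω)) (fun ω => bt (w ω)) = h := by
    rw [← hbf]; exact (hξ.hc P bt).trans hF.hP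
  have hQ2 : hc T (fun ω => Q (ξ ω)) (fun ω => bt (w ω)) = h := by
    rw [← hbf]; exact (hξ.hc Q bt).trans hF.hQ
  have hZb : hc T (fun ω => P (w ω) + Q (w ω)) (fun ω => bt (w ω)) ≤ h' + E + E1 :=
    (hw.hc (fun m => P m + Q m) bt).le.trans hF.hPQ
  have hI1 : mi T (fun ω => P (w ω)) (fun ω => Q (w ω)) (fun ω => bt (w ω)) ≤ E :=
    (hw.mi P Q bt).le.trans hF.iPQ
  have hIx : mi T (fun ω => (P (w ω), Q (w ω))) (fun ω => xs (w ω)) (fun ω => bt (w ω)) ≤ 2 * E :=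
    (hw.mi (fun m => (P m, Q m)) xs bt).le.trans hF.ix
  have hxe' : hc T (fun ω => xe (w ω)) (fun ω => bt (w ω)) ≤ ρ + e := (hw.hc xe bt).le.trans hxe
  have hPQ1 : 2 * h - E ≤ hc T (fun ω => (P (w ω), Q (w ω))) (fun ω => bt (w ω)) := by
    have h1 := hc_pair T (fun ω => Q (w ω)) (fun ω => P (w ω)) (fun ω => bt (w ω))
    have h2 : hc T (fun ω => (P (w ω), Q (w ω))) (fun ω => bt (w ω)) =
        hc T (fun ω => (Q (w ω), P (w ω))) (fun ω => bt (w ω)) :=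
      Add.hc_eq T fun ω ω' _ => by simp only [Prod.mk.injEq]; (clear * -; tauto)
    have h3 : mi T (fun ω => P (w ω)) (fun ω => Q (w ω)) (fun ω => bt (w ω)) =
      hc T (fun ω => P (w ω)) (fun ω => bt (w ω)) -
        hc T (fun ω => P (w ω)) (fun ω => (Q (w ω), bt (w ω))) := rfl
    linarith only [hP1, hQ1, hI1, h1, h2, h3]
  have hPQ2 : hc T (fun ω => (P (ξ ω), Q (ξ ω))) (fun ω => bt (w ω)) =
      hc T (fun ω => (P (w ω), Q (w ω))) (fun ω => bt (w ω)) := by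
    rw [hw.hc (fun m => (P m, Q m)) bt, ← hbf, hξ.hc (fun m => (P m, Q m)) bt]
  have hci' : mi T w ξ (fun ω => (bt (w ω), P (w ω) + Q (w ω))) = 0 := hci
  -- the law of `(P, Q)` given `(b, Z)`
  have hA : hc T (fun ω => (P (w ω), Q (w ω))) (fun ω => (bt (w ω), P (w ω) + Q (w ω))) =
      hc T (fun ω => (P (w ω), Q (w ω))) (fun ω => bt (w ω)) -
        hc T (fun ω => P (w ω) + Q (w ω)) (fun ω => bt (w ω)) := by
    have h1 := hc_pair T (fun ω => P (w ω) + Q (w ω)) (fun ω => (P (w ω), Q (w ω)))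
      (fun ω => bt (w ω))
    have h2 : hc T (fun ω => (P (w ω) + Q (w ω), (P (w ω), Q (w ω)))) (fun ω => bt (w ω)) =
        hc T (fun ω => (P (w ω), Q (w ω))) (fun ω => bt (w ω)) :=
      Add.hc_eq T fun ω ω' _ => by
        simp only [Prod.mk.injEq]
        constructor
        · rintro ⟨e1, e2⟩; exact ⟨by rw [e1, e2], e1, e2⟩
        · rintro ⟨_, e1, e2⟩; exact ⟨e1, e2⟩
    have h3 := absA_cond T (fun ω => (P (w ω), Q (w ω)))
      (Y := fun ω => (P (w ω) + Q (w ω), bt (w ω)))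
      (Y' := fun ω => (bt (w ω), P (w ω) + Q (w ω)))
      (fun ω ω' => by simp only [Prod.mk.injEq]; (clear * -; tauto))
    linarith only [h1, h2, h3]
  have hB : hc T (fun ω => P (w ω)) (fun ω => (bt (w ω), P (w ω) + Q (w ω))) =
      hc T (fun ω => (P (w ω), Q (w ω))) (fun ω => (bt (w ω), P (w ω) + Q (w ω))) :=
    Add.hc_eq T fun ω ω' e => by
      simp only [Prod.mk.injEq] at e ⊢
      constructor
      · rintro ⟨e1, e2⟩; exact e1
      · intro e1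
        refine ⟨e1, ?_⟩
        have h1 := e.2
        rw [e1] at h1
        exact add_left_cancel h1
  -- step (i)
  have hmi : mi T (fun ω => (P (w ω), Q (w ω))) (fun ω => (P (ξ ω), Q (ξ ω)))
      (fun ω => (bt (w ω), P (w ω) + Q (w ω))) = 0 :=
    mi_zero_of hci' (fun ω ω' e _ => by rw [e]) (fun ω ω' e _ => by rw [e])
  have hmi' : hc T (fun ω => (P (w ω), Q (w ω))) (fun ω => (bt (w ω), P (w ω) + Q (w ω))) -
      hc T (fun ω => (P (w ω), Q (w ω)))
        (fun ω => ((P (ξ ω), Q (ξ ω)), (bt (w ω), P (w ω) + Q (w ω)))) = 0 := hmi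
  have hC : hc T (fun ω => (P (w ω), Q (w ω))) (fun ω => ((P (ξ ω), Q (ξ ω)), bt (w ω))) =
      hc T (fun ω => (P (w ω), Q (w ω)))
        (fun ω => ((P (ξ ω), Q (ξ ω)), (bt (w ω), P (w ω) + Q (w ω)))) :=
    absA_cond T _ fun ω ω' => by
      simp only [Prod.mk.injEq, hZ]
      constructor
      · rintro ⟨⟨e1, e2⟩, e3⟩; exact ⟨⟨e1, e2⟩, e3, by rw [e1, e2]⟩
      · rintro ⟨⟨e1, e2⟩, e3, _⟩; exact ⟨⟨e1, e2⟩, e3⟩
  have hch := Add.hc_chain T (fun ω => (P (w ω), Q (w ω))) (fun ω => (P (ξ ω), Q (ξ ω)))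
    (fun ω => bt (w ω))
  have hbsg := Add.bsg T (fun ω => bt (w ω)) (δ := 0) (fun ω => P (w ω)) (fun ω => Q (w ω))
    (fun ω => P (ξ ω)) (fun ω => Q (ξ ω)) hZ (by linarith only [hA, hmi', hC, hch])
  have h1 : hc T (fun ω => P (w ω) - Q (ξ ω)) (fun ω => bt (w ω)) ≤ h' + 3 * E + E1 := by
    linarith only [hP1, hQ1, hP2, hQ2, hZb, hPQ1, hPQ2, hbsg]
  have h2 : hc T (fun ω => - P (ξ ω) - P (w ω)) (fun ω => (bt (w ω), P (w ω) + Q (w ω))) ≤
      h' + 3 * E + E1 := by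
    refine le_trans (le_of_eq ?_) ((Add.hc_anti T (X := fun ω => P (w ω) - Q (ξ ω))
      (C := fun ω => (bt (w ω), P (w ω) + Q (w ω))) (D := fun ω => bt (w ω))
      (fun ω ω' e => by simp only [Prod.mk.injEq] at e; exact e.1)).trans h1)
    refine Add.hc_eq T fun ω ω' e => ?_
    simp only [Prod.mk.injEq] at e
    have hh : ∀ ω, P (w ω) - Q (ξ ω) = (P (ξ ω) + P (w ω)) - (P (w ω) + Q (w ω)) := fun ω => by
      rw [hZ ω]; abel
    have hg : ∀ ω, - P (ξ ω) - P (w ω) = - (P (ξ ω) + P (w ω)) := fun ω => by abel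
    rw [hh ω, hh ω', hg ω, hg ω', e.2, sub_left_inj, neg_inj]
  -- step (ii)
  have h3 : 2 * h - h' - 2 * E - E1 ≤
      hc T (fun ω => P (w ω)) (fun ω => (bt (w ω), P (w ω) + Q (w ω))) := by
    linarith only [hZb, hPQ1, hA, hB]
  -- step (iii)
  have hsw := Add.swap T (fun ω => xs (w ω)) (fun ω => P (w ω)) (fun ω => - P (ξ ω))
    (fun ω => (bt (w ω), P (w ω) + Q (w ω)))
  have h4 : hc T (fun ω => xs (w ω) + P (w ω)) (fun ω => (bt (w ω), P (w ω) + Q (w ω))) ≤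
      ρ + e + d * Real.log (2 * K + 1) := by
    refine (Add.hc_anti T (X := fun ω => xs (w ω) + P (w ω))
      (C := fun ω => (bt (w ω), P (w ω) + Q (w ω))) (D := fun ω => bt (w ω))
      (fun ω ω' e => by simp only [Prod.mk.injEq] at e; exact e.1)).trans ?_
    have h5 := hc_sub_le T (fun ω => xs (w ω) + P (w ω)) (fun ω => xe (w ω))
      (fun ω => bt (w ω)) K (fun ω _ c => by
        have := hn (w ω) c
        rw [abs_sub_comm] at this
        simp only [Pi.add_apply]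
        have h6 : xs (w ω) c + P (w ω) c - xe (w ω) c = P (w ω) c - (xe (w ω) c - xs (w ω) c) := by
          ring
        rw [h6]
        exact this)
    rw [Fintype.card_fin] at h5
    linarith only [hxe', h5]
  have h5 : hc T (fun ω => P (w ω)) (fun ω => (bt (w ω), P (w ω) + Q (w ω))) - 2 * E ≤
      hc T (fun ω => P (w ω)) (fun ω => (xs (w ω), - P (ξ ω), (bt (w ω), P (w ω) + Q (w ω)))) := by
    have k1 : mi T w ξ (fun ω => (xs (w ω), (bt (w ω), P (w ω) + Q (w ω)))) = 0 :=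
      mi_zero_cond hci' (fun ω ω' e _ => by rw [e])
    have k2 : mi T (fun ω => P (w ω)) (fun ω => - P (ξ ω))
        (fun ω => (xs (w ω), (bt (w ω), P (w ω) + Q (w ω)))) = 0 :=
      mi_zero_of k1 (fun ω ω' e _ => by rw [e]) (fun ω ω' e _ => by rw [e])
    have k3 : hc T (fun ω => P (w ω)) (fun ω => (xs (w ω), (bt (w ω), P (w ω) + Q (w ω)))) -
        hc T (fun ω => P (w ω))
          (fun ω => (- P (ξ ω), (xs (w ω), (bt (w ω), P (w ω) + Q (w ω))))) = 0 := k2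
    have k4 : hc T (fun ω => P (w ω))
          (fun ω => (- P (ξ ω), (xs (w ω), (bt (w ω), P (w ω) + Q (w ω))))) =
        hc T (fun ω => P (w ω))
          (fun ω => (xs (w ω), - P (ξ ω), (bt (w ω), P (w ω) + Q (w ω)))) :=
      absA_cond T _ fun ω ω' => by simp only [Prod.mk.injEq]; (clear * -; tauto)
    have k5 : mi T (fun ω => P (w ω)) (fun ω => xs (w ω))
        (fun ω => (bt (w ω), P (w ω) + Q (w ω))) ≤ 2 * E := by
      refine le_trans ?_ hIx
      refine le_trans (mi_mono_left T (X' := fun ω => (P (w ω), Q (w ω))) _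
        (fun ω ω' _ _ e => by simp only [Prod.mk.injEq] at e; exact e.1.1)) ?_
      have k6 := mi_cond_le T (X := fun ω => (P (w ω), Q (w ω))) (fun ω => xs (w ω))
        (W := fun ω => P (w ω) + Q (w ω)) (fun ω => bt (w ω))
        (fun ω ω' _ _ e => by
          simp only [Prod.mk.injEq] at e
          show P (w ω) + Q (w ω) = P (w ω') + Q (w ω')
          rw [e.1.1, e.1.2])
      refine le_trans (le_of_eq ?_) k6
      exact mi_congr_cond T _ _ (fun ω ω' _ _ e => by simp only [Prod.mk.injEq] at e ⊢; (clear * - e; tauto))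
        (fun ω ω' _ _ e => by simp only [Prod.mk.injEq] at e ⊢; (clear * - e; tauto))
    have k7 : mi T (fun ω => P (w ω)) (fun ω => xs (w ω))
        (fun ω => (bt (w ω), P (w ω) + Q (w ω))) =
      hc T (fun ω => P (w ω)) (fun ω => (bt (w ω), P (w ω) + Q (w ω))) -
        hc T (fun ω => P (w ω)) (fun ω => (xs (w ω), (bt (w ω), P (w ω) + Q (w ω)))) := rfl
    linarith only [k3, k4, k5, k7]
  have h6 : hc T (fun ω => xs (w ω) + - P (ξ ω)) (fun ω => (bt (w ω), P (w ω) + Q (w ω))) ≤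
      ρ + e + d * Real.log (2 * K + 1) + 2 * (h' - h) + 7 * E + 2 * E1 := by
    linarith only [hZb, hPQ1, hA, hB, h2, hsw, h4, h5]
  -- step (iv)
  have h7 := hc_sub_le T (fun ω => x0s (w ω) + - P (ξ ω))
    (fun ω => xs (w ω) - φs (w ω) + - P (ξ ω))
    (fun ω => (qs (w ω), (bt (w ω), P (w ω) + Q (w ω)))) N0 (fun ω _ c => by
      have := hn0 (w ω) c
      rw [abs_sub_comm] at this
      simp only [Pi.add_apply, Pi.sub_apply, Pi.neg_apply]
      have h8 : x0s (w ω) c + - P (ξ ω) c - (xs (w ω) c - φs (w ω) c + - P (ξ ω) c) =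
        φs (w ω) c - (xs (w ω) c - x0s (w ω) c) := by ring
      rw [h8]
      exact this)
  rw [Fintype.card_fin] at h7
  have h8 : hc T (fun ω => xs (w ω) - φs (w ω) + - P (ξ ω))
      (fun ω => (qs (w ω), (bt (w ω), P (w ω) + Q (w ω)))) =
      hc T (fun ω => xs (w ω) + - P (ξ ω))
      (fun ω => (qs (w ω), (bt (w ω), P (w ω) + Q (w ω)))) :=
    Add.hc_eq T fun ω ω' e => by
      simp only [Prod.mk.injEq] at e
      have h9 := hφ (w ω) (w ω') e.2.1 e.1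
      have h10 : ∀ ω, xs (w ω) - φs (w ω) + - P (ξ ω) = xs (w ω) + - P (ξ ω) - φs (w ω) :=
        fun ω => by abel
      rw [h10 ω, h10 ω', h9, sub_left_inj]
  have h9 : hc T (fun ω => xs (w ω) + - P (ξ ω))
      (fun ω => (qs (w ω), (bt (w ω), P (w ω) + Q (w ω)))) ≤
      hc T (fun ω => xs (w ω) + - P (ξ ω)) (fun ω => (bt (w ω), P (w ω) + Q (w ω))) :=
    Add.hc_anti T fun ω ω' e => by
      simp only [Prod.mk.injEq] at e ⊢
      exact e.2
  show hc T (fun ω => x0s (w ω) + - P (ξ ω))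
    (fun ω => (qs (w ω), (bt (w ω), P (w ω) + Q (w ω)))) ≤ _
  linarith only [hZb, hPQ1, hA, hB, h2, hsw, h4, h5, h7, h8, h9]

end Vale.Agent.P127.Stk.Abs
end

section

/-!
# P127 / Stk / Abs : `- P` absorbs `D`
-/

namespace Vale.Agent.P127.Stk.Abs

open Finset Vale.Agent.P127 Vale.Agent.P127.Stk

/-- the conditional entropy depends only on the partition given by the condition -/
theorem absB_cond {Ω : Type} [Fintype Ω] {S T U : Type*} (P : Law Ω) (X : Ω → S) {Y : Ω → T}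
    {Y' : Ω → U} (h : ∀ ω ω', Y ω = Y ω' ↔ Y' ω = Y' ω') : hc P X Y = hc P X Y' :=
  le_antisymm (Add.hc_anti P fun ω ω' e => (h ω ω').1 e)
    (Add.hc_anti P fun ω ω' e => (h ω ω').2 e)

/-- A7 -/
theorem pabsB : PAbsB := by
  intro Ωt _ β d M bt P D Q xs h h' E E1 hF
  intro Ω' _ T w ξ hw hξ hbZ hci
  have hb : ∀ ω, bt (w ω) = bt (ξ ω) := fun ω => (Prod.mk.injEq _ _ _ _ ▸ hbZ ω).1
  have hZ : ∀ ω, P (w ω) + Q (w ω) = P (ξ ω) + Q (ξ ω) :=
    fun ω => (Prod.mk.injEq _ _ _ _ ▸ hbZ ω).2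
  have hbf : (fun ω => bt (ξ ω)) = (fun ω => bt (w ω)) := funext fun ω => (hb ω).symm
  -- entropies of the two samples
  have hP1 : hc T (fun ω => P (w ω)) (fun ω => bt (w ω)) = h := (hw.hc P bt).trans hF.hP
  have hQ1 : hc T (fun ω => Q (w ω)) (fun ω => bt (w ω)) = h := (hw.hc Q bt).trans hF.hQ
  have hP2 : hc T (fun ω => P (ξ ω)) (fun ω => bt (w ω)) = h := by
    rw [← hbf]; exact (hξ.hc P bt).trans hF.hP
  have hQ2 : hc T (fun ω => Q (ξ ω)) (fun ω => bt (w ω)) = h := by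
    rw [← hbf]; exact (hξ.hc Q bt).trans hF.hQ
  have hZb : hc T (fun ω => P (w ω) + Q (w ω)) (fun ω => bt (w ω)) ≤ h' + E + E1 :=
    (hw.hc (fun m => P m + Q m) bt).le.trans hF.hPQ
  have hI1 : mi T (fun ω => P (w ω)) (fun ω => Q (w ω)) (fun ω => bt (w ω)) ≤ E :=
    (hw.mi P Q bt).le.trans hF.iPQ
  have hID : mi T (fun ω => (P (w ω), Q (w ω))) (fun ω => D (w ω)) (fun ω => bt (w ω)) ≤ E + E1 :=
    (hw.mi (fun m => (P m, Q m)) D bt).le.trans hF.iD
  have hPD : hc T (fun ω => P (w ω) + D (w ω)) (fun ω => bt (w ω)) ≤ h' + E :=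
    (hw.hc (fun m => P m + D m) bt).le.trans hF.hPD
  have hPQ1 : 2 * h - E ≤ hc T (fun ω => (P (w ω), Q (w ω))) (fun ω => bt (w ω)) := by
    have h1 := hc_pair T (fun ω => Q (w ω)) (fun ω => P (w ω)) (fun ω => bt (w ω))
    have h2 : hc T (fun ω => (P (w ω), Q (w ω))) (fun ω => bt (w ω)) =
        hc T (fun ω => (Q (w ω), P (w ω))) (fun ω => bt (w ω)) :=
      Add.hc_eq T fun ω ω' _ => by simp only [Prod.mk.injEq]; (clear * -; tauto)
    have h3 : mi T (fun ω => P (w ω)) (fun ω => Q (w ω)) (fun ω => bt (w ω)) =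
      hc T (fun ω => P (w ω)) (fun ω => bt (w ω)) -
        hc T (fun ω => P (w ω)) (fun ω => (Q (w ω), bt (w ω))) := rfl
    linarith
  have hPQ2 : hc T (fun ω => (P (ξ ω), Q (ξ ω))) (fun ω => bt (w ω)) =
      hc T (fun ω => (P (w ω), Q (w ω))) (fun ω => bt (w ω)) := by
    rw [hw.hc (fun m => (P m, Q m)) bt, ← hbf, hξ.hc (fun m => (P m, Q m)) bt]
  have hci' : mi T w ξ (fun ω => (bt (w ω), P (w ω) + Q (w ω))) = 0 := hci
  -- the law of `(P, Q)` given `(b, Z)`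
  have hA : hc T (fun ω => (P (w ω), Q (w ω))) (fun ω => (bt (w ω), P (w ω) + Q (w ω))) =
      hc T (fun ω => (P (w ω), Q (w ω))) (fun ω => bt (w ω)) -
        hc T (fun ω => P (w ω) + Q (w ω)) (fun ω => bt (w ω)) := by
    have h1 := hc_pair T (fun ω => P (w ω) + Q (w ω)) (fun ω => (P (w ω), Q (w ω)))
      (fun ω => bt (w ω))
    have h2 : hc T (fun ω => (P (w ω) + Q (w ω), (P (w ω), Q (w ω)))) (fun ω => bt (w ω)) =
        hc T (fun ω => (P (w ω), Q (w ω))) (fun ω => bt (w ω)) :=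
      Add.hc_eq T fun ω ω' _ => by
        simp only [Prod.mk.injEq]
        constructor
        · rintro ⟨e1, e2⟩; exact ⟨by rw [e1, e2], e1, e2⟩
        · rintro ⟨_, e1, e2⟩; exact ⟨e1, e2⟩
    have h3 := absB_cond T (fun ω => (P (w ω), Q (w ω)))
      (Y := fun ω => (P (w ω) + Q (w ω), bt (w ω)))
      (Y' := fun ω => (bt (w ω), P (w ω) + Q (w ω)))
      (fun ω ω' => by simp only [Prod.mk.injEq]; (clear * -; tauto))
    linarith only [h1, h2, h3]
  have hB : hc T (fun ω => P (w ω)) (fun ω => (bt (w ω), P (w ω) + Q (w ω))) =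
      hc T (fun ω => (P (w ω), Q (w ω))) (fun ω => (bt (w ω), P (w ω) + Q (w ω))) :=
    Add.hc_eq T fun ω ω' e => by
      simp only [Prod.mk.injEq] at e ⊢
      constructor
      · rintro ⟨e1, e2⟩; exact e1
      · intro e1
        refine ⟨e1, ?_⟩
        have h1 := e.2
        rw [e1] at h1
        exact add_left_cancel h1
  -- step (i)
  have hmi : mi T (fun ω => (P (w ω), Q (w ω))) (fun ω => (P (ξ ω), Q (ξ ω)))
      (fun ω => (bt (w ω), P (w ω) + Q (w ω))) = 0 :=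
    mi_zero_of hci' (fun ω ω' e _ => by rw [e]) (fun ω ω' e _ => by rw [e])
  have hmi' : hc T (fun ω => (P (w ω), Q (w ω))) (fun ω => (bt (w ω), P (w ω) + Q (w ω))) -
      hc T (fun ω => (P (w ω), Q (w ω)))
        (fun ω => ((P (ξ ω), Q (ξ ω)), (bt (w ω), P (w ω) + Q (w ω)))) = 0 := hmi
  have hC : hc T (fun ω => (P (w ω), Q (w ω))) (fun ω => ((P (ξ ω), Q (ξ ω)), bt (w ω))) =
      hc T (fun ω => (P (w ω), Q (w ω)))
        (fun ω => ((P (ξ ω), Q (ξ ω)), (bt (w ω), P (w ω) + Q (w ω)))) :=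
    absB_cond T _ fun ω ω' => by
      simp only [Prod.mk.injEq, hZ]
      constructor
      · rintro ⟨⟨e1, e2⟩, e3⟩; exact ⟨⟨e1, e2⟩, e3, by rw [e1, e2]⟩
      · rintro ⟨⟨e1, e2⟩, e3, _⟩; exact ⟨⟨e1, e2⟩, e3⟩
  have hch := Add.hc_chain T (fun ω => (P (w ω), Q (w ω))) (fun ω => (P (ξ ω), Q (ξ ω)))
    (fun ω => bt (w ω))
  have hbsg := Add.bsg T (fun ω => bt (w ω)) (δ := 0) (fun ω => P (w ω)) (fun ω => Q (w ω))
    (fun ω => P (ξ ω)) (fun ω => Q (ξ ω)) hZ (by linarith only [hA, hmi', hC, hch])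
  have h1 : hc T (fun ω => P (w ω) - Q (ξ ω)) (fun ω => bt (w ω)) ≤ h' + 3 * E + E1 := by
    linarith only [hP1, hQ1, hP2, hQ2, hZb, hPQ1, hPQ2, hbsg]
  have h2 : hc T (fun ω => - P (ξ ω) - P (w ω)) (fun ω => (bt (w ω), P (w ω) + Q (w ω))) ≤
      h' + 3 * E + E1 := by
    refine le_trans (le_of_eq ?_) ((Add.hc_anti T (X := fun ω => P (w ω) - Q (ξ ω))
      (C := fun ω => (bt (w ω), P (w ω) + Q (w ω))) (D := fun ω => bt (w ω))
      (fun ω ω' e => by simp only [Prod.mk.injEq] at e; exact e.1)).trans h1)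
    refine Add.hc_eq T fun ω ω' e => ?_
    simp only [Prod.mk.injEq] at e
    have hh : ∀ ω, P (w ω) - Q (ξ ω) = (P (ξ ω) + P (w ω)) - (P (w ω) + Q (w ω)) := fun ω => by
      rw [hZ ω]; abel
    have hg : ∀ ω, - P (ξ ω) - P (w ω) = - (P (ξ ω) + P (w ω)) := fun ω => by abel
    rw [hh ω, hh ω', hg ω, hg ω', e.2, sub_left_inj, neg_inj]
  -- step (ii)
  have h3 : 2 * h - h' - 2 * E - E1 ≤
      hc T (fun ω => P (w ω)) (fun ω => (bt (w ω), P (w ω) + Q (w ω))) := by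
    linarith only [hZb, hPQ1, hA, hB]
  -- step (iii)
  have hsw := Add.swap T (fun ω => D (w ω)) (fun ω => P (w ω)) (fun ω => - P (ξ ω))
    (fun ω => (bt (w ω), P (w ω) + Q (w ω)))
  have h4 : hc T (fun ω => D (w ω) + P (w ω)) (fun ω => (bt (w ω), P (w ω) + Q (w ω))) ≤
      h' + E := by
    refine (Add.hc_anti T (X := fun ω => D (w ω) + P (w ω))
      (C := fun ω => (bt (w ω), P (w ω) + Q (w ω))) (D := fun ω => bt (w ω))
      (fun ω ω' e => by simp only [Prod.mk.injEq] at e; exact e.1)).trans ?_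
    have h5 : (fun ω => D (w ω) + P (w ω)) = (fun ω => P (w ω) + D (w ω)) :=
      funext fun ω => add_comm _ _
    rw [h5]
    exact hPD
  have h5 : hc T (fun ω => P (w ω)) (fun ω => (bt (w ω), P (w ω) + Q (w ω))) - (E + E1) ≤
      hc T (fun ω => P (w ω)) (fun ω => (D (w ω), - P (ξ ω), (bt (w ω), P (w ω) + Q (w ω)))) := by
    have k1 : mi T w ξ (fun ω => (D (w ω), (bt (w ω), P (w ω) + Q (w ω)))) = 0 :=
      mi_zero_cond hci' (fun ω ω' e _ => by rw [e])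
    have k2 : mi T (fun ω => P (w ω)) (fun ω => - P (ξ ω))
        (fun ω => (D (w ω), (bt (w ω), P (w ω) + Q (w ω)))) = 0 :=
      mi_zero_of k1 (fun ω ω' e _ => by rw [e]) (fun ω ω' e _ => by rw [e])
    have k3 : hc T (fun ω => P (w ω)) (fun ω => (D (w ω), (bt (w ω), P (w ω) + Q (w ω)))) -
        hc T (fun ω => P (w ω))
          (fun ω => (- P (ξ ω), (D (w ω), (bt (w ω), P (w ω) + Q (w ω))))) = 0 := k2
    have k4 : hc T (fun ω => P (w ω))
          (fun ω => (- P (ξ ω), (D (w ω), (bt (w ω), P (w ω) + Q (w ω))))) =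
        hc T (fun ω => P (w ω))
          (fun ω => (D (w ω), - P (ξ ω), (bt (w ω), P (w ω) + Q (w ω)))) :=
      absB_cond T _ fun ω ω' => by simp only [Prod.mk.injEq]; (clear * -; tauto)
    have k5 : mi T (fun ω => P (w ω)) (fun ω => D (w ω))
        (fun ω => (bt (w ω), P (w ω) + Q (w ω))) ≤ E + E1 := by
      refine le_trans ?_ hID
      refine le_trans (mi_mono_left T (X' := fun ω => (P (w ω), Q (w ω))) _
        (fun ω ω' _ _ e => by simp only [Prod.mk.injEq] at e; exact e.1.1)) ?_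
      have k6 := mi_cond_le T (X := fun ω => (P (w ω), Q (w ω))) (fun ω => D (w ω))
        (W := fun ω => P (w ω) + Q (w ω)) (fun ω => bt (w ω))
        (fun ω ω' _ _ e => by
          simp only [Prod.mk.injEq] at e
          show P (w ω) + Q (w ω) = P (w ω') + Q (w ω')
          rw [e.1.1, e.1.2])
      refine le_trans (le_of_eq ?_) k6
      exact mi_congr_cond T _ _ (fun ω ω' _ _ e => by simp only [Prod.mk.injEq] at e ⊢; (clear * - e; tauto))
        (fun ω ω' _ _ e => by simp only [Prod.mk.injEq] at e ⊢; (clear * - e; tauto))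
    have k7 : mi T (fun ω => P (w ω)) (fun ω => D (w ω))
        (fun ω => (bt (w ω), P (w ω) + Q (w ω))) =
      hc T (fun ω => P (w ω)) (fun ω => (bt (w ω), P (w ω) + Q (w ω))) -
        hc T (fun ω => P (w ω)) (fun ω => (D (w ω), (bt (w ω), P (w ω) + Q (w ω)))) := rfl
    linarith only [k3, k4, k5, k7]
  -- the entropy of `- P`
  have h6 : hc M (fun m => - P m) (fun m => (bt m, P m + Q m)) =
      hc T (fun ω => P (w ω)) (fun ω => (bt (w ω), P (w ω) + Q (w ω))) := by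
    rw [← hw.hc (fun m => - P m) (fun m => (bt m, P m + Q m))]
    exact Add.hc_eq T fun ω ω' _ => by rw [neg_inj]
  have h7 : (fun ω => - P (ξ ω) + D (w ω)) = (fun ω => D (w ω) + - P (ξ ω)) :=
    funext fun ω => add_comm _ _
  show hc T (fun ω => - P (ξ ω) + D (w ω)) (fun ω => (bt (w ω), P (w ω) + Q (w ω))) ≤
    hc M (fun m => - P m) (fun m => (bt m, P m + Q m)) + _
  rw [h6, h7]
  linarith only [hZb, hPQ1, hA, hB, h2, hsw, h4, h5]

end Vale.Agent.P127.Stk.Abs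
end

section

/-!
# P127 / Stk / Abs : A9, new states
-/

namespace Vale.Agent.P127.Stk.Abs

open Finset Vale.Agent.P127 Vale.Agent.P127.Stk

section aux

variable {Ω : Type} [Fintype Ω] {S T U V W : Type*} (P : Law Ω)

/-- the condition may be enlarged at the cost of the information -/
theorem pn_hc_ge {X : Ω → S} {X' : Ω → V} {Y : Ω → T} {Z : Ω → U} {q : Ω → W} {g : ℝ}
    (h : mi P X' Y Z ≤ g) (hX : ∀ ω ω', X' ω = X' ω' → X ω = X ω')
    (hq : ∀ ω ω', X' ω = X' ω' → q ω = q ω') :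
    hc P X (fun ω => (q ω, Z ω)) - g ≤ hc P X (fun ω => (q ω, Y ω, Z ω)) := by
  have h1 : mi P X Y (fun ω => (q ω, Z ω)) ≤ g := by
    refine le_trans ?_ h
    refine le_trans (mi_mono_left P Y (X' := X') ?_) (mi_cond_le P Y Z ?_)
    · intro ω ω' _ _ e
      simp only [Prod.mk.injEq] at e
      exact hX ω ω' e.1
    · intro ω ω' _ _ e
      simp only [Prod.mk.injEq] at e
      exact hq ω ω' e.1
  unfold mi at h1
  have h2 : hc P X (fun ω => (Y ω, q ω, Z ω)) = hc P X (fun ω => (q ω, Y ω, Z ω)) := by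
    refine hc_congr P (fun _ _ _ _ e => ?_) (fun _ _ _ _ e => ?_) (fun _ _ _ _ e => ?_)
      (fun _ _ _ _ e => ?_)
    · simp only [Prod.mk.injEq] at e
      exact e.1
    · simp only [Prod.mk.injEq] at e
      exact e.1
    · simp only [Prod.mk.injEq] at e ⊢
      exact ⟨e.2.1, e.1, e.2.2⟩
    · simp only [Prod.mk.injEq] at e ⊢
      exact ⟨e.2.1, e.1, e.2.2⟩
  linarith only [h1, h2]

/-- `hc` of a triple of independent variables -/
theorem pn_indep {X : Ω → S} {Y : Ω → T} {Z : Ω → U} {C : Ω → V}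
    (h1 : mi P Y (fun ω => (X ω, Z ω)) C = 0) (h2 : mi P X Z C = 0) :
    hc P X C + hc P Y C + hc P Z C - 0 ≤ hc P (fun ω => (X ω, Y ω, Z ω)) C := by
  have e1 : hc P (fun ω => (X ω, Y ω, Z ω)) C = hc P (fun ω => (Y ω, (X ω, Z ω))) C := by
    refine hc_congr P (fun _ _ _ _ e => ?_) (fun _ _ _ _ e => ?_) (fun _ _ _ _ e => e)
      (fun _ _ _ _ e => e)
    · simp only [Prod.mk.injEq] at e ⊢
      exact ⟨e.1.2.1, e.1.1, e.1.2.2⟩
    · simp only [Prod.mk.injEq] at e ⊢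
      exact ⟨e.1.2.1, e.1.1, e.1.2.2⟩
  rw [e1, hc_pair P Y (fun ω => (X ω, Z ω)) C]
  rw [mi_symm] at h1 h2
  unfold mi at h1 h2
  rw [hc_pair P X Z C] at h1
  linarith only [h1, h2]

end aux

/-- A9 with the hypothesis `0 ≤ e` -/
theorem pn_new {Ω : Type} [Fintype Ω] {β κ : Type} {d : ℕ} (P : Law Ω) (B : Ω → β)
    (q : Ω → κ) (x0 : Ω → Fin d → ℤ) (ρ η g e : ℝ) (f : Ω → Fin d → ℤ)
    (S : State P B q x0 ρ η) (C : S.Ch f g) (he : 0 ≤ e)
    (h0 : ρ - e ≤ hc P x0 (fun ω => (q ω, B ω)))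
    (Ω' : Type) [Fintype Ω'] (T : Law Ω') (ξ : Ω' → S.Ξ) (m : Ω' → C.Ωm) (hξ : Smp T ξ S.R)
    (hm : Smp T m C.M) (hb : ∀ w, S.bR (ξ w) = S.b (C.s (m w)))
    (hi : mi T ξ m (fun w => S.b (C.s (m w))) = 0) :
    ∃ S' : State P B q x0 ρ (2 * η + 2 * g + e), hc S'.R S'.Pi S'.bR =
      hc T (fun w => S.Pi (ξ w) + C.Pi (m w)) (fun w => (S.b (C.s (m w)), C.Z (m w))) := by
  have hη : 0 ≤ η := (mi_nonneg _ _ _ _).trans S.cost
  have hg : 0 ≤ g := (mi_nonneg _ _ _ _).trans C.cost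
  have hc1 : mi C.M (fun a => S.π (C.s a)) (fun a => S.b (C.s a)) (fun a => B (S.π (C.s a))) ≤ η := by
    rw [C.smp_s.mi S.π S.b (fun a => B (S.π a))]
    exact S.cost
  refine ⟨{
    Ωs := C.Ωm
    finS := C.fin
    Ps := C.M
    π := fun a => S.π (C.s a)
    βs := S.βs × (Fin d → ℤ)
    b := fun a => (S.b (C.s a), C.Z a)
    Ξ := Ω'
    finX := inferInstance
    R := T
    bR := fun w => (S.b (C.s (m w)), C.Z (m w))
    Pi := fun w => S.Pi (ξ w) + C.Pi (m w)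
    smp := ?_
    det := ?_
    cost := ?_
    same := ?_
    abs := ?_ }, rfl⟩
  · exact C.smp_s.comp S.smp
  · intro w w' h
    simp only [Prod.mk.injEq] at h
    exact S.det _ _ h.1
  · rw [mi_pair]
    have h2 : mi C.M (fun a => S.π (C.s a)) C.Z (fun a => (S.b (C.s a), B (S.π (C.s a)))) ≤ g := by
      rw [mi_congr_cond C.M (fun a => S.π (C.s a)) C.Z
        (Z := fun a => (S.b (C.s a), B (S.π (C.s a)))) (Z' := fun a => S.b (C.s a))
        (fun ω ω' _ _ h => Prod.ext h (S.det _ _ h)) (fun ω ω' _ _ h => congrArg Prod.fst h)]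
      refine le_trans (mi_mono_left C.M C.Z (X' := C.s) ?_) C.cost
      intro ω ω' _ _ h
      simp only [Prod.mk.injEq] at h
      beta_reduce
      rw [h.1]
    linarith only [he, hη, hg, hc1, h2]
  · intro y
    exact (hm.pr (fun a => (S.b (C.s a), C.Z a)) y).symm
  · intro Υ _ T' w τ hw hτ hbb hci
    have hbb1 : ∀ ω, S.b (C.s (w ω)) = S.b (C.s (m (τ ω))) := fun ω =>
      congrArg Prod.fst (hbb ω)
    have hbb2 : ∀ ω, C.Z (w ω) = C.Z (m (τ ω)) := fun ω => congrArg Prod.snd (hbb ω)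
    have hmτ : Smp T' (fun ω => m (τ ω)) C.M := hτ.comp hm
    have hξτ : Smp T' (fun ω => ξ (τ ω)) S.R := hτ.comp hξ
    -- independence of `ξ` and `m` in `T'`
    have hi1 : mi T' (fun ω => ξ (τ ω)) (fun ω => m (τ ω)) (fun ω => S.b (C.s (w ω))) = 0 := by
      have h1 := hτ.mi ξ m (fun a => S.b (C.s (m a)))
      rw [hi] at h1
      rw [← h1]
      exact mi_congr_cond T' _ _ (fun ω ω' _ _ h => by rw [hbb1, hbb1, h])
        (fun ω ω' _ _ h => by rw [← hbb1, ← hbb1, h])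
    -- the same given `(b, Z)`
    have hi2 : mi T' (fun ω => m (τ ω)) (fun ω => ξ (τ ω))
        (fun ω => (S.b (C.s (w ω)), C.Z (w ω))) = 0 := by
      rw [mi_symm] at hi1
      have h1 := mi_zero_cond (W := fun ω => C.Z (w ω)) hi1 (fun ω ω' h _ => by
        rw [hbb2, hbb2, h])
      rw [← h1]
      exact mi_congr_cond T' _ _ (fun ω ω' _ _ h => by
        simp only [Prod.mk.injEq] at h ⊢
        exact ⟨h.2, h.1⟩) (fun ω ω' _ _ h => by
        simp only [Prod.mk.injEq] at h ⊢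
        exact ⟨h.2, h.1⟩)
    -- `w` and `ξ` are independent given `b`
    have hi3 : mi T' (fun ω => C.s (w ω)) (fun ω => ξ (τ ω)) (fun ω => S.b (C.s (w ω))) = 0 := by
      refine le_antisymm ?_ (mi_nonneg _ _ _ _)
      have h1 : mi T' (fun ω => C.s (w ω)) (fun ω => ξ (τ ω)) (fun ω => S.b (C.s (w ω))) ≤
          mi T' (fun ω => ξ (τ ω)) (fun ω => (C.Z (w ω), C.s (w ω)))
            (fun ω => S.b (C.s (w ω))) := by
        rw [mi_symm]
        refine mi_mono_right T' _ ?_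
        intro ω ω' _ _ h
        simp only [Prod.mk.injEq] at h
        exact h.1.2
      refine h1.trans ?_
      rw [mi_pair]
      have h2 : mi T' (fun ω => ξ (τ ω)) (fun ω => C.Z (w ω)) (fun ω => S.b (C.s (w ω))) ≤ 0 := by
        rw [← hi1]
        refine mi_mono_right T' _ ?_
        intro ω ω' _ _ h
        simp only [Prod.mk.injEq] at h
        beta_reduce
        rw [hbb2, hbb2, h.1]
      have h3 : mi T' (fun ω => ξ (τ ω)) (fun ω => C.s (w ω))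
          (fun ω => (C.Z (w ω), S.b (C.s (w ω)))) ≤ 0 := by
        rw [mi_symm, ← hci]
        rw [mi_congr_cond T' w τ (Z := fun ω => (S.b (C.s (w ω)), C.Z (w ω)))
          (Z' := fun ω => (C.Z (w ω), S.b (C.s (w ω)))) (fun ω ω' _ _ h => by
            simp only [Prod.mk.injEq] at h ⊢
            exact ⟨h.2, h.1⟩) (fun ω ω' _ _ h => by
            simp only [Prod.mk.injEq] at h ⊢
            exact ⟨h.2, h.1⟩)]
        refine (mi_mono_left T' _ (X' := w) ?_).trans (mi_mono_right T' _ (Y' := τ) ?_)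
        · intro ω ω' _ _ h
          simp only [Prod.mk.injEq] at h
          beta_reduce
          rw [h.1]
        · intro ω ω' _ _ h
          simp only [Prod.mk.injEq] at h
          beta_reduce
          rw [h.1]
      linarith only [h2, h3]
    -- (i)
    have p1 : hc T' (fun ω => x0 (S.π (C.s (w ω))) + S.Pi (ξ (τ ω)))
        (fun ω => (q (S.π (C.s (w ω))), S.b (C.s (w ω)))) ≤ ρ + η :=
      S.abs Υ T' (fun ω => C.s (w ω)) (fun ω => ξ (τ ω)) (hw.comp C.smp_s) hξτ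
        (fun ω => (hbb1 ω).trans (hb (τ ω)).symm) hi3
    -- (ii)
    have p2 : hc T' (fun ω => x0 (S.π (C.s (w ω))) + C.Pi (m (τ ω)))
        (fun ω => (q (S.π (C.s (w ω))), S.b (C.s (w ω)), C.Z (w ω))) ≤ ρ + g := by
      refine C.abs1 Υ T' w (fun ω => m (τ ω)) hw hmτ hbb ?_
      exact mi_zero_of hci (fun _ _ h _ => h) (fun _ _ h _ => by rw [h])
    -- (iii)
    have p3 : ρ - e - η - g ≤ hc T' (fun ω => x0 (S.π (C.s (w ω))))
        (fun ω => (q (S.π (C.s (w ω))), S.b (C.s (w ω)), C.Z (w ω))) := by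
      have h1 := hw.hc (fun a => x0 (S.π (C.s a)))
        (fun a => (q (S.π (C.s a)), S.b (C.s a), C.Z a))
      rw [h1]
      have h2 := pn_hc_ge C.M (X := fun a => x0 (S.π (C.s a))) (q := fun a => q (S.π (C.s a)))
        C.cost (fun ω ω' h => by rw [h]) (fun ω ω' h => by rw [h])
      have h3 : hc C.M (fun a => x0 (S.π (C.s a)))
          (fun a => (q (S.π (C.s a)), C.Z a, S.b (C.s a))) =
          hc C.M (fun a => x0 (S.π (C.s a)))
          (fun a => (q (S.π (C.s a)), S.b (C.s a), C.Z a)) := by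
        refine hc_congr C.M (fun _ _ _ _ e => congrArg Prod.fst e)
          (fun _ _ _ _ e => congrArg Prod.fst e) (fun _ _ _ _ e => ?_) (fun _ _ _ _ e => ?_)
        · simp only [Prod.mk.injEq] at e ⊢
          exact ⟨e.1, e.2.2, e.2.1⟩
        · simp only [Prod.mk.injEq] at e ⊢
          exact ⟨e.1, e.2.2, e.2.1⟩
      have h4 := C.smp_s.hc (fun a => x0 (S.π a)) (fun a => (q (S.π a), S.b a))
      have h5 := pn_hc_ge S.Ps (X := fun a => x0 (S.π a)) (q := fun a => q (S.π a))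
        S.cost (fun ω ω' h => by rw [h]) (fun ω ω' h => by rw [h])
      have h6 : hc S.Ps (fun a => x0 (S.π a)) (fun a => (q (S.π a), S.b a, B (S.π a))) =
          hc S.Ps (fun a => x0 (S.π a)) (fun a => (q (S.π a), S.b a)) := by
        refine hc_congr S.Ps (fun _ _ _ _ e => congrArg Prod.fst e)
          (fun _ _ _ _ e => congrArg Prod.fst e) (fun _ _ _ _ e => ?_) (fun _ _ _ _ e => ?_)
        · simp only [Prod.mk.injEq] at e ⊢
          exact ⟨e.1, e.2, S.det _ _ e.2⟩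
        · simp only [Prod.mk.injEq] at e ⊢
          exact ⟨e.1, e.2.1⟩
      have h7 := S.smp.hc x0 (fun a => (q a, B a))
      linarith only [h0, h2, h3, h4, h5, h6, h7]
    -- independence
    have q1 : mi T' w (fun ω => (ξ (τ ω), m (τ ω)))
        (fun ω => (S.b (C.s (w ω)), C.Z (w ω))) = 0 :=
      mi_zero_of hci (fun _ _ h _ => h) (fun _ _ h _ => by rw [h])
    have q2 := mi_zero_cond (W := fun ω => q (S.π (C.s (w ω)))) q1
      (fun ω ω' h _ => by rw [h])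
    have q3 : mi T' (fun ω => x0 (S.π (C.s (w ω))))
        (fun ω => (S.Pi (ξ (τ ω)), C.Pi (m (τ ω))))
        (fun ω => (q (S.π (C.s (w ω))), S.b (C.s (w ω)), C.Z (w ω))) = 0 :=
      mi_zero_of q2 (fun _ _ h _ => by rw [h]) (fun _ _ h _ => by
        simp only [Prod.mk.injEq] at h ⊢
        rw [h.1, h.2]
        exact ⟨rfl, rfl⟩)
    have q4 : mi T' (fun ω => ξ (τ ω)) (fun ω => (m (τ ω), w ω))
        (fun ω => (S.b (C.s (w ω)), C.Z (w ω))) = 0 := by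
      rw [mi_pair, mi_symm T' (fun ω => ξ (τ ω)) (fun ω => m (τ ω)), hi2, zero_add]
      have h1 := mi_cond_le T' (X := fun ω => (ξ (τ ω), m (τ ω))) w
        (W := fun ω => m (τ ω)) (fun ω => (S.b (C.s (w ω)), C.Z (w ω)))
        (fun ω ω' _ _ h => by
          simp only [Prod.mk.injEq] at h
          exact h.1.2)
      rw [mi_symm T' (fun ω => (ξ (τ ω), m (τ ω))) w (fun ω => (S.b (C.s (w ω)), C.Z (w ω))),
        q1] at h1
      refine le_antisymm ?_ (mi_nonneg _ _ _ _)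
      refine (mi_mono_left T' w (X' := fun ω => (ξ (τ ω), m (τ ω))) ?_).trans h1
      intro ω ω' _ _ h
      simp only [Prod.mk.injEq] at h
      exact h.1.1
    have q5 : mi T' (fun ω => (m (τ ω), w ω)) (fun ω => ξ (τ ω))
        (fun ω => (q (S.π (C.s (w ω))), S.b (C.s (w ω)), C.Z (w ω))) = 0 := by
      rw [mi_symm] at q4
      exact mi_zero_cond (W := fun ω => q (S.π (C.s (w ω)))) q4 (fun ω ω' h _ => by
        simp only [Prod.mk.injEq] at h
        rw [h.2])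
    have q6 : mi T' (fun ω => S.Pi (ξ (τ ω))) (fun ω => C.Pi (m (τ ω)))
        (fun ω => (q (S.π (C.s (w ω))), S.b (C.s (w ω)), C.Z (w ω))) = 0 := by
      rw [mi_symm] at q5
      exact mi_zero_of q5 (fun _ _ h _ => by rw [h]) (fun _ _ h _ => by
        simp only [Prod.mk.injEq] at h
        rw [h.1])
    have q7 := Add.madiman T' (fun ω => S.Pi (ξ (τ ω))) (fun ω => x0 (S.π (C.s (w ω))))
      (fun ω => C.Pi (m (τ ω))) (fun ω => (q (S.π (C.s (w ω))), S.b (C.s (w ω)), C.Z (w ω)))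
      (pn_indep T' q3 q6)
    have q8 : hc T' (fun ω => S.Pi (ξ (τ ω)) + x0 (S.π (C.s (w ω))))
        (fun ω => (q (S.π (C.s (w ω))), S.b (C.s (w ω)), C.Z (w ω))) ≤ ρ + η := by
      refine le_trans ?_ p1
      have h1 : (fun ω => S.Pi (ξ (τ ω)) + x0 (S.π (C.s (w ω)))) =
          (fun ω => x0 (S.π (C.s (w ω))) + S.Pi (ξ (τ ω))) := by
        funext ω
        exact add_comm _ _
      rw [h1]
      exact hc_mono_right T' _ fun ω ω' _ _ e => by
        simp only [Prod.mk.injEq] at e ⊢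
        exact ⟨e.1, e.2.1⟩
    have q9 : (fun ω => x0 (S.π (C.s (w ω))) + (S.Pi (ξ (τ ω)) + C.Pi (m (τ ω)))) =
        (fun ω => S.Pi (ξ (τ ω)) + x0 (S.π (C.s (w ω))) + C.Pi (m (τ ω))) := by
      funext ω
      abel
    show hc T' (fun ω => x0 (S.π (C.s (w ω))) + (S.Pi (ξ (τ ω)) + C.Pi (m (τ ω))))
      (fun ω => (q (S.π (C.s (w ω))), S.b (C.s (w ω)), C.Z (w ω))) ≤ _
    rw [q9]
    linarith only [p2, p3, q7, q8]

/-- A9 -/
theorem pnew : PNew := by
  intro Ω _ β κ d P B q x0 ρ η g e f S C he h0 Ω' _ T ξ m hξ hm hb hi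
  exact pn_new P B q x0 ρ η g e f S C he h0 Ω' T ξ m hξ hm hb hi

end Vale.Agent.P127.Stk.Abs
end

section

/-!
# P127 / Stk / Abs : if no new state gains more than `γ0`, then `Pi` absorbs `D`
-/

namespace Vale.Agent.P127.Stk.Abs

open Finset Vale.Agent.P127 Vale.Agent.P127.Stk

section core

variable {Ω : Type} [Fintype Ω] {Ξ M β G V : Type*}

/-- independence of `x` from both members of the pair `m1, m2` given `B` -/
theorem gain_indep (P : Law Ω) (x : Ω → Ξ) (m1 m2 : Ω → M) (B : Ω → β) (Z : Ω → V)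
    (h1 : mi P x m1 B = 0) (h2 : mi P x m2 (fun ω => (B ω, Z ω)) = 0)
    (hZ : ∀ ω ω', m1 ω = m1 ω' → Z ω = Z ω') : mi P x m2 B = 0 := by
  refine le_antisymm ?_ (mi_nonneg P _ _ _)
  have e1 : mi P x Z B = 0 := mi_zero_of h1 (fun _ _ e _ => e) (fun ω ω' e _ => hZ ω ω' e)
  have e2 := mi_pair P x Z m2 B
  have e3 : mi P x m2 (fun ω => (Z ω, B ω)) = mi P x m2 (fun ω => (B ω, Z ω)) :=
    mi_congr_cond P x m2
      (fun ω ω' _ _ e => by simp only [Prod.mk.injEq] at e ⊢; exact ⟨e.2, e.1⟩)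
      (fun ω ω' _ _ e => by simp only [Prod.mk.injEq] at e ⊢; exact ⟨e.2, e.1⟩)
  have e4 : mi P x m2 B ≤ mi P x (fun ω => (Z ω, m2 ω)) B :=
    mi_mono_right P x fun ω ω' _ _ e => by
      simp only [Prod.mk.injEq] at e
      exact e.1.2
  rw [e2, e1, e3, h2] at e4
  linarith only [e4]

/-- the Shannon part of the proof -/
theorem gain_core [AddCommGroup G] (P : Law Ω) (x : Ω → Ξ) (m1 m2 : Ω → M) (B : Ω → β)
    (Z : Ω → V) (X Y D : Ω → G) {g r s t : ℝ}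
    (h1 : mi P x m1 B = 0) (h2 : mi P (fun ω => (x ω, m1 ω)) m2 (fun ω => (B ω, Z ω)) = 0)
    (hZ : ∀ ω ω', m1 ω = m1 ω' → Z ω = Z ω') (hX : ∀ ω ω', x ω = x ω' → X ω = X ω')
    (hY : ∀ ω ω', m2 ω = m2 ω' → Y ω = Y ω') (hD : ∀ ω ω', m1 ω = m1 ω' → D ω = D ω')
    (hc1 : mi P D Z B ≤ g) (hr : hc P (fun ω => X ω + Y ω) (fun ω => (B ω, Z ω)) ≤ r)
    (hs : hc P (fun ω => Y ω + D ω) (fun ω => (B ω, Z ω)) ≤ s + t)
    (hs' : hc P Y (fun ω => (B ω, Z ω)) = s) :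
    hc P (fun ω => X ω + D ω) B ≤ r + t + g := by
  -- the condition may be enlarged by `Z`
  have a1 : hc P (fun ω => X ω + D ω) B =
      hc P (fun ω => X ω + D ω) (fun ω => (Z ω, B ω)) + mi P (fun ω => X ω + D ω) Z B := by
    unfold mi
    ring
  have a2 : hc P (fun ω => X ω + D ω) (fun ω => (Z ω, B ω)) =
      hc P (fun ω => X ω + D ω) (fun ω => (B ω, Z ω)) :=
    hc_congr P (fun ω ω' _ _ e => congrArg Prod.fst e) (fun ω ω' _ _ e => congrArg Prod.fst e)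
      (fun ω ω' _ _ e => by simp only [Prod.mk.injEq] at e ⊢; exact ⟨e.2, e.1⟩)
      (fun ω ω' _ _ e => by simp only [Prod.mk.injEq] at e ⊢; exact ⟨e.2, e.1⟩)
  -- information of `X + D` and `Z`
  have a3 : mi P (fun ω => X ω + D ω) Z B ≤ mi P (fun ω => (D ω, X ω)) Z B :=
    mi_mono_left P Z fun ω ω' _ _ e => by
      simp only [Prod.mk.injEq] at e
      rw [e.1.1, e.1.2]
  have a4 : mi P (fun ω => (D ω, X ω)) Z B = mi P D Z B + mi P X Z (fun ω => (D ω, B ω)) := by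
    rw [mi_symm P _ Z, mi_pair, mi_symm P Z D, mi_symm P Z X]
  have a5 : mi P X Z (fun ω => (D ω, B ω)) = 0 := by
    have b1 : mi P m1 x B = 0 := by rw [mi_symm]; exact h1
    have b2 := mi_zero_cond b1 (W := D) fun ω ω' e _ => hD ω ω' e
    rw [mi_symm] at b2
    exact mi_zero_of b2 (fun ω ω' e _ => hX ω ω' e) (fun ω ω' e _ => hZ ω ω' e)
  -- independence given `(B, Z)`
  have b1 : mi P m1 x B = 0 := by rw [mi_symm]; exact h1
  have b2 : mi P m1 x (fun ω => (Z ω, B ω)) = 0 :=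
    mi_zero_cond b1 (W := Z) fun ω ω' e _ => hZ ω ω' e
  have b3 : mi P X D (fun ω => (B ω, Z ω)) = 0 := by
    rw [mi_congr_cond P X D (Z' := fun ω => (Z ω, B ω))
      (fun ω ω' _ _ e => by simp only [Prod.mk.injEq] at e ⊢; exact ⟨e.2, e.1⟩)
      (fun ω ω' _ _ e => by simp only [Prod.mk.injEq] at e ⊢; exact ⟨e.2, e.1⟩)]
    rw [mi_symm] at b2
    exact mi_zero_of b2 (fun ω ω' e _ => hX ω ω' e) (fun ω ω' e _ => hD ω ω' e)
  have b4 : mi P (fun ω => X ω + D ω) Y (fun ω => (B ω, Z ω)) = 0 :=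
    mi_zero_of h2 (fun ω ω' e _ => by
      simp only [Prod.mk.injEq] at e
      rw [hX ω ω' e.1, hD ω ω' e.2]) (fun ω ω' e _ => hY ω ω' e)
  have b5 : mi P (fun ω => (X ω, D ω)) Y (fun ω => (B ω, Z ω)) = 0 :=
    mi_zero_of h2 (fun ω ω' e _ => by
      simp only [Prod.mk.injEq] at e
      rw [hX ω ω' e.1, hD ω ω' e.2]) (fun ω ω' e _ => hY ω ω' e)
  have c1 := Add.add_lower' P (fun ω => X ω + D ω) Y (fun ω => (B ω, Z ω))
  have c2 : hc P X (fun ω => (B ω, Z ω)) + hc P Y (fun ω => (B ω, Z ω)) +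
      hc P D (fun ω => (B ω, Z ω)) - 0 ≤ hc P (fun ω => (X ω, Y ω, D ω)) (fun ω => (B ω, Z ω)) := by
    rw [mi_eq] at b3 b5
    have d1 : P.H (fun ω => ((X ω, D ω), B ω, Z ω)) = P.H (fun ω => (X ω, D ω, B ω, Z ω)) :=
      P.H_congr fun ω ω' => by simp only [Prod.mk.injEq]; (clear * -; tauto)
    have d2 : P.H (fun ω => ((X ω, D ω), Y ω, B ω, Z ω)) =
        P.H (fun ω => ((X ω, Y ω, D ω), B ω, Z ω)) :=
      P.H_congr fun ω ω' => by simp only [Prod.mk.injEq]; (clear * -; tauto)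
    unfold hc
    linarith only [b3, b5, d1, d2]
  have c3 := Add.madiman P X Y D (fun ω => (B ω, Z ω)) c2
  have c4 : hc P (fun ω => X ω + D ω + Y ω) (fun ω => (B ω, Z ω)) =
      hc P (fun ω => X ω + Y ω + D ω) (fun ω => (B ω, Z ω)) := by
    have : (fun ω => X ω + D ω + Y ω) = (fun ω => X ω + Y ω + D ω) := by
      funext ω
      abel
    rw [this]
  linarith

end core

/-- A10 -/
theorem pgain : PGain := by
  intro Ω _ β κ d P B q x0 ρ η g γ0 f S C hgain Ω' _ T l ξ hl hξ hb hI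
  -- the first extension
  obtain ⟨Ω1, _, T1, p1, p2, sp1, sp2, e1, i1⟩ := pext Ω' C.Ωm _ T C.M l C.l
    (fun y => (hl y).trans (C.smp_l y).symm)
  -- the second extension
  obtain ⟨Ω2, _, T2, r1, r2, sr1, sr2, e2, i2⟩ := pext Ω1 C.Ωm _ T1 C.M
    (fun ω => (S.b (C.s (p2 ω)), C.Z (p2 ω))) (fun m => (S.b (C.s m), C.Z m))
    (fun y => sp2.pr (fun m => (S.b (C.s m), C.Z m)) y)
  have hB1 : ∀ ω, S.b (l (p1 ω)).fst = S.b (C.s (p2 ω)) := fun ω => by
    rw [e1 ω, C.hb]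
  -- `ξ` and `m1` given `b`
  have j1 : mi T1 (fun ω => ξ (p1 ω)) p2 (fun ω => S.b (C.s (p2 ω))) = 0 := by
    have k1 : mi T1 (fun ω => ξ (p1 ω)) (fun ω => l (p1 ω)) (fun ω => S.b (C.s (p2 ω))) = 0 := by
      have := sp1.mi ξ l (fun ω => S.b (l ω).fst)
      simp only [hB1] at this
      rw [this, mi_symm]
      exact hI
    have k2 : mi T1 (fun ω => ξ (p1 ω)) p2 (fun ω => l (p1 ω)) = 0 :=
      mi_zero_of i1 (fun ω ω' e _ => by rw [e]) (fun _ _ e _ => e)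
    have k3 : mi T1 (fun ω => ξ (p1 ω)) p2 (fun ω => (l (p1 ω), S.b (C.s (p2 ω)))) = 0 := by
      rw [← k2]
      refine mi_congr_cond T1 _ _ (fun ω ω' _ _ e => ?_) (fun ω ω' _ _ e => congrArg Prod.fst e)
      simp only [Prod.mk.injEq]
      refine ⟨e, ?_⟩
      rw [← hB1, ← hB1, e]
    have k4 := mi_pair T1 (fun ω => ξ (p1 ω)) (fun ω => l (p1 ω)) p2 (fun ω => S.b (C.s (p2 ω)))
    have k5 : mi T1 (fun ω => ξ (p1 ω)) p2 (fun ω => S.b (C.s (p2 ω))) ≤
        mi T1 (fun ω => ξ (p1 ω)) (fun ω => (l (p1 ω), p2 ω)) (fun ω => S.b (C.s (p2 ω))) :=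
      mi_mono_right T1 _ fun ω ω' _ _ e => by
        simp only [Prod.mk.injEq] at e
        exact e.1.2
    refine le_antisymm ?_ (mi_nonneg T1 _ _ _)
    linarith only [k1, k3, k4, k5]
  have j2 : mi T2 (fun ω => ξ (p1 (r1 ω))) (fun ω => p2 (r1 ω))
      (fun ω => S.b (C.s (p2 (r1 ω)))) = 0 := by
    rw [← j1]
    exact sr1.mi (fun ω => ξ (p1 ω)) p2 (fun ω => S.b (C.s (p2 ω)))
  have j3 : mi T2 (fun ω => (ξ (p1 (r1 ω)), p2 (r1 ω))) r2
      (fun ω => (S.b (C.s (p2 (r1 ω))), C.Z (p2 (r1 ω)))) = 0 :=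
    mi_zero_of i2 (fun ω ω' e _ => by rw [e]) (fun _ _ e _ => e)
  have j4 : mi T2 (fun ω => ξ (p1 (r1 ω))) r2
      (fun ω => (S.b (C.s (p2 (r1 ω))), C.Z (p2 (r1 ω)))) = 0 :=
    mi_zero_of i2 (fun ω ω' e _ => by rw [e]) (fun _ _ e _ => e)
  have j5 : mi T2 (fun ω => ξ (p1 (r1 ω))) r2 (fun ω => S.b (C.s (p2 (r1 ω)))) = 0 :=
    gain_indep T2 _ (fun ω => p2 (r1 ω)) r2 _ (fun ω => C.Z (p2 (r1 ω))) j2 j4
      (fun ω ω' e => by
        have e' : p2 (r1 ω) = p2 (r1 ω') := e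
        rw [e'])
  have e2a : ∀ ω, S.b (C.s (p2 (r1 ω))) = S.b (C.s (r2 ω)) := fun ω => congrArg Prod.fst (e2 ω)
  have e2b : ∀ ω, C.Z (p2 (r1 ω)) = C.Z (r2 ω) := fun ω => congrArg Prod.snd (e2 ω)
  -- the samples
  have s1 : Smp T2 (fun ω => p2 (r1 ω)) C.M := sr1.comp sp2
  have s2 : Smp T2 (fun ω => p1 (r1 ω)) T := sr1.comp sp1
  have s3 : Smp T2 (fun ω => ξ (p1 (r1 ω))) S.R := s2.comp hξ
  have g1 := hgain Ω2 T2 (fun ω => ξ (p1 (r1 ω))) r2 s3 sr2
    (fun ω => (hb (p1 (r1 ω))).symm.trans ((hB1 (r1 ω)).trans (e2a ω))) (by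
      simp only [e2a] at j5
      exact j5)
  have g2 := C.abs2 Ω2 T2 (fun ω => p2 (r1 ω)) r2 s1 sr2 e2 (mi_zero_of i2
    (fun ω ω' e _ => by rw [e]) (fun _ _ e _ => e))
  have g3 : mi T2 (fun ω => f (S.π (C.l (p2 (r1 ω))).snd) - f (S.π (C.l (p2 (r1 ω))).fst))
      (fun ω => C.Z (p2 (r1 ω))) (fun ω => S.b (C.s (p2 (r1 ω)))) ≤ g := by
    refine le_trans (le_of_eq ?_) C.costD
    exact s1.mi (fun m => f (S.π (C.l m).snd) - f (S.π (C.l m).fst)) C.Z (fun m => S.b (C.s m))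
  have g4 : hc T2 (fun ω => C.Pi (r2 ω)) (fun ω => (S.b (C.s (p2 (r1 ω))), C.Z (p2 (r1 ω)))) =
      hc C.M C.Pi (fun m => (S.b (C.s m), C.Z m)) := by
    rw [← sr2.hc C.Pi (fun m => (S.b (C.s m), C.Z m))]
    simp only [e2a, e2b]
  have main := gain_core T2 (fun ω => ξ (p1 (r1 ω))) (fun ω => p2 (r1 ω)) r2
    (fun ω => S.b (C.s (p2 (r1 ω)))) (fun ω => C.Z (p2 (r1 ω)))
    (fun ω => S.Pi (ξ (p1 (r1 ω)))) (fun ω => C.Pi (r2 ω))
    (fun ω => f (S.π (C.l (p2 (r1 ω))).snd) - f (S.π (C.l (p2 (r1 ω))).fst))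
    (r := hc S.R S.Pi S.bR + γ0) j2 j3
    (fun ω ω' e => by
      have e' : p2 (r1 ω) = p2 (r1 ω') := e
      rw [e'])
    (fun ω ω' e => by
      have e' : ξ (p1 (r1 ω)) = ξ (p1 (r1 ω')) := e
      rw [e'])
    (fun ω ω' e => by rw [e])
    (fun ω ω' e => by
      have e' : p2 (r1 ω) = p2 (r1 ω') := e
      rw [e']) g3 (by
      simp only [e2a, e2b]
      exact g1) g2 g4
  have fin : hc T2 (fun ω => S.Pi (ξ (p1 (r1 ω))) +
      (f (S.π (C.l (p2 (r1 ω))).snd) - f (S.π (C.l (p2 (r1 ω))).fst)))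
      (fun ω => S.b (C.s (p2 (r1 ω)))) =
      hc T (fun ω => S.Pi (ξ ω) + (f (S.π (l ω).snd) - f (S.π (l ω).fst)))
      (fun ω => S.b (l ω).fst) := by
    rw [← s2.hc (fun ω => S.Pi (ξ ω) + (f (S.π (l ω).snd) - f (S.π (l ω).fst)))
      (fun ω => S.b (l ω).fst)]
    simp only [e1]
    simp only [← C.hb]
  rw [fin] at main
  linarith only [main]

end Vale.Agent.P127.Stk.Abs
end

section

namespace Vale.Agent.P127.Stk.Abs

open Finset Vale.Agent.P127 Vale.Agent.P127.Stk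

theorem pinit : PInit := by
  intro Ω _ β κ d P B q x0 ρ e he hx
  refine ⟨{
    Ωs := Ω
    finS := inferInstance
    Ps := P
    π := fun ω => ω
    βs := β
    b := B
    Ξ := Ω
    finX := inferInstance
    R := P
    bR := B
    Pi := fun _ => 0
    smp := Smp.refl P
    det := fun w w' h => h
    cost := ?_
    same := fun y => rfl
    abs := ?_ }, hc_nonneg _ _ _⟩
  · refine le_trans (le_of_eq ?_) he
    have h1 : hc P (fun ω => ω) (fun ω => (B ω, B ω)) = hc P (fun ω => ω) B := by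
      unfold hc
      rw [P.H_congr (X := fun ω => (ω, B ω, B ω)) (Y := fun ω => (ω, B ω)) (by intro ω ω'; simp),
        P.H_congr (X := fun ω => (B ω, B ω)) (Y := B) (by intro ω ω'; simp)]
    unfold mi
    rw [h1, sub_self]
  · intro Ω' _ T w ξ hw hξ hb hci
    have h1 : hc T (fun ω => x0 (w ω) + 0) (fun ω => (q (w ω), B (w ω))) ≤
        hc T (fun ω => x0 (w ω)) (fun ω => B (w ω)) := by
      simp only [add_zero]
      exact Add.hc_anti T fun ω ω' e => by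
        simp only [Prod.mk.injEq] at e
        exact e.2
    rw [hw.hc x0 B] at h1
    exact h1.trans hx

theorem pbound : PBound := by
  intro Ω _ β κ d P B q x0 ρ η S
  obtain ⟨Ω', _, T, p1, p2, h1, h2, h3, h4⟩ := pext S.Ωs S.Ξ S.βs S.Ps S.R S.b S.bR S.same
  have h5 := S.abs Ω' T p1 p2 h1 h2 h3 h4
  have h6 : hc S.R S.Pi S.bR = hc T (fun ω => S.Pi (p2 ω)) (fun ω => S.b (p1 ω)) := by
    rw [← h2.hc S.Pi S.bR]
    have : (fun ω => S.bR (p2 ω)) = fun ω => S.b (p1 ω) := funext fun ω => (h3 ω).symm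
    rw [this]
  have h7 : mi T p1 (fun ω => S.Pi (p2 ω)) (fun ω => S.b (p1 ω)) = 0 :=
    mi_zero_of h4 (fun ω ω' e _ => e) (fun ω ω' e _ => by rw [e])
  rw [mi_symm] at h7
  have h8 : hc T (fun ω => S.Pi (p2 ω)) (fun ω => (p1 ω, S.b (p1 ω))) =
      hc T (fun ω => x0 (S.π (p1 ω)) + S.Pi (p2 ω)) (fun ω => (p1 ω, S.b (p1 ω))) := by
    refine Add.hc_eq T fun ω ω' e => ?_
    simp only [Prod.mk.injEq] at e
    rw [e.1]
    exact add_right_inj _
  have h9 : hc T (fun ω => x0 (S.π (p1 ω)) + S.Pi (p2 ω)) (fun ω => (p1 ω, S.b (p1 ω))) ≤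
      hc T (fun ω => x0 (S.π (p1 ω)) + S.Pi (p2 ω)) (fun ω => (q (S.π (p1 ω)), S.b (p1 ω))) :=
    Add.hc_anti T fun ω ω' e => by
      simp only [Prod.mk.injEq] at e
      rw [e.1]
  have h10 : hc T (fun ω => S.Pi (p2 ω)) (fun ω => S.b (p1 ω)) -
      hc T (fun ω => S.Pi (p2 ω)) (fun ω => (p1 ω, S.b (p1 ω))) = 0 := h7
  linarith only [h5, h6, h8, h9, h10]

end Vale.Agent.P127.Stk.Abs
end

section

/-!
# P127 / Stk / Abs : the end of the proof of the absorption lemma (`PFinish`)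
-/

namespace Vale.Agent.P127.Stk.Abs

open Finset Vale.Agent.P127 Vale.Agent.P127.Stk

/-- the composition lemmas of `Comp.lean`, as statements -/
def FinC1 : Prop := ∀ {Ω Ξ1 Ξ2 Ω' : Type} [Fintype Ω] [Fintype Ξ1] [Fintype Ξ2] [Fintype Ω']
  {β κ : Type} {d : ℕ} (P : Law Ω) (b : Ω → β) (q : Ω → κ) (x : Ω → Fin d → ℤ)
  (R1 : Law Ξ1) (bR1 : Ξ1 → β) (Pi1 : Ξ1 → Fin d → ℤ)
  (R2 : Law Ξ2) (bR2 : Ξ2 → β) (Pi2 : Ξ2 → Fin d → ℤ) (ρ r1 r2 e0 : ℝ),
  Abs1 P b q x R1 bR1 Pi1 (ρ + r1) → Abs1 P b q x R2 bR2 Pi2 (ρ + r2) →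
  ρ - e0 ≤ hc P x (fun ω => (q ω, b ω)) →
  ∀ (T : Law Ω') (ξ1 : Ω' → Ξ1) (ξ2 : Ω' → Ξ2), Smp T ξ1 R1 → Smp T ξ2 R2 →
    (∀ ω, bR1 (ξ1 ω) = bR2 (ξ2 ω)) → mi T ξ1 ξ2 (fun ω => bR1 (ξ1 ω)) = 0 →
    Abs1 P b q x T (fun ω => bR1 (ξ1 ω)) (fun ω => Pi1 (ξ1 ω) + Pi2 (ξ2 ω)) (ρ + r1 + r2 + e0)

def FinC2 : Prop := ∀ {Λ Ξ1 Ξ2 Ω' : Type} [Fintype Λ] [Fintype Ξ1] [Fintype Ξ2] [Fintype Ω']
  {β : Type} {d : ℕ} (L : Law Λ) (bL : Λ → β) (D1 D2 : Λ → Fin d → ℤ)
  (R1 : Law Ξ1) (bR1 : Ξ1 → β) (Pi1 : Ξ1 → Fin d → ℤ)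
  (R2 : Law Ξ2) (bR2 : Ξ2 → β) (Pi2 : Ξ2 → Fin d → ℤ) (e1 e2 : ℝ),
  Abs2 L bL D1 R1 bR1 Pi1 e1 → Abs2 L bL D2 R2 bR2 Pi2 e2 →
  ∀ (T : Law Ω') (ξ1 : Ω' → Ξ1) (ξ2 : Ω' → Ξ2), Smp T ξ1 R1 → Smp T ξ2 R2 →
    (∀ ω, bR1 (ξ1 ω) = bR2 (ξ2 ω)) → mi T ξ1 ξ2 (fun ω => bR1 (ξ1 ω)) = 0 →
    Abs2 L bL (fun l => D1 l + D2 l) T (fun ω => bR1 (ξ1 ω))
      (fun ω => Pi1 (ξ1 ω) + Pi2 (ξ2 ω)) (e1 + e2)

def FinC4 : Prop := ∀ {Ω Ξ : Type} [Fintype Ω] [Fintype Ξ] {γ β : Type} {d : ℕ} (P : Law Ω)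
  (c : Ω → γ) (b : Ω → β) (D : Law.GT c c → Fin d → ℤ) (R : Law Ξ) (bR : Ξ → β)
  (Pi : Ξ → Fin d → ℤ) (e : ℝ), (∀ ω ω', c ω = c ω' → b ω = b ω') →
  Abs2 (pairL P c) (fun l => b l.fst) D R bR Pi e →
  Abs2 (pairL P c) (fun l => b l.fst) (fun l => D ⟨l.snd, l.fst, l.eq.symm⟩) R bR Pi e

section

variable {Ω Ξ Λ : Type} [Fintype Ω] [Fintype Ξ] [Fintype Λ] {β κ : Type} {d : ℕ}

/-- the sum of independent copies of `Pi` -/
theorem fin_build (hC1 : FinC1) (hC2 : FinC2) (P : Law Ω) (b : Ω → β) (q : Ω → κ)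
    (x : Ω → Fin d → ℤ) (L : Law Λ) (bL : Λ → β) (R : Law Ξ) (bR : Ξ → β) (Pi : Ξ → Fin d → ℤ)
    (ρ η e0 e2 : ℝ) (h1 : Abs1 P b q x R bR Pi (ρ + η))
    (h0 : ρ - e0 ≤ hc P x (fun ω => (q ω, b ω))) :
    ∀ (n : ℕ) (D : Fin (n + 1) → Λ → Fin d → ℤ), (∀ i, Abs2 L bL (D i) R bR Pi e2) →
    ∃ (Ξ' : Type) (_ : Fintype Ξ') (R' : Law Ξ') (bR' : Ξ' → β) (Pi' : Ξ' → Fin d → ℤ),
      (∀ y, R'.pr bR' y = R.pr bR y) ∧
      Abs1 P b q x R' bR' Pi' (ρ + (η + n * (η + e0))) ∧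
      Abs2 L bL (fun l => ∑ i, D i l) R' bR' Pi' ((n + 1) * e2) := by
  intro n
  induction n with
  | zero =>
    intro D hD
    refine ⟨Ξ, inferInstance, R, bR, Pi, fun _ => rfl, ?_, ?_⟩
    · simpa using h1
    · simpa only [Nat.reduceAdd, univ_unique, Fin.default_eq_zero, Fin.isValue, sum_singleton, CharP.cast_eq_zero,     zero_add, one_mul] using hD 0
  | succ n ih =>
    intro D hD
    obtain ⟨Ξ', iΞ, R', bR', Pi', hs, hA, hB⟩ := ih (fun i => D i.castSucc) fun i => hD _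
    obtain ⟨Ω', iΩ, T, p1, p2, s1, s2, hb, hm⟩ := pext Ξ' Ξ β R' R bR' bR hs
    refine ⟨Ω', iΩ, T, fun ω => bR' (p1 ω), fun ω => Pi' (p1 ω) + Pi (p2 ω), ?_, ?_, ?_⟩
    · intro y
      rw [s1.pr bR' y]
      exact hs y
    · have := hC1 P b q x R' bR' Pi' R bR Pi ρ _ _ e0 hA h1 h0 T p1 p2 s1 s2 hb hm
      have e : ρ + (η + ((n + 1 : ℕ) : ℝ) * (η + e0)) = ρ + (η + n * (η + e0)) + η + e0 := by
        push_cast
        ring
      rw [e]
      exact this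
    · have := hC2 L bL (fun l => ∑ i : Fin (n + 1), D i.castSucc l) (D (Fin.last (n + 1)))
        R' bR' Pi' R bR Pi _ _ hB (hD _) T p1 p2 s1 s2 hb hm
      have e : (((n + 1 : ℕ) : ℝ) + 1) * e2 = (n + 1) * e2 + e2 := by
        push_cast
        ring
      rw [e]
      have e' : (fun l => ∑ i, D i l) =
          fun l => (∑ i : Fin (n + 1), D i.castSucc l) + D (Fin.last (n + 1)) l := by
        funext l
        exact Fin.sum_univ_castSucc (fun i => D i l)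
      rw [e']
      exact this

end

/-- the conditional entropy does not see an independent variable -/
theorem fin_hc_of_mi {Ω : Type} [Fintype Ω] {S T U : Type*} (P : Law Ω) {X : Ω → S} {Y : Ω → T}
    {Z : Ω → U} (h : mi P X Y Z = 0) : hc P X (fun ω => (Y ω, Z ω)) = hc P X Z := by
  unfold mi at h
  linarith only [h]

/-- the two samples of `pairL` are conditionally independent -/
theorem fin_pairL_mi {Ω : Type} [Fintype Ω] {γ : Type} (P : Law Ω) (c : Ω → γ) :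
    mi (pairL P c) (fun l => l.fst) (fun l => l.snd) (fun l => c l.fst) = 0 := by
  unfold pairL
  have h1 := Law.glue_indep (P := P) (Q := P) (X₁ := c) (X₂ := c) (fun _ => rfl)
    (fun a => a) (fun b => b)
  rw [mi_eq]
  have h2 : (Law.glue P P c c (fun _ => rfl)).H (fun p => (p.fst, c p.fst)) =
      P.H (fun a => (a, c a)) := Law.glue_H _ (fun a => (a, c a))
  have h3 : (Law.glue P P c c (fun _ => rfl)).H (fun p => (p.snd, c p.fst)) =
      P.H (fun a => (a, c a)) := by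
    rw [← Law.glue_H' (P := P) (Q := P) (X₁ := c) (X₂ := c) (fun _ => rfl) (fun a => (a, c a))]
    refine Law.H_congr _ fun ω ω' => ?_
    simp only [Prod.mk.injEq, ω.eq, ω'.eq]
  have h4 : (Law.glue P P c c (fun _ => rfl)).H (fun p => c p.fst) = P.H c := Law.glue_H _ c
  rw [h2, h3, h4, h1]
  ring

/-- `PFinish` from the composition lemmas -/
theorem pfinish_of (hC1 : FinC1) (hC2 : FinC2) (hC4 : FinC4) : PFinish := by
  intro Ω _ β κ d J N0 θ ρ η e e2 P B q X φ σ hσ hyp he2 S hS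
  -- signs
  have hη : 0 ≤ η := (mi_nonneg S.Ps _ _ _).trans S.cost
  have he : 0 ≤ e := by
    have h1 := hyp.upp 0
    have h2 := hyp.low
    have h3 := hc_mono_right P (X 0) (Y := B) (Y' := fun ω => (q ω, B ω))
      (fun ω ω' _ _ h => (Prod.mk.inj h).2)
    linarith only [h1, h2, h3]
  -- the rate of `x0` over `b`
  have hlow : ρ - (e + η) ≤ hc S.Ps (fun w => X 0 (S.π w)) (fun w => (q (S.π w), S.b w)) := by
    have h1 : ρ - e ≤ hc S.Ps (fun w => X 0 (S.π w)) (fun w => (q (S.π w), B (S.π w))) := by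
      have := S.smp.hc (X 0) (fun ω => (q ω, B ω))
      rw [this]
      exact hyp.low
    have h2 : mi S.Ps (fun w => X 0 (S.π w)) S.b (fun w => (q (S.π w), B (S.π w))) ≤ η := by
      have h3 : mi S.Ps S.π S.b (fun w => (q (S.π w), B (S.π w))) ≤
          mi S.Ps S.π S.b (fun w => B (S.π w)) :=
        mi_cond_le S.Ps S.b (fun w => B (S.π w)) (W := fun w => q (S.π w))
          (fun ω ω' _ _ h => congrArg q (Prod.mk.inj h).1)
      have h4 : mi S.Ps (fun w => X 0 (S.π w)) S.b (fun w => (q (S.π w), B (S.π w))) ≤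
          mi S.Ps S.π S.b (fun w => (q (S.π w), B (S.π w))) :=
        mi_mono_left S.Ps S.b (fun ω ω' _ _ h => congrArg (X 0) (Prod.mk.inj h).1)
      exact h4.trans (h3.trans S.cost)
    have h5 : hc S.Ps (fun w => X 0 (S.π w)) (fun w => (S.b w, (q (S.π w), B (S.π w)))) ≤
        hc S.Ps (fun w => X 0 (S.π w)) (fun w => (q (S.π w), S.b w)) :=
      hc_mono_right S.Ps _ (fun ω ω' _ _ h => by
        simp only [Prod.mk.injEq] at h ⊢
        exact ⟨h.2.1, h.1⟩)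
    unfold mi at h2
    linarith only [h1, h2, h5]
  -- the signed differences
  have hb_c : ∀ ω ω' : S.Ωs, (X 0 (S.π ω), S.b ω) = (X 0 (S.π ω'), S.b ω') → S.b ω = S.b ω' :=
    fun ω ω' h => (Prod.mk.inj h).2
  obtain ⟨D, hD⟩ : ∃ D : Fin (J + 1) → Law.GT (fun w : S.Ωs => (X 0 (S.π w), S.b w))
      (fun w : S.Ωs => (X 0 (S.π w), S.b w)) → Fin d → ℤ, ∀ i l, D i l =
      fun c => σ i * (φ i (B (S.π l.snd)) (q (S.π l.snd)) c - φ i (B (S.π l.fst)) (q (S.π l.fst)) c) :=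
    ⟨fun i l c => σ i * (φ i (B (S.π l.snd)) (q (S.π l.snd)) c -
      φ i (B (S.π l.fst)) (q (S.π l.fst)) c), fun _ _ => rfl⟩
  have hDabs : ∀ i, Abs2 S.L (fun l => S.b l.fst) (D i) S.R S.bR S.Pi e2 := by
    intro i
    rcases hσ i with h | h
    · have : D i = fun l => φ i (B (S.π l.snd)) (q (S.π l.snd)) -
          φ i (B (S.π l.fst)) (q (S.π l.fst)) := by
        funext l c
        rw [hD, h]
        simp
      rw [this]
      exact hS i
    · have h4 := hC4 S.Ps (fun w : S.Ωs => (X 0 (S.π w), S.b w)) S.b _ S.R S.bR S.Pi e2 hb_c (hS i)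
      have : D i = fun l => φ i (B (S.π l.fst)) (q (S.π l.fst)) -
          φ i (B (S.π l.snd)) (q (S.π l.snd)) := by
        funext l c
        rw [hD, h]
        simp only [Int.reduceNeg, neg_mul, one_mul, neg_sub, Pi.sub_apply]
      rw [this]
      exact h4
  -- the sum of the copies
  obtain ⟨Ξ, iΞ, R, bR, Pi, hsame, hA1, hA2⟩ := fin_build hC1 hC2 S.Ps S.b (fun w => q (S.π w))
    (fun w => X 0 (S.π w)) S.L (fun l => S.b l.fst) S.R S.bR S.Pi ρ η (e + η) e2 S.abs hlow J D hDabs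
  -- the world
  have hLfst : Smp S.L (fun l => l.fst) S.Ps := fun ω => by
    rw [← pr_id S.Ps ω]
    exact Law.glue_pr (fun _ => rfl) id ω
  have hLsnd : Smp S.L (fun l => l.snd) S.Ps := fun ω => by
    rw [← pr_id S.Ps ω]
    exact Law.glue_pr' (fun _ => rfl) id ω
  obtain ⟨Ω1, i1, T1, l1, ξ1, sl1, sξ1, hb1, hm1⟩ := pext _ Ξ S.βs S.L R (fun l => S.b l.fst) bR
    (fun y => by rw [hLfst.pr S.b y, hsame y]; exact S.same y)
  have sfst1 : Smp T1 (fun ω => (l1 ω).fst) S.Ps := sl1.comp hLfst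
  obtain ⟨Ω', i', T, p1, w, sp1, sw, hb2, hm2⟩ := pext Ω1 S.Ωs S.βs T1 S.Ps
    (fun ω => S.b (l1 ω).fst) S.b (fun y => sfst1.pr S.b y)
  obtain ⟨l, hl⟩ : ∃ l, l = fun ω => l1 (p1 ω) := ⟨_, rfl⟩
  obtain ⟨ξ, hξ⟩ : ∃ ξ, ξ = fun ω => ξ1 (p1 ω) := ⟨_, rfl⟩
  have sl : Smp T l S.L := hl ▸ sp1.comp sl1
  have sξ : Smp T ξ R := hξ ▸ sp1.comp sξ1
  have sfst : Smp T (fun ω => (l ω).fst) S.Ps := sl.comp hLfst
  have ssnd : Smp T (fun ω => (l ω).snd) S.Ps := sl.comp hLsnd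
  have hbl : ∀ ω, S.b (l ω).fst = S.b (w ω) := fun ω => by rw [hl]; exact hb2 ω
  have hbs : ∀ ω, S.b (l ω).snd = S.b (w ω) := fun ω => by
    rw [← hbl ω]
    exact (hb_c _ _ (l ω).eq).symm
  have hbξ : ∀ ω, bR (ξ ω) = S.b (w ω) := fun ω => by
    rw [← hbl ω, hl, hξ]
    exact (hb1 (p1 ω)).symm
  -- independence
  have hml : mi T l ξ (fun ω => S.b (l ω).fst) = 0 := by
    rw [hl, hξ]
    exact (sp1.mi l1 ξ1 (fun ω => S.b (l1 ω).fst)).trans hm1
  have hmw : mi T (fun ω => (l ω, ξ ω)) w (fun ω => S.b (w ω)) = 0 := by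
    have h1 : mi T (fun ω => (l ω, ξ ω)) w (fun ω => S.b (l1 (p1 ω)).fst) = 0 :=
      mi_zero_of hm2 (fun ω ω' h _ => by rw [hl, hξ]; simp only [h]) (fun ω ω' h _ => h)
    rw [← h1]
    have : (fun ω => S.b (w ω)) = fun ω => S.b (l1 (p1 ω)).fst := by
      funext ω
      exact (hb2 ω).symm
    rw [this]
  have hmlw : mi T l ξ (fun ω => S.b (w ω)) = 0 := by
    rw [← hml]
    have : (fun ω => S.b (w ω)) = fun ω => S.b (l ω).fst := by
      funext ω
      exact (hbl ω).symm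
    rw [this]
  -- `ξ` is independent of `(l, w)`
  have hmξ : mi T ξ (fun ω => (l ω, w ω)) (fun ω => S.b (w ω)) = 0 := by
    rw [mi_pair, mi_symm T ξ l, hmlw, zero_add]
    refine le_antisymm ?_ (mi_nonneg T _ _ _)
    have h1 : mi T (fun ω => (l ω, ξ ω)) w (fun ω => (l ω, S.b (w ω))) ≤ 0 := by
      rw [← hmw]
      exact mi_cond_le T w (fun ω => S.b (w ω)) (fun ω ω' _ _ h => congrArg Prod.fst (Prod.mk.inj h).1)
    refine le_trans (mi_mono_left T w (fun ω ω' _ _ h => ?_)) h1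
    exact congrArg Prod.snd (Prod.mk.inj h).1
  -- `w` and `ξ` over `b`
  have hmwξ : mi T w ξ (fun ω => S.b (w ω)) = 0 := by
    rw [mi_symm]
    exact mi_zero_of hmξ (fun ω ω' h _ => h) (fun ω ω' h _ => congrArg Prod.snd h)
  -- the total shift
  obtain ⟨W, hW⟩ : ∃ W : Ω' → Fin d → ℤ, W = fun ω => ∑ i, D i (l ω) := ⟨_, rfl⟩
  obtain ⟨Q, hQ⟩ : ∃ Q : Ω' → Fin d → ℤ, Q = fun ω => Pi (ξ ω) := ⟨_, rfl⟩
  have hWl : ∀ ω ω', l ω = l ω' → W ω = W ω' := fun ω ω' h => by rw [hW]; simp only [h]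
  have hQξ : ∀ ω ω', ξ ω = ξ ω' → Q ω = Q ω' := fun ω ω' h => by rw [hQ]; simp only [h]
  have k1 : hc T (fun ω => X 0 (S.π (w ω)) + Q ω) (fun ω => (q (S.π (w ω)), S.b (w ω))) ≤
      ρ + (η + J * (η + (e + η))) := by
    rw [hQ]
    exact hA1 Ω' T w ξ sw sξ (fun ω => (hbξ ω).symm) hmwξ
  have k2 : hc T (fun ω => Q ω + W ω) (fun ω => S.b (w ω)) ≤
      hc T Q (fun ω => S.b (w ω)) + (J + 1) * e2 := by
    have h1 := hA2 Ω' T l ξ sl sξ (fun ω => (hbl ω).trans (hbξ ω).symm) hml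
    have h2 : hc R Pi bR = hc T Q (fun ω => S.b (w ω)) := by
      rw [← sξ.hc Pi bR, hQ]
      have : (fun ω => bR (ξ ω)) = fun ω => S.b (w ω) := funext hbξ
      rw [this]
    have h3 : (fun ω => S.b (l ω).fst) = fun ω => S.b (w ω) := funext hbl
    rw [h2, h3] at h1
    rw [hW, hQ] at *
    exact h1
  -- Madiman
  have hind : hc T (fun ω => X 0 (S.π (w ω))) (fun ω => (q (S.π (w ω)), S.b (w ω))) +
      hc T Q (fun ω => (q (S.π (w ω)), S.b (w ω))) +
      hc T W (fun ω => (q (S.π (w ω)), S.b (w ω))) - 0 ≤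
      hc T (fun ω => (X 0 (S.π (w ω)), Q ω, W ω)) (fun ω => (q (S.π (w ω)), S.b (w ω))) := by
    rw [hc_pair T (fun ω => X 0 (S.π (w ω))) (fun ω => (Q ω, W ω))]
    have h1 : hc T (fun ω => (Q ω, W ω))
        (fun ω => ((X 0 (S.π (w ω)), q (S.π (w ω))), S.b (w ω))) =
        hc T (fun ω => (Q ω, W ω)) (fun ω => S.b (w ω)) := by
      refine fin_hc_of_mi T (mi_zero_of hmw (fun ω ω' h _ => ?_) (fun ω ω' h _ => ?_))
      · rw [hQξ ω ω' (Prod.mk.inj h).2, hWl ω ω' (Prod.mk.inj h).1]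
      · rw [h]
    have h2 : hc T (fun ω => (Q ω, W ω))
        (fun ω => ((X 0 (S.π (w ω)), q (S.π (w ω))), S.b (w ω))) ≤ hc T (fun ω => (Q ω, W ω))
        (fun ω => (X 0 (S.π (w ω)), (q (S.π (w ω)), S.b (w ω)))) :=
      hc_mono_right T _ (fun ω ω' _ _ h => by
        simp only [Prod.mk.injEq] at h ⊢
        exact ⟨h.1.1, h.1.2, h.2⟩)
    have h3 := hc_pair T Q W (fun ω => S.b (w ω))
    have h4 : hc T W (fun ω => (Q ω, S.b (w ω))) = hc T W (fun ω => S.b (w ω)) :=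
      fin_hc_of_mi T (mi_zero_of hmlw (fun ω ω' h _ => hWl ω ω' h) (fun ω ω' h _ => hQξ ω ω' h))
    have h5 : hc T Q (fun ω => (q (S.π (w ω)), S.b (w ω))) ≤ hc T Q (fun ω => S.b (w ω)) :=
      hc_mono_right T _ (fun ω ω' _ _ h => (Prod.mk.inj h).2)
    have h6 : hc T W (fun ω => (q (S.π (w ω)), S.b (w ω))) ≤ hc T W (fun ω => S.b (w ω)) :=
      hc_mono_right T _ (fun ω ω' _ _ h => (Prod.mk.inj h).2)
    linarith only [h1, h2, h3, h4, h5, h6]
  have hQind : hc T Q (fun ω => (q (S.π (w ω)), S.b (w ω))) = hc T Q (fun ω => S.b (w ω)) := by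
    refine fin_hc_of_mi T ?_
    exact mi_zero_of hmξ (fun ω ω' h _ => hQξ ω ω' h)
      (fun ω ω' h _ => by rw [(Prod.mk.inj h).2])
  have hmad := Add.madiman T (fun ω => X 0 (S.π (w ω))) Q W
    (fun ω => (q (S.π (w ω)), S.b (w ω))) (δ := 0) hind
  have hk2 : hc T (fun ω => Q ω + W ω) (fun ω => (q (S.π (w ω)), S.b (w ω))) ≤
      hc T (fun ω => Q ω + W ω) (fun ω => S.b (w ω)) :=
    hc_mono_right T _ (fun ω ω' _ _ h => (Prod.mk.inj h).2)
  have hlow2 : hc T (fun ω => X 0 (S.π (w ω)) + W ω) (fun ω => (q (S.π (w ω)), S.b (w ω))) ≤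
      hc T (fun ω => X 0 (S.π (w ω)) + Q ω + W ω) (fun ω => (q (S.π (w ω)), S.b (w ω))) := by
    have h1 : mi T (fun ω => (l ω, w ω)) ξ (fun ω => (q (S.π (w ω)), S.b (w ω))) = 0 := by
      refine mi_zero_cond (by rw [mi_symm]; exact hmξ) (fun ω ω' h _ => ?_)
      rw [(Prod.mk.inj h).2]
    have h2 : mi T (fun ω => X 0 (S.π (w ω)) + W ω) Q
        (fun ω => (q (S.π (w ω)), S.b (w ω))) = 0 :=
      mi_zero_of h1 (fun ω ω' h _ => by rw [(Prod.mk.inj h).2, hWl ω ω' (Prod.mk.inj h).1])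
        (fun ω ω' h _ => hQξ ω ω' h)
    have h3 := Add.add_lower T (fun ω => X 0 (S.π (w ω)) + W ω) Q
      (fun ω => (q (S.π (w ω)), S.b (w ω)))
    rw [fin_hc_of_mi T h2] at h3
    refine h3.trans (le_of_eq ?_)
    have : (fun ω => X 0 (S.π (w ω)) + W ω + Q ω) = fun ω => X 0 (S.π (w ω)) + Q ω + W ω := by
      funext ω
      abel
    rw [this]
  have htot : η + J * (η + (e + η)) + (J + 1) * e2 ≤ (J + 1) * (2 * η + e + e2) := by
    nlinarith only [hη, he]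
  refine ⟨Ω', i', T, S.βs, fun ω => S.b (w ω), fun ω => S.π (w ω), fun ω => S.π (l ω).fst,
    fun ω => S.π (l ω).snd, ?_⟩
  refine
    { smp := fun ω => (sw.comp S.smp) ω
      B1 := fun ω => S.det _ _ (hbl ω)
      B2 := fun ω => S.det _ _ (hbs ω)
      X12 := fun ω => (Prod.mk.inj (l ω).eq).1
      law1 := ?_
      law2 := ?_
      ci12 := ?_
      ci0 := ?_
      cost := ?_
      main := ?_ }
  · intro z ω
    have h1 := sfst.pr (fun v => (S.b v, S.π v)) (z, ω)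
    have h2 := sw.pr (fun v => (S.b v, S.π v)) (z, ω)
    rw [h2, ← h1]
    simp only [hbl]
  · intro z ω
    have h1 := ssnd.pr (fun v => (S.b v, S.π v)) (z, ω)
    have h2 := sw.pr (fun v => (S.b v, S.π v)) (z, ω)
    rw [h2, ← h1]
    simp only [hbs]
  · -- `π1`, `π2` are independent given `(X 0, B, Z)`
    have h0 : mi S.L (fun l => l.fst) (fun l => l.snd)
        (fun l => (X 0 (S.π l.fst), S.b l.fst)) = 0 :=
      fin_pairL_mi S.Ps (fun w : S.Ωs => (X 0 (S.π w), S.b w))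
    have h1 : mi T (fun ω => (l ω).fst) (fun ω => (l ω).snd)
        (fun ω => (X 0 (S.π (l ω).fst), S.b (l ω).fst)) = 0 :=
      (sl.mi (fun l => l.fst) (fun l => l.snd) (fun l => (X 0 (S.π l.fst), S.b l.fst))).trans h0
    have h2 : mi T (fun ω => S.π (l ω).fst) (fun ω => S.π (l ω).snd)
        (fun ω => (X 0 (S.π (l ω).fst), S.b (l ω).fst)) = 0 :=
      mi_zero_of h1 (fun ω ω' h _ => by rw [h]) (fun ω ω' h _ => by rw [h])
    rw [← h2]
    refine mi_congr_cond T _ _ (fun ω ω' _ _ h => ?_) (fun ω ω' _ _ h => ?_)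
    · simp only [Prod.mk.injEq, hbl] at h ⊢
      exact ⟨h.1, S.det _ _ h.2, h.2⟩
    · simp only [Prod.mk.injEq, hbl] at h ⊢
      exact ⟨h.1, h.2.2⟩
  · -- `(π1, π2)` and `π` are independent given `(B, Z)`
    have h2 : mi T (fun ω => (S.π (l ω).fst, S.π (l ω).snd)) (fun ω => S.π (w ω))
        (fun ω => S.b (w ω)) = 0 :=
      mi_zero_of hmw (fun ω ω' h _ => by rw [(Prod.mk.inj h).1]) (fun ω ω' h _ => by rw [h])
    rw [← h2]
    refine mi_congr_cond T _ _ (fun ω ω' _ _ h => ?_) (fun ω ω' _ _ h => ?_)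
    · simp only [Prod.mk.injEq]
      exact ⟨S.det _ _ h, h⟩
    · exact (Prod.mk.inj h).2
  · have h1 := sw.mi S.π S.b (fun w => B (S.π w))
    rw [h1]
    refine S.cost.trans ?_
    have h2 : (0 : ℝ) ≤ J := Nat.cast_nonneg J
    nlinarith only [he2, hη, he]
  · have h1 : (fun ω c => X 0 (S.π (w ω)) c + ∑ i, σ i * (φ i (B (S.π (w ω)))
        (q (S.π (l ω).snd)) c - φ i (B (S.π (w ω))) (q (S.π (l ω).fst)) c)) =
        fun ω => X 0 (S.π (w ω)) + W ω := by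
      funext ω c
      have e1 : B (S.π (l ω).fst) = B (S.π (w ω)) := S.det _ _ (hbl ω)
      have e2 : B (S.π (l ω).snd) = B (S.π (w ω)) := S.det _ _ (hbs ω)
      simp only [hW, _root_.Pi.add_apply, Finset.sum_apply, hD, e1, e2]
    rw [h1]
    have h2 : hc T (fun ω => X 0 (S.π (w ω)) + W ω)
        (fun ω => (q (S.π (w ω)), B (S.π (w ω)), S.b (w ω))) ≤
        hc T (fun ω => X 0 (S.π (w ω)) + W ω) (fun ω => (q (S.π (w ω)), S.b (w ω))) :=
      hc_mono_right T _ (fun ω ω' _ _ h => by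
        simp only [Prod.mk.injEq] at h ⊢
        exact ⟨h.1, h.2.2⟩)
    linarith only [hη, he, k1, k2, hQind, hmad, hk2, hlow2, h2]

end Vale.Agent.P127.Stk.Abs
end

section

/-!
# P127 / Stk / Abs : composition of absorbed variables (statements of `Finish.lean`)
-/

namespace Vale.Agent.P127.Stk.Abs

open Finset Vale.Agent.P127 Vale.Agent.P127.Stk

theorem finC1 : FinC1 := by
  intro Ω Ξ1 Ξ2 Ω' _ _ _ _ β κ d P b q x R1 bR1 Pi1 R2 bR2 Pi2 ρ r1 r2 e0 h1 h2 h0 T ξ1 ξ2 s1 s2 hb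
    hm Ω'' _ T' w τ sw sτ hbw hmw
  have sξ1 : Smp T' (fun ω => ξ1 (τ ω)) R1 := sτ.comp s1
  have sξ2 : Smp T' (fun ω => ξ2 (τ ω)) R2 := sτ.comp s2
  have hbw2 : ∀ ω, b (w ω) = bR2 (ξ2 (τ ω)) := fun ω => (hbw ω).trans (hb (τ ω))
  have m1 : mi T' w (fun ω => ξ1 (τ ω)) (fun ω => b (w ω)) = 0 :=
    mi_zero_of hmw (fun ω ω' h _ => h) (fun ω ω' h _ => by rw [h])
  have m2 : mi T' w (fun ω => ξ2 (τ ω)) (fun ω => b (w ω)) = 0 :=
    mi_zero_of hmw (fun ω ω' h _ => h) (fun ω ω' h _ => by rw [h])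
  have m12 : mi T' (fun ω => ξ1 (τ ω)) (fun ω => ξ2 (τ ω)) (fun ω => b (w ω)) = 0 := by
    have := (sτ.mi ξ1 ξ2 (fun ω => bR1 (ξ1 ω))).trans hm
    rw [← this]
    have e : (fun ω => b (w ω)) = fun ω => bR1 (ξ1 (τ ω)) := funext hbw
    rw [e]
  have a1 := h1 Ω'' T' w (fun ω => ξ1 (τ ω)) sw sξ1 hbw m1
  have a2 := h2 Ω'' T' w (fun ω => ξ2 (τ ω)) sw sξ2 hbw2 m2
  have a0 : ρ - e0 ≤ hc T' (fun ω => x (w ω)) (fun ω => (q (w ω), b (w ω))) := by
    rw [sw.hc x (fun ω => (q ω, b ω))]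
    exact h0
  obtain ⟨Q1, hQ1⟩ : ∃ Q1 : Ω'' → Fin d → ℤ, Q1 = fun ω => Pi1 (ξ1 (τ ω)) := ⟨_, rfl⟩
  obtain ⟨Q2, hQ2⟩ : ∃ Q2 : Ω'' → Fin d → ℤ, Q2 = fun ω => Pi2 (ξ2 (τ ω)) := ⟨_, rfl⟩
  obtain ⟨x', hx'⟩ : ∃ x' : Ω'' → Fin d → ℤ, x' = fun ω => x (w ω) := ⟨_, rfl⟩
  have e1 : (fun ω => x (w ω) + Pi1 (ξ1 (τ ω))) = fun ω => Q1 ω + x' ω := by
    funext ω
    rw [hQ1, hx', add_comm]
  have e2 : (fun ω => x (w ω) + Pi2 (ξ2 (τ ω))) = fun ω => x' ω + Q2 ω := by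
    funext ω
    rw [hQ2, hx']
  have e3 : (fun ω => x (w ω) + (Pi1 (ξ1 (τ ω)) + Pi2 (ξ2 (τ ω)))) =
      fun ω => Q1 ω + x' ω + Q2 ω := by
    funext ω
    rw [hQ1, hQ2, hx']
    show x (w ω) + (Pi1 (ξ1 (τ ω)) + Pi2 (ξ2 (τ ω))) = Pi1 (ξ1 (τ ω)) + x (w ω) + Pi2 (ξ2 (τ ω))
    abel
  have hxw : ∀ ω ω', w ω = w ω' → x' ω = x' ω' := fun ω ω' h => by rw [hx']; simp only [h]
  have hQ1τ : ∀ ω ω', ξ1 (τ ω) = ξ1 (τ ω') → Q1 ω = Q1 ω' := fun ω ω' h => by
    rw [hQ1]; simp only [h]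
  have hQ2τ : ∀ ω ω', ξ2 (τ ω) = ξ2 (τ ω') → Q2 ω = Q2 ω' := fun ω ω' h => by
    rw [hQ2]; simp only [h]
  show hc T' (fun ω => x (w ω) + (Pi1 (ξ1 (τ ω)) + Pi2 (ξ2 (τ ω)))) _ ≤ _
  rw [e3]
  rw [e1] at a1
  rw [e2] at a2
  rw [← hx'] at a0
  have hind : hc T' Q1 (fun ω => (q (w ω), b (w ω))) + hc T' x' (fun ω => (q (w ω), b (w ω))) +
      hc T' Q2 (fun ω => (q (w ω), b (w ω))) - 0 ≤
      hc T' (fun ω => (Q1 ω, x' ω, Q2 ω)) (fun ω => (q (w ω), b (w ω))) := by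
    have k0 : hc T' (fun ω => (x' ω, (Q1 ω, Q2 ω))) (fun ω => (q (w ω), b (w ω))) ≤
        hc T' (fun ω => (Q1 ω, x' ω, Q2 ω)) (fun ω => (q (w ω), b (w ω))) :=
      Add.hc_mono T' fun ω ω' h _ => by
        simp only [Prod.mk.injEq] at h ⊢
        exact ⟨h.2.1, h.1, h.2.2⟩
    rw [hc_pair T' x' (fun ω => (Q1 ω, Q2 ω))] at k0
    have k1 : hc T' (fun ω => (Q1 ω, Q2 ω)) (fun ω => ((x' ω, q (w ω)), b (w ω))) =
        hc T' (fun ω => (Q1 ω, Q2 ω)) (fun ω => b (w ω)) := by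
      refine fin_hc_of_mi T' (mi_zero_of (by rw [mi_symm]; exact hmw) (fun ω ω' h _ => ?_)
        (fun ω ω' h _ => ?_))
      · rw [hQ1τ ω ω' (by rw [h]), hQ2τ ω ω' (by rw [h])]
      · rw [hxw ω ω' h, h]
    have k2 : hc T' (fun ω => (Q1 ω, Q2 ω)) (fun ω => ((x' ω, q (w ω)), b (w ω))) ≤
        hc T' (fun ω => (Q1 ω, Q2 ω)) (fun ω => (x' ω, (q (w ω), b (w ω)))) :=
      hc_mono_right T' _ (fun ω ω' _ _ h => by
        simp only [Prod.mk.injEq] at h ⊢
        exact ⟨h.1.1, h.1.2, h.2⟩)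
    have k3 := hc_pair T' Q1 Q2 (fun ω => b (w ω))
    have k4 : hc T' Q2 (fun ω => (Q1 ω, b (w ω))) = hc T' Q2 (fun ω => b (w ω)) :=
      fin_hc_of_mi T' (mi_zero_of (by rw [mi_symm]; exact m12) (fun ω ω' h _ => hQ2τ ω ω' h)
        (fun ω ω' h _ => hQ1τ ω ω' h))
    have k5 : hc T' Q1 (fun ω => (q (w ω), b (w ω))) ≤ hc T' Q1 (fun ω => b (w ω)) :=
      hc_mono_right T' _ (fun ω ω' _ _ h => (Prod.mk.inj h).2)
    have k6 : hc T' Q2 (fun ω => (q (w ω), b (w ω))) ≤ hc T' Q2 (fun ω => b (w ω)) :=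
      hc_mono_right T' _ (fun ω ω' _ _ h => (Prod.mk.inj h).2)
    linarith only [k0, k1, k2, k3, k4, k5, k6]
  have hmad := Add.madiman T' Q1 x' Q2 (fun ω => (q (w ω), b (w ω))) (δ := 0) hind
  linarith

theorem finC2 : FinC2 := by
  intro Λ Ξ1 Ξ2 Ω' _ _ _ _ β d L bL D1 D2 R1 bR1 Pi1 R2 bR2 Pi2 e1 e2 h1 h2 T ξ1 ξ2 s1 s2 hb
    hm Ω'' _ T' l τ sl sτ hbl hml
  have sξ1 : Smp T' (fun ω => ξ1 (τ ω)) R1 := sτ.comp s1
  have sξ2 : Smp T' (fun ω => ξ2 (τ ω)) R2 := sτ.comp s2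
  have hbl2 : ∀ ω, bL (l ω) = bR2 (ξ2 (τ ω)) := fun ω => (hbl ω).trans (hb (τ ω))
  have m1 : mi T' l (fun ω => ξ1 (τ ω)) (fun ω => bL (l ω)) = 0 :=
    mi_zero_of hml (fun ω ω' h _ => h) (fun ω ω' h _ => by rw [h])
  have m2 : mi T' l (fun ω => ξ2 (τ ω)) (fun ω => bL (l ω)) = 0 :=
    mi_zero_of hml (fun ω ω' h _ => h) (fun ω ω' h _ => by rw [h])
  have m12 : mi T' (fun ω => ξ1 (τ ω)) (fun ω => ξ2 (τ ω)) (fun ω => bL (l ω)) = 0 := by
    have := (sτ.mi ξ1 ξ2 (fun ω => bR1 (ξ1 ω))).trans hm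
    rw [← this]
    have e : (fun ω => bL (l ω)) = fun ω => bR1 (ξ1 (τ ω)) := funext hbl
    rw [e]
  have a1 := h1 Ω'' T' l (fun ω => ξ1 (τ ω)) sl sξ1 hbl m1
  have a2 := h2 Ω'' T' l (fun ω => ξ2 (τ ω)) sl sξ2 hbl2 m2
  have b1 : hc R1 Pi1 bR1 = hc T' (fun ω => Pi1 (ξ1 (τ ω))) (fun ω => bL (l ω)) := by
    rw [← sξ1.hc Pi1 bR1]
    have e : (fun ω => bL (l ω)) = fun ω => bR1 (ξ1 (τ ω)) := funext hbl
    rw [e]
  have b2 : hc R2 Pi2 bR2 = hc T' (fun ω => Pi2 (ξ2 (τ ω))) (fun ω => bL (l ω)) := by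
    rw [← sξ2.hc Pi2 bR2]
    have e : (fun ω => bL (l ω)) = fun ω => bR2 (ξ2 (τ ω)) := funext hbl2
    rw [e]
  have b3 : hc T (fun ω => Pi1 (ξ1 ω) + Pi2 (ξ2 ω)) (fun ω => bR1 (ξ1 ω)) =
      hc T' (fun ω => Pi1 (ξ1 (τ ω)) + Pi2 (ξ2 (τ ω))) (fun ω => bL (l ω)) := by
    rw [← sτ.hc (fun ω => Pi1 (ξ1 ω) + Pi2 (ξ2 ω)) (fun ω => bR1 (ξ1 ω))]
    have e : (fun ω => bL (l ω)) = fun ω => bR1 (ξ1 (τ ω)) := funext hbl
    rw [e]
  rw [b1] at a1
  rw [b2] at a2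
  rw [b3]
  obtain ⟨V1, hV1⟩ : ∃ V1 : Ω'' → Fin d → ℤ, V1 = fun ω => Pi1 (ξ1 (τ ω)) + D1 (l ω) := ⟨_, rfl⟩
  obtain ⟨V2, hV2⟩ : ∃ V2 : Ω'' → Fin d → ℤ, V2 = fun ω => Pi2 (ξ2 (τ ω)) + D2 (l ω) := ⟨_, rfl⟩
  rw [← hV1] at a1
  rw [← hV2] at a2
  have e3 : (fun ω => Pi1 (ξ1 (τ ω)) + Pi2 (ξ2 (τ ω)) + (D1 (l ω) + D2 (l ω))) =
      fun ω => V1 ω + V2 ω := by
    funext ω
    rw [hV1, hV2]
    show _ = Pi1 (ξ1 (τ ω)) + D1 (l ω) + (Pi2 (ξ2 (τ ω)) + D2 (l ω))
    abel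
  show hc T' (fun ω => Pi1 (ξ1 (τ ω)) + Pi2 (ξ2 (τ ω)) + (D1 (l ω) + D2 (l ω))) _ ≤ _
  rw [e3]
  -- given `l` the shifts are known
  have c1 : hc T' (fun ω => V1 ω + V2 ω) (fun ω => (l ω, bL (l ω))) =
      hc T' (fun ω => Pi1 (ξ1 (τ ω)) + Pi2 (ξ2 (τ ω))) (fun ω => bL (l ω)) := by
    have k1 : hc T' (fun ω => V1 ω + V2 ω) (fun ω => (l ω, bL (l ω))) =
        hc T' (fun ω => Pi1 (ξ1 (τ ω)) + Pi2 (ξ2 (τ ω))) (fun ω => (l ω, bL (l ω))) := by
      refine Add.hc_eq T' fun ω ω' h => ?_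
      have h' := (Prod.mk.inj h).1
      have g1 : ∀ ω, V1 ω + V2 ω = Pi1 (ξ1 (τ ω)) + Pi2 (ξ2 (τ ω)) + (D1 (l ω) + D2 (l ω)) :=
        fun ω => (congrFun e3 ω).symm
      rw [g1, g1, h']
      constructor
      · intro hh
        rw [hh]
      · intro hh
        exact add_right_cancel hh
    rw [k1]
    refine fin_hc_of_mi T' (mi_zero_of (by rw [mi_symm]; exact hml) (fun ω ω' h _ => ?_)
        (fun ω ω' h _ => h))
    rw [h]
  have c2 : hc T' (fun ω => (V1 ω, V2 ω)) (fun ω => (l ω, bL (l ω))) =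
      hc T' (fun ω => Pi1 (ξ1 (τ ω))) (fun ω => bL (l ω)) +
      hc T' (fun ω => Pi2 (ξ2 (τ ω))) (fun ω => bL (l ω)) := by
    have k1 : hc T' (fun ω => (V1 ω, V2 ω)) (fun ω => (l ω, bL (l ω))) =
        hc T' (fun ω => (Pi1 (ξ1 (τ ω)), Pi2 (ξ2 (τ ω)))) (fun ω => (l ω, bL (l ω))) := by
      refine Add.hc_eq T' fun ω ω' h => ?_
      have h' := (Prod.mk.inj h).1
      simp only [hV1, hV2, Prod.mk.injEq, h']
      constructor
      · rintro ⟨hh, hh'⟩
        rw [hh, hh']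
        exact ⟨rfl, rfl⟩
      · rintro ⟨hh, hh'⟩
        exact ⟨add_right_cancel hh, add_right_cancel hh'⟩
    rw [k1]
    have k2 : hc T' (fun ω => (Pi1 (ξ1 (τ ω)), Pi2 (ξ2 (τ ω)))) (fun ω => (l ω, bL (l ω))) =
        hc T' (fun ω => (Pi1 (ξ1 (τ ω)), Pi2 (ξ2 (τ ω)))) (fun ω => bL (l ω)) := by
      refine fin_hc_of_mi T' (mi_zero_of (by rw [mi_symm]; exact hml) (fun ω ω' h _ => ?_)
        (fun ω ω' h _ => h))
      rw [h]
    rw [k2, hc_pair T' (fun ω => Pi1 (ξ1 (τ ω))) (fun ω => Pi2 (ξ2 (τ ω)))]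
    congr 1
    exact fin_hc_of_mi T' (mi_zero_of (by rw [mi_symm]; exact m12) (fun ω ω' h _ => by rw [h])
        (fun ω ω' h _ => by rw [h]))
  have c3 : mi T' (fun ω => V1 ω + V2 ω) l (fun ω => bL (l ω)) ≤
      mi T' (fun ω => (V1 ω, V2 ω)) l (fun ω => bL (l ω)) :=
    mi_mono_left T' l (fun ω ω' _ _ h => by
      simp only [Prod.mk.injEq] at h
      rw [h.1.1, h.1.2])
  have c4 := Add.hc_pair_le T' V1 V2 (fun ω => bL (l ω))
  unfold mi at c3
  rw [c1, c2] at c3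
  linarith only [a1, a2, c3, c4]

theorem fin_swap {Ω : Type} [Fintype Ω] {γ : Type} (P : Law Ω) (c : Ω → γ) :
    Smp (pairL P c) (fun l => (⟨l.snd, l.fst, l.eq.symm⟩ : Law.GT c c)) (pairL P c) := by
  classical
  intro ω
  unfold Law.pr
  have h1 : (Finset.univ.filter fun l : Law.GT c c => (⟨l.snd, l.fst, l.eq.symm⟩ : Law.GT c c) = ω) =
      {(⟨ω.snd, ω.fst, ω.eq.symm⟩ : Law.GT c c)} := by
    ext l
    simp only [Finset.mem_filter, Finset.mem_univ, true_and, Finset.mem_singleton]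
    constructor
    · rintro rfl
      rfl
    · rintro rfl
      rfl
  have h2 : (pairL P c).w (⟨ω.snd, ω.fst, ω.eq.symm⟩ : Law.GT c c) = (pairL P c).w ω := by
    unfold pairL Law.glue
    simp only
    rw [← ω.eq, mul_comm (P.w _)]
  rw [← h2]
  refine Eq.trans ?_ (Finset.sum_singleton (f := fun l => (pairL P c).w l)
    (a := (⟨ω.snd, ω.fst, ω.eq.symm⟩ : Law.GT c c)))
  rw [← h1]

theorem finC4 : FinC4 := by
  intro Ω Ξ _ _ γ β d P c b D R bR Pi e hcb h Ω' _ T l ξ sl sξ hb hm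
  have s' : Smp T (fun ω => (⟨(l ω).snd, (l ω).fst, (l ω).eq.symm⟩ : Law.GT c c)) (pairL P c) :=
    sl.comp (fin_swap P c)
  have hbb : ∀ ω, b (l ω).snd = b (l ω).fst := fun ω => (hcb _ _ (l ω).eq).symm
  have e1 : (fun ω => b (l ω).snd) = fun ω => b (l ω).fst := funext hbb
  have m' : mi T (fun ω => (⟨(l ω).snd, (l ω).fst, (l ω).eq.symm⟩ : Law.GT c c)) ξ
      (fun ω => b (l ω).snd) = 0 := by
    rw [e1]
    exact mi_zero_of hm (fun ω ω' h _ => by rw [h]) (fun ω ω' h _ => h)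
  have := h Ω' T (fun ω => (⟨(l ω).snd, (l ω).fst, (l ω).eq.symm⟩ : Law.GT c c)) ξ s' sξ
    (fun ω => (hbb ω).trans (hb ω)) m'
  simp only [e1] at this
  exact this

/-- A13 -/
theorem pfinish : PFinish := pfinish_of finC1 finC2 finC4

end Vale.Agent.P127.Stk.Abs
end

section

/-!
# P127 / Stk : the absorption lemma
-/

namespace Vale.Agent.P127.Stk

/-- the absorption lemma (PROOF.md, section 4) -/
theorem pabs : PAbs :=
  Abs.abs_of (Abs.chain_of Abs.pbaseLink Abs.ptriple Abs.pfacts Abs.ptripleLink Abs.pabsA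
    Abs.pabsB) Abs.pnew Abs.pgain Abs.pbound Abs.pinit Abs.pfinish

end Vale.Agent.P127.Stk
end
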