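import Mathlib
import Vale.Agent.P127.Bdl.B1
import Vale.Agent.P127.Bdl.B2
attribute [-instance] ProperSMul.toContinuousSMul IsTopologicalTorsor.toContinuousSMul IdemSemiring.toCanonicallyOrderedAdd IdemSemiring.toMulLeftMono IdemSemiring.toMulRightMono AddQuantale.instAddLeftMono AddQuantale.instAddRightMono Quantale.instMulLeftMono Quantale.instMulRightMono FiniteDimensional.rclike_to_real IsScalarTower.complexToReal FiniteDimensional.complexToReal

set_option linter.all false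

section

/-!
# P127 / Stk / Window, part B: digits and truncated sub-configurations
-/

namespace Vale.Agent.P127.Stk.Win

open Finset Vale.Agent.P127

/-! ### digits -/

/-- the digits `r+1, ..., r+L` of a number, as a number of `[0,1)` -/
noncomputable def dg (r L : ℕ) (v : ℝ) : ℝ :=
  ((⌊(2 : ℝ) ^ (r + L) * v⌋ : ℝ) - 2 ^ L * ⌊(2 : ℝ) ^ r * v⌋) / 2 ^ L

/-- floors at a coarser scale -/
lemma floor_coarse (s d : ℕ) (v : ℝ) :
    ⌊(2 : ℝ) ^ s * v⌋ = ⌊(2 : ℝ) ^ (s + d) * v⌋ / (2 ^ d : ℕ) := by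
  rw [← Int.floor_div_natCast]
  congr 1
  push_cast
  rw [pow_add]
  (clear * -; field_simp)

lemma dg_nonneg (r L : ℕ) (v : ℝ) : 0 ≤ dg r L v := by
  unfold dg
  refine div_nonneg ?_ (by (clear * -; positivity))
  have h1 : (2 : ℝ) ^ L * ⌊(2 : ℝ) ^ r * v⌋ ≤ 2 ^ (r + L) * v := by
    have := mul_le_mul_of_nonneg_left (Int.floor_le ((2 : ℝ) ^ r * v))
      (by positivity : (0 : ℝ) ≤ 2 ^ L)
    rw [pow_add]
    linarith only [this]
  have h2 : ((2 ^ L * ⌊(2 : ℝ) ^ r * v⌋ : ℤ) : ℝ) ≤ 2 ^ (r + L) * v := by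
    push_cast
    exact h1
  have h3 : (2 ^ L * ⌊(2 : ℝ) ^ r * v⌋ : ℤ) ≤ ⌊(2 : ℝ) ^ (r + L) * v⌋ := Int.le_floor.2 h2
  have h4 : ((2 ^ L * ⌊(2 : ℝ) ^ r * v⌋ : ℤ) : ℝ) ≤ (⌊(2 : ℝ) ^ (r + L) * v⌋ : ℤ) := by
    exact_mod_cast h3
  push_cast at h4
  linarith only [h4]

lemma dg_lt_one (r L : ℕ) (v : ℝ) : dg r L v < 1 := by
  unfold dg
  rw [div_lt_one (by positivity)]
  have h1 := Int.floor_le ((2 : ℝ) ^ (r + L) * v)
  have h2 := mul_lt_mul_of_pos_left (Int.lt_floor_add_one ((2 : ℝ) ^ r * v))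
    (by positivity : (0 : ℝ) < 2 ^ L)
  have h3 : (2 : ℝ) ^ (r + L) * v = 2 ^ L * (2 ^ r * v) := by rw [pow_add]; ring
  linarith only [h1, h2, h3]

lemma floor_dg (r L s : ℕ) (hs : s ≤ L) (v : ℝ) :
    ⌊(2 : ℝ) ^ s * dg r L v⌋ = ⌊(2 : ℝ) ^ (r + s) * v⌋ - 2 ^ s * ⌊(2 : ℝ) ^ r * v⌋ := by
  obtain ⟨d, rfl⟩ := Nat.exists_eq_add_of_le hs
  have h1 := floor_coarse (r + s) d v
  have h2 : (2 : ℝ) ^ s * dg r (s + d) v =
      ((⌊(2 : ℝ) ^ (r + (s + d)) * v⌋ : ℤ) : ℝ) / ((2 ^ d : ℕ) : ℝ) -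
        ((2 ^ s * ⌊(2 : ℝ) ^ r * v⌋ : ℤ) : ℝ) := by
    unfold dg
    push_cast
    rw [pow_add 2 s d]
    field_simp
  rw [h2, Int.floor_sub_intCast, Int.floor_div_natCast, Int.floor_intCast, h1, add_assoc]

lemma dg_err (r L : ℕ) (v : ℝ) :
    |(2 : ℝ) ^ r * v - ⌊(2 : ℝ) ^ r * v⌋ - dg r L v| ≤ 1 / 2 ^ L := by
  have h2 : (0 : ℝ) < 2 ^ L := by positivity
  have h3 : (2 : ℝ) ^ (r + L) * v = 2 ^ L * (2 ^ r * v) := by rw [pow_add]; ring
  have h1 : (2 : ℝ) ^ r * v - ⌊(2 : ℝ) ^ r * v⌋ - dg r L v =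
      ((2 : ℝ) ^ (r + L) * v - ⌊(2 : ℝ) ^ (r + L) * v⌋) / 2 ^ L := by
    unfold dg
    rw [h3]
    field_simp
    ring
  rw [h1, abs_div, abs_of_pos h2]
  refine div_le_div_of_nonneg_right ?_ h2.le
  have h4 := Int.floor_le ((2 : ℝ) ^ (r + L) * v)
  have h5 := Int.lt_floor_add_one ((2 : ℝ) ^ (r + L) * v)
  rw [abs_le]
  constructor <;> linarith only [h4, h5]

section fl

variable {ι : Type}

lemma fl_coarse {s s' : ℕ} (h : s ≤ s') {v w : ι → ℝ} (hv : fl s' v = fl s' w) :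
    fl s v = fl s w := by
  obtain ⟨d, rfl⟩ := Nat.exists_eq_add_of_le h
  funext i
  have := congrFun hv i
  unfold fl at this ⊢
  rw [floor_coarse s d, floor_coarse s d (w i), this]

lemma fl_dg (r L s : ℕ) (hs : s ≤ L) (v : ι → ℝ) (i : ι) :
    fl s (fun i => dg r L (v i)) i = fl (r + s) v i - 2 ^ s * fl r v i := by
  unfold fl
  exact floor_dg r L s hs (v i)

/-- given the first `r` digits, the digits of the truncation are the digits of the vector -/
lemma fl_dg_iff {r L s : ℕ} (hs : s ≤ L) {v w : ι → ℝ} (hr : fl r v = fl r w) :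
    fl s (fun i => dg r L (v i)) = fl s (fun i => dg r L (w i)) ↔ fl (r + s) v = fl (r + s) w := by
  simp only [funext_iff, fl_dg r L s hs]
  refine forall_congr' fun i => ?_
  rw [congrFun hr i]
  constructor <;> intro h <;> linarith only [h]

lemma dg_eq_iff {r L : ℕ} {v w : ι → ℝ} (hr : fl r v = fl r w) :
    (fun i => dg r L (v i)) = (fun i => dg r L (w i)) ↔ fl (r + L) v = fl (r + L) w := by
  constructor
  · intro h
    rw [← fl_dg_iff le_rfl hr, h]
  · intro h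
    funext i
    have h1 : (⌊(2 : ℝ) ^ (r + L) * v i⌋) = ⌊(2 : ℝ) ^ (r + L) * w i⌋ := congrFun h i
    have h2 : (⌊(2 : ℝ) ^ r * v i⌋) = ⌊(2 : ℝ) ^ r * w i⌋ := congrFun hr i
    simp only [dg, h1, h2]

end fl

/-! ### truncated sub-configurations -/

variable {Ω : Type} {m : ℕ}

/-- the digits `r+1, ..., r+L` of the lines of a configuration -/
noncomputable def tr (c : Cf Ω m) (r L : ℕ) : Cf Ω m where
  α := c.α × (Fin m → ℤ) × (Fin m → ℤ)
  A := fun ω => (c.A ω, fl r (c.x ω), fl r (c.y ω))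
  x := fun ω i => dg r L (c.x ω i)
  y := fun ω i => dg r L (c.y ω i)
  t := c.t

/-- the first `s` digits of the line -/
noncomputable def Qs (c : Cf Ω m) (s : ℕ) (ω : Ω) : (Fin m → ℤ) × (Fin m → ℤ) :=
  (fl s (c.x ω), fl s (c.y ω))

variable [Fintype Ω]

lemma good_C {P : Law Ω} {c : Cf Ω m} {L : ℕ} {e C : ℝ} (hG : Good P c L e C) : 0 ≤ C :=
  (mi_nonneg P _ _ _).trans hG.ind

/-- entropy of the first digits of the direction, given the first digits of the line -/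
lemma Q_le {P : Law Ω} {c : Cf Ω m} {L : ℕ} {e C : ℝ} (hG : Good P c L e C) {s : ℕ}
    (hs : s ≤ L) : hc P (Qs c s) c.A ≤ (m * s : ℝ) * Real.log 2 + e := hG.lin s hs

lemma Q_ge {P : Law Ω} {c : Cf Ω m} {L : ℕ} {e C : ℝ} (hG : Good P c L e C) {s : ℕ}
    (hs : s ≤ L) : (m * s : ℝ) * Real.log 2 - e ≤ hc P (Qs c s) c.A :=
  (hG.dir s hs).trans (hc_mono_left P fun _ _ h _ => (Prod.mk.inj h).2)

theorem good_tr {P : Law Ω} {c : Cf Ω m} {L1 : ℕ} {e C : ℝ} (hG : Good P c L1 e C) {r L : ℕ}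
    (h : r + L ≤ L1) : Good P (tr c r L) L (2 * e) (2 * C) := by
  have hC := good_C hG
  refine ⟨fun ω i => ⟨dg_nonneg _ _ _, dg_lt_one _ _ _⟩, fun ω i => ⟨dg_nonneg _ _ _,
    dg_lt_one _ _ _⟩, hG.t01, ?_, ?_, ?_, ?_⟩
  · -- independence
    have h1 := mi_chain P (Qs c r) (fun ω => (c.x ω, c.y ω)) c.t c.A
    have h2 : mi P (fun ω => (Qs c r ω, (c.x ω, c.y ω))) c.t c.A =
        mi P (fun ω => (c.x ω, c.y ω)) c.t c.A :=
      mi_congr_left P fun ω ω' _ => by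
        constructor
        · intro h'
          obtain ⟨h3, h4⟩ := Prod.mk.inj h'
          simp only [Qs, Prod.mk.injEq, h3, h4, and_self]
        · intro h'
          exact (Prod.mk.inj h').2
    have h3 := mi_nonneg P (Qs c r) c.t c.A
    have h4 : mi P (fun ω => ((tr c r L).x ω, (tr c r L).y ω)) (tr c r L).t (tr c r L).A ≤
        mi P (fun ω => (c.x ω, c.y ω)) c.t (fun ω => (Qs c r ω, c.A ω)) := by
      have h5 : mi P (fun ω => (c.x ω, c.y ω)) c.t (fun ω => (Qs c r ω, c.A ω)) =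
          mi P (fun ω => (c.x ω, c.y ω)) c.t (tr c r L).A :=
        mi_congr_cond P fun ω ω' => by
          simp only [Qs, tr, Prod.mk.injEq]
          (clear * -; tauto)
      rw [h5]
      refine mi_mono_left P fun ω ω' h' _ => ?_
      obtain ⟨h6, h7⟩ := Prod.mk.inj h'
      simp only [tr, h6, h7]
    have h5 := hG.ind
    linarith only [hC, h1, h2, h3, h4, h5]
  · intro s hs
    have h1 : hc P (fun ω => fl s ((tr c r L).y ω)) (tr c r L).A =
        hc P (fun ω => fl (r + s) (c.y ω)) (fun ω => (Qs c r ω, c.A ω)) := by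
      rw [hc_congr_right P (Y := (tr c r L).A) (Y' := (fun ω => (Qs c r ω, c.A ω)))]
      · refine hc_congr_left P fun ω ω' h' => ?_
        simp only [tr, Prod.mk.injEq] at h'
        exact (fl_dg_iff hs h'.2.2).symm
      · intro ω ω'
        simp only [Qs, tr, Prod.mk.injEq]
        (clear * -; tauto)
    have h2 := hc_chain P (Qs c r) (fun ω => fl (r + s) (c.y ω)) c.A
    have h3 : hc P (fun ω => fl (r + s) (c.y ω)) c.A ≤
        hc P (fun ω => (Qs c r ω, fl (r + s) (c.y ω))) c.A :=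
      hc_mono_left P fun _ _ h' _ => (Prod.mk.inj h').2
    have h4 := hG.dir (r + s) (by omega)
    have h5 := Q_le hG (s := r) (by omega)
    rw [h1]
    push_cast at h4
    linarith
  · intro s hs
    have h1 : hc P (fun ω => (fl s ((tr c r L).x ω), fl s ((tr c r L).y ω))) (tr c r L).A =
        hc P (Qs c (r + s)) (fun ω => (Qs c r ω, c.A ω)) := by
      rw [hc_congr_right P (Y := (tr c r L).A) (Y' := (fun ω => (Qs c r ω, c.A ω)))]
      · refine hc_congr_left P fun ω ω' h' => ?_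
        simp only [tr, Prod.mk.injEq] at h'
        simp only [Qs, Prod.mk.injEq, tr]
        rw [fl_dg_iff hs h'.2.1, fl_dg_iff hs h'.2.2]
      · intro ω ω'
        simp only [Qs, Prod.mk.injEq, tr]
        (clear * -; tauto)
    have h2 := hc_chain P (Qs c r) (Qs c (r + s)) c.A
    have h3 : hc P (fun ω => (Qs c r ω, Qs c (r + s) ω)) c.A ≤ hc P (Qs c (r + s)) c.A :=
      hc_mono_left P fun ω ω' h' _ => by
        have h'' := h'
        simp only [Qs, Prod.mk.injEq] at h'' ⊢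
        exact ⟨⟨fl_coarse (by omega) h''.1, fl_coarse (by omega) h''.2⟩, h''⟩
    have h4 := Q_le hG (s := r + s) (by omega)
    have h5 := Q_ge hG (s := r) (by omega)
    rw [h1]
    push_cast at h4
    linarith
  · intro s hs
    have h1 : hc P (fun ω => fl1 s ((tr c r L).t ω)) (tr c r L).A =
        hc P (fun ω => fl1 s (c.t ω)) (fun ω => (Qs c r ω, c.A ω)) := by
      rw [hc_congr_right P (Y := (tr c r L).A) (Y' := (fun ω => (Qs c r ω, c.A ω)))]
      · rfl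
      · intro ω ω'
        simp only [Qs, tr, Prod.mk.injEq]
        (clear * -; tauto)
    have h2 : mi P (fun ω => fl1 s (c.t ω)) (Qs c r) c.A ≤ mi P c.t (Qs c r) c.A :=
      mi_mono_left P fun ω ω' h' _ => by simp only [h']
    have h3 : mi P c.t (Qs c r) c.A ≤ mi P c.t (fun ω => (c.x ω, c.y ω)) c.A :=
      mi_mono_right P fun ω ω' h' _ => by
        obtain ⟨h3, h4⟩ := Prod.mk.inj h'
        simp only [Qs, h3, h4]
    have h4 := hG.ind
    rw [mi_comm P] at h4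
    have h5 := hG.tim s (by omega)
    have h6 := hc_sub_le_mi P (fun ω => fl1 s (c.t ω)) (Qs c r) c.A
    rw [h1]
    linarith only [h2, h3, h4, h5, h6]

end Vale.Agent.P127.Stk.Win
end

section

/-!
# P127 / Stk / Window, part C: costs and rates of the truncated sub-configurations
-/

namespace Vale.Agent.P127.Stk.Win

open Finset Vale.Agent.P127

variable {Ω : Type} {m κ : ℕ}

/-! ### the projection -/

/-- norm of the projections of type `κ` -/
noncomputable def Kk (κ : ℕ) : ℝ := 1 + κ * 3 ^ κ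

lemma one_le_Kk (κ : ℕ) : 1 ≤ Kk κ := by
  unfold Kk
  have : (0 : ℝ) ≤ κ * 3 ^ κ := by (clear * -; positivity)
  linarith

lemma app_add (o : Ob Ω m κ) (ω : Ω) (u v : Fin m → ℝ) :
    o.app ω (u + v) = o.app ω u + o.app ω v := by
  classical
  funext i
  simp only [Ob.app, Pi.add_apply]
  split_ifs
  · simp
  · simp only [mul_add, Finset.sum_add_distrib]
    ring

lemma app_smul (o : Ob Ω m κ) (ω : Ω) (a : ℝ) (v : Fin m → ℝ) :
    o.app ω (a • v) = a • o.app ω v := by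
  classical
  funext i
  simp only [Ob.app, Pi.smul_apply, smul_eq_mul]
  split_ifs
  · simp
  · rw [mul_sub, Finset.mul_sum]
    congr 1
    refine Finset.sum_congr rfl fun j _ => ?_
    ring

lemma sum_J_le (o : Ob Ω m κ) (ω : Ω) (v : Fin m → ℝ) (M : ℝ) (i : Fin m)
    (hv : ∀ j, |v j| ≤ M) : |∑ j ∈ o.J, o.Γ ω i j * v j| ≤ κ * 3 ^ κ * M := by
  calc |∑ j ∈ o.J, o.Γ ω i j * v j| ≤ ∑ j ∈ o.J, |o.Γ ω i j * v j| :=
        Finset.abs_sum_le_sum_abs _ _
    _ ≤ ∑ _j ∈ o.J, (3 : ℝ) ^ κ * M := by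
        refine Finset.sum_le_sum fun j _ => ?_
        rw [abs_mul]
        exact mul_le_mul (o.bd ω i j) (hv j) (abs_nonneg _) (by positivity)
    _ = κ * 3 ^ κ * M := by
        rw [Finset.sum_const, o.card, nsmul_eq_mul]
        ring

lemma app_le (o : Ob Ω m κ) (ω : Ω) (v : Fin m → ℝ) (M : ℝ) (hv : ∀ j, |v j| ≤ M)
    (i : Fin m) : |o.app ω v i| ≤ Kk κ * M := by
  classical
  have hM : 0 ≤ M := (abs_nonneg _).trans (hv i)
  unfold Ob.app
  split_ifs
  · rw [abs_zero]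
    exact mul_nonneg (by linarith [one_le_Kk κ]) hM
  · have h1 := sum_J_le o ω v M i hv
    have h2 := abs_sub (v i) (∑ j ∈ o.J, o.Γ ω i j * v j)
    have h3 := hv i
    unfold Kk
    linarith only [h1, h2, h3]

/-! ### the projected point of the truncation -/

/-- the part of the projected point determined by the first `r` digits of the line -/
noncomputable def wr (c : Cf Ω m) (o : Ob Ω m κ) (r : ℕ) (ω : Ω) : Fin m → ℝ :=
  o.app ω (fun i => (fl r (c.x ω) i : ℝ) + c.t ω * fl r (c.y ω) i)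

lemma wr_congr (c : Cf Ω m) (o : Ob Ω m κ) (r : ℕ) {ω ω' : Ω} (h1 : c.t ω = c.t ω')
    (h2 : o.G ω = o.G ω') (h3 : fl r (c.x ω) = fl r (c.x ω')) (h4 : fl r (c.y ω) = fl r (c.y ω')) :
    wr c o r ω = wr c o r ω' := by
  unfold wr Ob.app
  rw [h1, h3, h4, o.fn ω ω' h2]

/-- position of the projected point -/
lemma F_pos (c : Cf Ω m) (o : Ob Ω m κ) (ω : Ω) (r : ℕ) (ht : 0 ≤ c.t ω ∧ c.t ω < 1)
    (i : Fin m) : |(2 : ℝ) ^ r * o.F c ω i - wr c o r ω i| ≤ Kk κ * 2 := by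
  have h1 : (2 : ℝ) ^ r * o.F c ω i - wr c o r ω i =
      o.app ω (((2 : ℝ) ^ r) • c.pt ω +
        (-1 : ℝ) • (fun i => (fl r (c.x ω) i : ℝ) + c.t ω * fl r (c.y ω) i)) i := by
    rw [app_add, app_smul, app_smul]
    simp only [Ob.F, wr, Pi.add_apply, Pi.smul_apply, smul_eq_mul]
    ring
  rw [h1]
  refine app_le o ω _ 2 (fun j => ?_) i
  simp only [Cf.pt, Pi.add_apply, Pi.smul_apply, smul_eq_mul, fl]
  have a1 := Int.floor_le ((2 : ℝ) ^ r * c.x ω j)
  have a2 := Int.lt_floor_add_one ((2 : ℝ) ^ r * c.x ω j)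
  have a3 := Int.floor_le ((2 : ℝ) ^ r * c.y ω j)
  have a4 := Int.lt_floor_add_one ((2 : ℝ) ^ r * c.y ω j)
  have a5 : 0 ≤ (2 : ℝ) ^ r * c.y ω j - ⌊(2 : ℝ) ^ r * c.y ω j⌋ := by linarith
  have a6 : (2 : ℝ) ^ r * c.y ω j - ⌊(2 : ℝ) ^ r * c.y ω j⌋ ≤ 1 := by linarith only [a4]
  have a7 : 0 ≤ c.t ω * ((2 : ℝ) ^ r * c.y ω j - ⌊(2 : ℝ) ^ r * c.y ω j⌋) :=
    mul_nonneg ht.1 a5
  have a8 : c.t ω * ((2 : ℝ) ^ r * c.y ω j - ⌊(2 : ℝ) ^ r * c.y ω j⌋) ≤ 1 * 1 :=
    mul_le_mul ht.2.le a6 a5 (by norm_num)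
  rw [abs_le]
  constructor <;> linarith

/-- position of the projected point of the truncation -/
lemma F_tr (c : Cf Ω m) (o : Ob Ω m κ) (ω : Ω) (r L : ℕ) (ht : 0 ≤ c.t ω ∧ c.t ω < 1)
    (i : Fin m) :
    |(2 : ℝ) ^ (r + L) * o.F c ω i - 2 ^ L * wr c o r ω i - 2 ^ L * o.F (tr c r L) ω i| ≤
      Kk κ * 2 := by
  have h1 : (2 : ℝ) ^ (r + L) * o.F c ω i - 2 ^ L * wr c o r ω i -
      2 ^ L * o.F (tr c r L) ω i =
      o.app ω (((2 : ℝ) ^ (r + L)) • c.pt ω +
        (-(2 : ℝ) ^ L) • (fun i => (fl r (c.x ω) i : ℝ) + c.t ω * fl r (c.y ω) i) +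
        (-(2 : ℝ) ^ L) • (tr c r L).pt ω) i := by
    rw [app_add, app_add, app_smul, app_smul, app_smul]
    simp only [Ob.F, wr, Pi.add_apply, Pi.smul_apply, smul_eq_mul]
    ring
  rw [h1]
  refine app_le o ω _ 2 (fun j => ?_) i
  have a1 := abs_le.1 (dg_err r L (c.x ω j))
  have a2 := abs_le.1 (dg_err r L (c.y ω j))
  have hp : (0 : ℝ) < 2 ^ L := by positivity
  have e1 : (2 : ℝ) ^ L * (1 / 2 ^ L) = 1 := by field_simp
  have b1 := mul_le_mul_of_nonneg_left a1.1 hp.le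
  have b2 := mul_le_mul_of_nonneg_left a1.2 hp.le
  have b3 := mul_le_mul_of_nonneg_left a2.1 hp.le
  have b4 := mul_le_mul_of_nonneg_left a2.2 hp.le
  rw [mul_neg, e1] at b1 b3
  rw [e1] at b2 b4
  have h2 : (((2 : ℝ) ^ (r + L)) • c.pt ω +
        (-(2 : ℝ) ^ L) • (fun i => (fl r (c.x ω) i : ℝ) + c.t ω * fl r (c.y ω) i) +
        (-(2 : ℝ) ^ L) • (tr c r L).pt ω) j =
      2 ^ L * ((2 : ℝ) ^ r * c.x ω j - ⌊(2 : ℝ) ^ r * c.x ω j⌋ - dg r L (c.x ω j)) +
        c.t ω * (2 ^ L * ((2 : ℝ) ^ r * c.y ω j - ⌊(2 : ℝ) ^ r * c.y ω j⌋ -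
          dg r L (c.y ω j))) := by
    simp only [pow_add, fl, tr, Pi.add_apply, Pi.smul_apply, Cf.pt, smul_eq_mul]
    ring
  rw [h2]
  set u := (2 : ℝ) ^ L * ((2 : ℝ) ^ r * c.x ω j - ⌊(2 : ℝ) ^ r * c.x ω j⌋ - dg r L (c.x ω j))
  set v := (2 : ℝ) ^ L * ((2 : ℝ) ^ r * c.y ω j - ⌊(2 : ℝ) ^ r * c.y ω j⌋ - dg r L (c.y ω j))
  have c1 : |u| ≤ 1 := abs_le.2 ⟨by linarith only [b1], by linarith only [b2]⟩
  have c2 : |v| ≤ 1 := abs_le.2 ⟨by linarith only [b3], by linarith only [b4]⟩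
  clear_value u v
  calc |u + c.t ω * v| ≤ |u| + |c.t ω * v| := abs_add_le _ _
    _ = |u| + c.t ω * |v| := by rw [abs_mul, abs_of_nonneg ht.1]
    _ ≤ 1 + 1 * 1 := add_le_add c1 (mul_le_mul ht.2.le c2 (abs_nonneg _) (by norm_num))
    _ = 2 := by norm_num

variable [Fintype Ω]

/-- the rate of a configuration with an object -/
noncomputable def rate (P : Law Ω) (c : Cf Ω m) (o : Ob Ω m κ) (L : ℕ) : ℝ :=
  hc P (fun ω => fl L (o.F c ω)) (fun ω => (c.t ω, o.G ω, c.A ω))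

/-- the cost of the object -/
noncomputable def cost (P : Law Ω) (c : Cf Ω m) (o : Ob Ω m κ) : ℝ :=
  mi P (fun ω => (c.x ω, c.y ω)) o.G (fun ω => (c.t ω, c.A ω))

lemma cost_nonneg (P : Law Ω) (c : Cf Ω m) (o : Ob Ω m κ) : 0 ≤ cost P c o := mi_nonneg P _ _ _

/-- the loss per block -/
noncomputable def K1 (m κ : ℕ) : ℝ := 2 * (m * Real.log (2 * (Kk κ * 2 + 2) + 1))

lemma rate_tr_le (P : Law Ω) (c : Cf Ω m) (o : Ob Ω m κ) (r L : ℕ)
    (ht : ∀ ω, 0 ≤ c.t ω ∧ c.t ω < 1) :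
    rate P (tr c r L) o L ≤ hc P (fun ω => fl (r + L) (o.F c ω))
      (fun ω => (fl r (o.F c ω), c.t ω, o.G ω, c.A ω)) + K1 m κ := by
  have hK := one_le_Kk κ
  -- the conditioning variable
  let Y : Ω → ℝ × o.γ × (c.α × (Fin m → ℤ) × (Fin m → ℤ)) :=
    fun ω => (c.t ω, o.G ω, (c.A ω, fl r (c.x ω), fl r (c.y ω)))
  have hw : ∀ ω ω', Y ω = Y ω' → wr c o r ω = wr c o r ω' := by
    intro ω ω' h
    simp only [Y, Prod.mk.injEq] at h
    exact wr_congr c o r h.1 h.2.1 h.2.2.2.1 h.2.2.2.2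
  have h0 : rate P (tr c r L) o L = hc P (fun ω => fl L (o.F (tr c r L) ω)) Y := rfl
  have h1 := hc_le_add P (fun ω => fl (r + L) (o.F c ω)) (fun ω => fl L (o.F (tr c r L) ω)) Y
  have h2 : hc P (fun ω => fl L (o.F (tr c r L) ω)) (fun ω => (fl (r + L) (o.F c ω), Y ω)) ≤
      m * Real.log (2 * (Kk κ * 2 + 2) + 1) := by
    have := hc_box P (fun ω => fl L (o.F (tr c r L) ω)) (fun ω => (fl (r + L) (o.F c ω), Y ω))
      (fun ω i => (fl (r + L) (o.F c ω) i : ℝ) - 2 ^ L * wr c o r ω i) (fun ω ω' h => by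
        obtain ⟨h3, h4⟩ := Prod.mk.inj h
        simp only [h3, hw ω ω' h4]) (Kk κ * 2 + 2) (by linarith only [hK]) (fun ω i => by
        have a1 := abs_le.1 (F_tr c o ω r L (ht ω) i)
        have a2 := Int.floor_le ((2 : ℝ) ^ (r + L) * o.F c ω i)
        have a3 := Int.lt_floor_add_one ((2 : ℝ) ^ (r + L) * o.F c ω i)
        have a4 := Int.floor_le ((2 : ℝ) ^ L * o.F (tr c r L) ω i)
        have a5 := Int.lt_floor_add_one ((2 : ℝ) ^ L * o.F (tr c r L) ω i)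
        unfold fl
        rw [abs_le]
        constructor <;> linarith)
    simpa only [ge_iff_le, Fintype.card_fin] using this
  have h3 := hc_le_add P (fun ω => fl r (o.F c ω)) (fun ω => fl (r + L) (o.F c ω)) Y
  have h4 : hc P (fun ω => fl r (o.F c ω)) Y ≤ m * Real.log (2 * (Kk κ * 2 + 2) + 1) := by
    have := hc_box P (fun ω => fl r (o.F c ω)) Y (fun ω i => wr c o r ω i)
      (fun ω ω' h => hw ω ω' h) (Kk κ * 2 + 2) (by linarith only [hK]) (fun ω i => by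
        have a1 := abs_le.1 (F_pos c o ω r (ht ω) i)
        have a2 := Int.floor_le ((2 : ℝ) ^ r * o.F c ω i)
        have a3 := Int.lt_floor_add_one ((2 : ℝ) ^ r * o.F c ω i)
        unfold fl
        rw [abs_le]
        constructor <;> linarith only [a1, a2, a3])
    simpa only [ge_iff_le, Fintype.card_fin] using this
  have h5 : hc P (fun ω => fl (r + L) (o.F c ω)) (fun ω => (fl r (o.F c ω), Y ω)) ≤
      hc P (fun ω => fl (r + L) (o.F c ω))
        (fun ω => (fl r (o.F c ω), c.t ω, o.G ω, c.A ω)) :=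
    hc_mono_right P fun ω ω' h => by
      simp only [Y, Prod.mk.injEq] at h ⊢
      (clear * - h; tauto)
  rw [h0]
  unfold K1
  linarith only [h1, h2, h3, h4, h5]

/-- sum of the rates over the blocks -/
theorem rates_sum (P : Law Ω) (c : Cf Ω m) (o : Ob Ω m κ) (L : ℕ)
    (ht : ∀ ω, 0 ≤ c.t ω ∧ c.t ω < 1) (N : ℕ) :
    ∑ i ∈ Finset.range N, rate P (tr c (i * L) L) o L ≤ rate P c o (N * L) + N * K1 m κ := by
  induction N with
  | zero =>
    simp only [Finset.range_zero, Finset.sum_empty, Nat.cast_zero, zero_mul, add_zero]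
    exact hc_nonneg P _ _
  | succ N ih =>
    rw [Finset.sum_range_succ]
    have h1 := rate_tr_le P c o (N * L) L ht
    have h2 := hc_chain P (fun ω => fl (N * L) (o.F c ω)) (fun ω => fl (N * L + L) (o.F c ω))
      (fun ω => (c.t ω, o.G ω, c.A ω))
    have h3 : hc P (fun ω => (fl (N * L) (o.F c ω), fl (N * L + L) (o.F c ω)))
        (fun ω => (c.t ω, o.G ω, c.A ω)) ≤ rate P c o ((N + 1) * L) := by
      refine hc_mono_left P fun ω ω' h _ => ?_
      rw [Nat.succ_mul] at h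
      simp only [Prod.mk.injEq]
      exact ⟨fl_coarse (by omega) h, h⟩
    have h4 : rate P c o (N * L) = hc P (fun ω => fl (N * L) (o.F c ω))
      (fun ω => (c.t ω, o.G ω, c.A ω)) := rfl
    push_cast
    linarith

/-- sum of the costs over the blocks -/
theorem costs_sum (P : Law Ω) (c : Cf Ω m) (o : Ob Ω m κ) (L : ℕ) (N : ℕ) :
    ∑ i ∈ Finset.range N, cost P (tr c (i * L) L) o ≤ cost P c o := by
  have key : ∑ i ∈ Finset.range N, cost P (tr c (i * L) L) o ≤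
      mi P (Qs c (N * L)) o.G (fun ω => (c.t ω, c.A ω)) := by
    induction N with
    | zero =>
      simp only [Finset.range_zero, Finset.sum_empty]
      exact mi_nonneg P _ _ _
    | succ N ih =>
      rw [Finset.sum_range_succ]
      have h1 := mi_chain P (Qs c (N * L)) (Qs c (N * L + L)) o.G (fun ω => (c.t ω, c.A ω))
      have h2 : mi P (fun ω => (Qs c (N * L) ω, Qs c (N * L + L) ω)) o.G
          (fun ω => (c.t ω, c.A ω)) ≤ mi P (Qs c ((N + 1) * L)) o.G (fun ω => (c.t ω, c.A ω)) := by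
        refine mi_mono_left P fun ω ω' h _ => ?_
        rw [Nat.succ_mul] at h
        have h' := h
        simp only [Qs, Prod.mk.injEq] at h h' ⊢
        exact ⟨⟨fl_coarse (by omega) h.1, fl_coarse (by omega) h.2⟩, h'⟩
      have h3 : cost P (tr c (N * L) L) o = mi P (Qs c (N * L + L)) o.G
          (fun ω => (Qs c (N * L) ω, (c.t ω, c.A ω))) := by
        unfold cost
        rw [mi_congr_cond P (Z := fun ω => ((tr c (N * L) L).t ω, (tr c (N * L) L).A ω))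
          (Z' := fun ω => (Qs c (N * L) ω, (c.t ω, c.A ω)))]
        · refine mi_congr_left P fun ω ω' h => ?_
          simp only [tr, Prod.mk.injEq] at h
          simp only [Qs, tr, Prod.mk.injEq]
          rw [dg_eq_iff h.2.2.1, dg_eq_iff h.2.2.2]
        · intro ω ω'
          simp only [Qs, tr, Prod.mk.injEq]
          (clear * -; tauto)
      linarith
  refine key.trans (mi_mono_left P fun ω ω' h _ => ?_)
  obtain ⟨h3, h4⟩ := Prod.mk.inj h
  simp only [Qs, h3, h4]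

/-- the constant in the lower bound -/
noncomputable def K2 (m κ : ℕ) : ℝ :=
  κ * Real.log 3 + m * Real.log (2 * (Kk κ + 1) + 1)

open Classical in
/-- the point is determined by the projected point and the coordinates in `J` -/
theorem pt_le (P : Law Ω) (c : Cf Ω m) (o : Ob Ω m κ) (L : ℕ)
    (hx : ∀ ω i, 0 ≤ c.x ω i ∧ c.x ω i < 1) (hy : ∀ ω i, 0 ≤ c.y ω i ∧ c.y ω i < 1)
    (ht : ∀ ω, 0 ≤ c.t ω ∧ c.t ω < 1) :
    hc P (fun ω => fl L (c.pt ω)) (fun ω => (c.t ω, c.A ω)) ≤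
      rate P c o L + cost P c o + κ * (L * Real.log 2) + K2 m κ := by
  have hK := one_le_Kk κ
  -- the object costs `cost`
  have h1 : hc P (fun ω => fl L (c.pt ω)) (fun ω => (c.t ω, c.A ω)) ≤
      hc P (fun ω => fl L (c.pt ω)) (fun ω => (o.G ω, (c.t ω, c.A ω))) + cost P c o := by
    have h2 := hc_sub_le_mi P (fun ω => fl L (c.pt ω)) o.G (fun ω => (c.t ω, c.A ω))
    have h3 : mi P (fun ω => fl L (c.pt ω)) o.G (fun ω => (c.t ω, c.A ω)) ≤ cost P c o := by
      refine mi_mono_left P fun ω ω' h h' => ?_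
      simp only [Prod.mk.injEq] at h h'
      obtain ⟨hx', hy'⟩ := h
      show fl L (c.pt ω) = fl L (c.pt ω')
      have e : c.pt ω = c.pt ω' := by
        funext i
        unfold Cf.pt
        rw [hx', hy', h'.1]
      rw [e]
    linarith only [h2, h3]
  have h1' : hc P (fun ω => fl L (c.pt ω)) (fun ω => (o.G ω, (c.t ω, c.A ω))) =
      hc P (fun ω => fl L (c.pt ω)) (fun ω => (c.t ω, o.G ω, c.A ω)) :=
    hc_congr_right P fun ω ω' => by
      simp only [Prod.mk.injEq]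
      (clear * -; tauto)
  -- the chain
  let XJ : Ω → {j // j ∈ o.J} → ℤ := fun ω j => fl L (c.pt ω) j
  have h2 := hc_le_add P (fun ω => fl L (o.F c ω)) (fun ω => fl L (c.pt ω))
    (fun ω => (c.t ω, o.G ω, c.A ω))
  have h3 := hc_le_add P XJ (fun ω => fl L (c.pt ω))
    (fun ω => (fl L (o.F c ω), (c.t ω, o.G ω, c.A ω)))
  have h4 : hc P XJ (fun ω => (fl L (o.F c ω), (c.t ω, o.G ω, c.A ω))) ≤
      κ * (L * Real.log 2 + Real.log 3) := by
    have hp : (0 : ℝ) < 2 ^ L := by positivity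
    have hp1 : (1 : ℝ) ≤ 2 ^ L := one_le_pow₀ (by norm_num)
    have := hc_box P XJ (fun ω => (fl L (o.F c ω), (c.t ω, o.G ω, c.A ω)))
      (fun _ _ => (2 : ℝ) ^ L) (fun _ _ _ => rfl) (2 ^ L) hp.le (fun ω j => by
        have a1 : 0 ≤ c.pt ω j := by
          unfold Cf.pt
          exact add_nonneg (hx ω j).1 (mul_nonneg (ht ω).1 (hy ω j).1)
        have a2 : c.pt ω j ≤ 2 := by
          unfold Cf.pt
          have := mul_le_mul (ht ω).2.le (hy ω j).2.le (hy ω j).1 (by norm_num : (0 : ℝ) ≤ 1)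
          linarith only [this, (hx ω j).2]
        have a3 : (0 : ℝ) ≤ 2 ^ L * c.pt ω j := mul_nonneg hp.le a1
        have a4 : (2 : ℝ) ^ L * c.pt ω j ≤ 2 ^ L * 2 := mul_le_mul_of_nonneg_left a2 hp.le
        have a5 : (0 : ℝ) ≤ (XJ ω j : ℝ) := by
          have : (0 : ℤ) ≤ XJ ω j := Int.floor_nonneg.2 a3
          exact_mod_cast this
        have a6 : (XJ ω j : ℝ) ≤ 2 ^ L * 2 := (Int.floor_le _).trans a4
        rw [abs_le]
        constructor <;> linarith only [a5, a6])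
    rw [Fintype.card_coe, o.card] at this
    refine this.trans (mul_le_mul_of_nonneg_left ?_ (Nat.cast_nonneg _))
    have h5 : Real.log (2 * 2 ^ L + 1) ≤ Real.log (2 ^ L * 3) :=
      Real.log_le_log (by positivity) (by linarith only [hp1])
    rw [Real.log_mul hp.ne' (by norm_num), Real.log_pow] at h5
    exact h5
  have h5 : hc P (fun ω => fl L (c.pt ω))
      (fun ω => (XJ ω, (fl L (o.F c ω), (c.t ω, o.G ω, c.A ω)))) ≤
      m * Real.log (2 * (Kk κ + 1) + 1) := by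
    have := hc_box P (fun ω => fl L (c.pt ω))
      (fun ω => (XJ ω, (fl L (o.F c ω), (c.t ω, o.G ω, c.A ω))))
      (fun ω i => if i ∈ o.J then (fl L (c.pt ω) i : ℝ) else
        fl L (o.F c ω) i + ∑ j ∈ o.J, o.Γ ω i j * fl L (c.pt ω) j) (fun ω ω' h => by
        simp only [Prod.mk.injEq] at h
        obtain ⟨g1, g2, g3, g4, g5⟩ := h
        funext i
        have g6 : ∀ j ∈ o.J, fl L (c.pt ω) j = fl L (c.pt ω') j := fun j hj =>
          congrFun g1 ⟨j, hj⟩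
        by_cases hi : i ∈ o.J
        · rw [if_pos hi, if_pos hi, g6 i hi]
        · rw [if_neg hi, if_neg hi, g2, o.fn ω ω' g4]
          congr 1
          refine Finset.sum_congr rfl fun j hj => ?_
          rw [g6 j hj]) (Kk κ + 1) (by linarith only [hK]) (fun ω i => by
        by_cases hi : i ∈ o.J
        · rw [if_pos hi, sub_self, abs_zero]
          linarith only [hK]
        · rw [if_neg hi]
          have e1 : o.F c ω i = c.pt ω i - ∑ j ∈ o.J, o.Γ ω i j * c.pt ω j := by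
            simp only [Ob.F, Ob.app, if_neg hi]
          have e2 := sum_J_le o ω (fun j => (2 : ℝ) ^ L * c.pt ω j - fl L (c.pt ω) j) 1 i
            (fun j => by
              have a1 := Int.floor_le ((2 : ℝ) ^ L * c.pt ω j)
              have a2 := Int.lt_floor_add_one ((2 : ℝ) ^ L * c.pt ω j)
              unfold fl
              rw [abs_le]
              constructor <;> linarith only [a1, a2])
          have e3 : ∑ j ∈ o.J, o.Γ ω i j * ((2 : ℝ) ^ L * c.pt ω j - fl L (c.pt ω) j) =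
              2 ^ L * ∑ j ∈ o.J, o.Γ ω i j * c.pt ω j -
                ∑ j ∈ o.J, o.Γ ω i j * fl L (c.pt ω) j := by
            rw [Finset.mul_sum, ← Finset.sum_sub_distrib]
            refine Finset.sum_congr rfl fun j _ => ?_
            ring
          rw [e3] at e2
          have e4 := abs_le.1 e2
          have b1 := Int.floor_le ((2 : ℝ) ^ L * c.pt ω i)
          have b2 := Int.lt_floor_add_one ((2 : ℝ) ^ L * c.pt ω i)
          have b3 := Int.floor_le ((2 : ℝ) ^ L * o.F c ω i)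
          have b4 := Int.lt_floor_add_one ((2 : ℝ) ^ L * o.F c ω i)
          have e5 : (2 : ℝ) ^ L * o.F c ω i =
              2 ^ L * c.pt ω i - 2 ^ L * ∑ j ∈ o.J, o.Γ ω i j * c.pt ω j := by
            rw [e1]
            ring
          have e6 : (fl L (c.pt ω) i : ℝ) = (⌊(2 : ℝ) ^ L * c.pt ω i⌋ : ℤ) := rfl
          have e7 : (fl L (o.F c ω) i : ℝ) = (⌊(2 : ℝ) ^ L * o.F c ω i⌋ : ℤ) := rfl
          have e8 : Kk κ = 1 + κ * 3 ^ κ := rfl
          rw [e6, e7, abs_le]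
          constructor <;> linarith only [e4, b1, b4, e5, e8, b2, b3])
    simpa only [ge_iff_le, Fintype.card_fin] using this
  have h6 : rate P c o L = hc P (fun ω => fl L (o.F c ω)) (fun ω => (c.t ω, o.G ω, c.A ω)) := rfl
  unfold K2
  rw [mul_add] at h4
  linarith

end Vale.Agent.P127.Stk.Win
end

section

/-!
# P127 / Stk / Window: choice of the window (PROOF.md, section 5)
-/

namespace Vale.Agent.P127.Stk.Win

open Finset Vale.Agent.P127

variable {Ω : Type} [Fintype Ω] {m κ : ℕ}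

/-- the line and the side information -/
def xyA (c : Cf Ω m) (ω : Ω) : (Fin m → ℝ) × (Fin m → ℝ) × c.α := (c.x ω, c.y ω, c.A ω)

/-- the deficit of the time -/
noncomputable def Dt (P : Law Ω) (c : Cf Ω m) (s : ℕ) : ℝ :=
  s * Real.log 2 - hc P (fun ω => fl1 s (c.t ω)) (xyA c)

lemma hc_time_le {T : Type*} (P : Law Ω) (t : Ω → ℝ) (Y : Ω → T) (s d : ℕ) :
    hc P (fun ω => fl1 (s + d) (t ω)) (fun ω => (fl1 s (t ω), Y ω)) ≤ d * Real.log 2 := by
  have h1 := hc_box P (fun ω (_ : Unit) => fl1 (s + d) (t ω)) (fun ω => (fl1 s (t ω), Y ω))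
    (fun ω _ => (2 : ℝ) ^ d * fl1 s (t ω) + (2 ^ d - 1) / 2) (fun ω ω' h => by
      simp only [(Prod.mk.inj h).1]) ((2 ^ d - 1) / 2)
    (div_nonneg (sub_nonneg.2 (one_le_pow₀ (by norm_num))) (by norm_num)) (fun ω _ => by
      have h2 : fl1 s (t ω) = fl1 (s + d) (t ω) / (2 ^ d : ℕ) := floor_coarse s d (t ω)
      have hp : (0 : ℤ) < ((2 ^ d : ℕ) : ℤ) := by positivity
      have h3 := Int.emod_add_mul_ediv (fl1 (s + d) (t ω)) ((2 ^ d : ℕ) : ℤ)
      have h4 := Int.emod_nonneg (fl1 (s + d) (t ω)) hp.ne'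
      have h5 := Int.emod_lt_of_pos (fl1 (s + d) (t ω)) hp
      have h5' : fl1 (s + d) (t ω) % ((2 ^ d : ℕ) : ℤ) ≤ ((2 ^ d : ℕ) : ℤ) - 1 := by omega
      rw [← h2] at h3
      have h6 : (((fl1 (s + d) (t ω) % ((2 ^ d : ℕ) : ℤ)) : ℤ) : ℝ) =
          fl1 (s + d) (t ω) - 2 ^ d * fl1 s (t ω) := by
        have : (((fl1 (s + d) (t ω) % ((2 ^ d : ℕ) : ℤ)) : ℤ) : ℝ) +
            (((2 ^ d : ℕ) : ℤ) : ℝ) * fl1 s (t ω) = fl1 (s + d) (t ω) := by
          exact_mod_cast h3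
        push_cast at this ⊢
        linarith only [this]
      have h7 : (0 : ℝ) ≤ fl1 (s + d) (t ω) - 2 ^ d * fl1 s (t ω) := by
        rw [← h6]
        exact_mod_cast h4
      have h8 : (fl1 (s + d) (t ω) : ℝ) - 2 ^ d * fl1 s (t ω) ≤ 2 ^ d - 1 := by
        rw [← h6]
        have : (((fl1 (s + d) (t ω) % ((2 ^ d : ℕ) : ℤ)) : ℤ) : ℝ) ≤
            ((((2 ^ d : ℕ) : ℤ) - 1 : ℤ) : ℝ) := by exact_mod_cast h5'
        push_cast at this ⊢
        exact this
      rw [abs_le]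
      constructor <;> linarith only [h7, h8])
  have h2 : hc P (fun ω => fl1 (s + d) (t ω)) (fun ω => (fl1 s (t ω), Y ω)) =
      hc P (fun ω (_ : Unit) => fl1 (s + d) (t ω)) (fun ω => (fl1 s (t ω), Y ω)) :=
    hc_congr_left P fun ω ω' _ => ⟨fun h => congrFun h (), fun h => funext fun _ => h⟩
  rw [h2]
  refine h1.trans (le_of_eq ?_)
  have h3 : (2 : ℝ) * ((2 ^ d - 1) / 2) + 1 = 2 ^ d := by ring
  rw [h3, Real.log_pow]
  simp only [Fintype.card_unique, Nat.cast_one, one_mul]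

lemma Dt_mono (P : Law Ω) (c : Cf Ω m) {s s' : ℕ} (h : s ≤ s') : Dt P c s ≤ Dt P c s' := by
  obtain ⟨d, rfl⟩ := Nat.exists_eq_add_of_le h
  have h1 := hc_le_add P (fun ω => fl1 s (c.t ω)) (fun ω => fl1 (s + d) (c.t ω)) (xyA c)
  have h2 := hc_time_le P c.t (xyA c) s d
  unfold Dt
  push_cast
  linarith only [h1, h2]

lemma Dt_nonneg (P : Law Ω) (c : Cf Ω m) (ht : ∀ ω, 0 ≤ c.t ω ∧ c.t ω < 1) (s : ℕ) :
    0 ≤ Dt P c s := by
  refine le_trans ?_ (Dt_mono P c (Nat.zero_le s))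
  have h1 := hc_box P (fun ω (_ : Unit) => fl1 0 (c.t ω)) (xyA c)
    (fun _ _ => 0) (fun _ _ _ => rfl) 0 le_rfl (fun ω _ => by
      have : fl1 0 (c.t ω) = 0 := by
        unfold fl1
        rw [Int.floor_eq_zero_iff, pow_zero, one_mul]
        exact ⟨(ht ω).1, (ht ω).2⟩
      rw [this]
      simp)
  have h2 : hc P (fun ω => fl1 0 (c.t ω)) (xyA c) =
      hc P (fun ω (_ : Unit) => fl1 0 (c.t ω)) (xyA c) :=
    hc_congr_left P fun ω ω' _ => ⟨fun h => congrFun h (), fun h => funext fun _ => h⟩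
  unfold Dt
  rw [h2]
  simp only [mul_zero, zero_add, Real.log_one, mul_zero] at h1
  simp only [Nat.cast_zero, zero_mul]
  linarith

lemma Dt_le {P : Law Ω} {c : Cf Ω m} {L : ℕ} {e C : ℝ} (hG : Good P c L e C) {s : ℕ}
    (hs : s ≤ L) : Dt P c s ≤ 2 * C := by
  have h1 := hG.tim s hs
  have h2 := hG.ind
  rw [mi_comm P] at h2
  have h3 : mi P (fun ω => fl1 s (c.t ω)) (fun ω => (c.x ω, c.y ω)) c.A ≤
      mi P c.t (fun ω => (c.x ω, c.y ω)) c.A := mi_mono_left P fun ω ω' h _ => by simp only [h]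
  have h4 := hc_sub_le_mi P (fun ω => fl1 s (c.t ω)) (fun ω => (c.x ω, c.y ω)) c.A
  have h5 : hc P (fun ω => fl1 s (c.t ω)) (xyA c) =
      hc P (fun ω => fl1 s (c.t ω)) (fun ω => ((c.x ω, c.y ω), c.A ω)) :=
    hc_congr_right P fun ω ω' => by
      simp only [xyA, Prod.mk.injEq]
      (clear * -; tauto)
  unfold Dt
  rw [h5]
  linarith only [h1, h2, h3, h4]

/-- the pigeonhole on the windows -/
lemma exists_window (D : ℕ → ℝ) (hD : Monotone D) (h0 : ∀ s, 0 ≤ D s) (q L1 R : ℕ)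
    (M εu : ℝ) (hR : M < R * εu) (hM : ∀ s ≤ L1, D s ≤ M) (hq : 0 < q) (hM0 : 0 ≤ M) :
    ∃ r < R, D (q * (L1 / q ^ (r + 1))) - D (L1 / q ^ (r + 1)) ≤ εu := by
  by_contra hcon
  push Not at hcon
  have hR0 : 0 < R := by
    rcases Nat.eq_zero_or_pos R with h | h
    · subst h
      simp only [CharP.cast_eq_zero, zero_mul] at hR
      linarith only [hM0, hR]
    · exact h
  have key : ∀ r, r < R → D (L1 / q ^ (r + 1)) < M - (r + 1) * εu + 0 := by
    intro r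
    induction r with
    | zero =>
      intro hr
      have h1 := hcon 0 hr
      have h2 := hM (q * (L1 / q ^ (0 + 1))) (by
        rw [zero_add, pow_one]
        exact Nat.mul_div_le L1 q)
      push_cast
      linarith
    | succ r ih =>
      intro hr
      have h1 := hcon (r + 1) hr
      have h2 := ih (by omega)
      have h3 : q * (L1 / q ^ (r + 1 + 1)) ≤ L1 / q ^ (r + 1) := by
        rw [pow_succ q (r + 1), ← Nat.div_div_eq_div_mul]
        exact Nat.mul_div_le _ q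
      have h4 := hD h3
      push_cast
      linarith only [h1, h2, h4]
  have h1 := key (R - 1) (by omega)
  have h2 := h0 (L1 / q ^ (R - 1 + 1))
  have h3 : ((R - 1 : ℕ) : ℝ) + 1 = R := by
    have : R - 1 + 1 = R := by omega
    exact_mod_cast this
  rw [h3] at h1
  linarith only [hR, h1, h2]

/-- the choice of the block -/
theorem exists_block {P : Law Ω} {c : Cf Ω m} (o : Ob Ω m κ) (h ι1 ι2 : ℝ) (L1 N L D : ℕ)
    (hx : ∀ ω i, 0 ≤ c.x ω i ∧ c.x ω i < 1) (hy : ∀ ω i, 0 ≤ c.y ω i ∧ c.y ω i < 1)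
    (ht : ∀ ω, 0 ≤ c.t ω ∧ c.t ω < 1) (hN : 0 < N) (hNL : N * L ≤ L1) (hD : L1 ≤ N * L + N * D)
    (hι1 : 0 ≤ ι1) (hc1 : cost P c o ≤ ι1 * L1) (hr1 : rate P c o L1 ≤
      (h - κ + ι1) * L1 * Real.log 2)
    (hLB : ∀ i < N, (h - ι2) * L * Real.log 2 ≤
      hc P (fun ω => fl L ((tr c (i * L) L).pt ω))
        (fun ω => ((tr c (i * L) L).t ω, (tr c (i * L) L).A ω))) :
    ∃ i < N, rate P (tr c (i * L) L) o L + 2 * cost P (tr c (i * L) L) o -
        (h - κ - ι2) * L * Real.log 2 + K2 m κ ≤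
      |h - κ| * D * Real.log 2 + ι1 * (L + D) * (Real.log 2 + 2) + ι2 * L * Real.log 2 +
        K1 m κ + K2 m κ ∧
      cost P (tr c (i * L) L) o ≤ rate P (tr c (i * L) L) o L + 2 * cost P (tr c (i * L) L) o -
        (h - κ - ι2) * L * Real.log 2 + K2 m κ := by
  have hb : 0 < Real.log 2 := Real.log_pos (by norm_num)
  have hN' : (0 : ℝ) < N := by exact_mod_cast hN
  have hN1 : (1 : ℝ) ≤ N := by exact_mod_cast hN
  -- lower bounds
  have low : ∀ i < N, cost P (tr c (i * L) L) o ≤ rate P (tr c (i * L) L) o L +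
      2 * cost P (tr c (i * L) L) o - (h - κ - ι2) * L * Real.log 2 + K2 m κ := by
    intro i hi
    have h1 := pt_le P (tr c (i * L) L) o L (fun ω i => ⟨dg_nonneg _ _ _, dg_lt_one _ _ _⟩)
      (fun ω i => ⟨dg_nonneg _ _ _, dg_lt_one _ _ _⟩) ht
    have h2 := hLB i hi
    have h3 := cost_nonneg P (tr c (i * L) L) o
    linarith
  -- the sums
  have s1 := rates_sum P c o L ht N
  have s2 := costs_sum P c o L N
  have s3 : rate P c o (N * L) ≤ rate P c o L1 :=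
    hc_mono_left P fun ω ω' h _ => fl_coarse hNL h
  have s4 : ∑ i ∈ Finset.range N, (rate P (tr c (i * L) L) o L +
      2 * cost P (tr c (i * L) L) o - (h - κ - ι2) * L * Real.log 2 + K2 m κ) ≤
      ∑ i ∈ Finset.range N, (|h - κ| * D * Real.log 2 + ι1 * (L + D) * (Real.log 2 + 2) +
        ι2 * L * Real.log 2 + K1 m κ + K2 m κ) := by
    rw [Finset.sum_add_distrib, Finset.sum_sub_distrib, Finset.sum_add_distrib,
      ← Finset.mul_sum]
    simp only [Finset.sum_const, Finset.card_range, nsmul_eq_mul]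
    have e1 : (L1 : ℝ) ≤ N * L + N * D := by exact_mod_cast hD
    have e2 : (N : ℝ) * L ≤ L1 := by exact_mod_cast hNL
    have e3 : (0 : ℝ) ≤ D := Nat.cast_nonneg _
    have e4 : (h - κ) * (L1 - N * L) ≤ N * (|h - κ| * D) := by
      calc (h - κ) * (L1 - N * L) ≤ |h - κ| * (L1 - N * L) :=
            mul_le_mul_of_nonneg_right (le_abs_self _) (by linarith only [e2])
        _ ≤ |h - κ| * (N * D) := mul_le_mul_of_nonneg_left (by linarith only [e1]) (abs_nonneg _)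
        _ = N * (|h - κ| * D) := by ring
    have e6 : (L1 : ℝ) ≤ N * (L + D) := by linarith only [e1]
    have e7 : ι1 * L1 ≤ N * (ι1 * (L + D)) := by nlinarith only [e6, hι1]
    have e8 : ι1 * L1 * (Real.log 2 + 2) ≤ N * (ι1 * (L + D)) * (Real.log 2 + 2) :=
      mul_le_mul_of_nonneg_right e7 (by linarith only [hb])
    have e9 : ((h - κ) * (L1 - N * L)) * Real.log 2 ≤ N * (|h - κ| * D) * Real.log 2 :=
      mul_le_mul_of_nonneg_right e4 hb.le
    have e10 : ∑ i ∈ Finset.range N, rate P (tr c (i * L) L) o L ≤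
        (h - κ + ι1) * L1 * Real.log 2 + N * K1 m κ := by linarith only [hr1, s1, s3]
    have e11 : ∑ i ∈ Finset.range N, cost P (tr c (i * L) L) o ≤ ι1 * L1 := by linarith only [hc1, s2]
    linarith
  obtain ⟨i, hi, h1⟩ := Finset.exists_le_of_sum_le
    (Finset.nonempty_range_iff.2 hN.ne') s4
  exact ⟨i, Finset.mem_range.1 hi, h1, low i (Finset.mem_range.1 hi)⟩

end Vale.Agent.P127.Stk.Win

namespace Vale.Agent.P127.Stk

open Finset Vale.Agent.P127 Win

lemma K1_nonneg (m κ : ℕ) : 0 ≤ K1 m κ := by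
  have := one_le_Kk κ
  have h : 0 ≤ Real.log (2 * (Kk κ * 2 + 2) + 1) := Real.log_nonneg (by linarith)
  unfold K1
  positivity

lemma K2_nonneg (m κ : ℕ) : 0 ≤ K2 m κ := by
  have := one_le_Kk κ
  have h : 0 ≤ Real.log (2 * (Kk κ + 1) + 1) := Real.log_nonneg (by linarith)
  have h3 : 0 ≤ Real.log 3 := Real.log_nonneg (by norm_num)
  unfold K2
  (clear * - h; positivity)

theorem pWindow (R : Gr) : PWindow R := by
  intro m h κ hLB hYK ι hι εu hεu
  have hb : 0 < Real.log 2 := Real.log_pos (by norm_num)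
  have hb1 : Real.log 2 < 1 := by linarith only [Real.log_two_lt_d9]
  -- choice of the parameters
  obtain ⟨ι1, hι1⟩ : ∃ x, x = ι * Real.log 2 / (4 * (Real.log 2 + 2)) := ⟨_, rfl⟩
  have hι1p : 0 < ι1 := by rw [hι1]; positivity
  obtain ⟨g1, hY⟩ := hYK ι1 hι1p
  obtain ⟨g2, hg2⟩ := R.win g1 κ εu hεu
  obtain ⟨g3, hg3⟩ := R.dom g2 2 (by norm_num)
  refine ⟨g3, fun n => ?_⟩
  obtain ⟨nL, hL2⟩ := hLB (ι / 4) (by positivity) g3
  obtain ⟨q, hq⟩ : ∃ q, q = κ + 4 := ⟨_, rfl⟩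
  have hq4 : 4 ≤ q := by omega
  have hqp : 0 < q := by omega
  have hqr' : ((κ : ℝ) + 4) = q := by rw [hq]; push_cast; ring
  have hq1 : (1 : ℝ) ≤ q := by exact_mod_cast hqp
  -- the constant losses
  obtain ⟨E, hE⟩ : ∃ x, x = |h - κ| * q * Real.log 2 +
    ι1 * q * (Real.log 2 + 2) + K1 m κ + K2 m κ := ⟨_, rfl⟩
  obtain ⟨aE, haE⟩ := exists_nat_gt (2 * E / (ι * Real.log 2))
  have haE' : 2 * E < aE * (ι * Real.log 2) := by rwa [div_lt_iff₀ (by (clear * - hι; positivity))] at haE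
  -- the levels
  obtain ⟨n2, hn2⟩ := hg3 (max n nL)
  obtain ⟨ns, hns⟩ := R.small g2 (1 / ((aE : ℝ) + 2)) (by (clear * -; positivity))
  obtain ⟨n1, hn1⟩ := hg2 (max n2 ns)
  obtain ⟨nt, hnt⟩ := R.small g1 (1 / 4) (by norm_num)
  obtain ⟨L1, e, C, hok, Ω, hΩ, P, c, o, hG, hcost, hrate⟩ := hY (max n1 nt)
  have hC : 0 ≤ C := good_C hG
  have hok1 := R.anti _ _ _ _ _ _ (le_max_left n1 nt) hok
  have hL14 : 4 ≤ L1 := by
    have h1 := (hnt _ _ _ (R.anti _ _ _ _ _ _ (le_max_right n1 nt) hok)).1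
    have h2 : (4 : ℝ) ≤ L1 := by linarith only [h1]
    exact_mod_cast h2
  -- the number of windows
  obtain ⟨W, hW⟩ : ∃ W, W = ⌊2 * C / εu⌋₊ + 1 := ⟨_, rfl⟩
  have hW1 : 2 * C < W * εu := by
    rw [← div_lt_iff₀ hεu, hW]
    push_cast
    exact Nat.lt_floor_add_one _
  have hW2 : (W : ℝ) ≤ 2 * C / εu + 1 := by
    rw [hW]
    push_cast
    linarith only [Nat.floor_le (show 0 ≤ 2 * C / εu by positivity)]
  have hexp : ((W + 1 : ℕ) : ℝ) ≤ 8 * (max C 0 + 1) / εu + 3 := by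
    rw [max_eq_left hC]
    have h1 : 2 * C / εu ≤ 8 * (C + 1) / εu :=
      div_le_div_of_nonneg_right (by linarith only [hC]) hεu.le
    push_cast
    linarith only [hW2, h1]
  have hpow : ((q ^ (W + 1) : ℕ) : ℝ) ≤ ((κ : ℝ) + 4) ^ (8 * (max C 0 + 1) / εu + 3) := by
    rw [hqr']
    push_cast
    rw [← Real.rpow_natCast]
    exact Real.rpow_le_rpow_of_exponent_le hq1 hexp
  -- the last window is long
  have hlast : aE + 1 ≤ L1 / q ^ (W + 1) := by
    have hqW : 4 ≤ q ^ (W + 1) := by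
      calc 4 ≤ q ^ 1 := by rw [pow_one]; exact hq4
        _ ≤ q ^ (W + 1) := Nat.pow_le_pow_right hqp (by (clear * - hW; omega))
    have h1 : L1 ≤ q ^ (W + 1) * (L1 / q ^ (W + 1) + 1) :=
      (Nat.lt_mul_div_succ L1 (show 0 < q ^ (W + 1) by (clear * - hq4; positivity))).le
    have h2 : L1 / q ^ (W + 1) + 1 ≤ L1 := by
      have : L1 / q ^ (W + 1) ≤ L1 / 4 := Nat.div_le_div_left hqW (by norm_num)
      omega
    have h3 := hn1 L1 (L1 / q ^ (W + 1) + 1) e C hok1 (by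
      have h4 : (L1 : ℝ) ≤ ((q ^ (W + 1) : ℕ) : ℝ) * ((L1 / q ^ (W + 1) + 1 : ℕ) : ℝ) := by
        exact_mod_cast h1
      exact h4.trans (mul_le_mul_of_nonneg_right hpow (Nat.cast_nonneg _))) h2
    have h4 := (hns _ _ _ (R.anti _ _ _ _ _ _ (le_max_right n2 ns) h3)).1
    rw [one_div, inv_mul_eq_div, le_div_iff₀ (by (clear * -; positivity)), one_mul] at h4
    have h5 : aE + 2 ≤ L1 / q ^ (W + 1) + 1 := by exact_mod_cast h4
    omega
  -- the window
  obtain ⟨r, hrR, hr⟩ := exists_window (Dt P c) (fun s s' h => Dt_mono P c h)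
    (Dt_nonneg P c hG.t01) q L1 W (2 * C) εu hW1
    (fun s hs => Dt_le hG hs) hqp (by linarith only [hC])
  obtain ⟨a, ha⟩ : ∃ a, a = L1 / q ^ (r + 1) := ⟨_, rfl⟩
  rw [← ha] at hr
  have hqr : q ^ (r + 1) ≤ q ^ (W + 1) := Nat.pow_le_pow_right hqp (by omega)
  have ha1' : aE + 1 ≤ a := by
    refine hlast.trans ?_
    rw [ha]
    exact Nat.div_le_div_left hqr (by (clear * - hq4; positivity))
  obtain ⟨L, hL⟩ : ∃ L, L = q * a := ⟨_, rfl⟩
  have hLa : a ≤ L := by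
    rw [hL]
    exact Nat.le_mul_of_pos_left a hqp
  have hmul : q ^ r * L = q ^ (r + 1) * a := by rw [hL, pow_succ]; ring
  have hNL : q ^ r * L ≤ L1 := by
    rw [hmul, ha]
    exact Nat.mul_div_le _ _
  have hD : L1 ≤ q ^ r * L + q ^ r * q := by
    rw [hmul, ha, ← pow_succ]
    have := Nat.lt_mul_div_succ L1 (show 0 < q ^ (r + 1) by (clear * - hq4; positivity))
    rw [Nat.mul_add, Nat.mul_one] at this
    exact this.le
  have hLq : q ≤ L := by
    rw [hL]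
    exact Nat.le_mul_of_pos_right q (by omega)
  have hLL1 : L ≤ L1 := (Nat.le_mul_of_pos_left L (by (clear * - hq4; positivity))).trans hNL
  -- size of the window
  have hL1L : L1 ≤ q ^ (W + 1) * L := by
    calc L1 ≤ q ^ r * L + q ^ r * q := hD
      _ ≤ q ^ r * L + q ^ r * L := Nat.add_le_add_left (Nat.mul_le_mul_left _ hLq) _
      _ = q ^ r * L * 2 := by ring
      _ ≤ q ^ r * L * q := Nat.mul_le_mul_left _ (by omega)
      _ = q ^ (r + 1) * L := by rw [pow_succ]; ring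
      _ ≤ q ^ (W + 1) * L := Nat.mul_le_mul_right _ hqr
  have hokL : R.ok g3 (max n nL) L (2 * e) (2 * C) := by
    have h1 := hn1 L1 L e C hok1 (by
      have h4 : (L1 : ℝ) ≤ ((q ^ (W + 1) : ℕ) : ℝ) * (L : ℝ) := by exact_mod_cast hL1L
      exact h4.trans (mul_le_mul_of_nonneg_right hpow (Nat.cast_nonneg _))) hLL1
    have h2 := hn2 _ _ _ (R.anti _ _ _ _ _ _ (le_max_left n2 ns) h1)
    exact R.mono _ _ _ _ _ _ _ (by linarith only []) (by linarith only []) h2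
  have hgood : ∀ i < q ^ r, Good P (tr c (i * L) L) L (2 * e) (2 * C) := by
    intro i hi
    refine good_tr hG ?_
    calc i * L + L = (i + 1) * L := by ring
      _ ≤ q ^ r * L := Nat.mul_le_mul_right _ hi
      _ ≤ L1 := hNL
  -- the block
  obtain ⟨i, hi, hi1, hi2⟩ := exists_block (P := P) (c := c) o h ι1 (ι / 4) L1 (q ^ r) L q
    hG.x01 hG.y01 hG.t01 (by (clear * - hq4; positivity)) hNL hD hι1p.le hcost hrate (fun i hi =>
      hL2 L _ _ (R.anti _ _ _ _ _ _ (le_max_right n nL) hokL) Ω P (tr c (i * L) L) (hgood i hi))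
  have hcn := cost_nonneg P (tr c (i * L) L) o
  have hK1 := K1_nonneg m κ
  have hK2 := K2_nonneg m κ
  have hmain : |h - κ| * q * Real.log 2 + ι1 * (L + q) * (Real.log 2 + 2) +
      ι / 4 * L * Real.log 2 + K1 m κ + K2 m κ ≤ ι * L * Real.log 2 := by
    have h1 : ι1 * (L + q) * (Real.log 2 + 2) =
        ι * Real.log 2 / 4 * L + ι1 * q * (Real.log 2 + 2) := by
      have e : ι1 * (Real.log 2 + 2) = ι * Real.log 2 / 4 := by
        rw [hι1]
        (clear * - hι; field_simp)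
      rw [← e]
      ring
    have h2 : E ≤ ι * Real.log 2 / 2 * L := by
      have h3 : (aE : ℝ) ≤ L := by
        have : aE ≤ L := by (clear * - ha ha1' hL hLa; omega)
        exact_mod_cast this
      have h4 : aE * (ι * Real.log 2) ≤ L * (ι * Real.log 2) :=
        mul_le_mul_of_nonneg_right h3 (by positivity)
      linarith only [haE', h4]
    rw [h1]
    rw [hE] at h2
    linarith only [h2]
  have hLc : ((κ + 4) * a : ℕ) = L := by rw [hL, hq]
  refine ⟨a, 2 * e, 2 * C, ?_, Ω, hΩ, P, tr c (i * L) L, o, ?_⟩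
  · rw [hLc]
    exact R.anti _ _ _ _ _ _ (le_max_left n nL) hokL
  refine ⟨?_, ?_, ?_, ?_⟩
  · rw [hLc]
    exact hgood i hi
  · rw [hLc]
    have h1 : cost P (tr c (i * L) L) o ≤ ι * L * Real.log 2 := hi2.trans (hi1.trans hmain)
    refine h1.trans ?_
    have h2 : 0 ≤ ι * L := mul_nonneg hι.le (Nat.cast_nonneg _)
    nlinarith only [hb, hb1, hi1, hi2, hcn, hmain]
  · rw [hLc]
    have h1 : rate P (tr c (i * L) L) o L ≤ (h - κ + ι) * L * Real.log 2 := by
      have h2 : 0 ≤ ι / 4 * L * Real.log 2 := by (clear * - hι; positivity)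
      have h3 := hi1.trans hmain
      nlinarith only [hi1, hi2, hcn, hK2, hmain]
    exact h1
  · rw [hLc]
    have h1 := Win.hc_le_add P (fun ω => fl1 a (c.t ω)) (fun ω => fl1 L (c.t ω)) (xyA c)
    have h2 : hc P (fun ω => fl1 L (c.t ω)) (fun ω => (fl1 a (c.t ω), xyA c ω)) ≤
        hc P (fun ω => fl1 L ((tr c (i * L) L).t ω))
          (fun ω => (fl1 a ((tr c (i * L) L).t ω), (tr c (i * L) L).x ω,
            (tr c (i * L) L).y ω, (tr c (i * L) L).A ω)) := by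
      refine Win.hc_mono_right P fun ω ω' h' => ?_
      simp only [xyA, Prod.mk.injEq] at h'
      obtain ⟨g1, g2, g3, g4⟩ := h'
      simp only [tr, g1, g2, g3, g4]
    rw [← hL] at hr
    unfold Dt at hr
    linarith only [hr, h1, h2]

end Vale.Agent.P127.Stk
end

section

/-!
# P127 / Stk / Kill, part A: entropy facts on the support, straight displacement
-/

namespace Vale.Agent.P127.Stk

open Finset Vale.Agent.P127

section entropy

variable {Ω : Type} [Fintype Ω] {S T U R : Type*}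

theorem kl_H_mono (P : Law Ω) {X : Ω → S} {Y : Ω → T} (h : Fn P Y X) : P.H Y ≤ P.H X := by
  classical
  unfold Law.H
  refine P.ex_mono fun ω hω => ?_
  have : P.pr X (X ω) ≤ P.pr Y (Y ω) := by
    unfold Law.pr
    rw [Finset.sum_filter, Finset.sum_filter]
    refine Finset.sum_le_sum fun ω' _ => ?_
    rcases (P.nn ω').eq_or_lt with h0 | h0
    · simp [← h0]
    · by_cases hx : X ω' = X ω
      · rw [if_pos hx, if_pos (h ω' ω h0 hω hx)]
      · rw [if_neg hx]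
        split_ifs
        · exact h0.le
        · exact le_rfl
  have := Real.log_le_log (P.pr_pos X hω) this
  linarith only [this]

theorem kl_hc_left (P : Law Ω) {X : Ω → S} {X' : Ω → T} {Y : Ω → U}
    (h : Fn P X (fun ω => (X' ω, Y ω))) : hc P X Y ≤ hc P X' Y := by
  unfold hc
  refine sub_le_sub_right (kl_H_mono P ?_) _
  intro ω ω' h1 h2 he
  have := h ω ω' h1 h2 he
  simp only [Prod.mk.injEq] at he ⊢
  exact ⟨this, he.2⟩

theorem kl_hc_right (P : Law Ω) (X : Ω → S) {Y : Ω → T} {Y' : Ω → U} (h : Fn P Y Y') :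
    hc P X Y' ≤ hc P X Y := by
  unfold hc
  have h1 := P.submod X Y' Y
  have h2 : P.H (fun ω => (X ω, Y' ω)) ≤ P.H (fun ω => (X ω, Y' ω, Y ω)) := by
    refine P.H_mono fun ω ω' he => ?_
    simp only [Prod.mk.injEq] at he ⊢
    exact ⟨he.1, he.2.1⟩
  have h3 : P.H (fun ω => (Y' ω, Y ω)) ≤ P.H Y' := by
    refine kl_H_mono P fun ω ω' g1 g2 he => ?_
    simp only [Prod.mk.injEq]
    exact ⟨he, h ω ω' g1 g2 he⟩
  linarith

theorem kl_chain (P : Law Ω) (X : Ω → S) (Y : Ω → T) (Z : Ω → U) :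
    hc P (fun ω => (X ω, Y ω)) Z = hc P X Z + hc P Y (fun ω => (X ω, Z ω)) := by
  unfold hc
  have : P.H (fun ω => ((X ω, Y ω), Z ω)) = P.H (fun ω => (Y ω, X ω, Z ω)) := by
    refine P.H_congr fun ω ω' => ?_
    simp only [Prod.mk.injEq]
    (clear * -; tauto)
  linarith only [this]

/-- dropping a variable from the condition costs at most its entropy -/
theorem kl_drop (P : Law Ω) (X : Ω → S) (E : Ω → T) (Z : Ω → U) :
    hc P X Z ≤ hc P X (fun ω => (E ω, Z ω)) + hc P E Z := by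
  have h1 := kl_chain P E X Z
  have h2 : hc P X Z ≤ hc P (fun ω => (E ω, X ω)) Z :=
    kl_hc_left P fun ω ω' _ _ he => by
      simp only [Prod.mk.injEq] at he
      exact he.1.2
  linarith

/-- approximate determination, on the support -/
theorem kl_det (P : Law Ω) {m : ℕ} (Z : Ω → Fin m → ℤ) (Y : Ω → T) (u : Ω → Fin m → ℝ)
    {B : ℝ} (hu : Fn P u Y) (h : ∀ ω, 0 < P.w ω → ∀ i, |(Z ω i : ℝ) - u ω i| ≤ B) :
    hc P Z Y ≤ m * (Real.log 4 + 2 * Real.log (2 + B)) := by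
  classical
  set g : T → Fin m → ℝ := fun y =>
    if hy : ∃ ω, 0 < P.w ω ∧ Y ω = y then u hy.choose else 0 with hg
  have hgu : ∀ ω, 0 < P.w ω → g (Y ω) = u ω := by
    intro ω hω
    have hy : ∃ ω', 0 < P.w ω' ∧ Y ω' = Y ω := ⟨ω, hω, rfl⟩
    rw [hg]
    simp only [dif_pos hy]
    exact hu _ _ hy.choose_spec.1 hω hy.choose_spec.2
  set R : Ω → ℝ := fun ω => if 0 < P.w ω then B else ∑ i, |(Z ω i : ℝ) - g (Y ω) i| with hR
  have h1 := P.H_det Z Y g R (fun ω c => by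
    by_cases hω : 0 < P.w ω
    · rw [hR]
      simp only [if_pos hω]
      rw [hgu ω hω]
      exact h ω hω c
    · rw [hR]
      simp only [if_neg hω]
      exact Finset.single_le_sum (f := fun i => |(Z ω i : ℝ) - g (Y ω) i|)
        (fun _ _ => abs_nonneg _) (Finset.mem_univ c))
  have h2 : P.ex (fun ω => Real.log (2 + R ω)) = Real.log (2 + B) := by
    rw [← P.ex_const (Real.log (2 + B))]
    refine P.ex_congr fun ω hω => ?_
    rw [hR]
    simp only [if_pos hω]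
  rw [h2] at h1
  exact h1

/-- the constant of the approximate determinations -/
noncomputable def klc (m : ℕ) (B : ℝ) : ℝ := m * (Real.log 4 + 2 * Real.log (2 + B))

theorem klc_nonneg {m : ℕ} {B : ℝ} (h0 : 0 ≤ B) : 0 ≤ klc m B := by
  unfold klc
  have h1 : 0 ≤ Real.log 4 := Real.log_nonneg (by norm_num)
  have h2 : 0 ≤ Real.log (2 + B) := Real.log_nonneg (by linarith only [h0])
  positivity

theorem kl_fl (s : ℕ) {m : ℕ} (x : Fin m → ℝ) (i : Fin m) :
    0 ≤ (2 : ℝ) ^ s * x i - (fl s x i : ℝ) ∧ (2 : ℝ) ^ s * x i - (fl s x i : ℝ) ≤ 1 := by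
  unfold fl
  have h1 := Int.floor_le ((2 : ℝ) ^ s * x i)
  have h2 := Int.lt_floor_add_one ((2 : ℝ) ^ s * x i)
  constructor <;> linarith only [h1, h2]

end entropy

end Vale.Agent.P127.Stk
end

section

/-!
# P127 / Stk / Kill: the killing lemma, and its combination with the straight displacement
-/

namespace Vale.Agent.P127.Stk

open Finset Vale.Agent.P127

section object

variable {Ω Ω' : Type} [Fintype Ω'] {m κ : ℕ} {σ : Type}

open Classical in
/-- the matrix of the object with one more killed direction, as a function of the data -/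
noncomputable def kgm (Q : Law Ω') (o : Ob Ω m κ) (π : Ω' → Ω) (D : Ω' → σ)
    (v : Ω' → Fin m → ℝ) (i0 : Fin m) (d : σ) (i j : Fin m) : ℝ :=
  if hd : ∃ ω, 0 < Q.w ω ∧ D ω = d then
    (if j ∈ o.J then o.Γ (π hd.choose) i j - v hd.choose i * o.Γ (π hd.choose) i0 j
      else if j = i0 then v hd.choose i else 0)
  else 0

theorem kgm_bd (Q : Law Ω') (o : Ob Ω m κ) (π : Ω' → Ω) (D : Ω' → σ)
    (v : Ω' → Fin m → ℝ) (i0 : Fin m) (hv : ∀ ω, 0 < Q.w ω → ∀ i, |v ω i| ≤ 1)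
    (d : σ) (i j : Fin m) : |kgm Q o π D v i0 d i j| ≤ 3 ^ (κ + 1) := by
  have h1 : (1 : ℝ) ≤ 3 ^ κ := one_le_pow₀ (by norm_num)
  have h2 : (3 : ℝ) ^ (κ + 1) = 3 * 3 ^ κ := by rw [pow_succ]; ring
  unfold kgm
  split_ifs with hd hj hi
  · have a1 := hv _ hd.choose_spec.1 i
    have a2 := o.bd (π hd.choose) i j
    have a3 := o.bd (π hd.choose) i0 j
    have a4 := abs_sub (o.Γ (π hd.choose) i j) (v hd.choose i * o.Γ (π hd.choose) i0 j)
    have a5 : |v hd.choose i * o.Γ (π hd.choose) i0 j| ≤ 3 ^ κ := by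
      rw [abs_mul]
      have := mul_le_mul a1 a3 (abs_nonneg _) zero_le_one
      linarith only [this]
    linarith
  · have a1 := hv _ hd.choose_spec.1 i
    linarith only [h1, h2, a1]
  · rw [abs_zero]
    linarith
  · rw [abs_zero]
    linarith

/-- the object with one more killed direction -/
noncomputable def kob (Q : Law Ω') (o : Ob Ω m κ) (π : Ω' → Ω) (D : Ω' → σ)
    (v : Ω' → Fin m → ℝ) (i0 : Fin m) (hi : i0 ∉ o.J)
    (hv : ∀ ω, 0 < Q.w ω → ∀ i, |v ω i| ≤ 1) : Ob Ω' m (κ + 1) where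
  γ := σ
  G := D
  J := insert i0 o.J
  Γ := fun ω => kgm Q o π D v i0 (D ω)
  card := by rw [Finset.card_insert_of_notMem hi, o.card]
  bd := fun ω i j => kgm_bd Q o π D v i0 hv (D ω) i j
  fn := fun ω ω' h => by rw [h]

theorem kgm_eq (Q : Law Ω') (o : Ob Ω m κ) (π : Ω' → Ω) (D : Ω' → σ)
    (v : Ω' → Fin m → ℝ) (i0 : Fin m) (h1 : Fn Q (fun ω => o.Γ (π ω)) D) (h2 : Fn Q v D)
    {ω : Ω'} (hω : 0 < Q.w ω) (i j : Fin m) : kgm Q o π D v i0 (D ω) i j =
      (if j ∈ o.J then o.Γ (π ω) i j - v ω i * o.Γ (π ω) i0 j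
        else if j = i0 then v ω i else 0) := by
  have hd : ∃ ω', 0 < Q.w ω' ∧ D ω' = D ω := ⟨ω, hω, rfl⟩
  unfold kgm
  rw [dif_pos hd]
  have e1 : o.Γ (π hd.choose) = o.Γ (π ω) := h1 _ _ hd.choose_spec.1 hω hd.choose_spec.2
  have e2 : v hd.choose = v ω := h2 _ _ hd.choose_spec.1 hω hd.choose_spec.2
  rw [e1, e2]

theorem kob_app (Q : Law Ω') (o : Ob Ω m κ) (π : Ω' → Ω) (D : Ω' → σ)
    (v : Ω' → Fin m → ℝ) (i0 : Fin m) (hi : i0 ∉ o.J)
    (hv : ∀ ω, 0 < Q.w ω → ∀ i, |v ω i| ≤ 1) (h1 : Fn Q (fun ω => o.Γ (π ω)) D)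
    (h2 : Fn Q v D) {ω : Ω'} (hω : 0 < Q.w ω) (hJ : ∀ j ∈ o.J, v ω j = 0) (h0 : v ω i0 = 1)
    (u : Fin m → ℝ) (i : Fin m) : (kob Q o π D v i0 hi hv).app ω u i =
      o.app (π ω) u i - o.app (π ω) u i0 * v ω i := by
  classical
  have hJ' : (kob Q o π D v i0 hi hv).J = insert i0 o.J := rfl
  have hΓ : (kob Q o π D v i0 hi hv).Γ ω = kgm Q o π D v i0 (D ω) := rfl
  unfold Ob.app
  rw [hJ', hΓ]
  by_cases hii : i = i0
  · subst hii
    rw [if_pos (Finset.mem_insert_self _ _), if_neg hi, h0]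
    ring
  by_cases hij : i ∈ o.J
  · rw [if_pos (Finset.mem_insert_of_mem hij), if_pos hij, hJ i hij]
    ring
  · rw [if_neg (by simp [hii, hij]), if_neg hij, if_neg hi, Finset.sum_insert hi,
      kgm_eq Q o π D v i0 h1 h2 hω, if_neg hi, if_pos rfl]
    have e : ∑ j ∈ o.J, kgm Q o π D v i0 (D ω) i j * u j =
        ∑ j ∈ o.J, o.Γ (π ω) i j * u j - v ω i * ∑ j ∈ o.J, o.Γ (π ω) i0 j * u j := by
      rw [Finset.mul_sum, ← Finset.sum_sub_distrib]
      refine Finset.sum_congr rfl fun j hj => ?_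
      rw [kgm_eq Q o π D v i0 h1 h2 hω, if_pos hj]
      ring
    rw [e]
    ring

theorem app_add (o : Ob Ω m κ) (ω : Ω) (u w : Fin m → ℝ) (i : Fin m) :
    o.app ω (fun i => u i + w i) i = o.app ω u i + o.app ω w i := by
  unfold Ob.app
  split_ifs
  · ring
  · have : ∑ j ∈ o.J, o.Γ ω i j * (u j + w j) =
        ∑ j ∈ o.J, o.Γ ω i j * u j + ∑ j ∈ o.J, o.Γ ω i j * w j := by
      rw [← Finset.sum_add_distrib]
      exact Finset.sum_congr rfl fun j _ => by ring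
    rw [this]
    ring

theorem app_smul (o : Ob Ω m κ) (ω : Ω) (a : ℝ) (u : Fin m → ℝ) (i : Fin m) :
    o.app ω (fun i => a * u i) i = a * o.app ω u i := by
  unfold Ob.app
  split_ifs
  · ring
  · have : ∑ j ∈ o.J, o.Γ ω i j * (a * u j) = a * ∑ j ∈ o.J, o.Γ ω i j * u j := by
      rw [Finset.mul_sum]
      exact Finset.sum_congr rfl fun j _ => by ring
    rw [this]
    ring

end object

/-- **killing lemma** (negated form): under `NK m h (κ + 1)`, a direction `v` which depends only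
on cheap data `D` cannot be killed below the scale `2^{-r}`; `δ` depends only on `η`
(and on `m`, `h`, `κ`). -/
theorem kill (R : Gr) {m : ℕ} {h : ℝ} {κ : ℕ} (hN : NK R m h (κ + 1)) {η : ℝ} (hη : 0 < η) :
    ∃ δ : ℝ, 0 < δ ∧ ∀ (K : ℝ) (g : R.G), ∃ n : ℕ, ∀ (L : ℕ) (e C : ℝ), R.ok g n L e C →
      ∀ (Ω : Type) [Fintype Ω] (P : Law Ω) (c : Cf Ω m) (o : Ob Ω m κ), Good P c L e C →
      ∀ (Ω' : Type) [Fintype Ω'] (Q : Law Ω') (π : Ω' → Ω), Dom Q π P K →
      ∀ (σ : Type) (D : Ω' → σ) (r r' : ℕ) (v : Ω' → Fin m → ℝ) (i0 : Fin m),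
        r ≤ r' → r' ≤ L → η * L ≤ (r' : ℝ) - r → i0 ∉ o.J →
        Fn Q (fun ω => o.Γ (π ω)) D → Fn Q v D →
        (∀ ω, 0 < Q.w ω → (∀ j ∈ o.J, v ω j = 0) ∧ v ω i0 = 1 ∧ ∀ i, |v ω i| ≤ 1) →
        mi Q (fun ω => (c.x (π ω), c.y (π ω))) D
          (fun ω => (c.t (π ω), c.A (π ω), fl r (c.x (π ω)), fl r (c.y (π ω)))) ≤ δ * L →
        (h - κ - 1) * ((r' : ℝ) - r) * Real.log 2 + δ * L <
          hc Q (fun ω => fl r' (fun i => o.F c (π ω) i - o.F c (π ω) i0 * v ω i))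
            (fun ω => ((fl r (c.x (π ω)), fl r (c.y (π ω))), c.t (π ω), D ω, c.A (π ω))) := by
  obtain ⟨ι, hι, hN⟩ := hN
  refine ⟨ι * η / 4, by positivity, fun K g => ?_⟩
  set K1 := max K 2 with hK1
  have hK2 : 2 ≤ K1 := le_max_right _ _
  have hK0 : 0 < K1 := by linarith
  have hk0 : 0 ≤ klc m 2 := klc_nonneg (by norm_num)
  obtain ⟨g1, hg1⟩ := R.dom g (8 * K1) (by (clear * -; positivity))
  obtain ⟨g2, hg2⟩ := R.sub g1 η hη
  obtain ⟨n2, hn2⟩ := hN g2
  obtain ⟨n1, hn1⟩ := hg2 n2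
  obtain ⟨n0, hn0⟩ := hg1 n1
  obtain ⟨n3, hn3⟩ := R.small g (ι * η / (4 * klc m 2 + 1)) (by (clear * - hι hη hk0; positivity))
  refine ⟨max n0 n3, fun L e C hok => ?_⟩
  intro Ω _ P c o hG Ω' _ Q π hQ σ D r r' v i0 hrr hr'L hη' hi0 hΓ hv hvs hmi
  have hC0 : 0 ≤ C := (mi_nonneg P _ _ _).trans hG.ind
  have hsm := (hn3 L e C (R.anti _ _ _ _ _ _ (le_max_right _ _) hok)).1
  have q3 : 4 * klc m 2 + 1 ≤ ι * η * L := by
    rw [div_mul_eq_mul_div, le_div_iff₀ (by (clear * - hk0; positivity)), one_mul] at hsm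
    exact hsm
  have hL1 : (0 : ℝ) < L := by
    by_contra hcon
    have : ι * η * (L : ℝ) ≤ 0 :=
      mul_nonpos_of_nonneg_of_nonpos (by positivity) (not_lt.1 hcon)
    linarith only [hk0, q3, this]
  set L' := r' - r with hL'
  have hcast : (L' : ℝ) = (r' : ℝ) - r := by rw [hL', Nat.cast_sub hrr]
  rw [← hcast] at hη' ⊢
  have hvb : ∀ ω, 0 < Q.w ω → ∀ i, |v ω i| ≤ 1 := fun ω hω => (hvs ω hω).2.2
  set o' := kob Q o π D v i0 hi0 hvb with ho'
  set c' := (c.comp π).sub r with hc'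
  have hgood : Good Q c' L' (8 * K1 * (e + 1)) (8 * K1 * (C + 1)) := by
    have g1 := hG.comp hK2 (hQ.mono (le_max_left K 2))
    have g2 := g1.sub r L' (by omega)
    refine g2.mono le_rfl (le_of_eq (by ring)) ?_
    have : 0 ≤ K1 * (C + 1) := by (clear * - hC0; positivity)
    linarith only [this]
  have hok' : R.ok g2 n2 L' (8 * K1 * (e + 1)) (8 * K1 * (C + 1)) := by
    refine hn1 L L' _ _ (hn0 L e C (R.anti _ _ _ _ _ _ (le_max_left _ _) hok)) hη' ?_
    rw [hL']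
    omega
  have hcost : mi Q (fun ω => (c'.x ω, c'.y ω)) o'.G (fun ω => (c'.t ω, c'.A ω)) ≤ ι * L' := by
    have h1 : mi Q (fun ω => (c'.x ω, c'.y ω)) o'.G (fun ω => (c'.t ω, c'.A ω)) ≤
        mi Q (fun ω => (c.x (π ω), c.y (π ω))) o'.G (fun ω => (c'.t ω, c'.A ω)) := by
      refine mi_mono_left Q _ fun ω ω' _ _ he => ?_
      have he' := (Prod.mk.inj he).1
      have e1 : c.x (π ω) = c.x (π ω') := (Prod.mk.inj he').1
      have e2 : c.y (π ω) = c.y (π ω') := (Prod.mk.inj he').2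
      show ((fun i => Int.fract ((2 : ℝ) ^ r * c.x (π ω) i)),
        (fun i => Int.fract ((2 : ℝ) ^ r * c.y (π ω) i))) = _
      rw [e1, e2]
      rfl
    refine h1.trans (le_trans hmi ?_)
    have : ι * (η * L) ≤ ι * L' := mul_le_mul_of_nonneg_left hη' hι.le
    have h3 : 0 ≤ ι * (η * L) := by (clear * - hι hη hL1; positivity)
    linarith only [hk0, q3, this]
  have hmain := hn2 L' _ _ hok' Ω' Q c' o' hgood hcost
  -- the digits of the projected point of the sub-configuration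
  set Tv : Ω' → Fin m → ℝ := fun ω i => o.F c (π ω) i - o.F c (π ω) i0 * v ω i with hTv
  set g : Ω' → Fin m → ℝ := fun ω i =>
    o'.app ω (fun i => (fl r (c.x (π ω)) i : ℝ) + c.t (π ω) * fl r (c.y (π ω)) i) i with hg
  have hdec : ∀ ω, 0 < Q.w ω → ∀ i, (2 : ℝ) ^ r * Tv ω i = g ω i + o'.F c' ω i := by
    intro ω hω i
    have hs := hvs ω hω
    have e1 : Tv ω i = o'.app ω (c.pt (π ω)) i := by
      rw [ho', kob_app Q o π D v i0 hi0 hvb hΓ hv hω hs.1 hs.2.1]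
      rfl
    rw [e1, ← app_smul, hg]
    simp only
    unfold Ob.F
    rw [← app_add]
    congr 1
    funext j
    have := pt_sub (c.comp π) r ω j
    exact this
  have hdet : hc Q (fun ω => fl L' (o'.F c' ω))
      (fun ω => (fl r' (Tv ω), c'.t ω, o'.G ω, c'.A ω)) ≤ klc m 2 := by
    refine kl_det Q (fun ω => fl L' (o'.F c' ω)) _
      (fun ω i => (fl r' (Tv ω) i : ℝ) - 2 ^ L' * g ω i) (B := 2) ?_ ?_
    · intro ω ω' hω hω' he
      obtain ⟨e1, he⟩ := Prod.mk.inj he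
      obtain ⟨e2, he⟩ := Prod.mk.inj he
      obtain ⟨e3, he⟩ := Prod.mk.inj he
      obtain ⟨e4, he⟩ := Prod.mk.inj he
      obtain ⟨e5, e6⟩ := Prod.mk.inj he
      have f2 : c.t (π ω) = c.t (π ω') := e2
      have f3 : D ω = D ω' := e3
      have f5 : fl r (c.x (π ω)) = fl r (c.x (π ω')) := e5
      have f6 : fl r (c.y (π ω)) = fl r (c.y (π ω')) := e6
      have f7 : o'.Γ ω = o'.Γ ω' := o'.fn _ _ f3
      funext i
      rw [hg]
      simp only
      unfold Ob.app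
      rw [e1, f2, f5, f6, f7]
    · intro ω hω i
      have a1 := kl_fl L' (o'.F c' ω) i
      have a2 := kl_fl r' (Tv ω) i
      have a3 := hdec ω hω i
      have a4 : (2 : ℝ) ^ r' = 2 ^ L' * 2 ^ r := by rw [← pow_add, hL', Nat.sub_add_cancel hrr]
      have a5 : (2 : ℝ) ^ r' * Tv ω i = 2 ^ L' * g ω i + 2 ^ L' * o'.F c' ω i := by
        rw [a4, mul_assoc, a3]
        ring
      rw [abs_le]
      constructor <;> linarith only [a1, a2, a5]
  have hdrop := kl_drop Q (fun ω => fl L' (o'.F c' ω)) (fun ω => fl r' (Tv ω))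
    (fun ω => (c'.t ω, o'.G ω, c'.A ω))
  have hright : hc Q (fun ω => fl r' (Tv ω)) (fun ω => (c'.t ω, o'.G ω, c'.A ω)) ≤
      hc Q (fun ω => fl r' (Tv ω))
        (fun ω => ((fl r (c.x (π ω)), fl r (c.y (π ω))), c.t (π ω), D ω, c.A (π ω))) := by
    refine kl_hc_right Q _ fun ω ω' _ _ he => ?_
    obtain ⟨e2, he⟩ := Prod.mk.inj he
    obtain ⟨e3, he⟩ := Prod.mk.inj he
    obtain ⟨e4, he⟩ := Prod.mk.inj he
    obtain ⟨e5, e6⟩ := Prod.mk.inj he
    have f2 : c.t (π ω) = c.t (π ω') := e2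
    have f3 : D ω = D ω' := e3
    have f4 : c.A (π ω) = c.A (π ω') := e4
    have f5 : fl r (c.x (π ω)) = fl r (c.x (π ω')) := e5
    have f6 : fl r (c.y (π ω)) = fl r (c.y (π ω')) := e6
    simp only [f2, f3, f4, f5, f6]
  have hlog : (1 : ℝ) / 2 < Real.log 2 := by
    have := Real.log_two_gt_d9
    linarith only [this]
  have h5 : ι * (η * L) ≤ ι * L' := mul_le_mul_of_nonneg_left hη' hι.le
  have h6 : 0 < ι * (L' : ℝ) := by
    have : 0 < ι * (η * L) := by (clear * - hι hη hL1; positivity)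
    linarith only [hk0, q3, h5]
  have h7 : ι * L' * (1 / 2) < ι * L' * Real.log 2 := mul_lt_mul_of_pos_left hlog h6
  have h8 : (h - ((κ + 1 : ℕ) : ℝ) + ι) * L' * Real.log 2 =
      (h - κ - 1) * L' * Real.log 2 + ι * L' * Real.log 2 := by push_cast; ring
  rw [h8] at hmain
  have h9 : ι * η / 4 * L = ι * (η * L) / 4 := by ring
  rw [h9]
  have h10 : ι * η * L = ι * (η * L) := by ring
  linarith only [q3, hmain, hdet, hdrop, hright, h5, h7]

section aux

variable {Ω : Type} [Fintype Ω] {S T U : Type*}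

/-- the first digits of the projected point are determined by the cell -/
theorem kl_cell {Ω' : Type} [Fintype Ω'] (Q : Law Ω') {m κ : ℕ} (c : Cf Ω m) (o : Ob Ω m κ)
    (π : Ω' → Ω) {σ : Type} (D : Ω' → σ) (r : ℕ) (ht : ∀ ω, 0 ≤ c.t ω ∧ c.t ω < 1)
    (hΓ : Fn Q (fun ω => o.Γ (π ω)) D) :
    hc Q (fun ω => fl r (o.F c (π ω)))
      (fun ω => ((fl r (c.x (π ω)), fl r (c.y (π ω))), c.t (π ω), D ω, c.A (π ω))) ≤
      klc m (1 + 2 * (1 + κ * 3 ^ κ)) := by
  refine kl_det Q _ _ (fun ω i => o.app (π ω)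
    (fun i => (fl r (c.x (π ω)) i : ℝ) + c.t (π ω) * fl r (c.y (π ω)) i) i) ?_ ?_
  · intro ω ω' g g' he
    simp only [Prod.mk.injEq] at he
    obtain ⟨⟨e1, e2⟩, e3, e4, e5⟩ := he
    have e6 : o.Γ (π ω) = o.Γ (π ω') := hΓ ω ω' g g' e4
    funext i
    beta_reduce
    unfold Ob.app
    rw [e1, e2, e3, e6]
  · intro ω g i
    have a1 := kl_fl r (o.F c (π ω)) i
    have a2 : (2 : ℝ) ^ r * o.F c (π ω) i = o.app (π ω)
        (fun i => (fl r (c.x (π ω)) i : ℝ) + c.t (π ω) * fl r (c.y (π ω)) i) i +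
        o.app (π ω) ((c.sub r).pt (π ω)) i := by
      unfold Ob.F
      rw [← app_smul, ← app_add]
      congr 1
      funext j
      exact pt_sub c r (π ω) j
    have a3 : ∀ j, |(c.sub r).pt (π ω) j| ≤ 2 := by
      intro j
      have b1 := Int.fract_nonneg ((2 : ℝ) ^ r * c.x (π ω) j)
      have b2 := Int.fract_lt_one ((2 : ℝ) ^ r * c.x (π ω) j)
      have b3 := Int.fract_nonneg ((2 : ℝ) ^ r * c.y (π ω) j)
      have b4 := Int.fract_lt_one ((2 : ℝ) ^ r * c.y (π ω) j)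
      have b5 := ht (π ω)
      have b6 : (c.sub r).pt (π ω) j = Int.fract ((2 : ℝ) ^ r * c.x (π ω) j) +
        c.t (π ω) * Int.fract ((2 : ℝ) ^ r * c.y (π ω) j) := rfl
      rw [b6, abs_le]
      have b7 := mul_nonneg b5.1 b3
      have b8 : c.t (π ω) * Int.fract ((2 : ℝ) ^ r * c.y (π ω) j) ≤ 1 := by nlinarith only [b4, b5]
      constructor <;> linarith only [b1, b7, b2, b8]
    have a4 : |o.app (π ω) ((c.sub r).pt (π ω)) i| ≤ 2 * (1 + κ * 3 ^ κ) := by
      unfold Ob.app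
      split_ifs
      · rw [abs_zero]
        (clear * -; positivity)
      · have c1 := abs_sub ((c.sub r).pt (π ω) i)
          (∑ j ∈ o.J, o.Γ (π ω) i j * (c.sub r).pt (π ω) j)
        have c2 : |∑ j ∈ o.J, o.Γ (π ω) i j * (c.sub r).pt (π ω) j| ≤
            ∑ _j ∈ o.J, (3 : ℝ) ^ κ * 2 := by
          refine (Finset.abs_sum_le_sum_abs _ _).trans (Finset.sum_le_sum fun j _ => ?_)
          rw [abs_mul]
          exact mul_le_mul (o.bd (π ω) i j) (a3 j) (abs_nonneg _) (by positivity)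
        rw [Finset.sum_const, o.card, nsmul_eq_mul] at c2
        have c3 := a3 i
        linarith only [c1, c2, c3]
    rw [abs_le] at a4 ⊢
    constructor <;> linarith [a1.1, a1.2, a4.1, a4.2]

end aux

end Vale.Agent.P127.Stk
end

section

set_option linter.all false

/-!
# P127 / Stk / END, part A : minors of a few vectors
-/

namespace Vale.Agent.P127.Stk.EndP

open Finset

/-- maximal minor of `l` vectors in `ℝ^m` -/
noncomputable def mx {l m : ℕ} (u : Fin l → Fin m → ℝ) : ℝ :=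
  ⨆ I : Fin l → Fin m, |(Matrix.of fun a b => u a (I b)).det|

theorem le_mx {l m : ℕ} (u : Fin l → Fin m → ℝ) (I : Fin l → Fin m) :
    |(Matrix.of fun a b => u a (I b)).det| ≤ mx u :=
  le_ciSup (f := fun I : Fin l → Fin m => |(Matrix.of fun a b => u a (I b)).det|)
    (Set.finite_range _).bddAbove I

theorem mx_nonneg {l m : ℕ} (u : Fin l → Fin m → ℝ) : 0 ≤ mx u :=
  Real.iSup_nonneg fun _ => abs_nonneg _

theorem mx_zero {m : ℕ} (u : Fin 0 → Fin m → ℝ) : mx u = 1 := by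
  unfold mx
  rw [ciSup_unique]
  simp only [Matrix.det_fin_zero, abs_one]

theorem exists_mx {l m : ℕ} [NeZero m] (u : Fin l → Fin m → ℝ) :
    ∃ I : Fin l → Fin m, |(Matrix.of fun a b => u a (I b)).det| = mx u :=
  exists_eq_ciSup_of_finite (f := fun I : Fin l → Fin m => |(Matrix.of fun a b => u a (I b)).det|)

theorem mx_le {l m : ℕ} [NeZero m] (u : Fin l → Fin m → ℝ) (B : ℝ)
    (h : ∀ I : Fin l → Fin m, |(Matrix.of fun a b => u a (I b)).det| ≤ B) : mx u ≤ B :=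
  ciSup_le h

/-- the vectors `v` with a small minor together with `u` are close to combinations of `l` of their
coordinates -/
theorem piv {l m : ℕ} [NeZero m] (u : Fin l → Fin m → ℝ) :
    ∃ I : Fin l → Fin m, ∃ lam : Fin m → Fin l → ℝ, (∀ i b, |lam i b| ≤ 1) ∧
      ∀ (v : Fin m → ℝ) (θ : ℝ), mx (Fin.snoc u v : Fin (l + 1) → Fin m → ℝ) < θ * mx u →
        ∀ i, |v i - ∑ b : Fin l, lam i b * v (I b)| ≤ θ := by
  obtain ⟨I, hI⟩ := exists_mx u
  set D : ℝ := (Matrix.of fun a b => u a (I b)).det with hD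
  let N : Fin m → Fin l → ℝ := fun i b =>
    (Matrix.of fun (a : Fin l) (b' : Fin l) =>
      u a ((Fin.snoc I i : Fin (l + 1) → Fin m) (b.castSucc.succAbove b'))).det
  have hN : ∀ i b, |N i b| ≤ |D| := fun i b => by
    rw [hI]
    exact le_mx u (fun b' => (Fin.snoc I i : Fin (l + 1) → Fin m) (b.castSucc.succAbove b'))
  refine ⟨I, fun i b => -((-1) ^ (l + (b : ℕ)) * N i b / D), ?_, ?_⟩
  · intro i b
    rw [abs_neg, abs_div, abs_mul, abs_pow, abs_neg, abs_one, one_pow, one_mul]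
    by_cases hD0 : D = 0
    · simp only [hD0, abs_zero, div_zero, zero_le_one]
    · exact (div_le_one (abs_pos.mpr hD0)).mpr (hN i b)
  · intro v θ hv i
    have hm := mx_nonneg (Fin.snoc u v : Fin (l + 1) → Fin m → ℝ)
    have hpos : 0 < θ * mx u := lt_of_le_of_lt hm hv
    have hD0 : D ≠ 0 := by
      intro h0
      rw [h0, abs_zero] at hI
      rw [← hI, mul_zero] at hpos
      exact lt_irrefl _ hpos
    have hdet := le_mx (Fin.snoc u v : Fin (l + 1) → Fin m → ℝ) (Fin.snoc I i)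
    rw [Matrix.det_succ_row _ (Fin.last l), Fin.sum_univ_castSucc] at hdet
    have e1 : (Matrix.of fun (a : Fin (l + 1)) (b : Fin (l + 1)) =>
        (Fin.snoc u v : Fin (l + 1) → Fin m → ℝ) a
          ((Fin.snoc I i : Fin (l + 1) → Fin m) b)).submatrix
        (Fin.last l).succAbove (Fin.last l).succAbove = Matrix.of fun a b => u a (I b) := by
      ext a b
      simp only [Fin.succAbove_last, Matrix.submatrix_apply, Matrix.of_apply, Fin.snoc_castSucc]
    have e2 : ∀ b : Fin l, (Matrix.of fun (a : Fin (l + 1)) (b : Fin (l + 1)) =>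
        (Fin.snoc u v : Fin (l + 1) → Fin m → ℝ) a
          ((Fin.snoc I i : Fin (l + 1) → Fin m) b)).submatrix
        (Fin.last l).succAbove (b.castSucc).succAbove = Matrix.of fun (a : Fin l) (b' : Fin l) =>
      u a ((Fin.snoc I i : Fin (l + 1) → Fin m) (b.castSucc.succAbove b')) := by
      intro b
      ext a b'
      simp [Fin.succAbove_last]
    rw [e1] at hdet
    simp only [e2] at hdet
    have e3 : ∀ b : Fin l, ((Fin.snoc u v : Fin (l + 1) → Fin m → ℝ) (Fin.last l)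
        ((Fin.snoc I i : Fin (l + 1) → Fin m) b.castSucc)) = v (I b) := by
      intro b; simp
    have e4 : ((Fin.snoc u v : Fin (l + 1) → Fin m → ℝ) (Fin.last l)
        ((Fin.snoc I i : Fin (l + 1) → Fin m) (Fin.last l))) = v i := by
      simp
    simp only [Matrix.of_apply, e3, e4, Fin.val_last, Fin.val_castSucc, ← hD] at hdet
    have e5 : ((-1 : ℝ)) ^ (l + l) = 1 := by rw [← two_mul, pow_mul]; simp only [even_two, Even.neg_pow, one_pow]
    rw [e5, one_mul] at hdet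
    have key : (v i - ∑ b : Fin l, -((-1) ^ (l + (b : ℕ)) * N i b / D) * v (I b)) * D =
        (∑ x : Fin l, (-1) ^ (l + (x : ℕ)) * v (I x) * N i x) + v i * D := by
      rw [sub_mul, Finset.sum_mul, sub_eq_add_neg, ← Finset.sum_neg_distrib, add_comm]
      congr 1
      refine Finset.sum_congr rfl fun b _ => ?_
      (clear * - hD0; field_simp)
    have h1 : |(v i - ∑ b : Fin l, -((-1) ^ (l + (b : ℕ)) * N i b / D) * v (I b))| * |D| ≤ θ * |D| := by
      rw [← abs_mul, key, hI]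
      exact hdet.trans hv.le
    exact le_of_mul_le_mul_right h1 (abs_pos.mpr hD0)


/-- counting the digits of the vectors with a small minor -/
theorem code {l m : ℕ} [NeZero m] (u : Fin l → Fin m → ℝ) (y0 : Fin m → ℝ) (s : ℕ) :
    ∃ F : Finset (Fin m → ℤ), F.card ≤ (2 ^ s) ^ l * (l + 3) ^ m ∧
      ∀ y : Fin m → ℝ, (∀ i, 0 ≤ y i ∧ y i < 1) →
        mx (Fin.snoc u (fun i => y i - y0 i) : Fin (l + 1) → Fin m → ℝ) < (1 / 2 : ℝ) ^ s * mx u →
        (fun i => ⌊(2 : ℝ) ^ s * y i⌋) ∈ F := by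
  classical
  obtain ⟨I, lam, hlam, hI⟩ := piv u
  have h2 : (0 : ℝ) < 2 ^ s := by positivity
  have h2' : (2 : ℝ) ^ s * (1 / 2) ^ s = 1 := by rw [← mul_pow]; (clear * -; norm_num)
  let S0 : Set (Fin m → ℤ) := {z | ∃ y : Fin m → ℝ, (∀ i, 0 ≤ y i ∧ y i < 1) ∧
    mx (Fin.snoc u (fun i => y i - y0 i) : Fin (l + 1) → Fin m → ℝ) < (1 / 2 : ℝ) ^ s * mx u ∧
    (fun i => ⌊(2 : ℝ) ^ s * y i⌋) = z}
  let f : (Fin m → ℤ) → (Fin l → ℤ) × (Fin m → ℤ) := fun z =>
    (fun b => z (I b), fun i => z i % ((l : ℤ) + 3))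
  let t : Finset ((Fin l → ℤ) × (Fin m → ℤ)) :=
    (Fintype.piFinset fun _ : Fin l => Finset.Ico (0 : ℤ) (2 ^ s)) ×ˢ
      (Fintype.piFinset fun _ : Fin m => Finset.Ico (0 : ℤ) ((l : ℤ) + 3))
  have ht : t.card = (2 ^ s) ^ l * (l + 3) ^ m := by
    simp only [card_product, Fintype.card_piFinset_const, Int.card_Ico, sub_zero, t]
    congr 2
  have hmaps : Set.MapsTo f S0 (t : Set _) := by
    rintro z ⟨y, hy, -, rfl⟩
    simp only [t, Finset.coe_product, Set.mem_prod, Finset.mem_coe, Fintype.mem_piFinset,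
      Finset.mem_Ico, f]
    refine ⟨fun b => ⟨?_, ?_⟩, fun i => ⟨Int.emod_nonneg _ (by (clear * -; positivity)),
      Int.emod_lt_of_pos _ (by positivity)⟩⟩
    · exact Int.floor_nonneg.mpr (mul_nonneg h2.le (hy _).1)
    · have : (2 : ℝ) ^ s * y (I b) < ((2 ^ s : ℤ) : ℝ) := by
        push_cast
        nlinarith only [h2, (hy (I b)).2]
      exact Int.floor_lt.mpr this
  have hinj : Set.InjOn f S0 := by
    rintro z ⟨y, hy, hm, rfl⟩ z' ⟨y', hy', hm', rfl⟩ hff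
    simp only [f, Prod.mk.injEq] at hff
    obtain ⟨h1, h3⟩ := hff
    have hv := hI _ _ hm
    have hv' := hI _ _ hm'
    funext i
    have hb : ∀ b, |2 ^ s * y (I b) - 2 ^ s * y' (I b)| ≤ 1 := fun b => by
      have := congrFun h1 b
      exact (Int.abs_sub_lt_one_of_floor_eq_floor this).le
    have e : 2 ^ s * y i - 2 ^ s * y' i =
        2 ^ s * ((y i - y0 i) - ∑ b, lam i b * (y (I b) - y0 (I b))) -
        2 ^ s * ((y' i - y0 i) - ∑ b, lam i b * (y' (I b) - y0 (I b))) +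
        ∑ b, lam i b * (2 ^ s * y (I b) - 2 ^ s * y' (I b)) := by
      have : ∑ b, lam i b * (2 ^ s * y (I b) - 2 ^ s * y' (I b)) =
          2 ^ s * ∑ b, lam i b * (y (I b) - y0 (I b)) -
          2 ^ s * ∑ b, lam i b * (y' (I b) - y0 (I b)) := by
        rw [Finset.mul_sum, Finset.mul_sum, ← Finset.sum_sub_distrib]
        exact Finset.sum_congr rfl fun b _ => by ring
      rw [this]; ring
    have b1 : |2 ^ s * ((y i - y0 i) - ∑ b, lam i b * (y (I b) - y0 (I b)))| ≤ 1 := by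
      rw [abs_mul, abs_of_pos h2]
      calc (2 : ℝ) ^ s * _ ≤ 2 ^ s * (1 / 2) ^ s := mul_le_mul_of_nonneg_left (hv i) h2.le
        _ = 1 := h2'
    have b2 : |2 ^ s * ((y' i - y0 i) - ∑ b, lam i b * (y' (I b) - y0 (I b)))| ≤ 1 := by
      rw [abs_mul, abs_of_pos h2]
      calc (2 : ℝ) ^ s * _ ≤ 2 ^ s * (1 / 2) ^ s := mul_le_mul_of_nonneg_left (hv' i) h2.le
        _ = 1 := h2'
    have b3 : |∑ b, lam i b * (2 ^ s * y (I b) - 2 ^ s * y' (I b))| ≤ l := by
      refine (Finset.abs_sum_le_sum_abs _ _).trans ?_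
      calc ∑ b, |lam i b * (2 ^ s * y (I b) - 2 ^ s * y' (I b))| ≤ ∑ b : Fin l, (1 : ℝ) := by
            refine Finset.sum_le_sum fun b _ => ?_
            rw [abs_mul]
            exact mul_le_one₀ (hlam i b) (abs_nonneg _) (hb b)
        _ = l := by simp only [sum_const, card_univ, Fintype.card_fin, nsmul_eq_mul, mul_one]
    have b4 : |2 ^ s * y i - 2 ^ s * y' i| ≤ l + 2 := by
      rw [e]
      rw [abs_le] at b1 b2 b3 ⊢
      constructor <;> linarith only [b1, b2, b3]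
    have b5 : |⌊2 ^ s * y i⌋ - ⌊2 ^ s * y' i⌋| < (l : ℤ) + 3 := by
      rw [abs_lt]
      rw [abs_le] at b4
      have f1 := Int.floor_le (2 ^ s * y i)
      have f2 := Int.lt_floor_add_one (2 ^ s * y i)
      have f3 := Int.floor_le (2 ^ s * y' i)
      have f4 := Int.lt_floor_add_one (2 ^ s * y' i)
      constructor
      · have : (-((l : ℤ) + 3 : ℤ) : ℝ) < ((⌊2 ^ s * y i⌋ - ⌊2 ^ s * y' i⌋ : ℤ) : ℝ) := by
          push_cast; linarith only [b4, f2, f3]
        exact_mod_cast this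
      · have : ((⌊2 ^ s * y i⌋ - ⌊2 ^ s * y' i⌋ : ℤ) : ℝ) < (((l : ℤ) + 3 : ℤ) : ℝ) := by
          push_cast; linarith only [b4, f1, f4]
        exact_mod_cast this
    have b6 : ⌊2 ^ s * y' i⌋ ≡ ⌊2 ^ s * y i⌋ [ZMOD ((l : ℤ) + 3)] := (congrFun h3 i).symm
    have b7 : ((l : ℤ) + 3) ∣ ⌊2 ^ s * y i⌋ - ⌊2 ^ s * y' i⌋ := Int.ModEq.dvd b6
    have b8 := Int.eq_zero_of_abs_lt_dvd b7 b5
    linarith only [b8]
  have hfin : S0.Finite := Set.Finite.of_injOn hmaps hinj t.finite_toSet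
  refine ⟨hfin.toFinset, ?_, ?_⟩
  · rw [← ht, ← Set.ncard_eq_toFinset_card S0 hfin, ← Set.ncard_coe_finset t]
    exact Set.ncard_le_ncard_of_injOn f hmaps hinj t.finite_toSet
  · intro y hy hm
    rw [Set.Finite.mem_toFinset]
    exact ⟨y, hy, hm, rfl⟩

theorem snoc_seq {l m : ℕ} (u : ℕ → Fin m → ℝ) :
    (Fin.snoc (fun a : Fin l => u a) (u l) : Fin (l + 1) → Fin m → ℝ) =
      fun a : Fin (l + 1) => u a := by
  funext a
  refine Fin.lastCases ?_ (fun b => ?_) a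
  · simp
  · simp

theorem chain {m : ℕ} (u : ℕ → Fin m → ℝ) (θ : ℝ) (hθ : 0 ≤ θ) (k : ℕ)
    (h : ∀ l < k, θ * mx (fun a : Fin l => u a) ≤ mx (fun a : Fin (l + 1) => u a)) :
    θ ^ k ≤ mx (fun a : Fin k => u a) := by
  induction k with
  | zero => rw [mx_zero, pow_zero]
  | succ k ih =>
    have h1 := ih fun l hl => h l (by omega)
    have h2 := h k (Nat.lt_succ_self k)
    calc θ ^ (k + 1) = θ * θ ^ k := by ring
      _ ≤ θ * mx (fun a : Fin k => u a) := mul_le_mul_of_nonneg_left h1 hθ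
      _ ≤ _ := h2

end Vale.Agent.P127.Stk.EndP
end

section

set_option linter.all false

/-!
# P127 / Stk / END, part C : entropy lemmas
-/

namespace Vale.Agent.P127.Stk.EndP

open Finset Vale.Agent.P127

variable {Ω Ω' : Type} [Fintype Ω] [Fintype Ω'] {S T U V : Type*}

theorem hc_pi_le (P : Law Ω) (N : ℕ) (X : Fin N → Ω → S) (Y : Ω → T) :
    hc P (fun ω i => X i ω) Y ≤ ∑ i, hc P (X i) Y := by
  induction N with
  | zero =>
    rw [hc_zero P (X := fun ω (i : Fin 0) => X i ω) (Y := Y)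
      (fun ω ω' _ _ _ => Subsingleton.elim _ _)]
    simp
  | succ N ih =>
    have h1 : hc P (fun ω i => X i ω) Y ≤
        hc P (fun ω => ((fun i : Fin N => X i.castSucc ω), X (Fin.last N) ω)) Y := by
      refine hc_mono_left P ?_
      intro ω ω' _ _ h
      simp only [Prod.mk.injEq] at h
      funext i
      refine Fin.lastCases ?_ (fun b => ?_) i
      · exact h.1.2
      · exact congrFun h.1.1 b
    have h2 := hc_pair P (fun ω => (fun i : Fin N => X i.castSucc ω)) (X (Fin.last N)) Y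
    have h3 : hc P (X (Fin.last N)) (fun ω => ((fun i : Fin N => X i.castSucc ω), Y ω)) ≤
        hc P (X (Fin.last N)) Y := by
      refine hc_mono_right P _ ?_
      intro ω ω' _ _ h
      simp only [Prod.mk.injEq] at h
      exact h.2
    have h4 := ih fun i => X i.castSucc
    rw [Fin.sum_univ_castSucc]
    linarith

theorem law_ext {P Q : Law Ω} (h : ∀ ω, P.w ω = Q.w ω) : P = Q := by
  cases P; cases Q
  congr
  exact funext h

theorem prE_nonneg (P : Law Ω) (E : Ω → Prop) : 0 ≤ prE P E :=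
  Finset.sum_nonneg fun ω _ => P.nn ω

theorem prE_compl (P : Law Ω) (E : Ω → Prop) : prE P E + prE P (fun ω => ¬ E ω) = 1 := by
  classical
  rw [← P.sum_one]
  unfold prE
  rw [← Finset.sum_filter_add_sum_filter_not Finset.univ E P.w]
  congr 1
  refine Finset.sum_congr ?_ fun _ _ => rfl
  ext ω
  simp only [mem_filter, mem_univ, true_and]

theorem prE_le_one (P : Law Ω) (E : Ω → Prop) : prE P E ≤ 1 := by
  linarith only [prE_compl P E, prE_nonneg P fun ω => ¬ E ω]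

theorem w_le_prE (P : Law Ω) (E : Ω → Prop) {ω : Ω} (h : E ω) : P.w ω ≤ prE P E := by
  classical
  unfold prE
  exact Finset.single_le_sum (f := P.w) (fun i _ => P.nn i)
    (Finset.mem_filter.mpr ⟨Finset.mem_univ ω, h⟩)

theorem on_full (P : Law Ω) (E : Ω → Prop) (h : prE P (fun ω => ¬ E ω) ≤ 0) : on P E = P := by
  have h1 : prE P E = 1 := by
    have := prE_compl P E
    have h2 := prE_nonneg P fun ω => ¬ E ω
    linarith
  refine law_ext fun ω => ?_
  rw [on_w (by rw [h1]; norm_num) ω, h1, div_one]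
  split_ifs with hE
  · rfl
  · have := w_le_prE P (fun ω => ¬ E ω) hE
    linarith only [h, this, P.nn ω]

theorem hc_le_on' (P : Law Ω) (E : Ω → Prop) (X : Ω → S) (Y : Ω → T) (a1 a2 : ℝ)
    (h1 : 0 < prE P E → hc (on P E) X Y ≤ a1)
    (h2 : prE P E < 1 → hc (on P fun ω => ¬ E ω) X Y ≤ a2) :
    hc P X Y ≤ Real.log 2 + prE P E * a1 + (1 - prE P E) * a2 := by
  have hl : 0 < Real.log 2 := Real.log_pos (by norm_num)
  rcases (prE_nonneg P E).eq_or_lt with h0 | h0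
  · have e : on P (fun ω => ¬ E ω) = P := by
      refine on_full P _ ?_
      have : prE P (fun ω => ¬ ¬ E ω) = prE P E := by simp only [not_not]
      rw [this, ← h0]
    have := h2 (by rw [← h0]; norm_num)
    rw [e] at this
    rw [← h0]
    linarith only [hl, this]
  · rcases (prE_le_one P E).eq_or_lt with h3 | h3
    · have e : on P E = P := on_full P _ (by linarith only [h3, prE_compl P E])
      have := h1 h0
      rw [e] at this
      rw [h3]
      linarith only [hl, this]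
    · have := hc_le_on P E h0 h3 X Y
      have e1 := mul_le_mul_of_nonneg_left (h1 h0) h0.le
      have e2 := mul_le_mul_of_nonneg_left (h2 h3) (sub_nonneg.mpr h3.le)
      linarith only [this, e1, e2]

theorem exists_good {ι : Type*} (s : Finset ι) (P : Law Ω) (E : ι → Ω → Prop)
    (h : ∑ i ∈ s, prE P (E i) < 1) : ∃ ω, 0 < P.w ω ∧ ∀ i ∈ s, ¬ E i ω := by
  classical
  by_contra hcon
  push Not at hcon
  have h1 : (1 : ℝ) ≤ ∑ i ∈ s, prE P (E i) := by
    have e : ∀ i, prE P (E i) = ∑ ω, if E i ω then P.w ω else 0 := by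
      intro i
      unfold prE
      rw [Finset.sum_filter]
    simp only [e]
    rw [Finset.sum_comm, ← P.sum_one]
    refine Finset.sum_le_sum fun ω _ => ?_
    rcases (P.nn ω).eq_or_lt with h0 | h0
    · rw [← h0]
      exact Finset.sum_nonneg fun i _ => by split_ifs <;> simp
    · obtain ⟨i, hi, hE⟩ := hcon ω h0
      calc P.w ω = if E i ω then P.w ω else 0 := by rw [if_pos hE]
        _ ≤ _ := Finset.single_le_sum (f := fun i => if E i ω then P.w ω else 0)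
            (fun j _ => by split_ifs <;> simp [P.nn ω]) hi
  linarith

theorem prE_comp {P : Law Ω'} {Q : Law Ω} {π : Ω' → Ω} (h : ∀ ω, P.pr π ω = Q.w ω)
    (E : Ω → Prop) : prE P (fun ω => E (π ω)) = prE Q E := by
  classical
  unfold prE
  rw [← Finset.sum_fiberwise_of_maps_to (s := Finset.univ.filter fun ω => E (π ω))
    (t := Finset.univ.filter E) (g := π) (fun ω hω => by simpa only [mem_filter, mem_univ, true_and] using hω)]
  refine Finset.sum_congr (by ext; simp only [mem_filter, mem_univ, true_and]) fun ω hω => ?_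
  rw [← h ω]
  unfold Law.pr
  refine Finset.sum_congr ?_ fun _ _ => rfl
  ext ω'
  simp only [Finset.mem_filter, Finset.mem_univ, true_and]
  constructor
  · rintro ⟨h1, h2⟩; exact h2
  · intro h2
    refine ⟨?_, h2⟩
    rw [h2]
    simpa only [mem_filter, mem_univ, true_and] using hω

end Vale.Agent.P127.Stk.EndP
end

section

set_option linter.all false

/-!
# P127 / Stk / END, part C1 : the direction has large entropy given all projections
-/

namespace Vale.Agent.P127.Stk.EndP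

open Finset Vale.Agent.P127

variable {Ω : Type} [Fintype Ω] {m κ : ℕ}

/-- all projections, times and objects -/
noncomputable def WW (c : Cf Ω m) (o : Ob Ω m κ) (n : ℕ) {N : ℕ} (w : Fin (N + 1) → Ω) :
    (Fin (N + 1) → Fin m → ℤ) × (Fin (N + 1) → ℝ × o.γ) × c.α :=
  (fun i => fl n (o.F c (w i)), fun i => (c.t (w i), o.G (w i)), c.A (w 0))

theorem F_fn (c : Cf Ω m) (o : Ob Ω m κ) {ω ω' : Ω} (hx : c.x ω = c.x ω') (hy : c.y ω = c.y ω')
    (ht : c.t ω = c.t ω') (hG : o.G ω = o.G ω') : o.F c ω = o.F c ω' := by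
  have h1 : c.pt ω = c.pt ω' := by
    unfold Cf.pt
    rw [hx, hy, ht]
  have h2 := o.fn _ _ hG
  unfold Ob.F Ob.app
  rw [h1, h2]

theorem low {P : Law Ω} {c : Cf Ω m} {o : Ob Ω m κ} {L : ℕ} {e C : ℝ} (hg : Good P c L e C)
    {n s a N : ℕ} (hs : s ≤ L) {lo cst rk : ℝ} (hrk : 0 ≤ rk)
    (H1 : lo ≤ hc P (fun ω => (fl s (c.x ω), fl s (c.y ω)))
      (fun ω => (fl n (o.F c ω), c.t ω, o.G ω, c.A ω)))
    (H2 : mi P (fun ω => (c.x ω, c.y ω)) o.G (fun ω => (c.t ω, c.A ω)) ≤ cst)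
    (H3 : ∀ Q : Law (Fin 2 → Ω), (∀ w, Q.w w = cw P (key c a) 1 w) →
        hc Q (fun w => fl n (o.F c (w 1)))
          (fun w => (fl n (o.F c (w 0)), (fun i => (c.t (w i), o.G (w i))), c.A (w 0))) ≤ rk)
    (Q : Law (Fin (N + 1) → Ω)) (hQ : ∀ w, Q.w w = cw P (key c a) N w) :
    lo - (N + 2) * (C + cst) - (N + 1) * rk - 2 * e ≤
      hc Q (fun w => fl s (c.y (w 0))) (WW c o n) := by
  -- step a
  have ha : hc Q (fun w (i : Fin (N + 1)) => fl n (o.F c (w i)))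
      (fun w => (fl n (o.F c (w 0)), (fun i => (c.t (w i), o.G (w i))), c.A (w 0))) ≤
      (N + 1) * rk := by
    refine (hc_pi_le Q (N + 1) (fun i w => fl n (o.F c (w i))) _).trans ?_
    have : ∀ i : Fin (N + 1), hc Q (fun w => fl n (o.F c (w i)))
      (fun w => (fl n (o.F c (w 0)), (fun i => (c.t (w i), o.G (w i))), c.A (w 0))) ≤ rk := by
      intro i
      by_cases hi : i = 0
      · subst hi
        refine le_trans (le_of_eq ?_) hrk
        refine hc_zero Q ?_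
        intro w w' _ _ h
        exact congrArg Prod.fst h
      · obtain ⟨Q', hQ'⟩ := cw_exists P (key c a) 1
        have h1 := H3 Q' hQ'
        have hinj : Function.Injective (![0, i] : Fin 2 → Fin (N + 1)) := by
          intro p q hpq
          fin_cases p <;> fin_cases q <;> simp_all
        have h2 := hc_of_law Q Q' (fun w => w ∘ (![0, i] : Fin 2 → Fin (N + 1)))
          (fun v => by rw [cw_sub hQ _ hinj v, hQ' v])
          (fun w => fl n (o.F c (w 1)))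
          (fun w => (fl n (o.F c (w 0)), (fun i => (c.t (w i), o.G (w i))), c.A (w 0)))
        rw [← h2] at h1
        refine le_trans ?_ h1
        refine hc_mono_right Q _ ?_
        intro w w' _ _ h
        simp only [Prod.mk.injEq] at h
        obtain ⟨e1, e2, e3⟩ := h
        simp only [Function.comp, Prod.mk.injEq]
        refine ⟨e1, ?_, e3⟩
        funext p
        exact congrFun e2 _
    refine (Finset.sum_le_sum fun i _ => this i).trans (le_of_eq ?_)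
    simp only [sum_const, card_univ, Fintype.card_fin, nsmul_eq_mul, Nat.cast_add, Nat.cast_one]
  -- step c
  have hcst : mi P (fun ω => (c.x ω, c.y ω)) (fun ω => (c.t ω, o.G ω)) c.A ≤ C + cst := by
    rw [mi_pair P _ c.t o.G c.A]
    exact add_le_add hg.ind H2
  -- step b
  have hcost := cw_cost hQ (fun ω => (c.x ω, c.y ω)) c.A (fun ω => (c.t ω, o.G ω))
    (fun ω => fl1 a (c.t ω))
    (fun ω ω' _ _ h => by
      simp only [Prod.mk.injEq] at h
      show fl1 a (c.t ω) = fl1 a (c.t ω')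
      rw [h.1])
    (fun ω ω' _ _ h => by
      simp only [Prod.mk.injEq] at h
      obtain ⟨⟨h1, h2⟩, h3, h4⟩ := h
      unfold key
      rw [h1, h2, h3, h4])
    (fun ω ω' _ _ h => by
      unfold key at h
      simp only [Prod.mk.injEq] at h
      obtain ⟨h1, h2, h3, h4⟩ := h
      show ((c.x ω, c.y ω), c.A ω, fl1 a (c.t ω)) = _
      rw [h1, h2, h3, h4]) 0
  have hcost' : mi Q (fun w => (c.x (w 0), c.y (w 0))) (fun w j => (c.t (w j), o.G (w j)))
      (fun w => c.A (w 0)) ≤ (N + 2) * (C + cst) :=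
    hcost.trans (mul_le_mul_of_nonneg_left hcst (by (clear * -; positivity)))
  -- step d
  have d1 : lo ≤ hc Q (fun w => (fl s (c.x (w 0)), fl s (c.y (w 0))))
      (fun w => (fl n (o.F c (w 0)), c.t (w 0), o.G (w 0), c.A (w 0))) := by
    have := cw_hc hQ 0 (fun ω => (fl s (c.x ω), fl s (c.y ω)))
      (fun ω => (fl n (o.F c ω), c.t ω, o.G ω, c.A ω))
    rw [this]; exact H1
  have d2 : mi Q (fun w => (fl s (c.x (w 0)), fl s (c.y (w 0))))
      (fun w j => (c.t (w j), o.G (w j)))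
      (fun w => (fl n (o.F c (w 0)), c.t (w 0), o.G (w 0), c.A (w 0))) ≤ (N + 2) * (C + cst) := by
    have e1 : mi Q (fun w => (fl s (c.x (w 0)), fl s (c.y (w 0))))
        (fun w j => (c.t (w j), o.G (w j)))
        (fun w => (fl n (o.F c (w 0)), c.t (w 0), o.G (w 0), c.A (w 0))) ≤
        mi Q (fun w => (c.x (w 0), c.y (w 0))) (fun w j => (c.t (w j), o.G (w j)))
          (fun w => (fl n (o.F c (w 0)), c.t (w 0), o.G (w 0), c.A (w 0))) := by
      refine mi_mono_left Q _ ?_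
      intro w w' _ _ h
      simp only [Prod.mk.injEq] at h
      obtain ⟨⟨h1, h2⟩, -⟩ := h
      simp only [Prod.mk.injEq]
      exact ⟨by rw [h1], by rw [h2]⟩
    have e2 := mi_cond_le Q (X := fun w : Fin (N + 1) → Ω => (c.x (w 0), c.y (w 0)))
      (fun w j => (c.t (w j), o.G (w j))) (W := fun w => fl n (o.F c (w 0)))
      (fun w => (c.t (w 0), o.G (w 0), c.A (w 0))) (by
        intro w w' _ _ h
        simp only [Prod.mk.injEq] at h
        obtain ⟨⟨h1, h2⟩, h3, h4, h5⟩ := h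
        show fl n (o.F c (w 0)) = fl n (o.F c (w' 0))
        rw [F_fn c o h1 h2 h3 h4])
    have e3 := mi_pair Q (fun w : Fin (N + 1) → Ω => (c.x (w 0), c.y (w 0)))
      (fun w => (c.t (w 0), o.G (w 0))) (fun w j => (c.t (w j), o.G (w j)))
      (fun w => c.A (w 0))
    have e4 := mi_nonneg Q (fun w : Fin (N + 1) → Ω => (c.x (w 0), c.y (w 0)))
      (fun w => (c.t (w 0), o.G (w 0))) (fun w => c.A (w 0))
    have e5 : mi Q (fun w : Fin (N + 1) → Ω => (c.x (w 0), c.y (w 0)))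
        (fun w => ((c.t (w 0), o.G (w 0)), fun j => (c.t (w j), o.G (w j))))
        (fun w => c.A (w 0)) ≤ mi Q (fun w => (c.x (w 0), c.y (w 0)))
        (fun w j => (c.t (w j), o.G (w j))) (fun w => c.A (w 0)) := by
      refine mi_mono_right Q _ ?_
      intro w w' _ _ h
      simp only [Prod.mk.injEq] at h
      obtain ⟨h1, -⟩ := h
      have h2 := congrFun h1 0
      simp only [Prod.mk.injEq] at h2
      simp only [Prod.mk.injEq]
      exact ⟨h2, h1⟩
    have e6 : mi Q (fun w : Fin (N + 1) → Ω => (c.x (w 0), c.y (w 0)))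
        (fun w j => (c.t (w j), o.G (w j))) (fun w => ((c.t (w 0), o.G (w 0)), c.A (w 0))) =
        mi Q (fun w : Fin (N + 1) → Ω => (c.x (w 0), c.y (w 0)))
        (fun w j => (c.t (w j), o.G (w j))) (fun w => (c.t (w 0), o.G (w 0), c.A (w 0))) := by
      refine mi_congr_cond Q _ _ ?_ ?_
      · intro w w' _ _ h
        simp only [Prod.mk.injEq] at h ⊢
        obtain ⟨h1, h2, h3⟩ := h
        exact ⟨⟨h1, h2⟩, h3⟩
      · intro w w' _ _ h
        simp only [Prod.mk.injEq] at h ⊢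
        obtain ⟨⟨h1, h2⟩, h3⟩ := h
        exact ⟨h1, h2, h3⟩
    linarith only [hcost', e1, e2, e3, e4, e5, e6]
  have d3 : hc Q (fun w => (fl s (c.x (w 0)), fl s (c.y (w 0))))
      (fun w => ((fun j => (c.t (w j), o.G (w j))),
        (fl n (o.F c (w 0)), c.t (w 0), o.G (w 0), c.A (w 0)))) ≤
      hc Q (fun w => (fl s (c.x (w 0)), fl s (c.y (w 0))))
      (fun w => (fl n (o.F c (w 0)), (fun i => (c.t (w i), o.G (w i))), c.A (w 0))) := by
    refine hc_mono_right Q _ ?_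
    intro w w' _ _ h
    simp only [Prod.mk.injEq] at h ⊢
    obtain ⟨h1, h2, h3, h4, h5⟩ := h
    exact ⟨h2, h1, h5⟩
  have d4 : lo - (N + 2) * (C + cst) ≤
      hc Q (fun w => (fl s (c.x (w 0)), fl s (c.y (w 0))))
      (fun w => (fl n (o.F c (w 0)), (fun i => (c.t (w i), o.G (w i))), c.A (w 0))) := by
    have : mi Q (fun w => (fl s (c.x (w 0)), fl s (c.y (w 0))))
      (fun w j => (c.t (w j), o.G (w j)))
      (fun w => (fl n (o.F c (w 0)), c.t (w 0), o.G (w 0), c.A (w 0))) =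
      hc Q (fun w => (fl s (c.x (w 0)), fl s (c.y (w 0))))
      (fun w => (fl n (o.F c (w 0)), c.t (w 0), o.G (w 0), c.A (w 0))) -
      hc Q (fun w => (fl s (c.x (w 0)), fl s (c.y (w 0))))
      (fun w => ((fun j => (c.t (w j), o.G (w j))),
        (fl n (o.F c (w 0)), c.t (w 0), o.G (w 0), c.A (w 0)))) := rfl
    linarith only [d1, d2, d3, this]
  -- step e
  have e1 := hc_le_add' Q (fun w => (fl s (c.x (w 0)), fl s (c.y (w 0))))
    (fun w (i : Fin (N + 1)) => fl n (o.F c (w i)))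
    (fun w => (fl n (o.F c (w 0)), (fun i => (c.t (w i), o.G (w i))), c.A (w 0)))
  have e2 : hc Q (fun w => (fl s (c.x (w 0)), fl s (c.y (w 0))))
      (fun w => ((fun (i : Fin (N + 1)) => fl n (o.F c (w i))),
        (fl n (o.F c (w 0)), (fun i => (c.t (w i), o.G (w i))), c.A (w 0)))) ≤
      hc Q (fun w => (fl s (c.x (w 0)), fl s (c.y (w 0)))) (WW c o n) := by
    refine hc_mono_right Q _ ?_
    intro w w' _ _ h
    simp only [Prod.mk.injEq] at h
    obtain ⟨h1, h2, h3, h4⟩ := h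
    unfold WW
    simp only [Prod.mk.injEq]
    exact ⟨h1, h3, h4⟩
  -- step f
  have f1 : hc Q (fun w => (fl s (c.x (w 0)), fl s (c.y (w 0)))) (WW c o n) ≤
      hc Q (fun w => (fl s (c.y (w 0)), fl s (c.x (w 0)))) (WW c o n) := by
    refine hc_mono_left Q ?_
    intro w w' _ _ h
    simp only [Prod.mk.injEq] at h
    obtain ⟨⟨h1, h2⟩, -⟩ := h
    simp only [Prod.mk.injEq]
    exact ⟨h2, h1⟩
  have f2 := hc_pair Q (fun w : Fin (N + 1) → Ω => fl s (c.y (w 0))) (fun w => fl s (c.x (w 0)))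
    (WW c o n)
  have f3 : hc Q (fun w => fl s (c.x (w 0))) (fun w => (fl s (c.y (w 0)), WW c o n w)) ≤
      hc Q (fun w => fl s (c.x (w 0))) (fun w => (fl s (c.y (w 0)), c.A (w 0))) := by
    refine hc_mono_right Q _ ?_
    intro w w' _ _ h
    unfold WW at h
    simp only [Prod.mk.injEq] at h
    obtain ⟨h1, h2, h3, h4⟩ := h
    simp only [Prod.mk.injEq]
    exact ⟨h1, h4⟩
  have f4 := cw_hc hQ 0 (fun ω => fl s (c.x ω)) (fun ω => (fl s (c.y ω), c.A ω))
  have f5 : hc P (fun ω => fl s (c.x ω)) (fun ω => (fl s (c.y ω), c.A ω)) ≤ 2 * e := by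
    have g1 := hc_pair P (fun ω => fl s (c.y ω)) (fun ω => fl s (c.x ω)) c.A
    have g2 := hg.dir s hs
    have g3 := hg.lin s hs
    have g4 : hc P (fun ω => (fl s (c.y ω), fl s (c.x ω))) c.A ≤
        hc P (fun ω => (fl s (c.x ω), fl s (c.y ω))) c.A := by
      refine hc_mono_left P ?_
      intro w w' _ _ h
      simp only [Prod.mk.injEq] at h
      obtain ⟨⟨h1, h2⟩, -⟩ := h
      simp only [Prod.mk.injEq]
      exact ⟨h2, h1⟩
    linarith only [g1, g2, g3, g4]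
  linarith only [ha, d4, e1, e2, f1, f2, f3, f4, f5]

end Vale.Agent.P127.Stk.EndP
end

section

set_option linter.all false

/-!
# P127 / Stk / END, part C2 : few coincidences
-/

namespace Vale.Agent.P127.Stk.EndP

open Finset Vale.Agent.P127

section step

variable {Ω₁ : Type} [Fintype Ω₁] {S : Type*} {m : ℕ}

theorem step_aux {Q : Law Ω₁} {W : Ω₁ → S} {yv : Ω₁ → Fin m → ℝ}
    (hy : ∀ ω i, 0 ≤ yv ω i ∧ yv ω i < 1) {N : ℕ} {Q2 : Law (Fin (N + 1) → Ω₁)}
    (hQ2 : ∀ w, Q2.w w = cw Q W N w) {s : ℕ} {lo : ℝ} (hlo : lo ≤ hc Q (fun ω => fl s (yv ω)) W)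
    (i : Fin (N + 1)) (E : (Fin (N + 1) → Ω₁) → Prop) (Nc : ℕ)
    (hE : ∀ w : Fin (N + 1) → Ω₁, ∃ F : Finset (Fin m → ℤ), F.card ≤ Nc ∧
      ∀ w' : Fin (N + 1) → Ω₁, (∀ j, j ≠ i → w' j = w j) → E w' → fl s (yv (w' i)) ∈ F)
    (up p0 : ℝ) (hup : p0 ≤ prE Q2 (fun w => ¬ E w) →
      hc (on Q2 fun w => ¬ E w) (fun w => fl s (yv (w i))) (fun w => W (w i)) ≤ up) :
    (lo ≤ Real.log 2 + prE Q2 E * Real.log Nc + (1 - prE Q2 E) * up) ∨
      (1 - prE Q2 E < p0 ∧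
        lo ≤ Real.log 2 + prE Q2 E * Real.log Nc + (1 - prE Q2 E) * (m * s * Real.log 2)) := by
  let Y : (Fin (N + 1) → Ω₁) → ({j : Fin (N + 1) // j ≠ i} → Ω₁) := fun w j => w j
  have h0 := cw_indep hQ2 i (fun ω => fl s (yv ω)) Y (fun w w' h => by
    funext j
    exact h j.1 j.2)
  rw [← h0] at hlo
  have h1 : 0 < prE Q2 E →
      hc (on Q2 E) (fun w => fl s (yv (w i))) (fun w => (Y w, W (w i))) ≤ Real.log Nc := by
    intro hp
    refine hc_le_log (on Q2 E) _ _ Nc ?_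
    intro w hw
    obtain ⟨F, hF, hF'⟩ := hE w
    refine ⟨F, hF, ?_⟩
    intro w' hw' heq
    refine hF' w' ?_ (on_pos hp hw').1
    intro j hj
    exact congrFun (congrArg Prod.fst heq) ⟨j, hj⟩
  by_cases hp : p0 ≤ prE Q2 (fun w => ¬ E w)
  · left
    refine hlo.trans (hc_le_on' Q2 E _ _ _ _ h1 fun _ => ?_)
    refine le_trans ?_ (hup hp)
    refine hc_mono_right _ _ ?_
    intro w w' _ _ h
    exact congrArg Prod.snd h
  · right
    refine ⟨by linarith [prE_compl Q2 E], ?_⟩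
    refine hlo.trans (hc_le_on' Q2 E _ _ _ _ h1 fun _ => ?_)
    have := hc_fl_le (on Q2 fun w => ¬ E w) s (fun w => yv (w i)) (fun w => (Y w, W (w i)))
      (fun w _ j => hy _ _)
    rwa [Fintype.card_fin] at this

/-- the differences of the directions -/
noncomputable def uu (yv : Ω₁ → Fin m → ℝ) {N : ℕ} (w : Fin (N + 1) → Ω₁) (j : ℕ) : Fin m → ℝ :=
  if h : j + 1 < N + 1 then fun i => yv (w ⟨j + 1, h⟩) i - yv (w 0) i else 0

/-- the `l`-th coincidence -/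
def EE (yv : Ω₁ → Fin m → ℝ) (s : ℕ) {N : ℕ} (l : ℕ) (w : Fin (N + 1) → Ω₁) : Prop :=
  mx (fun a : Fin (l + 1) => uu yv w a) < (1 / 2 : ℝ) ^ s * mx (fun a : Fin l => uu yv w a)

theorem EE_count [NeZero m] {yv : Ω₁ → Fin m → ℝ}
    (hy : ∀ ω i, 0 ≤ yv ω i ∧ yv ω i < 1) {N : ℕ} (s l : ℕ) (hl : l + 1 < N + 1)
    (w : Fin (N + 1) → Ω₁) :
    ∃ F : Finset (Fin m → ℤ), F.card ≤ (2 ^ s) ^ l * (l + 3) ^ m ∧
      ∀ w' : Fin (N + 1) → Ω₁, (∀ j, j ≠ ⟨l + 1, hl⟩ → w' j = w j) → EE yv s l w' →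
        fl s (yv (w' ⟨l + 1, hl⟩)) ∈ F := by
  obtain ⟨F, hF, hF'⟩ := code (fun a : Fin l => uu yv w a) (yv (w 0)) s
  refine ⟨F, hF, ?_⟩
  intro w' hw' hE
  refine hF' (yv (w' ⟨l + 1, hl⟩)) (hy _) ?_
  have h0 : w' 0 = w 0 := hw' 0 (by
    intro h
    have := congrArg Fin.val h
    simp only [Fin.coe_ofNat_eq_mod, Nat.zero_mod, Nat.right_eq_add, Nat.add_eq_zero_iff, one_ne_zero, and_false] at this)
  have h1 : (fun a : Fin l => uu yv w a) = fun a : Fin l => uu yv w' a := by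
    funext a
    unfold uu
    have ha : (a : ℕ) + 1 < N + 1 := by have := a.2; omega
    rw [dif_pos ha, dif_pos ha, h0, hw' ⟨a + 1, ha⟩ (by
      intro h
      have := congrArg Fin.val h
      simp at this
      have := a.2
      omega)]
  have h2 : (fun i => yv (w' ⟨l + 1, hl⟩) i - yv (w 0) i) = uu yv w' l := by
    unfold uu
    rw [dif_pos hl, h0]
  rw [h1, h2, snoc_seq]
  exact hE

/-- coincidences are rare -/
theorem ev_small [NeZero m] {Q : Law Ω₁} {W : Ω₁ → S} {yv : Ω₁ → Fin m → ℝ}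
    (hy : ∀ ω i, 0 ≤ yv ω i ∧ yv ω i < 1) {N : ℕ} {Q2 : Law (Fin (N + 1) → Ω₁)}
    (hQ2 : ∀ w, Q2.w w = cw Q W N w) {s κ : ℕ} {σ g1 g2 q p0 : ℝ}
    (hlo : (κ + σ) * s * Real.log 2 - g1 ≤ hc Q (fun ω => fl s (yv ω)) W)
    (l : ℕ) (hl : l + 1 < N + 1) (hlk : l ≤ κ)
    (hup : p0 ≤ prE Q2 (fun w => ¬ EE yv s l w) →
      hc (on Q2 fun w => ¬ EE yv s l w) (fun w => fl s (yv (w ⟨l + 1, hl⟩)))
        (fun w => W (w ⟨l + 1, hl⟩)) ≤ (κ + σ) * s * Real.log 2 + g2)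
    (hσ : 0 < σ * s * Real.log 2) (hg2 : 0 ≤ g2) (hq : q < 1 / 2) (hp0 : p0 * m ≤ σ / 2)
    (hG : g1 + g2 + Real.log 2 + m * Real.log (κ + 3) ≤ q * (σ * s * Real.log 2)) :
    prE Q2 (EE yv s l) ≤ q := by
  have hb : 0 < Real.log 2 := Real.log_pos (by norm_num)
  have hlog : Real.log (((2 ^ s) ^ l * (l + 3) ^ m : ℕ) : ℝ) ≤
      κ * (s * Real.log 2) + m * Real.log (κ + 3) := by
    push_cast
    rw [Real.log_mul (by positivity) (by (clear * -; positivity)), Real.log_pow, Real.log_pow, Real.log_pow]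
    have h1 : (l : ℝ) * (s * Real.log 2) ≤ κ * (s * Real.log 2) :=
      mul_le_mul_of_nonneg_right (by exact_mod_cast hlk) (by (clear * -; positivity))
    have h2 : Real.log ((l : ℝ) + 3) ≤ Real.log (κ + 3) :=
      Real.log_le_log (by positivity) (by
        have : (l : ℝ) ≤ κ := by exact_mod_cast hlk
        linarith only [this])
    have h3 : (m : ℝ) * Real.log ((l : ℝ) + 3) ≤ m * Real.log (κ + 3) :=
      mul_le_mul_of_nonneg_left h2 (by (clear * -; positivity))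
    linarith only [h1, h3]
  have hlog3 : 0 ≤ (m : ℝ) * Real.log (κ + 3) :=
    mul_nonneg (by (clear * -; positivity)) (Real.log_nonneg (by
      have : (0 : ℝ) ≤ κ := by (clear * -; positivity)
      linarith only []))
  set p : ℝ := prE Q2 (EE yv s l) with hp
  have hp0' : 0 ≤ p := prE_nonneg _ _
  have hp1 : p ≤ 1 := prE_le_one _ _
  have hks : 0 ≤ (κ : ℝ) * (s * Real.log 2) := by (clear * -; positivity)
  have h1 : p * Real.log (((2 ^ s) ^ l * (l + 3) ^ m : ℕ) : ℝ) ≤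
      p * (κ * (s * Real.log 2)) + m * Real.log (κ + 3) := by
    have := mul_le_mul_of_nonneg_left hlog hp0'
    have h2 : p * (m * Real.log (κ + 3)) ≤ m * Real.log (κ + 3) :=
      mul_le_of_le_one_left hlog3 hp1
    linarith only [this, h2]
  rcases step_aux hy hQ2 hlo ⟨l + 1, hl⟩ (EE yv s l) _ (EE_count hy s l hl) _ p0 hup with h | ⟨h', h⟩
  · rw [← hp] at h
    have h2 : (1 - p) * g2 ≤ g2 := mul_le_of_le_one_left hg2 (by linarith only [hp0'])
    have h3 : p * (σ * s * Real.log 2) ≤ q * (σ * s * Real.log 2) := by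
      have e : (1 - p) * ((κ + σ) * s * Real.log 2 + g2) =
          (κ + σ) * s * Real.log 2 - p * (κ * (s * Real.log 2)) - p * (σ * s * Real.log 2) +
            (1 - p) * g2 := by ring
      rw [e] at h
      linarith only [hG, h1, h, h2]
    exact le_of_mul_le_mul_right h3 hσ
  · exfalso
    rw [← hp] at h h'
    have h2 : p * (κ * (s * Real.log 2)) ≤ κ * (s * Real.log 2) :=
      mul_le_of_le_one_left hks hp1
    have h3 : (1 - p) * (m * s * Real.log 2) ≤ p0 * m * (s * Real.log 2) := by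
      have : (1 - p) * ((m : ℝ) * s * Real.log 2) ≤ p0 * (m * s * Real.log 2) :=
        mul_le_mul_of_nonneg_right h'.le (by (clear * -; positivity))
      linarith only [this]
    have h4 : p0 * m * (s * Real.log 2) ≤ σ / 2 * (s * Real.log 2) :=
      mul_le_mul_of_nonneg_right hp0 (by (clear * -; positivity))
    have h5 : q * (σ * s * Real.log 2) < 1 / 2 * (σ * s * Real.log 2) :=
      mul_lt_mul_of_pos_right hq hσ
    linarith

end step

section sep

variable {Ω : Type} [Fintype Ω] {m κ : ℕ}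

/-- the times are separated -/
theorem sep {P : Law Ω} {c : Cf Ω m} {L a d N : ℕ} {εu : ℝ}
    (hunif : ((L : ℝ) - a) * Real.log 2 - εu ≤
      hc P (fun ω => fl1 L (c.t ω)) (fun ω => (fl1 a (c.t ω), c.x ω, c.y ω, c.A ω)))
    (hd : a + d ≤ L)
    {Q : Law (Fin (N + 1) → Ω)} (hQ : ∀ w, Q.w w = cw P (key c a) N w)
    {i j : Fin (N + 1)} (hij : i ≠ j) :
    prE Q (fun w => |c.t (w i) - c.t (w j)| < (1 / 2 : ℝ) ^ (a + d)) *
      (((d : ℝ) - 2) * Real.log 2) ≤ Real.log 2 + εu := by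
  have hb : 0 < Real.log 2 := Real.log_pos (by norm_num)
  have h0 := cw_indep hQ i (fun ω => fl1 L (c.t ω)) (fun w => fl1 L (c.t (w j)))
    (fun w w' h => by
      show fl1 L (c.t (w j)) = fl1 L (c.t (w' j))
      rw [h j hij.symm])
  have h1 : hc P (fun ω => fl1 L (c.t ω)) (fun ω => (fl1 a (c.t ω), c.x ω, c.y ω, c.A ω)) =
      hc P (fun ω => fl1 L (c.t ω)) (key c a) := by
    refine hc_congr P ?_ ?_ ?_ ?_
    · intro ω ω' _ _ h
      exact congrArg Prod.fst h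
    · intro ω ω' _ _ h
      exact congrArg Prod.fst h
    · intro ω ω' _ _ h
      unfold key at h
      simp only [Prod.mk.injEq] at h ⊢
      (clear * - h; tauto)
    · intro ω ω' _ _ h
      unfold key
      simp only [Prod.mk.injEq] at h ⊢
      (clear * - h; tauto)
  rw [h1, ← h0] at hunif
  set E : (Fin (N + 1) → Ω) → Prop := fun w => |c.t (w i) - c.t (w j)| < (1 / 2 : ℝ) ^ (a + d)
    with hEdef
  set M : ℕ := 2 ^ (L - (a + d)) with hM
  have hMr : (2 : ℝ) ^ L * (1 / 2) ^ (a + d) = M := by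
    rw [hM]; push_cast
    have : (2 : ℝ) ^ L = 2 ^ (L - (a + d)) * 2 ^ (a + d) := by
      rw [← pow_add]; congr 1; omega
    rw [this, mul_assoc, ← mul_pow]; norm_num
  have a1 : 0 < prE Q E → hc (on Q E) (fun w => fl1 L (c.t (w i)))
      (fun w => (fl1 L (c.t (w j)), key c a (w i))) ≤ Real.log ((2 * M + 1 : ℕ) : ℝ) := by
    intro hp
    refine hc_le_log (on Q E) _ _ (2 * M + 1) ?_
    intro w hw
    refine ⟨Finset.Icc (fl1 L (c.t (w j)) - M) (fl1 L (c.t (w j)) + M), ?_, ?_⟩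
    · rw [Int.card_Icc]
      omega
    · intro w' hw' heq
      have e1 : fl1 L (c.t (w' j)) = fl1 L (c.t (w j)) := congrArg Prod.fst heq
      have e2 : |c.t (w' i) - c.t (w' j)| < (1 / 2 : ℝ) ^ (a + d) := (on_pos hp hw').1
      rw [Finset.mem_Icc, ← e1]
      have h2L : (0 : ℝ) < 2 ^ L := by positivity
      have e3 : |2 ^ L * c.t (w' i) - 2 ^ L * c.t (w' j)| < M := by
        rw [← mul_sub, abs_mul, abs_of_pos h2L, ← hMr]
        exact mul_lt_mul_of_pos_left e2 h2L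
      rw [abs_lt] at e3
      unfold fl1
      have f1 := Int.floor_le (2 ^ L * c.t (w' i))
      have f2 := Int.lt_floor_add_one (2 ^ L * c.t (w' i))
      have f3 := Int.floor_le (2 ^ L * c.t (w' j))
      have f4 := Int.lt_floor_add_one (2 ^ L * c.t (w' j))
      constructor
      · have : ((⌊2 ^ L * c.t (w' j)⌋ - M : ℤ) : ℝ) < ((⌊2 ^ L * c.t (w' i)⌋ + 1 : ℤ) : ℝ) := by
          push_cast; linarith only [e3, f2, f3]
        have := (Int.cast_lt (R := ℝ)).mp this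
        omega
      · have : ((⌊2 ^ L * c.t (w' i)⌋ : ℤ) : ℝ) < ((⌊2 ^ L * c.t (w' j)⌋ + M + 1 : ℤ) : ℝ) := by
          push_cast; linarith only [e3, f1, f4]
        have := (Int.cast_lt (R := ℝ)).mp this
        omega
  have a2 : prE Q E < 1 → hc (on Q fun w => ¬ E w) (fun w => fl1 L (c.t (w i)))
      (fun w => (fl1 L (c.t (w j)), key c a (w i))) ≤ ((L - a : ℕ) : ℝ) * Real.log 2 := by
    intro _
    have := hc_fl1_digits_le (on Q fun w => ¬ E w) (s := a) (s' := L) (by omega)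
      (fun w => c.t (w i)) (fun _ => ())
    refine le_trans (hc_mono_right _ _ ?_) this
    intro w w' _ _ h
    unfold key at h
    simp only [Prod.mk.injEq] at h ⊢
    (clear * - a1 h; tauto)
  have h3 := hc_le_on' Q E _ _ _ _ a1 a2
  have hp0 := prE_nonneg Q E
  have hM2 : Real.log ((2 * M + 1 : ℕ) : ℝ) ≤ ((L : ℝ) - a - d + 2) * Real.log 2 := by
    have e1 : ((2 * M + 1 : ℕ) : ℝ) ≤ (2 : ℝ) ^ (L - (a + d) + 2) := by
      rw [hM]; push_cast
      have : (1 : ℝ) ≤ 2 ^ (L - (a + d)) := one_le_pow₀ (by norm_num)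
      rw [pow_add]; norm_num; linarith only [this]
    calc Real.log ((2 * M + 1 : ℕ) : ℝ) ≤ Real.log ((2 : ℝ) ^ (L - (a + d) + 2)) :=
          Real.log_le_log (by positivity) e1
      _ = ((L : ℝ) - a - d + 2) * Real.log 2 := by
          rw [Real.log_pow]; push_cast [Nat.cast_sub hd]; ring
  have hLa : ((L - a : ℕ) : ℝ) = (L : ℝ) - a := by
    rw [Nat.cast_sub (by omega)]
  rw [hLa] at h3
  have h4 := mul_le_mul_of_nonneg_left hM2 hp0
  linarith

end sep

end Vale.Agent.P127.Stk.EndP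
end

section

set_option linter.all false

/-!
# P127 / Stk / END, part D : the end of the proof from the rates R5
-/

namespace Vale.Agent.P127.Stk.EndP

open Finset Vale.Agent.P127

/-- R5, lower bound -/
def R5L (R : Gr) (m : ℕ) (h : ℝ) (κ : ℕ) : Prop :=
  ∀ ε : ℝ, 0 < ε → ∃ ι : ℝ, 0 < ι ∧ ∀ g : R.G, ∃ n : ℕ, ∀ (L : ℕ) (e C : ℝ), R.ok g n L e C →
    ∀ (Ω : Type) [Fintype Ω] (P : Law Ω) (c : Cf Ω m) (o : Ob Ω m κ),
      Good P c L e C →
      mi P (fun ω => (c.x ω, c.y ω)) o.G (fun ω => (c.t ω, c.A ω)) ≤ ι * L →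
      hc P (fun ω => fl L (o.F c ω)) (fun ω => (c.t ω, o.G ω, c.A ω)) ≤
        (h - κ + ι) * L * Real.log 2 →
      ∀ s s' : ℕ, s ≤ s' → s' ≤ L →
        (m - (h - κ)) * s * Real.log 2 - ε * L ≤
          hc P (fun ω => (fl s (c.x ω), fl s (c.y ω)))
            (fun ω => (fl s' (o.F c ω), c.t ω, o.G ω, c.A ω))

/-- R5, upper bound for dominated laws -/
def R5U (R : Gr) (m : ℕ) (h : ℝ) (κ : ℕ) : Prop :=
  ∀ ε : ℝ, 0 < ε → ∀ K : ℝ, ∃ ι : ℝ, 0 < ι ∧ ∀ g : R.G, ∃ n : ℕ, ∀ (L : ℕ) (e C : ℝ),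
    R.ok g n L e C →
    ∀ (Ω : Type) [Fintype Ω] (P : Law Ω) (c : Cf Ω m) (o : Ob Ω m κ),
      Good P c L e C →
      mi P (fun ω => (c.x ω, c.y ω)) o.G (fun ω => (c.t ω, c.A ω)) ≤ ι * L →
      hc P (fun ω => fl L (o.F c ω)) (fun ω => (c.t ω, o.G ω, c.A ω)) ≤
        (h - κ + ι) * L * Real.log 2 →
      ∀ (Ω' : Type) [Fintype Ω'] (Q : Law Ω') (π : Ω' → Ω), Dom Q π P K →
      ∀ s s' : ℕ, s ≤ s' → s' ≤ L →
        hc Q (fun ω => (fl s (c.x (π ω)), fl s (c.y (π ω))))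
          (fun ω => (fl s' (o.F c (π ω)), c.t (π ω), o.G (π ω), c.A (π ω))) ≤
        (m - (h - κ)) * s * Real.log 2 + ε * L

variable {Ω : Type} [Fintype Ω] {m κ : ℕ}

/-- the deterministic part of the contradiction -/
theorem det_contra [NeZero m] {P : Law Ω} {c : Cf Ω m} {o : Ob Ω m κ} {a n s : ℕ}
    (hx : ∀ ω i, 0 ≤ c.x ω i ∧ c.x ω i < 1) (hy : ∀ ω i, 0 ≤ c.y ω i ∧ c.y ω i < 1)
    (ht : ∀ ω, 0 ≤ c.t ω ∧ c.t ω < 1)
    {Q : Law (Fin (κ + 1 + 1) → Ω)} (hQ : ∀ w, Q.w w = cw P (key c a) (κ + 1) w)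
    {Q2 : Law (Fin (κ + 1 + 1) → (Fin (κ + 1 + 1) → Ω))}
    (hQ2 : ∀ w, Q2.w w = cw Q (WW c o n) (κ + 1) w)
    {w : Fin (κ + 1 + 1) → (Fin (κ + 1 + 1) → Ω)} (hw : 0 < Q2.w w) {δ : ℝ} (hδ : 0 < δ)
    (hsep : ∀ i j, i ≠ j → δ ≤ |c.t (w 0 i) - c.t (w 0 j)|)
    (hE : ∀ l < κ + 1, ¬ EE (fun v : Fin (κ + 1 + 1) → Ω => c.y (v 0)) s l w)
    {C0 : ℝ} (hC0 : ∀ (X Y : Fin (κ + 1) → Fin m → ℝ)
      (t : Fin (κ + 2) → ℝ) (J : Finset (Fin m)) (Γ : Fin (κ + 2) → Fin m → Fin m → ℝ) (ρ δ : ℝ),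
      (∀ j i, |X j i| ≤ 1) → (∀ j i, |Y j i| ≤ 1) → (∀ i, |t i| ≤ 1) → J.card = κ →
      (∀ l i j, |Γ l i j| ≤ 3 ^ κ) → 0 ≤ ρ → 0 < δ → (∀ i l, i ≠ l → δ ≤ |t i - t l|) →
      (∀ l j i, i ∉ J →
        |(X j i + t l * Y j i) - ∑ j' ∈ J, Γ l i j' * (X j j' + t l * Y j j')| ≤ ρ) →
      ∀ I : Fin (κ + 1) → Fin m,
        |(Matrix.of fun a b => Y a (I b)).det| ≤ C0 * ρ / δ ^ (κ + 1)) :
    ((1 / 2 : ℝ) ^ s) ^ (κ + 1) ≤ C0 * (1 / 2) ^ n / δ ^ (κ + 1) := by
  obtain ⟨s1, s2⟩ := cw_supp hQ2 hw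
  have s3 : ∀ j l, key c a (w j l) = key c a (w j 0) := fun j l => (cw_supp hQ (s2 j)).1 l
  let X : Fin (κ + 1) → Fin m → ℝ := fun j i => c.x (w j.succ 0) i - c.x (w 0 0) i
  let Y : Fin (κ + 1) → Fin m → ℝ := fun j i => c.y (w j.succ 0) i - c.y (w 0 0) i
  have hY : (fun j : Fin (κ + 1) =>
      uu (fun v : Fin (κ + 1 + 1) → Ω => c.y (v 0)) w j) = Y := by
    funext j
    unfold uu
    have hj : (j : ℕ) + 1 < κ + 1 + 1 := by have := j.2; omega
    rw [dif_pos hj]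
    rfl
  have h1 := chain (uu (fun v : Fin (κ + 1 + 1) → Ω => c.y (v 0)) w) ((1 / 2 : ℝ) ^ s)
    (by positivity) (κ + 1) (fun l hl => not_lt.mp (hE l hl))
  rw [hY] at h1
  refine h1.trans (mx_le Y _ ?_)
  have abs1 : ∀ p q : ℝ, 0 ≤ p ∧ p < 1 → 0 ≤ q ∧ q < 1 → |p - q| ≤ 1 := by
    intro p q hp hq
    rw [abs_le]; constructor <;> linarith only [hp, hq]
  refine hC0 X Y (fun l => c.t (w 0 l)) o.J (fun l => o.Γ (w 0 l)) ((1 / 2) ^ n) δ
    (fun j i => abs1 _ _ (hx _ _) (hx _ _)) (fun j i => abs1 _ _ (hy _ _) (hy _ _))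
    (fun i => by
      have := ht (w 0 i)
      rw [abs_le]; constructor <;> linarith only [this]) o.card
    (fun l i j => o.bd _ _ _) (by positivity) hδ hsep ?_
  intro l j i hi
  have hWW := s1 j.succ
  unfold WW at hWW
  simp only [Prod.mk.injEq] at hWW
  obtain ⟨w1, w2, w3⟩ := hWW
  have e1 : fl n (o.F c (w j.succ l)) = fl n (o.F c (w 0 l)) := congrFun w1 l
  have e2 := congrFun w2 l
  simp only [Prod.mk.injEq] at e2
  obtain ⟨e2, e3⟩ := e2
  have e4 := o.fn _ _ e3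
  have k1 := s3 j.succ l
  have k2 := s3 0 l
  unfold key at k1 k2
  simp only [Prod.mk.injEq] at k1 k2
  obtain ⟨k11, k12, -, -⟩ := k1
  obtain ⟨k21, k22, -, -⟩ := k2
  have F1 : o.F c (w j.succ l) i = (c.x (w j.succ 0) i + c.t (w 0 l) * c.y (w j.succ 0) i) -
      ∑ j' ∈ o.J, o.Γ (w 0 l) i j' *
        (c.x (w j.succ 0) j' + c.t (w 0 l) * c.y (w j.succ 0) j') := by
    unfold Ob.F Ob.app Cf.pt
    rw [if_neg hi, e4, e2, k11, k12]
  have F2 : o.F c (w 0 l) i = (c.x (w 0 0) i + c.t (w 0 l) * c.y (w 0 0) i) -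
      ∑ j' ∈ o.J, o.Γ (w 0 l) i j' * (c.x (w 0 0) j' + c.t (w 0 l) * c.y (w 0 0) j') := by
    unfold Ob.F Ob.app Cf.pt
    rw [if_neg hi, k21, k22]
  have e5 : |2 ^ n * o.F c (w j.succ l) i - 2 ^ n * o.F c (w 0 l) i| < 1 :=
    Int.abs_sub_lt_one_of_floor_eq_floor (congrFun e1 i)
  have e6 : (X j i + c.t (w 0 l) * Y j i) -
      ∑ j' ∈ o.J, o.Γ (w 0 l) i j' * (X j j' + c.t (w 0 l) * Y j j') =
      o.F c (w j.succ l) i - o.F c (w 0 l) i := by
    rw [F1, F2]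
    have : ∑ j' ∈ o.J, o.Γ (w 0 l) i j' * (X j j' + c.t (w 0 l) * Y j j') =
        ∑ j' ∈ o.J, o.Γ (w 0 l) i j' *
          (c.x (w j.succ 0) j' + c.t (w 0 l) * c.y (w j.succ 0) j') -
        ∑ j' ∈ o.J, o.Γ (w 0 l) i j' * (c.x (w 0 0) j' + c.t (w 0 l) * c.y (w 0 0) j') := by
      rw [← Finset.sum_sub_distrib]
      refine Finset.sum_congr rfl fun j' _ => ?_
      simp only [X, Y]
      ring
    rw [this]
    simp only [X, Y]
    ring
  show |(X j i + c.t (w 0 l) * Y j i) -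
      ∑ j' ∈ o.J, o.Γ (w 0 l) i j' * (X j j' + c.t (w 0 l) * Y j j')| ≤ _
  rw [e6]
  have h2n : (0 : ℝ) < 2 ^ n := by positivity
  rw [← mul_sub, abs_mul, abs_of_pos h2n] at e5
  have e7 : (2 : ℝ) ^ n * (1 / 2) ^ n = 1 := by rw [← mul_pow]; norm_num
  have e8 : (2 : ℝ) ^ n * |o.F c (w j.succ l) i - o.F c (w 0 l) i| ≤ 2 ^ n * (1 / 2) ^ n := by
    rw [e7]; exact e5.le
  exact le_of_mul_le_mul_left e8 h2n

/-- the upper bound on the complement of a coincidence -/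
theorem up_aux {P : Law Ω} {c : Cf Ω m} {o : Ob Ω m κ} {n s a N : ℕ} {p0 K up : ℝ}
    (hp0 : 0 < p0) (hK : 1 / p0 ≤ K)
    (hU : ∀ (Ω' : Type) [Fintype Ω'] (Q : Law Ω') (π : Ω' → Ω), Dom Q π P K →
      hc Q (fun ω => (fl s (c.x (π ω)), fl s (c.y (π ω))))
          (fun ω => (fl n (o.F c (π ω)), c.t (π ω), o.G (π ω), c.A (π ω))) ≤ up)
    {Q : Law (Fin (N + 1) → Ω)} (hQ : ∀ w, Q.w w = cw P (key c a) N w)
    {Q2 : Law (Fin (N + 1) → (Fin (N + 1) → Ω))}
    (hQ2 : ∀ w, Q2.w w = cw Q (WW c o n) N w) (i : Fin (N + 1))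
    (E : (Fin (N + 1) → (Fin (N + 1) → Ω)) → Prop) (hE : p0 ≤ prE Q2 E) :
    hc (on Q2 E) (fun w => fl s (c.y (w i 0))) (fun w => WW c o n (w i)) ≤ up := by
  have d1 : Dom (on Q2 E) id Q2 (1 / p0) := Dom.on hp0 hE
  have d2 : Dom Q2 (fun w => w i) Q 1 := fun v => by rw [cw_marg hQ2 i v, one_mul]
  have d3 : Dom Q (fun v => v 0) P 1 := fun v => by rw [cw_marg hQ 0 v, one_mul]
  have d4 : Dom (on Q2 E) ((fun v : Fin (N + 1) → Ω => v 0) ∘
      ((fun w : Fin (N + 1) → (Fin (N + 1) → Ω) => w i) ∘ id)) P (1 / p0 * 1 * 1) :=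
    Dom.comp (Dom.comp d1 d2) d3
  have d5 : Dom (on Q2 E) (fun w : Fin (N + 1) → (Fin (N + 1) → Ω) => w i 0) P K := by
    refine Dom.mono ?_ (show 1 / p0 * 1 * 1 ≤ K by simpa only [one_div, mul_one] using hK)
    exact d4
  have h0 := hU _ (on Q2 E) (fun w => w i 0) d5
  refine le_trans ?_ h0
  have h1 : hc (on Q2 E) (fun w => fl s (c.y (w i 0))) (fun w => WW c o n (w i)) ≤
      hc (on Q2 E) (fun w => (fl s (c.x (w i 0)), fl s (c.y (w i 0))))
        (fun w => WW c o n (w i)) := by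
    refine hc_mono_left _ ?_
    intro w w' _ _ h
    exact congrArg (fun p => p.1.2) h
  refine h1.trans ?_
  refine hc_mono_right _ _ ?_
  intro w w' _ _ h
  unfold WW at h
  simp only [Prod.mk.injEq] at h
  obtain ⟨h1, h2, h3⟩ := h
  have h4 := congrFun h1 0
  have h5 := congrFun h2 0
  simp only [Prod.mk.injEq] at h4 h5
  simp only [Prod.mk.injEq]
  exact ⟨h4, h5.1, h5.2, h3⟩

end Vale.Agent.P127.Stk.EndP
end

section

set_option linter.all false

/-!
# P127 / Stk / END, part E : the contradiction at fixed parameters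
-/

namespace Vale.Agent.P127.Stk.EndP

open Finset Vale.Agent.P127

variable {Ω : Type} [Fintype Ω] {m κ : ℕ}

/-- the coincidences are rare -/
theorem fin_EE [NeZero m] {P : Law Ω} {c : Cf Ω m} {o : Ob Ω m κ} {L a n s : ℕ}
    {e C σ q p0 Gm : ℝ} (hg : Good P c L e C) (hsL : s ≤ L)
    (H1 : (κ + σ) * s * Real.log 2 - Gm ≤ hc P (fun ω => (fl s (c.x ω), fl s (c.y ω)))
      (fun ω => (fl n (o.F c ω), c.t ω, o.G ω, c.A ω)))
    (H2 : mi P (fun ω => (c.x ω, c.y ω)) o.G (fun ω => (c.t ω, c.A ω)) ≤ Gm)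
    (H3 : ∀ Q : Law (Fin 2 → Ω), (∀ w, Q.w w = cw P (key c a) 1 w) →
        hc Q (fun w => fl n (o.F c (w 1)))
          (fun w => (fl n (o.F c (w 0)), (fun i => (c.t (w i), o.G (w i))), c.A (w 0))) ≤ Gm)
    (HU : ∀ (Ω' : Type) [Fintype Ω'] (Q : Law Ω') (π : Ω' → Ω), Dom Q π P (1 / p0) →
      hc Q (fun ω => (fl s (c.x (π ω)), fl s (c.y (π ω))))
          (fun ω => (fl n (o.F c (π ω)), c.t (π ω), o.G (π ω), c.A (π ω))) ≤
        (κ + σ) * s * Real.log 2 + Gm)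
    (hGm : 0 ≤ Gm) (he : e ≤ Gm) (hC : C ≤ Gm) (hp0 : 0 < p0) (hp0m : p0 * m ≤ σ / 2)
    (hσs : 0 < σ * s * Real.log 2) (hq2 : q < 1 / 2)
    (hG : (3 * κ + 11) * Gm + Gm + Real.log 2 + m * Real.log (κ + 3) ≤
      q * (σ * s * Real.log 2))
    {Q : Law (Fin (κ + 1 + 1) → Ω)} (hQ : ∀ w, Q.w w = cw P (key c a) (κ + 1) w)
    {Q2 : Law (Fin (κ + 1 + 1) → (Fin (κ + 1 + 1) → Ω))}
    (hQ2 : ∀ w, Q2.w w = cw Q (WW c o n) (κ + 1) w) (l : ℕ) (hl : l < κ + 1) :
    prE Q2 (EE (fun v : Fin (κ + 1 + 1) → Ω => c.y (v 0)) s l) ≤ q := by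
  have hlow := low hg (N := κ + 1) hsL hGm H1 H2 H3 Q hQ
  have hlow' : (κ + σ) * s * Real.log 2 - (3 * κ + 11) * Gm ≤
      hc Q (fun w => fl s (c.y (w 0))) (WW c o n) := by
    refine le_trans ?_ hlow
    push_cast
    have e2 : ((κ : ℝ) + 1 + 2) * (C + Gm) ≤ (κ + 3) * (2 * Gm) := by
      have : C + Gm ≤ 2 * Gm := by linarith only [hC]
      calc ((κ : ℝ) + 1 + 2) * (C + Gm) = (κ + 3) * (C + Gm) := by ring
        _ ≤ _ := mul_le_mul_of_nonneg_left this (by (clear * -; positivity))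
    linarith only [he, e2]
  have hl' : l + 1 < κ + 1 + 1 := by omega
  refine ev_small (fun v i => hg.y01 (v 0) i) hQ2 hlow' l hl' (by omega) ?_ hσs
      hGm hq2 hp0m hG
  intro hp
  exact up_aux hp0 le_rfl HU hQ hQ2 ⟨l + 1, hl'⟩ _ hp

/-- the times are separated -/
theorem fin_sep {P : Law Ω} {c : Cf Ω m} {o : Ob Ω m κ} {L a n d : ℕ} {εu : ℝ}
    (hunif : ((L : ℝ) - a) * Real.log 2 - εu ≤
      hc P (fun ω => fl1 L (c.t ω)) (fun ω => (fl1 a (c.t ω), c.x ω, c.y ω, c.A ω)))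
    (hεu : εu ≤ 1 / 2) (hd : a + d ≤ L) (hdl : 16 * ((κ : ℝ) + 2) ^ 2 + 2 ≤ d)
    {Q : Law (Fin (κ + 1 + 1) → Ω)} (hQ : ∀ w, Q.w w = cw P (key c a) (κ + 1) w)
    {Q2 : Law (Fin (κ + 1 + 1) → (Fin (κ + 1 + 1) → Ω))}
    (hQ2 : ∀ w, Q2.w w = cw Q (WW c o n) (κ + 1) w) {i j : Fin (κ + 1 + 1)} (hij : i ≠ j) :
    prE Q2 (fun w => |c.t (w 0 i) - c.t (w 0 j)| < (1 / 2 : ℝ) ^ (a + d)) ≤
        1 / (4 * ((κ : ℝ) + 2) ^ 2) := by
  have hb : 0 < Real.log 2 := Real.log_pos (by norm_num)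
  have hb1 : (1 : ℝ) / 2 ≤ Real.log 2 := by
    have := Real.log_two_gt_d9
    linarith only [this]
  have e1 := sep hunif hd hQ hij
  have e2 := prE_comp (fun v => cw_marg hQ2 0 v)
    (fun w : Fin (κ + 1 + 1) → Ω => |c.t (w i) - c.t (w j)| < (1 / 2 : ℝ) ^ (a + d))
  rw [e2]
  generalize prE Q (fun w : Fin (κ + 1 + 1) → Ω =>
    |c.t (w i) - c.t (w j)| < (1 / 2 : ℝ) ^ (a + d)) = p at e1 ⊢
  by_cases hp : 0 ≤ p
  · have e4 : p * (16 * ((κ : ℝ) + 2) ^ 2) * Real.log 2 ≤ Real.log 2 + εu := by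
      refine le_trans ?_ e1
      have : p * (16 * ((κ : ℝ) + 2) ^ 2) ≤ p * ((d : ℝ) - 2) :=
        mul_le_mul_of_nonneg_left (by linarith only [hdl]) hp
      calc p * (16 * ((κ : ℝ) + 2) ^ 2) * Real.log 2 ≤ p * ((d : ℝ) - 2) * Real.log 2 :=
            mul_le_mul_of_nonneg_right this hb.le
        _ = _ := by ring
    have e5 : p * (16 * ((κ : ℝ) + 2) ^ 2) * Real.log 2 ≤ 4 * Real.log 2 := by linarith only [hεu, hb1, e4]
    have e6 : p * (16 * ((κ : ℝ) + 2) ^ 2) ≤ 4 := le_of_mul_le_mul_right e5 hb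
    rw [le_div_iff₀ (by (clear * -; positivity))]
    linarith only [e6]
  · exact (not_le.mp hp).le.trans (by (clear * -; positivity))

/-- there is a sample without coincidences and with separated times -/
theorem fin_exists {X : Type} [Fintype X] (Q2 : Law X) (κ : ℕ) (E1 : ℕ → X → Prop)
    (E2 : Fin (κ + 1 + 1) → Fin (κ + 1 + 1) → X → Prop)
    (h1 : ∀ l < κ + 1, prE Q2 (E1 l) ≤ 1 / (4 * ((κ : ℝ) + 1)))
    (h2 : ∀ i j, i ≠ j → prE Q2 (E2 i j) ≤ 1 / (4 * ((κ : ℝ) + 2) ^ 2)) :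
    ∃ w, 0 < Q2.w w ∧ (∀ l < κ + 1, ¬ E1 l w) ∧ ∀ i j, i ≠ j → ¬ E2 i j w := by
  classical
  let prs : Finset (Fin (κ + 1 + 1) × Fin (κ + 1 + 1)) := Finset.univ.filter fun p => p.1 ≠ p.2
  let idx : Finset (ℕ ⊕ (Fin (κ + 1 + 1) × Fin (κ + 1 + 1))) :=
    (Finset.range (κ + 1)).disjSum prs
  let Ev' : ℕ ⊕ (Fin (κ + 1 + 1) × Fin (κ + 1 + 1)) → X → Prop :=
    Sum.elim E1 (fun p => E2 p.1 p.2)
  have hsum : ∑ i ∈ idx, prE Q2 (Ev' i) < 1 := by
    rw [Finset.sum_disjSum]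
    have s1 : ∑ l ∈ Finset.range (κ + 1), prE Q2 (Ev' (Sum.inl l)) ≤ 1 / 4 := by
      calc ∑ l ∈ Finset.range (κ + 1), prE Q2 (Ev' (Sum.inl l)) ≤
            ∑ l ∈ Finset.range (κ + 1), (1 / (4 * ((κ : ℝ) + 1))) :=
              Finset.sum_le_sum fun l hl => h1 l (Finset.mem_range.mp hl)
        _ = 1 / 4 := by
            rw [Finset.sum_const, Finset.card_range, nsmul_eq_mul]
            push_cast
            field_simp
    have s2 : ∑ p ∈ prs, prE Q2 (Ev' (Sum.inr p)) ≤ 1 / 4 := by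
      calc ∑ p ∈ prs, prE Q2 (Ev' (Sum.inr p)) ≤
          ∑ p ∈ prs, (1 / (4 * ((κ : ℝ) + 2) ^ 2)) :=
            Finset.sum_le_sum fun p hp => h2 p.1 p.2 (Finset.mem_filter.mp hp).2
        _ ≤ ∑ p : Fin (κ + 1 + 1) × Fin (κ + 1 + 1), (1 / (4 * ((κ : ℝ) + 2) ^ 2)) :=
            Finset.sum_le_sum_of_subset_of_nonneg (Finset.filter_subset _ _)
              fun _ _ _ => by (clear * -; positivity)
        _ = 1 / 4 := by
            rw [Finset.sum_const, Finset.card_univ, Fintype.card_prod, Fintype.card_fin,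
              nsmul_eq_mul]
            have : ((κ : ℝ) + 2) ≠ 0 := by positivity
            push_cast
            field_simp
            ring
    linarith only [s1, s2]
  obtain ⟨w, hw, hgood⟩ := exists_good idx Q2 Ev' hsum
  refine ⟨w, hw, fun l hl => ?_, fun i j hij => ?_⟩
  · exact hgood (Sum.inl l) (Finset.inl_mem_disjSum.mpr (Finset.mem_range.mpr hl))
  · exact hgood (Sum.inr (i, j)) (Finset.inr_mem_disjSum.mpr
      (Finset.mem_filter.mpr ⟨Finset.mem_univ _, hij⟩))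

theorem fin_size {C0 : ℝ} (hC00 : 0 ≤ C0) {k0 κ s a d n : ℕ} (hk0 : C0 < 2 ^ k0)
    (hsz : (κ + 1) * (s + (a + d)) + k0 ≤ n) :
    C0 * (1 / 2) ^ n / ((1 / 2 : ℝ) ^ (a + d)) ^ (κ + 1) < ((1 / 2 : ℝ) ^ s) ^ (κ + 1) := by
  rw [div_lt_iff₀ (by positivity), ← mul_pow, ← pow_add, ← pow_mul]
  have e1 : (1 / 2 : ℝ) ^ n ≤ (1 / 2) ^ ((κ + 1) * (s + (a + d)) + k0) :=
    pow_le_pow_of_le_one (by norm_num) (by norm_num) hsz
  have e2 : (s + (a + d)) * (κ + 1) = (κ + 1) * (s + (a + d)) := by ring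
  rw [e2]
  have e3 : (0 : ℝ) < (1 / 2) ^ ((κ + 1) * (s + (a + d))) := by positivity
  calc C0 * (1 / 2) ^ n ≤ C0 * (1 / 2) ^ ((κ + 1) * (s + (a + d)) + k0) :=
        mul_le_mul_of_nonneg_left e1 hC00
    _ < 2 ^ k0 * (1 / 2) ^ ((κ + 1) * (s + (a + d)) + k0) :=
        mul_lt_mul_of_pos_right hk0 (by positivity)
    _ = (1 / 2) ^ ((κ + 1) * (s + (a + d))) * (2 ^ k0 * (1 / 2) ^ k0) := by
        rw [pow_add]; ring
    _ = (1 / 2) ^ ((κ + 1) * (s + (a + d))) := by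
        rw [← mul_pow]; norm_num

/-- the contradiction at fixed parameters -/
theorem fin_contra [NeZero m] {P : Law Ω} {c : Cf Ω m} {o : Ob Ω m κ} {L a n s d k0 : ℕ}
    {e C σ p0 Gm εu C0 : ℝ} (hg : Good P c L e C) (hsL : s ≤ L)
    (H1 : (κ + σ) * s * Real.log 2 - Gm ≤ hc P (fun ω => (fl s (c.x ω), fl s (c.y ω)))
      (fun ω => (fl n (o.F c ω), c.t ω, o.G ω, c.A ω)))
    (H2 : mi P (fun ω => (c.x ω, c.y ω)) o.G (fun ω => (c.t ω, c.A ω)) ≤ Gm)
    (H3 : ∀ Q : Law (Fin 2 → Ω), (∀ w, Q.w w = cw P (key c a) 1 w) →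
        hc Q (fun w => fl n (o.F c (w 1)))
          (fun w => (fl n (o.F c (w 0)), (fun i => (c.t (w i), o.G (w i))), c.A (w 0))) ≤ Gm)
    (HU : ∀ (Ω' : Type) [Fintype Ω'] (Q : Law Ω') (π : Ω' → Ω), Dom Q π P (1 / p0) →
      hc Q (fun ω => (fl s (c.x (π ω)), fl s (c.y (π ω))))
          (fun ω => (fl n (o.F c (π ω)), c.t (π ω), o.G (π ω), c.A (π ω))) ≤
        (κ + σ) * s * Real.log 2 + Gm)
    (hGm : 0 ≤ Gm) (he : e ≤ Gm) (hC : C ≤ Gm) (hp0 : 0 < p0) (hp0m : p0 * m ≤ σ / 2)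
    (hσs : 0 < σ * s * Real.log 2)
    (hG : (3 * κ + 11) * Gm + Gm + Real.log 2 + m * Real.log (κ + 3) ≤
      1 / (4 * ((κ : ℝ) + 1)) * (σ * s * Real.log 2))
    (hunif : ((L : ℝ) - a) * Real.log 2 - εu ≤
      hc P (fun ω => fl1 L (c.t ω)) (fun ω => (fl1 a (c.t ω), c.x ω, c.y ω, c.A ω)))
    (hεu : εu ≤ 1 / 2) (hd : a + d ≤ L) (hdl : 16 * ((κ : ℝ) + 2) ^ 2 + 2 ≤ d)
    (hC0 : ∀ (X Y : Fin (κ + 1) → Fin m → ℝ)
      (t : Fin (κ + 2) → ℝ) (J : Finset (Fin m)) (Γ : Fin (κ + 2) → Fin m → Fin m → ℝ) (ρ δ : ℝ),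
      (∀ j i, |X j i| ≤ 1) → (∀ j i, |Y j i| ≤ 1) → (∀ i, |t i| ≤ 1) → J.card = κ →
      (∀ l i j, |Γ l i j| ≤ 3 ^ κ) → 0 ≤ ρ → 0 < δ → (∀ i l, i ≠ l → δ ≤ |t i - t l|) →
      (∀ l j i, i ∉ J →
        |(X j i + t l * Y j i) - ∑ j' ∈ J, Γ l i j' * (X j j' + t l * Y j j')| ≤ ρ) →
      ∀ I : Fin (κ + 1) → Fin m,
        |(Matrix.of fun a b => Y a (I b)).det| ≤ C0 * ρ / δ ^ (κ + 1))
    (hC00 : 0 ≤ C0) (hk0 : C0 < 2 ^ k0)
    (hsz : (κ + 1) * (s + (a + d)) + k0 ≤ n) : False := by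
  obtain ⟨Q, hQ⟩ := cw_exists P (key c a) (κ + 1)
  obtain ⟨Q2, hQ2⟩ := cw_exists Q (WW c o n : (Fin (κ + 1 + 1) → Ω) → _) (κ + 1)
  have hq2 : 1 / (4 * ((κ : ℝ) + 1)) < 1 / 2 := by
    rw [div_lt_div_iff₀ (by (clear * -; positivity)) (by norm_num)]
    have : (0 : ℝ) ≤ κ := by (clear * -; positivity)
    linarith only []
  obtain ⟨w, hw, hE, hS⟩ := fin_exists Q2 κ
    (fun l => EE (fun v : Fin (κ + 1 + 1) → Ω => c.y (v 0)) s l)
    (fun i j w => |c.t (w 0 i) - c.t (w 0 j)| < (1 / 2 : ℝ) ^ (a + d))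
    (fun l hl => fin_EE hg hsL H1 H2 H3 HU hGm he hC hp0 hp0m hσs hq2 hG hQ hQ2 l hl)
    (fun i j hij => fin_sep hunif hεu hd hdl hQ hQ2 hij)
  have hfin := det_contra hg.x01 hg.y01 hg.t01 hQ hQ2 hw
    (show (0 : ℝ) < (1 / 2) ^ (a + d) by positivity)
    (fun i j hij => not_lt.mp (hS i j hij)) hE hC0
  exact absurd hfin (not_le.mpr (fin_size hC00 hk0 hsz))

end Vale.Agent.P127.Stk.EndP
end

section

/-!
# P127 / Stk / Kill: the killing lemma in the form of the interface of StepC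
-/

namespace Vale.Agent.P127.Stk

open Finset Vale.Agent.P127

theorem kill_flat (R : Gr) {m : ℕ} {h : ℝ} {κ : ℕ} (hN : NK R m h (κ + 1)) {η : ℝ}
    (hη : 0 < η) : ∃ δ : ℝ, 0 < δ ∧ ∀ (K : ℝ) (g : R.G), ∃ n : ℕ, ∀ (L : ℕ) (e C : ℝ),
    R.ok g n L e C →
  ∀ (Ω Ω' D : Type) [Fintype Ω] [Fintype Ω'] (P : Law Ω) (c : Cf Ω m) (o : Ob Ω m κ)
    (Q : Law Ω') (π : Ω' → Ω) (Dt : Ω' → D) (r r' : ℕ) (i0 : Fin m) (v : Ω' → Fin m → ℝ),
    Good P c L e C → Dom Q π P K → r ≤ r' → r' ≤ L → η * L ≤ (r' : ℝ) - r →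
    i0 ∉ o.J → Fn Q (fun ω => o.Γ (π ω)) Dt → Fn Q v Dt →
    (∀ ω, 0 < Q.w ω → v ω i0 = 1 ∧ (∀ i, |v ω i| ≤ 1) ∧ ∀ j ∈ o.J, v ω j = 0) →
    mi Q (fun ω => (c.x (π ω), c.y (π ω))) Dt
      (fun ω => (c.t (π ω), c.A (π ω), fl r (c.x (π ω)), fl r (c.y (π ω)))) ≤ δ * L →
    hc Q (fun ω => fl r' (fun i => o.F c (π ω) i - o.F c (π ω) i0 * v ω i))
      (fun ω => (fl r (c.x (π ω)), fl r (c.y (π ω)), c.t (π ω), Dt ω, c.A (π ω))) ≤
      (h - κ - 1) * ((r' : ℝ) - r) * Real.log 2 + δ * L → False := by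
  obtain ⟨δ, hδ, H⟩ := kill R hN hη
  refine ⟨δ, hδ, fun K g => ?_⟩
  obtain ⟨n, hn⟩ := H K g
  refine ⟨n, fun L e C hok => ?_⟩
  intro Ω Ω' D _ _ P c o Q π Dt r r' i0 v hG hQ h1 h2 h3 h4 h5 h6 h7 h8 h9
  have h10 := hn L e C hok Ω P c o hG Ω' Q π hQ D Dt r r' v i0 h1 h2 h3 h4 h5 h6
    (fun ω hω => ⟨(h7 ω hω).2.2, (h7 ω hω).1, (h7 ω hω).2.1⟩) h8
  have h11 : hc Q (fun ω => fl r' (fun i => o.F c (π ω) i - o.F c (π ω) i0 * v ω i))
      (fun ω => ((fl r (c.x (π ω)), fl r (c.y (π ω))), c.t (π ω), Dt ω, c.A (π ω))) ≤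
      hc Q (fun ω => fl r' (fun i => o.F c (π ω) i - o.F c (π ω) i0 * v ω i))
      (fun ω => (fl r (c.x (π ω)), fl r (c.y (π ω)), c.t (π ω), Dt ω, c.A (π ω))) :=
    kl_hc_right Q _ fun ω ω' _ _ he => by
      simp only [Prod.mk.injEq] at he ⊢
      exact ⟨he.1.1, he.1.2, he.2.1, he.2.2.1, he.2.2.2⟩
  linarith only [h9, h10, h11]

end Vale.Agent.P127.Stk
end
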