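import Vale.Agent.P127.Bdl.B5
import Vale.Agent.P127.Bdl.B8
import Vale.Agent.P127.Bdl.B1
import Vale.Agent.P127.Bdl.B7
import Vale.Agent.P127.Bdl.B6
import Vale.Agent.P127.Bdl.B3
import Vale.Agent.P127.Bdl.B4
import Vale.Agent.P127.StDefs

set_option linter.all false

section

/-!
# P127 / Stk : section 6, the base case
-/

namespace Vale.Agent.P127.Stk

open Finset Vale.Agent.P127

/-- section 6: `CK 0` and `RK 1` -/
theorem pBase (R : Gr) : PBase R :=
  Bs.base_of_kill R fun _ _ _ hN _ hη => kill R hN hη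

end Vale.Agent.P127.Stk
end

section

set_option linter.all false

/-!
# P127 / Stk / END, part F : `PEnd` from the rates R5
-/

namespace Vale.Agent.P127.Stk.EndP

open Finset Vale.Agent.P127

theorem small' (R : Gr) (g : R.G) (κ : ℕ) (ε : ℝ) (hε : 0 < ε) (A : ℝ) :
    ∃ n, ∀ (a : ℕ) e C, R.ok g n ((κ + 4) * a) e C →
      A ≤ a ∧ e ≤ ε * ((κ + 4) * a : ℕ) ∧ C ≤ ε * ((κ + 4) * a : ℕ) ∧
        A ≤ ε * ((κ + 4) * a : ℕ) := by
  obtain ⟨n1, h1⟩ := R.small g ε hε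
  have hA : 0 < 1 / ((|A| + 1) * (κ + 4)) := by positivity
  obtain ⟨n2, h2⟩ := R.small g _ hA
  have hA' : 0 < ε / (|A| + 1) := by positivity
  obtain ⟨n3, h3⟩ := R.small g _ hA'
  refine ⟨max n1 (max n2 n3), ?_⟩
  intro a e C hok
  have k1 := h1 _ _ _ (R.anti g n1 _ _ _ _ (le_max_left _ _) hok)
  have k2 := h2 _ _ _ (R.anti g n2 _ _ _ _ ((le_max_left _ _).trans (le_max_right _ _)) hok)
  have k3 := h3 _ _ _ (R.anti g n3 _ _ _ _ ((le_max_right _ _).trans (le_max_right _ _)) hok)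
  refine ⟨?_, k1.2.1, k1.2.2, ?_⟩
  · have h := k2.1
    push_cast at h
    rw [div_mul_eq_mul_div, one_mul, le_div_iff₀ (by (clear * -; positivity)), one_mul] at h
    have h4 : |A| + 1 ≤ a := by
      have : (|A| + 1) * ((κ : ℝ) + 4) ≤ a * ((κ : ℝ) + 4) := by (clear * - h; linarith)
      exact le_of_mul_le_mul_right this (by (clear * -; positivity))
    linarith only [h4, le_abs_self A]
  · have h := k3.1
    rw [div_mul_eq_mul_div, le_div_iff₀ (by (clear * -; positivity)), one_mul] at h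
    linarith only [h, le_abs_self A]

/-- the choice of the scales -/
theorem scales (κ a k0 : ℕ) (G : ℝ) (hG : 0 ≤ G) (hGa : 8 * G ≤ a)
    (ha : 4 * ((κ : ℝ) + 2) * (16 * (κ + 2) ^ 2 + 3) + 8 * k0 + 8 * κ + 16 ≤ a) :
    ∃ n s d : ℕ, s ≤ n ∧ n ≤ (κ + 4) * a ∧ (n : ℝ) + G ≤ (κ + 2) * a ∧ a + d ≤ (κ + 4) * a ∧
      (a : ℝ) ≤ s * (8 * κ + 8) ∧ 16 * ((κ : ℝ) + 2) ^ 2 + 2 ≤ d ∧
      (κ + 1) * (s + (a + d)) + k0 ≤ n := by
  have hpos1 : (0 : ℝ) ≤ 4 * (κ + 2) * (16 * (κ + 2) ^ 2 + 3) := by positivity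
  have hpos2 : (0 : ℝ) ≤ k0 := by positivity
  have hpos3 : (0 : ℝ) ≤ κ := by positivity
  have hz2 := Nat.ceil_lt_add_one hG
  have hz1 : G ≤ ⌈G⌉₊ := Nat.le_ceil _
  generalize ⌈G⌉₊ = z at hz1 hz2
  have hz4 : 8 * z ≤ a + 8 := by
    have : (8 * z : ℝ) ≤ a + 8 := by linarith only [hGa, hz2]
    exact_mod_cast this
  have ha1 : 8 * k0 + 8 * κ + 16 ≤ a := by
    have : (8 * k0 + 8 * κ + 16 : ℝ) ≤ a := by linarith only [ha, hpos1]
    exact_mod_cast this
  have hza : z ≤ a := by omega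
  have hza2 : z ≤ (κ + 2) * a := hza.trans (Nat.le_mul_of_pos_left a (by (clear * -; omega)))
  obtain ⟨n, hnz⟩ : ∃ n, n + z = (κ + 2) * a := ⟨(κ + 2) * a - z, Nat.sub_add_cancel hza2⟩
  have hs1 : 4 * (κ + 1) * (a / (4 * (κ + 1))) ≤ a := Nat.mul_div_le a _
  have hd1 : 4 * (κ + 2) * (a / (4 * (κ + 2))) ≤ a := Nat.mul_div_le a _
  have hs2 := Nat.lt_mul_div_succ a (show 0 < 4 * (κ + 1) by (clear * -; omega))
  have hd2 := Nat.lt_mul_div_succ a (show 0 < 4 * (κ + 2) by (clear * -; omega))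
  have hda : a / (4 * (κ + 2)) ≤ a := Nat.div_le_self _ _
  generalize a / (4 * (κ + 1)) = s at hs1 hs2
  generalize a / (4 * (κ + 2)) = d at hd1 hd2 hda
  refine ⟨n, s, d, ?_, ?_, ?_, ?_, ?_, ?_, ?_⟩
  · have e1 : 4 * s ≤ a := by
      calc 4 * s = 4 * 1 * s := by ring
        _ ≤ 4 * (κ + 1) * s := by
          apply Nat.mul_le_mul_right; (clear * -; omega)
        _ ≤ a := hs1
    have e2 : 2 * a ≤ (κ + 2) * a := Nat.mul_le_mul_right _ (by (clear * -; omega))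
    omega
  · calc n ≤ (κ + 2) * a := by (clear * - hnz; omega)
      _ ≤ (κ + 4) * a := Nat.mul_le_mul_right _ (by omega)
  · have : ((n + z : ℕ) : ℝ) = (((κ + 2) * a : ℕ) : ℝ) := by rw [hnz]
    push_cast at this
    linarith only [hz1, this]
  · have : (κ + 4) * a = (κ + 2) * a + 2 * a := by ring
    omega
  · have e1 : (a : ℝ) < 4 * (κ + 1) * (s + 1) := by exact_mod_cast hs2
    have e2 : (8 * κ + 8 : ℝ) ≤ a := by linarith only [ha, hpos1]
    have e3 : (4 * (κ + 1) * (s + 1) : ℝ) = s * (8 * κ + 8) / 2 + (8 * κ + 8) / 2 := by ring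
    linarith only [ha, hpos1, e1]
  · have e1 : (a : ℝ) < 4 * (κ + 2) * (d + 1) := by exact_mod_cast hd2
    have e3 : 4 * ((κ : ℝ) + 2) * (16 * (κ + 2) ^ 2 + 3) < 4 * (κ + 2) * (d + 1) := by linarith only [ha, e1]
    have e4 := lt_of_mul_lt_mul_left e3 (by (clear * -; positivity))
    linarith only [e4]
  · have e2 : 4 * ((κ + 1) * s) ≤ a := by
      calc 4 * ((κ + 1) * s) = 4 * (κ + 1) * s := by ring
        _ ≤ a := hs1
    have e3 : 4 * ((κ + 1) * d) ≤ a := by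
      calc 4 * ((κ + 1) * d) = 4 * (κ + 1) * d := by ring
        _ ≤ 4 * (κ + 2) * d := Nat.mul_le_mul_right _ (by (clear * -; omega))
        _ ≤ a := hd1
    have e4 : (κ + 1) * (s + (a + d)) = (κ + 1) * s + ((κ + 1) * a + (κ + 1) * d) := by ring
    have e5 : n + z = (κ + 1) * a + a := by rw [hnz]; ring
    omega

theorem Hyp.mono' {Ω : Type} [Fintype Ω] {m : ℕ} {h : ℝ} {κ a : ℕ} {ι ι' εu εu' e C : ℝ}
    {P : Law Ω} {c : Cf Ω m} {o : Ob Ω m κ} (hyp : Hyp h κ a ι εu e C P c o) (h1 : ι ≤ ι')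
    (h2 : εu ≤ εu') : Hyp h κ a ι' εu' e C P c o := by
  have hb : 0 < Real.log 2 := Real.log_pos (by norm_num)
  refine ⟨hyp.good, hyp.cost.trans ?_, hyp.rate.trans ?_, ?_⟩
  · exact mul_le_mul_of_nonneg_right h1 (Nat.cast_nonneg _)
  · refine mul_le_mul_of_nonneg_right (mul_le_mul_of_nonneg_right ?_ (Nat.cast_nonneg _)) hb.le
    linarith only [h1]
  · exact le_trans (by linarith) hyp.unif

/-- at fixed parameters, from the statements with quantifiers removed -/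
theorem fin_params {Ω : Type} [Fintype Ω] {m κ : ℕ} [NeZero m] {P : Law Ω} {c : Cf Ω m}
    {o : Ob Ω m κ} {h : ℝ} (hm : h < m) {a k0 : ℕ} {e C γ ι εu p0 C0 : ℝ}
    (hγ0 : 0 < γ) (hγ1 : γ * ((3 * κ + 13) * (κ + 4) * (8 * κ + 8)) ≤
      1 / (4 * ((κ : ℝ) + 1)) * (m - h) * Real.log 2)
    (hγ2 : γ * (8 * (κ + 4)) ≤ 1)
    (hp0 : 0 < p0) (hp0m : p0 * m ≤ (m - h) / 2)
    (hyp : Hyp h κ a ι εu e C P c o) (hι : ι ≤ γ) (hεu : εu ≤ 1 / 2)
    (hRK : ∀ Q : Law (Fin 2 → Ω), (∀ w, Q.w w = cw P (key c a) 1 w) →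
      ∀ s : ℕ, (s : ℝ) + γ * ((κ + 4) * a : ℕ) ≤ (κ + 2 : ℕ) * a →
        hc Q (fun w => fl s (o.F c (w 1)))
          (fun w => (fl s (o.F c (w 0)), (fun i => (c.t (w i), o.G (w i))), c.A (w 0))) ≤
        γ * ((κ + 4) * a : ℕ))
    (hRL : ∀ s s' : ℕ, s ≤ s' → s' ≤ (κ + 4) * a →
        (m - (h - κ)) * s * Real.log 2 - γ * ((κ + 4) * a : ℕ) ≤
          hc P (fun ω => (fl s (c.x ω), fl s (c.y ω)))
            (fun ω => (fl s' (o.F c ω), c.t ω, o.G ω, c.A ω)))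
    (hRU : ∀ (Ω' : Type) [Fintype Ω'] (Q : Law Ω') (π : Ω' → Ω), Dom Q π P (1 / p0) →
      ∀ s s' : ℕ, s ≤ s' → s' ≤ (κ + 4) * a →
        hc Q (fun ω => (fl s (c.x (π ω)), fl s (c.y (π ω))))
          (fun ω => (fl s' (o.F c (π ω)), c.t (π ω), o.G (π ω), c.A (π ω))) ≤
        (m - (h - κ)) * s * Real.log 2 + γ * ((κ + 4) * a : ℕ))
    (he : e ≤ γ * ((κ + 4) * a : ℕ)) (hC : C ≤ γ * ((κ + 4) * a : ℕ))
    (hA1 : Real.log 2 + m * Real.log (κ + 3) ≤ γ * ((κ + 4) * a : ℕ))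
    (hA2 : 4 * ((κ : ℝ) + 2) * (16 * (κ + 2) ^ 2 + 3) + 8 * k0 + 8 * κ + 16 ≤ a)
    (hC0 : ∀ (X Y : Fin (κ + 1) → Fin m → ℝ)
      (t : Fin (κ + 2) → ℝ) (J : Finset (Fin m)) (Γ : Fin (κ + 2) → Fin m → Fin m → ℝ) (ρ δ : ℝ),
      (∀ j i, |X j i| ≤ 1) → (∀ j i, |Y j i| ≤ 1) → (∀ i, |t i| ≤ 1) → J.card = κ →
      (∀ l i j, |Γ l i j| ≤ 3 ^ κ) → 0 ≤ ρ → 0 < δ → (∀ i l, i ≠ l → δ ≤ |t i - t l|) →
      (∀ l j i, i ∉ J →
        |(X j i + t l * Y j i) - ∑ j' ∈ J, Γ l i j' * (X j j' + t l * Y j j')| ≤ ρ) →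
      ∀ I : Fin (κ + 1) → Fin m,
        |(Matrix.of fun a b => Y a (I b)).det| ≤ C0 * ρ / δ ^ (κ + 1))
    (hC00 : 0 ≤ C0) (hk0 : C0 < 2 ^ k0) : False := by
  have hb : 0 < Real.log 2 := Real.log_pos (by norm_num)
  have hpos3 : (0 : ℝ) ≤ κ := by (clear * -; positivity)
  have ha0 : (0 : ℝ) < a := by
    have : (0 : ℝ) ≤ 4 * (κ + 2) * (16 * (κ + 2) ^ 2 + 3) := by (clear * -; positivity)
    have : (0 : ℝ) ≤ k0 := by (clear * -; positivity)
    (clear P c o h hm e C γ ι εu p0 C0 hγ0 hγ1 hγ2 hp0 hp0m hyp hι hεu hRK hRL hRU he hC hA1 hC0 hC00 hk0 hb hpos3 this; linarith)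
  have hG0 : 0 ≤ γ * ((κ + 4) * a : ℕ) := by (clear * - hγ0; positivity)
  have hGa : 8 * (γ * ((κ + 4) * a : ℕ)) ≤ a := by
    have := mul_le_mul_of_nonneg_right hγ2 ha0.le
    push_cast
    linarith only [this]
  obtain ⟨n, s, d, hsn, hnL, hn, hdL, hsl, hdl, hsz⟩ := scales κ a k0 _ hG0 hGa hA2
  have hs0 : (0 : ℝ) < s := by
    by_contra hcon
    have : (s : ℝ) = 0 := le_antisymm (not_lt.mp hcon) (by (clear * -; positivity))
    rw [this, zero_mul] at hsl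
    linarith only [ha0, hsl]
  have hσ : 0 < (m : ℝ) - h := sub_pos.mpr hm
  have e1 : ((m : ℝ) - (h - κ)) = κ + (m - h) := by ring
  have H1 := hRL s n hsn hnL
  have HU := fun (Ω' : Type) [Fintype Ω'] (Q : Law Ω') (π : Ω' → Ω)
    (hD : Dom Q π P (1 / p0)) => hRU Ω' Q π hD s n hsn hnL
  rw [e1] at H1
  simp only [e1] at HU
  have hιG : ι * ((κ + 4) * a : ℕ) ≤ γ * ((κ + 4) * a : ℕ) :=
    mul_le_mul_of_nonneg_right hι (Nat.cast_nonneg _)
  refine fin_contra (k0 := k0) (C0 := C0) hyp.good (hsn.trans hnL) H1 (hyp.cost.trans hιG)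
    (fun Q hQ => hRK Q hQ n (by push_cast at hn ⊢; linarith only [hn])) HU hG0 he hC hp0 hp0m
    (by (clear * - hm hs0; positivity)) ?_ hyp.unif hεu hdL hdl hC0 hC00 hk0 hsz
  have f1 : (3 * κ + 11) * (γ * ((κ + 4) * a : ℕ)) + γ * ((κ + 4) * a : ℕ) + Real.log 2 +
      m * Real.log (κ + 3) ≤ (3 * κ + 13) * (γ * ((κ + 4) * a : ℕ)) := by
    linarith only [hA1]
  refine f1.trans ?_
  push_cast
  have f2 : γ * ((3 * κ + 13) * (κ + 4) * (8 * κ + 8)) * s ≤
      1 / (4 * ((κ : ℝ) + 1)) * (m - h) * Real.log 2 * s :=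
    mul_le_mul_of_nonneg_right hγ1 hs0.le
  have f3 : (3 * (κ : ℝ) + 13) * (γ * ((κ + 4) * a)) ≤
      (3 * κ + 13) * (γ * ((κ + 4) * (s * (8 * κ + 8)))) := by
    refine mul_le_mul_of_nonneg_left (mul_le_mul_of_nonneg_left
      (mul_le_mul_of_nonneg_left hsl (by (clear * -; positivity))) hγ0.le) (by (clear * -; positivity))
  linarith only [f2, f3]

/-- section 10 from the rates R5 -/
theorem pEnd_of (R : Gr) (hL : ∀ (m : ℕ) (h : ℝ) (κ : ℕ), κ ≤ m → LB R m h → R5L R m h κ)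
    (hU : ∀ (m : ℕ) (h : ℝ) (κ : ℕ), κ ≤ m → LB R m h → R5U R m h κ) : PEnd R := by
  intro m h κ hm hκ hLB hYU hRK
  have : NeZero m := ⟨by omega⟩
  have hb : 0 < Real.log 2 := Real.log_pos (by norm_num)
  have hσ : 0 < (m : ℝ) - h := sub_pos.mpr hm
  obtain ⟨p0, hp0, hp0m⟩ : ∃ p0 : ℝ, 0 < p0 ∧ p0 * m ≤ (m - h) / 2 := by
    refine ⟨((m : ℝ) - h) / (2 * (m + 1)), by positivity, ?_⟩
    rw [div_mul_eq_mul_div, div_le_div_iff₀ (by positivity) (by norm_num)]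
    linarith
  obtain ⟨γ, hγ0, hγ1, hγ2⟩ : ∃ γ : ℝ, 0 < γ ∧
      γ * ((3 * κ + 13) * (κ + 4) * (8 * κ + 8)) ≤
        1 / (4 * ((κ : ℝ) + 1)) * (m - h) * Real.log 2 ∧ γ * (8 * (κ + 4)) ≤ 1 := by
    refine ⟨min (1 / (4 * ((κ : ℝ) + 1)) * (m - h) * Real.log 2 /
      ((3 * κ + 13) * (κ + 4) * (8 * κ + 8))) (1 / (8 * (κ + 4))),
      lt_min (by (clear * - hm; positivity)) (by positivity), ?_, ?_⟩
    · rw [← le_div_iff₀ (by (clear * -; positivity))]
      exact min_le_left _ _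
    · rw [← le_div_iff₀ (by positivity)]
      exact min_le_right _ _
  obtain ⟨C0, hC00, hC0⟩ := det_small m κ
  obtain ⟨k0, hk0⟩ := pow_unbounded_of_one_lt C0 (one_lt_two (α := ℝ))
  obtain ⟨ι1, hι1, εu1, hεu1, RK1⟩ := hRK γ hγ0
  obtain ⟨ι2, hι2, RL⟩ := hL m h κ hκ.le hLB γ hγ0
  obtain ⟨ι3, hι3, RU⟩ := hU m h κ hκ.le hLB γ hγ0 (1 / p0)
  obtain ⟨ι, hι0, hιa, hιb, hιc, hιd⟩ : ∃ ι : ℝ, 0 < ι ∧ ι ≤ ι1 ∧ ι ≤ ι2 ∧ ι ≤ ι3 ∧ ι ≤ γ :=
    ⟨min (min ι1 ι2) (min ι3 γ), lt_min (lt_min hι1 hι2) (lt_min hι3 hγ0),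
      (min_le_left _ _).trans (min_le_left _ _), (min_le_left _ _).trans (min_le_right _ _),
      (min_le_right _ _).trans (min_le_left _ _), (min_le_right _ _).trans (min_le_right _ _)⟩
  obtain ⟨εu, hεu0, hεua, hεub⟩ : ∃ εu : ℝ, 0 < εu ∧ εu ≤ εu1 ∧ εu ≤ 1 / 2 :=
    ⟨min εu1 (1 / 2), lt_min hεu1 (by norm_num), min_le_left _ _, min_le_right _ _⟩
  obtain ⟨g, hY⟩ := hYU ι hι0 εu hεu0
  obtain ⟨n1, RK2⟩ := RK1 g
  obtain ⟨n2, RL2⟩ := RL g
  obtain ⟨n3, RU2⟩ := RU g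
  obtain ⟨n4, hn4⟩ := small' R g κ γ hγ0 (Real.log 2 + m * Real.log (κ + 3))
  obtain ⟨n5, hn5⟩ := small' R g κ γ hγ0
    (4 * ((κ : ℝ) + 2) * (16 * (κ + 2) ^ 2 + 3) + 8 * k0 + 8 * κ + 16)
  obtain ⟨a, e, C, hok, Ω, _, P, c, o, hyp⟩ := hY (max (max n1 n2) (max n3 (max n4 n5)))
  have ok1 := R.anti g n1 _ _ _ _ ((le_max_left _ _).trans (le_max_left _ _)) hok
  have ok2 := R.anti g n2 _ _ _ _ ((le_max_right _ _).trans (le_max_left _ _)) hok
  have ok3 := R.anti g n3 _ _ _ _ ((le_max_left _ _).trans (le_max_right _ _)) hok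
  have ok4 := R.anti g n4 _ _ _ _
    ((le_max_left _ _).trans ((le_max_right _ _).trans (le_max_right _ _))) hok
  have ok5 := R.anti g n5 _ _ _ _
    ((le_max_right _ _).trans ((le_max_right _ _).trans (le_max_right _ _))) hok
  obtain ⟨-, he, hC, hA1⟩ := hn4 _ _ _ ok4
  obtain ⟨hA2, -, -, -⟩ := hn5 _ _ _ ok5
  have hypL := Hyp.mono' hyp hιb le_rfl
  have hypU := Hyp.mono' hyp hιc le_rfl
  exact fin_params hm hγ0 hγ1 hγ2 hp0 hp0m hyp hιd hεub
    (RK2 a e C ok1 Ω P c o (Hyp.mono' hyp hιa hεua))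
    (RL2 _ e C ok2 Ω P c o hypL.good hypL.cost hypL.rate)
    (fun Ω' _ Q π hD => RU2 _ e C ok3 Ω P c o hypU.good hypU.cost hypU.rate Ω' Q π hD)
    he hC hA1 hA2 hC0 hC00 hk0

end Vale.Agent.P127.Stk.EndP
end

section

set_option linter.all false

/-!
# P127 / Stk / END : `PEnd`
-/

namespace Vale.Agent.P127.Stk

open Finset Vale.Agent.P127

namespace EndP

theorem r5L (R : Gr) (m : ℕ) (h : ℝ) (κ : ℕ) (hLB : LB R m h) : R5L R m h κ := by
  intro ε hε
  obtain ⟨ι, hι, H⟩ := rates_main R (κ := κ) hLB ε 1 hε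
  refine ⟨ι, hι, fun g => ?_⟩
  obtain ⟨n, hn⟩ := H g
  refine ⟨n, fun L e C hok Ω _ P c o hG hcost hrate s s' hs hs' => ?_⟩
  exact (hn L e C hok Ω Ω P c o P id hG hcost hrate (Dom.refl P)).q_lo' s s' hs hs'

theorem r5U (R : Gr) (m : ℕ) (h : ℝ) (κ : ℕ) (hLB : LB R m h) : R5U R m h κ := by
  intro ε hε K
  obtain ⟨ι, hι, H⟩ := rates_main R (κ := κ) hLB ε K hε
  refine ⟨ι, hι, fun g => ?_⟩
  obtain ⟨n, hn⟩ := H g
  refine ⟨n, fun L e C hok Ω _ P c o hG hcost hrate Ω' _ Q π hD s s' hs hs' => ?_⟩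
  exact (hn L e C hok Ω Ω' P c o Q π hG hcost hrate hD).q_up' s s' hs hs'

end EndP

/-- the end of the proof (section 10) -/
theorem pEnd (R : Gr) : PEnd R :=
  EndP.pEnd_of R (fun m h κ _ hLB => EndP.r5L R m h κ hLB) (fun m h κ _ hLB => EndP.r5U R m h κ hLB)

end Vale.Agent.P127.Stk
end

section

/-!
# P127 / Stk / StepR : two lines which are conditionally independent given the projection at the
time `t` (PROOF.md, section 9, (i)-(iii))

`A` = side information and everything about the nodes and the base time, `B` = the time `t` and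
its data, `Y` = digits of the projected point at the time `t`, `X` = digits of the projected point
at the base time, `q` = first digits of the line, `l` = the line, `τ` = digits of `t`.
-/

namespace Vale.Agent.P127.Stk.R

open Finset Vale.Agent.P127

/-- the glued law -/
theorem glue_two {Ω : Type} [Fintype Ω] {α β γ δ ξ Λ : Type} (Q : Law Ω)
    (A : Ω → α) (B : Ω → β) (Y : Ω → γ) (q : Ω → δ) (X : Ω → ξ) (l : Ω → Λ) (R0 e : ℝ)
    (b1 : hc Q X (fun ω => (q ω, A ω)) ≤ R0 + e)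
    (b2 : R0 - e ≤ hc Q Y (fun ω => (q ω, B ω, A ω)))
    (b3 : hc Q Y (fun ω => (B ω, A ω)) ≤ R0 + e)
    (b4 : mi Q q B A ≤ e)
    (b5 : hc Q Y (fun ω => (X ω, q ω, B ω, A ω)) ≤ e)
    (_b7 : Fn Q Y (fun ω => (l ω, B ω, A ω))) :
    ∃ (Ω' : Type) (_ : Fintype Ω') (Q' : Law Ω') (π π' : Ω' → Ω),
      (∀ ω, Q'.pr π ω = Q.w ω) ∧ (∀ ω, Q'.pr π' ω = Q.w ω) ∧
      (∀ ω, A (π' ω) = A (π ω) ∧ B (π' ω) = B (π ω) ∧ Y (π' ω) = Y (π ω)) ∧
      (∀ τ : Ω → ℤ, Fn Q τ B →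
        hc Q τ A - 12 * e ≤
          hc Q' (fun ω => τ (π ω)) (fun ω => (X (π ω), q (π ω), q (π' ω), A (π ω)))) ∧
      mi Q' (fun ω => l (π ω)) (fun ω => q (π' ω)) (fun ω => (q (π ω), B (π ω), A (π ω))) ≤
        4 * e ∧
      hc Q' (fun ω => X (π ω)) (fun ω => (X (π' ω), Y (π ω), B (π ω), A (π ω))) =
        hc Q X (fun ω => (Y ω, B ω, A ω)) := by
  classical
  let W : Ω → γ × β × α := fun ω => (Y ω, B ω, A ω)
  have hW : ∀ x, Q.pr W x = Q.pr W x := fun _ => rfl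
  let Q' := Law.glue Q Q W W hW
  have he : 0 ≤ e := (hc_nonneg Q _ _).trans b5
  have eqW : ∀ p : Law.GT W W, W p.fst = W p.snd := fun p => p.eq
  have eqA : ∀ p : Law.GT W W, A p.snd = A p.fst := fun p => by
    have := p.eq; simp only [W, Prod.mk.injEq] at this; exact this.2.2.symm
  have eqB : ∀ p : Law.GT W W, B p.snd = B p.fst := fun p => by
    have := p.eq; simp only [W, Prod.mk.injEq] at this; exact this.2.1.symm
  have eqY : ∀ p : Law.GT W W, Y p.snd = Y p.fst := fun p => by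
    have := p.eq; simp only [W, Prod.mk.injEq] at this; exact this.1.symm
  -- marginals
  have m0 : ∀ {T U : Type} (f : Ω → T) (g : Ω → U),
      hc Q' (fun p => f p.fst) (fun p => g p.fst) = hc Q f g := by
    intro T U f g
    unfold hc
    rw [Law.glue_H hW g, Law.glue_H hW (fun ω => (f ω, g ω))]
  have m1 : ∀ {T U : Type} (f : Ω → T) (g : Ω → U),
      hc Q' (fun p => f p.snd) (fun p => g p.snd) = hc Q f g := by
    intro T U f g
    unfold hc
    rw [Law.glue_H' hW g, Law.glue_H' hW (fun ω => (f ω, g ω))]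
  -- conditional independence
  have ci0 : ∀ {T U : Type} (f : Ω → T) (g : Ω → U),
      hc Q' (fun p => f p.fst) (fun p => (g p.snd, W p.fst)) = hc Q f W := by
    intro T U f g
    have h1 := Law.glue_indep hW f g
    have h2 : Q'.H (fun p => (g p.snd, W p.fst)) = Q.H (fun ω => (g ω, W ω)) := by
      rw [← Law.glue_H' hW (fun ω => (g ω, W ω))]
      refine Q'.H_congr fun p p' => ?_
      simp only [eqW]
    unfold hc
    change Q'.H (fun p => (f p.fst, g p.snd, W p.fst)) = _ at h1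
    rw [h1, h2]
    ring
  have ci1 : ∀ {T U : Type} (f : Ω → T) (g : Ω → U),
      hc Q' (fun p => f p.snd) (fun p => (g p.fst, W p.fst)) = hc Q f W := by
    intro T U f g
    have h1 := Law.glue_indep hW g f
    have h2 : Q'.H (fun p => (g p.fst, W p.fst)) = Q.H (fun ω => (g ω, W ω)) :=
      Law.glue_H hW (fun ω => (g ω, W ω))
    have h3 : Q'.H (fun p => (f p.snd, g p.fst, W p.fst)) =
        Q'.H (fun p => (g p.fst, f p.snd, W p.fst)) := by
      refine Q'.H_congr fun p p' => ?_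
      simp only [Prod.mk.injEq]
      (clear * -; tauto)
    unfold hc
    change Q'.H (fun p => (g p.fst, f p.snd, W p.fst)) = _ at h1
    rw [h3, h1, h2]
    ring
  -- information between `q` and `Y`
  have i1 : hc Q q (fun ω => (B ω, A ω)) - 2 * e ≤ hc Q q W := by
    have h1 : mi Q q Y (fun ω => (B ω, A ω)) ≤ 2 * e := by
      rw [mi_symm]
      unfold mi
      linarith only [b2, b3]
    unfold mi at h1
    change hc Q q (fun ω => (B ω, A ω)) - hc Q q W ≤ 2 * e at h1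
    linarith
  have i2 : hc Q q A - e ≤ hc Q q (fun ω => (B ω, A ω)) := by
    unfold mi at b4
    linarith only [b4]
  refine ⟨Law.GT W W, inferInstance, Q', fun p => p.fst, fun p => p.snd, ?_, ?_, ?_, ?_, ?_, ?_⟩
  · intro ω
    have := Law.glue_pr hW (fun ω => ω) ω
    refine this.trans ?_
    unfold Law.pr
    rw [Finset.sum_filter]
    simp only [sum_ite_eq', mem_univ, ↓reduceIte]
  · intro ω
    have := Law.glue_pr' hW (fun ω => ω) ω
    refine this.trans ?_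
    unfold Law.pr
    rw [Finset.sum_filter]
    simp only [sum_ite_eq', mem_univ, ↓reduceIte]
  · exact fun p => ⟨eqA p, eqB p, eqY p⟩
  · intro τ hτ
    -- the information of `B` about `(X, q, q')`
    have key : mi Q' (fun p => (X p.fst, q p.fst, q p.snd)) (fun p => B p.fst)
        (fun p => A p.fst) ≤ 11 * e := by
      have u0 : hc Q' (fun p => (X p.fst, q p.fst, q p.snd)) (fun p => A p.fst) ≤
          2 * hc Q q A + (R0 + e) := by
        have v1 : hc Q' (fun p => (X p.fst, q p.fst, q p.snd)) (fun p => A p.fst) ≤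
            hc Q' (fun p => ((q p.fst, q p.snd), X p.fst)) (fun p => A p.fst) := by
          refine hc_mono_left Q' ?_
          intro p p' _ _
          simp only [Prod.mk.injEq]
          (clear * -; tauto)
        rw [hc_pair Q' (fun p => (q p.fst, q p.snd)) (fun p => X p.fst),
          hc_pair Q' (fun p => q p.fst) (fun p => q p.snd)] at v1
        have v2 : hc Q' (fun p => q p.snd) (fun p => (q p.fst, A p.fst)) ≤ hc Q q A := by
          rw [← m1 q A]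
          refine hc_mono_right Q' _ ?_
          intro p p' _ _
          simp only [Prod.mk.injEq, eqA]
          (clear * -; tauto)
        have v3 : hc Q' (fun p => X p.fst) (fun p => ((q p.fst, q p.snd), A p.fst)) ≤
            hc Q X (fun ω => (q ω, A ω)) := by
          rw [← m0 X (fun ω => (q ω, A ω))]
          refine hc_mono_right Q' _ ?_
          intro p p' _ _
          simp only [Prod.mk.injEq]
          (clear * -; tauto)
        have v4 : hc Q' (fun p => q p.fst) (fun p => A p.fst) = hc Q q A := m0 q A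
        linarith only [b1, v1, v2, v3, v4]
      have u1 : 2 * (hc Q q A - 3 * e) + (R0 - 4 * e) ≤
          hc Q' (fun p => (X p.fst, q p.fst, q p.snd)) (fun p => (B p.fst, A p.fst)) := by
        have v1 : hc Q' (fun p => ((q p.fst, q p.snd), X p.fst)) (fun p => (B p.fst, A p.fst)) ≤
            hc Q' (fun p => (X p.fst, q p.fst, q p.snd)) (fun p => (B p.fst, A p.fst)) := by
          refine hc_mono_left Q' ?_
          intro p p' _ _
          simp only [Prod.mk.injEq]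
          (clear * -; tauto)
        rw [hc_pair Q' (fun p => (q p.fst, q p.snd)) (fun p => X p.fst)] at v1
        have v2 : 2 * hc Q q W ≤ hc Q' (fun p => (q p.fst, q p.snd))
            (fun p => (B p.fst, A p.fst)) := by
          have w1 : hc Q' (fun p => (q p.fst, q p.snd)) (fun p => W p.fst) ≤
              hc Q' (fun p => (q p.fst, q p.snd)) (fun p => (B p.fst, A p.fst)) := by
            refine hc_mono_right Q' _ ?_
            intro p p' _ _
            simp only [W, Prod.mk.injEq]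
            (clear * -; tauto)
          rw [hc_pair Q' (fun p => q p.fst) (fun p => q p.snd)] at w1
          have w2 : hc Q' (fun p => q p.fst) (fun p => W p.fst) = hc Q q W := m0 q W
          have w3 : hc Q' (fun p => q p.snd) (fun p => (q p.fst, W p.fst)) = hc Q q W := ci1 q q
          linarith only [w1, w2, w3]
        have v3 : R0 - 4 * e ≤ hc Q' (fun p => X p.fst)
            (fun p => ((q p.fst, q p.snd), B p.fst, A p.fst)) := by
          have w1 := hc_le_add Q' (fun p => Y p.fst) (fun p => X p.fst)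
            (fun p => ((q p.fst, q p.snd), B p.fst, A p.fst))
          have w2 : hc Q' (fun p => Y p.fst)
              (fun p => (X p.fst, (q p.fst, q p.snd), B p.fst, A p.fst)) ≤ e := by
            refine le_trans ?_ b5
            rw [← m0 Y (fun ω => (X ω, q ω, B ω, A ω))]
            refine hc_mono_right Q' _ ?_
            intro p p' _ _
            simp only [Prod.mk.injEq]
            (clear * -; tauto)
          have w3 : hc Q' (fun p => Y p.fst) (fun p => (q p.fst, B p.fst, A p.fst)) - 2 * e ≤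
              hc Q' (fun p => Y p.fst) (fun p => ((q p.fst, q p.snd), B p.fst, A p.fst)) := by
            have x1 : mi Q' (fun p => Y p.fst) (fun p => q p.snd)
                (fun p => (q p.fst, B p.fst, A p.fst)) ≤ 2 * e := by
              rw [mi_symm]
              unfold mi
              have y1 : hc Q' (fun p => q p.snd) (fun p => (q p.fst, B p.fst, A p.fst)) ≤
                  hc Q q (fun ω => (B ω, A ω)) := by
                rw [← m1 q (fun ω => (B ω, A ω))]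
                refine hc_mono_right Q' _ ?_
                intro p p' _ _
                simp only [Prod.mk.injEq, eqA, eqB]
                (clear * -; tauto)
              have y2 : hc Q q W ≤ hc Q' (fun p => q p.snd)
                  (fun p => (Y p.fst, q p.fst, B p.fst, A p.fst)) := by
                rw [← ci1 q q]
                refine hc_mono_right Q' _ ?_
                intro p p' _ _
                simp only [W, Prod.mk.injEq]
                (clear * -; tauto)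
              linarith only [i1, y1, y2]
            unfold mi at x1
            have x2 : hc Q' (fun p => Y p.fst) (fun p => (q p.snd, q p.fst, B p.fst, A p.fst)) =
                hc Q' (fun p => Y p.fst) (fun p => ((q p.fst, q p.snd), B p.fst, A p.fst)) := by
              refine hc_congr Q' (fun p p' _ _ e => congrArg Prod.fst e)
                (fun p p' _ _ e => congrArg Prod.fst e) ?_ ?_
              · intro p p' _ _
                simp only [Prod.mk.injEq]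
                (clear * -; tauto)
              · intro p p' _ _
                simp only [Prod.mk.injEq]
                (clear * -; tauto)
            linarith only [x1, x2]
          have w4 : hc Q' (fun p => Y p.fst) (fun p => (q p.fst, B p.fst, A p.fst)) =
              hc Q Y (fun ω => (q ω, B ω, A ω)) := m0 Y (fun ω => (q ω, B ω, A ω))
          linarith only [b2, w1, w2, w3, w4]
        linarith
      unfold mi
      linarith only [u0, u1]
    have k2 : mi Q' (fun p => τ p.fst) (fun p => (X p.fst, q p.fst, q p.snd))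
        (fun p => A p.fst) ≤ 11 * e := by
      refine le_trans ?_ key
      rw [mi_symm Q' (fun p => (X p.fst, q p.fst, q p.snd))]
      refine mi_mono_left Q' _ ?_
      intro p p' hp hp' e
      simp only [Prod.mk.injEq] at e
      refine hτ p.fst p'.fst ?_ ?_ e.1
      · have hp1 : 0 < Q.w p.fst * Q.w p.snd / Q.pr W (W p.fst) := hp
        rcases (Q.nn p.fst).eq_or_lt with h0 | h0
        · rw [← h0] at hp1; simp at hp1
        · exact h0
      · have hp1 : 0 < Q.w p'.fst * Q.w p'.snd / Q.pr W (W p'.fst) := hp'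
        rcases (Q.nn p'.fst).eq_or_lt with h0 | h0
        · rw [← h0] at hp1; simp at hp1
        · exact h0
    unfold mi at k2
    have k3 : hc Q' (fun p => τ p.fst) (fun p => A p.fst) = hc Q τ A := m0 τ A
    have k4 : hc Q' (fun p => τ p.fst) (fun p => ((X p.fst, q p.fst, q p.snd), A p.fst)) =
        hc Q' (fun p => τ p.fst) (fun p => (X p.fst, q p.fst, q p.snd, A p.fst)) := by
      refine hc_congr Q' (fun p p' _ _ e => congrArg Prod.fst e)
        (fun p p' _ _ e => congrArg Prod.fst e) ?_ ?_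
      · intro p p' _ _
        simp only [Prod.mk.injEq]
        (clear * -; tauto)
      · intro p p' _ _
        simp only [Prod.mk.injEq]
        (clear * -; tauto)
    linarith
  · rw [mi_symm]
    unfold mi
    have y1 : hc Q' (fun p => q p.snd) (fun p => (q p.fst, B p.fst, A p.fst)) ≤
        hc Q q (fun ω => (B ω, A ω)) := by
      rw [← m1 q (fun ω => (B ω, A ω))]
      refine hc_mono_right Q' _ ?_
      intro p p' _ _
      simp only [Prod.mk.injEq, eqA, eqB]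
      (clear * -; tauto)
    have y2 : hc Q q W ≤ hc Q' (fun p => q p.snd)
        (fun p => (l p.fst, q p.fst, B p.fst, A p.fst)) := by
      rw [← ci1 q (fun ω => (l ω, q ω))]
      refine hc_mono_right Q' _ ?_
      intro p p' _ _
      simp only [W, Prod.mk.injEq]
      (clear * -; tauto)
    linarith only [he, i1, y1, y2]
  · exact ci0 X X

end Vale.Agent.P127.Stk.R
end

section

/-!
# P127 / Stk / StepR : section 9 at a fixed scale
-/

namespace Vale.Agent.P127.Stk.R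

open Finset Polynomial Vale.Agent.P127

/-- the killing hypothesis of `coreR` for the glued pair -/
theorem killR (m κ k : ℕ) : ∃ K1 : ℝ, 0 ≤ K1 ∧ ∀ (h e1 δk p0 : ℝ) (a L n s : ℕ)
    (Ω : Type) [Fintype Ω] (P : Law Ω) (c : Cf Ω m) (o : Ob Ω m κ) (Q1 : Law (Fin (k + 3) → Ω))
    (Ω' : Type) [Fintype Ω'] (Q' : Law Ω') (π π' : Ω' → (Fin (k + 3) → Ω)) (η : ℝ),
    0 < p0 → s ≤ L →
    (∀ ω, 0 ≤ c.t ω ∧ c.t ω < 1) →
    (∀ w, 0 < Q1.w w → Sup c a w) → (∀ w, Q'.pr π w = Q1.w w) →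
    Dom Q1 (fun w => w 1) P 2 →
    mi Q1 (vl c) (vT c o) (fun w => c.A (w 0)) ≤ e1 →
    mi Q' (fun ω => vl c (π ω)) (fun ω => vq c n (π' ω))
      (fun ω => (vq c n (π ω), vB c o (π ω), vA c o n (π ω))) ≤ e1 →
    -- the killing lemma for `P`, `c`, `o`
    (∀ (Ω₂ : Type) [Fintype Ω₂] (Q : Law Ω₂) (ρ : Ω₂ → Ω), Dom Q ρ P (2 / p0) →
      ∀ (σ : Type) (D : Ω₂ → σ) (r r' : ℕ) (v : Ω₂ → Fin m → ℝ) (i0 : Fin m),
        r ≤ r' → r' ≤ L → η * L ≤ (r' : ℝ) - r → i0 ∉ o.J →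
        Fn Q (fun ω => o.Γ (ρ ω)) D → Fn Q v D →
        (∀ ω, 0 < Q.w ω → (∀ j ∈ o.J, v ω j = 0) ∧ v ω i0 = 1 ∧ ∀ i, |v ω i| ≤ 1) →
        mi Q (fun ω => (c.x (ρ ω), c.y (ρ ω))) D
          (fun ω => (c.t (ρ ω), c.A (ρ ω), fl r (c.x (ρ ω)), fl r (c.y (ρ ω)))) ≤ δk * L →
        (h - κ - 1) * ((r' : ℝ) - r) * Real.log 2 + δk * L <
          hc Q (fun ω => fl r' (fun i => o.F c (ρ ω) i - o.F c (ρ ω) i0 * v ω i))
            (fun ω => ((fl r (c.x (ρ ω)), fl r (c.y (ρ ω))), c.t (ρ ω), D ω, c.A (ρ ω)))) →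
    1 / p0 * (2 * e1 + K1 + Real.log 2) ≤ δk * L → K1 ≤ δk / 2 * L → 0 ≤ η →
    ∀ E : Ω' → Prop, p0 ≤ prE Q' E → ∀ r j : ℕ, n ≤ r → η * L ≤ (s : ℝ) - r →
      ∀ i0 ∉ o.J, ∀ v : Ω' → Fin m → ℝ,
        Fn (on Q' E) v (fun ω => ((vA c o n (π ω), vq c n (π ω), vq c n (π' ω)),
          fl1 j (vu c a (π ω)))) →
        (∀ ω, 0 < (on Q' E).w ω → v ω i0 = 1) →
        (∀ ω, 0 < (on Q' E).w ω → ∀ i ∈ o.J, v ω i = 0) →
        (∀ ω, 0 < (on Q' E).w ω → ∀ i, |v ω i| ≤ 1) →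
        (h - κ - 1) * ((s : ℝ) - r) * Real.log 2 + δk / 2 * L <
          hc (on Q' E) (fun ω => fl s (fun i => o.F c (π ω 1) i - o.F c (π ω 1) i0 * v ω i))
            (fun ω => (fl r (o.F c (π ω 1)), (vA c o n (π ω), vq c n (π ω), vq c n (π' ω)),
              fl1 j (vu c a (π ω)))) := by
  obtain ⟨K1, hK1, hcost⟩ := cost_D m κ k
  refine ⟨K1 + klc m (1 + 2 * (1 + κ * 3 ^ κ)), by
    have := klc_nonneg (m := m) (B := 1 + 2 * (1 + (κ : ℝ) * 3 ^ κ)) (by (clear * -; positivity))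
    positivity, ?_⟩
  have hk0 := klc_nonneg (m := m) (B := 1 + 2 * (1 + (κ : ℝ) * 3 ^ κ)) (by positivity)
  intro h e1 δk p0 a L n s Ω _ P c o Q1 Ω' _ Q' π π' η hp0 hsL ht hSup hπ hD1 hc1 hc2 hkill hn1
    hn2 hη E hE r j hnr hrs i0 hi0 v hv hv1 hvJ hvb
  have hrs' : r ≤ s := by
    have : 0 ≤ η * L := by (clear * - hη; positivity)
    have h2 : (r : ℝ) ≤ s := by linarith only [hrs, this]
    exact_mod_cast h2
  have hDπ : Dom Q' π Q1 1 := fun w => by rw [hπ, one_mul]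
  have hDE : Dom (on Q' E) id Q' (1 / p0) := Dom.on hp0 hE
  have hDom : Dom (on Q' E) (fun ω => π ω 1) P (2 / p0) := by
    have h1 := hDE.comp (hDπ.comp hD1)
    have h2 : 1 / p0 * (1 * 2) = 2 / p0 := by ring
    rw [h2] at h1
    exact h1
  have hE0 : 0 < prE Q' E := lt_of_lt_of_le hp0 hE
  have hsup' : ∀ ω, 0 < (on Q' E).w ω → Sup c a (π ω) := by
    intro ω hω
    exact hSup _ (hDπ.pos (on_pos hE0 hω).2)
  have hΓ : Fn (on Q' E) (fun ω => o.Γ (π ω 1))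
      (fun ω => ((vA c o n (π ω), vq c n (π ω), vq c n (π' ω)), fl1 j (vu c a (π ω)))) := by
    intro ω ω' _ _ he
    have h1 : vA c o n (π ω) = vA c o n (π ω') := congrArg (fun z => z.1.1) he
    exact o.fn _ _ (congrArg (fun z => z.2.2.1.2) h1)
  have hmi : mi (on Q' E) (fun ω => (c.x (π ω 1), c.y (π ω 1)))
      (fun ω => ((vA c o n (π ω), vq c n (π ω), vq c n (π' ω)), fl1 j (vu c a (π ω))))
      (fun ω => (c.t (π ω 1), c.A (π ω 1), fl r (c.x (π ω 1)), fl r (c.y (π ω 1)))) ≤ δk * L := by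
    have h1 := hcost e1 a n r j Ω c o Q1 Ω' Q' π π' ht hnr hSup hπ hc1 hc2
    have h2 := hDE.mi_le (fun ω => (c.x (π ω 1), c.y (π ω 1)))
      (fun ω => ((vA c o n (π ω), vq c n (π ω), vq c n (π' ω)), fl1 j (vu c a (π ω))))
      (fun ω => (c.t (π ω 1), c.A (π ω 1), fl r (c.x (π ω 1)), fl r (c.y (π ω 1))))
    refine h2.trans (le_trans ?_ hn1)
    refine mul_le_mul_of_nonneg_left ?_ (by positivity)
    linarith only [hk0, h1]
  have hk := hkill Ω' (on Q' E) (fun ω => π ω 1) hDom _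
    (fun ω => ((vA c o n (π ω), vq c n (π ω), vq c n (π' ω)), fl1 j (vu c a (π ω)))) r s v i0
    hrs' hsL hrs hi0 hΓ hv (fun ω hω => ⟨hvJ ω hω, hv1 ω hω, hvb ω hω⟩) hmi
  -- replace the cell by the digits of the projected point
  have h3 : hc (on Q' E) (fun ω => fl s (fun i => o.F c (π ω 1) i - o.F c (π ω 1) i0 * v ω i))
      (fun ω => ((fl r (c.x (π ω 1)), fl r (c.y (π ω 1))), c.t (π ω 1),
        ((vA c o n (π ω), vq c n (π ω), vq c n (π' ω)), fl1 j (vu c a (π ω))), c.A (π ω 1))) ≤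
      hc (on Q' E) (fun ω => fl s (fun i => o.F c (π ω 1) i - o.F c (π ω 1) i0 * v ω i))
        (fun ω => (fl r (o.F c (π ω 1)), (vA c o n (π ω), vq c n (π ω), vq c n (π' ω)),
              fl1 j (vu c a (π ω)))) + klc m (1 + 2 * (1 + κ * 3 ^ κ)) := by
    have h4 := hc_le_add' (on Q' E)
      (fun ω => fl s (fun i => o.F c (π ω 1) i - o.F c (π ω 1) i0 * v ω i))
      (fun ω => fl r (o.F c (π ω 1)))
      (fun ω => ((fl r (c.x (π ω 1)), fl r (c.y (π ω 1))), c.t (π ω 1),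
        ((vA c o n (π ω), vq c n (π ω), vq c n (π' ω)), fl1 j (vu c a (π ω))), c.A (π ω 1)))
    have h5 := kl_cell (on Q' E) c o (fun ω => π ω 1)
      (fun ω => ((vA c o n (π ω), vq c n (π ω), vq c n (π' ω)), fl1 j (vu c a (π ω)))) r ht hΓ
    have h6 : hc (on Q' E)
        (fun ω => fl s (fun i => o.F c (π ω 1) i - o.F c (π ω 1) i0 * v ω i))
        (fun ω => (fl r (o.F c (π ω 1)), ((fl r (c.x (π ω 1)), fl r (c.y (π ω 1))), c.t (π ω 1),
          ((vA c o n (π ω), vq c n (π ω), vq c n (π' ω)), fl1 j (vu c a (π ω))),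
          c.A (π ω 1)))) ≤
        hc (on Q' E) (fun ω => fl s (fun i => o.F c (π ω 1) i - o.F c (π ω 1) i0 * v ω i))
          (fun ω => (fl r (o.F c (π ω 1)), (vA c o n (π ω), vq c n (π ω), vq c n (π' ω)),
              fl1 j (vu c a (π ω)))) := by
      refine hc_mono_right _ _ fun ω ω' _ _ he => ?_
      have e1 := congrArg Prod.fst he
      have e2 := congrArg (fun z => z.2.2.2.1) he
      exact Prod.ext e1 e2
    linarith only [h4, h5, h6]
  linarith only [hK1, hn2, hk, h3]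

/-- the conclusion of `coreR` at a fixed scale, as a proposition -/
def CoreAt (m D C0 : ℕ) (ε1 p δ p0 ε2 : ℝ) (L n s : ℕ) : Prop :=
  ∀ (Ω : Type) [Fintype Ω] (Q : Law Ω) (τ : Type) (σ : Ω → τ) (f : ℝ) (J : Finset (Fin m))
    (u : Ω → ℝ) (X X' : Ω → Fin m → ℝ) (pol : Ω → Fin m → ℝ[X]),
    (∀ ω, 0 < Q.w ω → 0 ≤ u ω ∧ u ω < 1) →
    Fn Q pol σ →
    (∀ ω, 0 < Q.w ω → ∀ i, (pol ω i).natDegree ≤ D) →
    (∀ ω, 0 < Q.w ω → ∀ i ∈ J, pol ω i = 0) →
    (∀ ω, 0 < Q.w ω → ∃ v : ℝ, 0 ≤ v ∧ v ≤ 1 ∧ ∀ i, (pol ω i).eval v = 0) →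
    (∀ ω, 0 < Q.w ω → fl n (X ω) = fl n (X' ω)) →
    (∀ ω, 0 < Q.w ω → ∀ i,
      |X' ω i - X ω i + (pol ω i).eval (u ω)| ≤ C0 * (1 / 2 : ℝ) ^ s) →
    (∀ E : Ω → Prop, p0 ≤ prE Q E → ∀ r : ℕ, n ≤ r → r ≤ s →
      hc (on Q E) (fun ω => fl s (X' ω)) (fun ω => (fl r (X' ω), σ ω)) ≤
        f * ((s : ℝ) - r) * Real.log 2 + ε2 * L) →
    (∀ j : ℕ, (j : ℝ) ≤ (s : ℝ) - n + ε1 * L →
      (j : ℝ) * Real.log 2 - ε2 * L ≤
        hc Q (fun ω => fl1 j (u ω)) (fun ω => (fl s (X ω), σ ω))) →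
    (∀ E : Ω → Prop, p0 ≤ prE Q E → ∀ r j : ℕ, n ≤ r → ε1 / 8 * L ≤ (s : ℝ) - r →
      ∀ i0 ∉ J, ∀ v : Ω → Fin m → ℝ, Fn (on Q E) v (fun ω => (σ ω, fl1 j (u ω))) →
        (∀ ω, 0 < (on Q E).w ω → v ω i0 = 1) →
        (∀ ω, 0 < (on Q E).w ω → ∀ i ∈ J, v ω i = 0) →
        (∀ ω, 0 < (on Q E).w ω → ∀ i, |v ω i| ≤ 1) →
        (f - 1) * ((s : ℝ) - r) * Real.log 2 + δ * L <
          hc (on Q E) (fun ω => fl s (fun i => X ω i - X ω i0 * v ω i))
            (fun ω => (fl r (X ω), σ ω, fl1 j (u ω)))) →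
    prE Q (fun ω => ∃ i, (2 : ℝ) ^ (-(s : ℝ) + ε1 * L) < pn (pol ω i)) ≤ p

/-- section 9 at a fixed scale -/
theorem scaleR (m κ k : ℕ) : ∃ (C0 : ℕ) (K1 : ℝ), 0 ≤ K1 ∧
    ∀ (h e δk p0 ε1 ε2 p η1 η2 : ℝ) (a L n s : ℕ)
    (Ω : Type) [Fintype Ω] (P : Law Ω) (c : Cf Ω m) (o : Ob Ω m κ) (Q1 : Law (Fin (k + 3) → Ω)),
    0 < p0 → 0 ≤ ε1 → s ≤ L → n ≤ s → s ≤ n + a + 1 →
    η1 ≤ 2 * (1 / 2 : ℝ) ^ s → η2 * (1 / 2 : ℝ) ^ n ≤ 2 * (1 / 2 : ℝ) ^ s →
    (∀ ω i, 0 ≤ c.x ω i ∧ c.x ω i < 1) → (∀ ω i, 0 ≤ c.y ω i ∧ c.y ω i < 1) →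
    (∀ ω, 0 ≤ c.t ω ∧ c.t ω < 1) →
    (∀ w, 0 < Q1.w w → Sup c a w ∧ TE c o η1 η2 w) →
    Dom Q1 (fun w => w 1) P 2 →
    -- the inequalities for the family
    hc Q1 (vX c o s) (fun w => (vq c n w, vA c o n w)) ≤
        (h - κ) * ((s : ℝ) - n) * Real.log 2 + e →
    (h - κ) * ((s : ℝ) - n) * Real.log 2 - e ≤
      hc Q1 (vY c o s) (fun w => (vq c n w, vB c o w, vA c o n w)) →
    hc Q1 (vY c o s) (fun w => (vB c o w, vA c o n w)) ≤
        (h - κ) * ((s : ℝ) - n) * Real.log 2 + e →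
    mi Q1 (vq c n) (vB c o) (vA c o n) ≤ e →
    hc Q1 (vY c o s) (fun w => (vX c o s w, vq c n w, vB c o w, vA c o n w)) ≤ e →
    Fn Q1 (vY c o s) (fun w => (vl c w, vB c o w, vA c o n w)) →
    (∀ j : ℕ, a + j ≤ L → (j : ℝ) * Real.log 2 - e ≤
      hc Q1 (fun w => fl1 j (vu c a w)) (vA c o n)) →
    mi Q1 (vl c) (vT c o) (fun w => c.A (w 0)) ≤ e →
    -- the killing lemma for `P`, `c`, `o`
    (∀ (Ω₂ : Type) [Fintype Ω₂] (Q : Law Ω₂) (ρ : Ω₂ → Ω), Dom Q ρ P (2 / p0) →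
      ∀ (σ : Type) (D : Ω₂ → σ) (r r' : ℕ) (v : Ω₂ → Fin m → ℝ) (i0 : Fin m),
        r ≤ r' → r' ≤ L → ε1 / 8 * L ≤ (r' : ℝ) - r → i0 ∉ o.J →
        Fn Q (fun ω => o.Γ (ρ ω)) D → Fn Q v D →
        (∀ ω, 0 < Q.w ω → (∀ j ∈ o.J, v ω j = 0) ∧ v ω i0 = 1 ∧ ∀ i, |v ω i| ≤ 1) →
        mi Q (fun ω => (c.x (ρ ω), c.y (ρ ω))) D
          (fun ω => (c.t (ρ ω), c.A (ρ ω), fl r (c.x (ρ ω)), fl r (c.y (ρ ω)))) ≤ δk * L →
        (h - κ - 1) * ((r' : ℝ) - r) * Real.log 2 + δk * L <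
          hc Q (fun ω => fl r' (fun i => o.F c (ρ ω) i - o.F c (ρ ω) i0 * v ω i))
            (fun ω => ((fl r (c.x (ρ ω)), fl r (c.y (ρ ω))), c.t (ρ ω), D ω, c.A (ρ ω)))) →
    -- R3
    (∀ (Ω₂ : Type) [Fintype Ω₂] (Q : Law Ω₂) (ρ : Ω₂ → Ω), Dom Q ρ P (2 / p0) →
      ∀ r : ℕ, r ≤ s → hc Q (fun ω => fl s (o.F c (ρ ω)))
        (fun ω => (fl r (o.F c (ρ ω)), c.t (ρ ω), o.G (ρ ω), c.A (ρ ω))) ≤
          (h - κ) * ((s : ℝ) - r) * Real.log 2 + ε2 * L) →
    CoreAt m (k + 1) C0 ε1 p (δk / 2) p0 ε2 L n s →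
    1 / p0 * (8 * e + K1 + Real.log 2) ≤ δk * L → K1 ≤ δk / 2 * L → 13 * e ≤ ε2 * L →
    (a : ℝ) + s - n + ε1 * L ≤ L →
    hc Q1 (vX c o s) (fun w => (vY c o s w, vB c o w, vA c o n w)) ≤
      Real.log 2 + m * (ε1 * L * Real.log 2 + Real.log (2 * C0 + 7)) +
        p * (m * ((s : ℝ) - n) * Real.log 2) := by
  obtain ⟨C0, hC0⟩ := pair_pt m κ
  obtain ⟨K1, hK1, hkillR⟩ := killR m κ k
  refine ⟨C0, K1, hK1, ?_⟩
  intro h e δk p0 ε1 ε2 p η1 η2 a L n s Ω _ P c o Q1 hp0 hε1 hsL hns hsna hη1 hη2 hx hy ht hsup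
    hD1 f1 f2 f3 f4 f5 f6 f7 f8 hkill hR3 hcore n1 n2 n3 n4
  have he0 : 0 ≤ e := (mi_nonneg _ _ _ _).trans f4
  obtain ⟨Ω', inst, Q', π, π', g1, g2, g3, g4, g5, g6⟩ :=
    glue_two Q1 (vA c o n) (vB c o) (vY c o s) (vq c n) (vX c o s) (vl c)
      ((h - κ) * ((s : ℝ) - n) * Real.log 2) e f1 f2 f3 f4 f5 f6
  have hDπ : Dom Q' π Q1 1 := fun w => by rw [g1, one_mul]
  have hDπ' : Dom Q' π' Q1 1 := fun w => by rw [g2, one_mul]
  have hsπ : ∀ ω, 0 < Q'.w ω → Sup c a (π ω) ∧ TE c o η1 η2 (π ω) := fun ω hω =>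
    hsup _ (hDπ.pos hω)
  have hsπ' : ∀ ω, 0 < Q'.w ω → Sup c a (π' ω) ∧ TE c o η1 η2 (π' ω) := fun ω hω =>
    hsup _ (hDπ'.pos hω)
  have hfn : ∀ ω, fl n (o.F c (π ω 1)) = fl n (o.F c (π' ω 1)) := by
    intro ω
    exact (congrArg (fun z => z.2.2.2) (g3 ω).1).symm
  have hpt : ∀ ω, 0 < Q'.w ω → ∀ i, |o.F c (π' ω 1) i - o.F c (π ω 1) i +
      (polW c o a n (π ω) (vq c n (π ω)) (vq c n (π' ω)) i).eval (vu c a (π ω))| ≤
        C0 * (1 / 2 : ℝ) ^ s := by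
    intro ω hω
    exact hC0 c o a n s η1 η2 (π ω) (π' ω) hx hy ht hη1 hη2 hsna (hsπ ω hω).1 (hsπ' ω hω).1
      (hsπ ω hω).2 (g3 ω).1 (g3 ω).2.1 (g3 ω).2.2
  have hfrac : ∀ z : ℝ, 0 ≤ Int.fract z ∧ Int.fract z < 1 := fun z =>
    ⟨Int.fract_nonneg z, Int.fract_lt_one z⟩
  have hmain : prE Q' (fun ω => ∃ i, (2 : ℝ) ^ (-(s : ℝ) + ε1 * L) <
      pn (polW c o a n (π ω) (vq c n (π ω)) (vq c n (π' ω)) i)) ≤ p := by
    refine hcore Ω' Q' _ (fun ω => (vA c o n (π ω), vq c n (π ω), vq c n (π' ω))) (h - κ) o.J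
      (fun ω => vu c a (π ω)) (fun ω => o.F c (π ω 1)) (fun ω => o.F c (π' ω 1))
      (fun ω => polW c o a n (π ω) (vq c n (π ω)) (vq c n (π' ω))) ?_ ?_ ?_ ?_ ?_ ?_ ?_ ?_ ?_ ?_
    · intro ω _
      exact hfrac _
    · intro ω ω' _ _ hh
      have h1 := congrArg Prod.fst hh
      have h2 := congrArg (fun z => z.2.1) hh
      have h3 := congrArg (fun z => z.2.2) hh
      simp only at h1 h2 h3 ⊢
      rw [h2, h3]
      exact polW_congr c o a n _ _ _ _ h1
    · intro ω _ i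
      exact polW_deg ..
    · intro ω _ i hi
      exact polW_mem c o a n _ _ _ hi
    · intro ω _
      exact ⟨_, (hfrac _).1, (hfrac _).2.le, fun i => polW_root c o a n (π ω) _ _ i⟩
    · intro ω _
      exact hfn ω
    · exact hpt
    · intro E hE r hr1 hr2
      have hDE : Dom (on Q' E) (fun ω => π' ω 1) P (2 / p0) := by
        have h1 := (Dom.on hp0 hE).comp (hDπ'.comp hD1)
        have h2 : 1 / p0 * (1 * 2) = 2 / p0 := by ring
        rw [h2] at h1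
        exact h1
      refine le_trans ?_ (hR3 Ω' (on Q' E) (fun ω => π' ω 1) hDE r hr2)
      refine hc_mono_right _ _ fun ω ω' hω hω' he => ?_
      have hE0 : 0 < prE Q' E := lt_of_lt_of_le hp0 hE
      have e1 := congrArg Prod.fst he
      have e2 : vA c o n (π ω) = vA c o n (π ω') := congrArg (fun z => z.2.1) he
      rw [← (g3 ω).1, ← (g3 ω').1] at e2
      have e3 : (c.t (π' ω 1), o.G (π' ω 1)) = (c.t (π' ω' 1), o.G (π' ω' 1)) :=
        congrArg (fun z => z.2.2.1) e2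
      have e4 : c.A (π' ω 0) = c.A (π' ω' 0) := congrArg (fun z => z.1) e2
      have e5 : ∀ ω, 0 < (on Q' E).w ω → c.A (π' ω 1) = c.A (π' ω 0) := fun ω hω =>
        congrArg (fun z => z.2.2.1) ((hsπ' ω (on_pos hE0 hω).2).1 1)
      have e6 : c.A (π' ω 1) = c.A (π' ω' 1) := by rw [e5 ω hω, e5 ω' hω', e4]
      simp only [Prod.mk.injEq] at e3 ⊢
      exact ⟨e1, e3.1, e3.2, e6⟩
    · intro j hj
      have hj' : a + j ≤ L := by
        have : (a : ℝ) + j ≤ L := by linarith only [n4, hj]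
        exact_mod_cast this
      have h1 := f7 j hj'
      have h2 := g4 (fun w => fl1 j (vu c a w)) (by
        intro w w' _ _ hh
        have : c.t (w 0) = c.t (w' 0) := congrArg Prod.fst hh
        simp only [vu, this])
      have h3 : hc Q' (fun ω => fl1 j (vu c a (π ω)))
          (fun ω => (vX c o s (π ω), vq c n (π ω), vq c n (π' ω), vA c o n (π ω))) ≤
          hc Q' (fun ω => fl1 j (vu c a (π ω))) (fun ω => (fl s (o.F c (π ω 1)),
            (vA c o n (π ω), vq c n (π ω), vq c n (π' ω)))) := by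
        refine hc_mono_right _ _ fun ω ω' _ _ he => ?_
        have e1 : fl s (o.F c (π ω 1)) = fl s (o.F c (π ω' 1)) := congrArg Prod.fst he
        have e2 := congrArg (fun z => z.2.2.2) he
        have e3 := congrArg (fun z => z.2.1) he
        have e4 := congrArg (fun z => z.2.2.1) he
        simp only at e2 e3 e4 ⊢
        rw [e1, e2, e3, e4]
      refine le_trans ?_ (h2.trans h3)
      linarith only [n3, h1]
    · have hk := hkillR h (4 * e) δk p0 a L n s Ω P c o Q1 Ω' Q' π π' (ε1 / 8) hp0 hsL ht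
        (fun w hw => (hsup w hw).1) g1 hD1 (by linarith only [f8, he0]) g5 hkill (by
          refine le_trans (le_of_eq ?_) n1
          ring) n2 (by (clear * - hε1; positivity))
      intro E hE r j hr1 hr2 i0 hi0 v hv hv1 hvJ hvb
      exact hk E hE r j hr1 hr2 i0 hi0 v hv hv1 hvJ hvb
  -- conclusion
  rw [← g6]
  have hpow : (1 : ℝ) ≤ 2 ^ (ε1 * L) := Real.one_le_rpow (by norm_num) (by (clear * - hε1; positivity))
  have hclose := close_exc Q' (fun ω => ∃ i, (2 : ℝ) ^ (-(s : ℝ) + ε1 * L) <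
      pn (polW c o a n (π ω) (vq c n (π ω)) (vq c n (π' ω)) i)) (fun ω => o.F c (π ω 1))
      (fun ω => o.F c (π' ω 1)) (fun ω => (vY c o s (π ω), vB c o (π ω), vA c o n (π ω))) n s
      ((2 : ℝ) ^ (ε1 * L) + C0) hns (by (clear * -; positivity)) (fun ω _ => hfn ω) (by
        intro ω hω hE i
        push Not at hE
        have h1 := hpt ω hω i
        have h2 := abs_eval_le_pn
          (polW c o a n (π ω) (vq c n (π ω)) (vq c n (π' ω)) i) (hfrac _).1 (hfrac _).2.le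
            (u := vu c a (π ω))
        have h3 := hE i
        have h4 : (2 : ℝ) ^ (-(s : ℝ) + ε1 * L) = 2 ^ (ε1 * L) * (1 / 2 : ℝ) ^ s := by
          rw [Real.rpow_add (by norm_num), Real.rpow_neg (by norm_num), Real.rpow_natCast,
            one_div, inv_pow, mul_comm]
        rw [h4] at h3
        rw [add_mul]
        rw [abs_sub_comm]
        have h5 : o.F c (π' ω 1) i - o.F c (π ω 1) i = (o.F c (π' ω 1) i - o.F c (π ω 1) i +
          (polW c o a n (π ω) (vq c n (π ω)) (vq c n (π' ω)) i).eval (vu c a (π ω))) -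
          (polW c o a n (π ω) (vq c n (π ω)) (vq c n (π' ω)) i).eval (vu c a (π ω)) := by ring
        rw [h5]
        refine (abs_sub _ _).trans ?_
        linarith only [h1, h2, h3])
  refine hclose.trans ?_
  have hm : (0 : ℝ) ≤ m * ((s : ℝ) - n) * Real.log 2 := by
    have h1 : (n : ℝ) ≤ s := by exact_mod_cast hns
    have h2 : 0 ≤ Real.log 2 := Real.log_nonneg (by norm_num)
    have h3 : 0 ≤ (s : ℝ) - n := by linarith only [h1]
    (clear * - h1; positivity)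
  have h1 := mul_le_mul_of_nonneg_right hmain hm
  have h2 : Real.log (2 * ((2 : ℝ) ^ (ε1 * L) + C0) + 5) ≤
      ε1 * L * Real.log 2 + Real.log (2 * C0 + 7) := by
    have h3 : (2 : ℝ) * (2 ^ (ε1 * L) + C0) + 5 ≤ 2 ^ (ε1 * L) * (2 * C0 + 7) := by
      have : (0 : ℝ) ≤ C0 := Nat.cast_nonneg _
      nlinarith only [hpow]
    have h4 := Real.log_le_log (by (clear * -; positivity)) h3
    rwa [Real.log_mul (by positivity) (by (clear * -; positivity)), Real.log_rpow (by norm_num)] at h4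
  have h3 : (m : ℝ) * Real.log (2 * ((2 : ℝ) ^ (ε1 * L) + C0) + 5) ≤
      m * (ε1 * L * Real.log 2 + Real.log (2 * C0 + 7)) :=
    mul_le_mul_of_nonneg_left h2 (Nat.cast_nonneg _)
  linarith only [h1, h3]

end Vale.Agent.P127.Stk.R
end

section

/-!
# P127 / Stk / StepR : section 9 for a fixed configuration
-/

namespace Vale.Agent.P127.Stk.R

open Finset Vale.Agent.P127

theorem rp_le (x : ℝ) (s : ℕ) (h : x ≤ 1 - s) : (2 : ℝ) ^ x ≤ 2 * (1 / 2 : ℝ) ^ s := by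
  have h1 : (2 : ℝ) ^ x ≤ 2 ^ (1 - (s : ℝ)) := Real.rpow_le_rpow_of_exponent_le (by norm_num) h
  have h2 : (2 : ℝ) ^ (1 - (s : ℝ)) = 2 * (1 / 2 : ℝ) ^ s := by
    rw [Real.rpow_sub (by norm_num), Real.rpow_one, Real.rpow_natCast, one_div, inv_pow]
    rfl
  linarith only [h1, h2]

theorem rp_le' (x : ℝ) (n s : ℕ) (h : x ≤ 1 - s + n) :
    (2 : ℝ) ^ x * (1 / 2 : ℝ) ^ n ≤ 2 * (1 / 2 : ℝ) ^ s := by
  have h1 := rp_le (x - n) s (by linarith)
  have h2 : (2 : ℝ) ^ (x - n) = 2 ^ x * (1 / 2 : ℝ) ^ n := by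
    rw [Real.rpow_sub (by norm_num), Real.rpow_natCast, one_div, inv_pow]
    rfl
  rwa [h2] at h1

/-- the choice of the scale `n` -/
theorem fixNum (κ k a L s : ℕ) (ε1 ε3 εs : ℝ) (hLr : (L : ℝ) = (κ + 4) * a) (hk : 1 ≤ k)
    (hkκ : k ≤ κ + 1) (hε3 : 0 < ε3) (hε1 : 0 ≤ ε1) (a2 : 2 * ε3 ≤ εs)
    (a4 : 2 * (κ + 4) * ε3 ≤ 1) (a5 : 2 * (κ + 4) * ε1 ≤ 1) (a6 : 4 ≤ ε3 * (L : ℝ))
    (hs1 : (s : ℝ) + εs * (L : ℝ) ≤ (k + 1) * a) (hs2 : (k : ℝ) * a < (s : ℝ) + ε3 * (L : ℝ)) :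
    ∃ n : ℕ, n ≤ s ∧ s ≤ L ∧ s ≤ n + a + 1 ∧ a ≤ L ∧ s ≤ n + L ∧ (n : ℝ) + ε3 * L ≤ k * a ∧
      (2 : ℝ) ^ (-(((k + 1) * a : ℕ) : ℝ) + ε3 * L) ≤ 2 * (1 / 2 : ℝ) ^ s ∧
      (2 : ℝ) ^ (-(((0 + 1) * a : ℕ) : ℝ) + ε3 * L) * (1 / 2 : ℝ) ^ n ≤ 2 * (1 / 2 : ℝ) ^ s ∧
      (a : ℝ) + s - n + ε1 * L ≤ L := by
  have hκ0 : (0 : ℝ) ≤ κ := Nat.cast_nonneg κ
  have ha0 : (0 : ℝ) ≤ a := Nat.cast_nonneg a
  have hkr : (1 : ℝ) ≤ k := by exact_mod_cast hk
  have hkκr : (k : ℝ) ≤ κ + 1 := by exact_mod_cast hkκ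
  have hεL : 2 * (ε3 * L) ≤ a := by rw [hLr]; nlinarith only [a4]
  have hε1L : 2 * (ε1 * L) ≤ a := by rw [hLr]; nlinarith only [a5]
  have hL0 : (0 : ℝ) ≤ L := Nat.cast_nonneg L
  have ha8 : (8 : ℝ) ≤ a := by linarith only [a6, hεL]
  have hkala : (a : ℝ) ≤ k * a := by nlinarith only [hkr]
  have hεsL : 0 ≤ εs * L := mul_nonneg (by linarith only [hε3, a2]) hL0
  have hεsL2 : 2 * (ε3 * L) ≤ εs * L := by nlinarith only [a2]
  have hka1 : ((k : ℝ) + 1) * a ≤ (κ + 2) * a := by nlinarith only [hkκr]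
  have hκa : ((κ : ℝ) + 2) * a + 2 * a = L := by rw [hLr]; ring
  have hκa' : (0 : ℝ) ≤ (κ + 2) * a := by (clear * - ha8; positivity)
  have hceil := Nat.ceil_lt_add_one (show 0 ≤ ε3 * (L : ℝ) by (clear * - a6; positivity))
  have hceil' := Nat.le_ceil (ε3 * (L : ℝ))
  have hcn : ⌈ε3 * (L : ℝ)⌉₊ ≤ k * a := by
    have : ((⌈ε3 * (L : ℝ)⌉₊ : ℕ) : ℝ) ≤ ((k * a : ℕ) : ℝ) := by push_cast; linarith only [a6, hεL, hkala, hceil]
    exact_mod_cast this
  have hnr : ((k * a - ⌈ε3 * (L : ℝ)⌉₊ : ℕ) : ℝ) = k * a - (⌈ε3 * (L : ℝ)⌉₊ : ℕ) := by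
    rw [Nat.cast_sub hcn]; push_cast; ring
  refine ⟨k * a - ⌈ε3 * (L : ℝ)⌉₊, ?_, ?_, ?_, ?_, ?_, ?_, ?_, ?_, ?_⟩
  · have : ((k * a - ⌈ε3 * (L : ℝ)⌉₊ : ℕ) : ℝ) ≤ s := by linarith only [hs2, hceil', hnr]
    exact_mod_cast this
  · have : (s : ℝ) ≤ L := by linarith only [hLr, hs1, hεsL, hka1]
    exact_mod_cast this
  · have : (s : ℝ) ≤ ((k * a - ⌈ε3 * (L : ℝ)⌉₊ + a + 1 : ℕ) : ℝ) := by
      rw [Nat.cast_add, Nat.cast_add, hnr]; push_cast; linarith only [a6, hs1, hεsL2, hceil]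
    exact_mod_cast this
  · have : (a : ℝ) ≤ L := by linarith only [hLr, hkala, hka1]
    exact_mod_cast this
  · have : (s : ℝ) ≤ ((k * a - ⌈ε3 * (L : ℝ)⌉₊ + L : ℕ) : ℝ) := by
      rw [Nat.cast_add, hnr]; (clear * - hLr a6 hs1 hεL hkala hεsL2 hka1 hceil; linarith)
    exact_mod_cast this
  · rw [hnr]; linarith only [hceil']
  · refine rp_le _ _ ?_
    push_cast
    linarith only [a6, hs1, hεsL2]
  · refine rp_le' _ _ _ ?_
    rw [hnr]
    push_cast
    linarith only [hs1, hεsL2, hceil]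
  · rw [hnr]; linarith only [hLr, a6, hs1, hε1L, hkala, hεsL2, hka1, hceil]

open Classical in
/-- section 9 for a fixed configuration: all limiting hypotheses are instantiated -/
theorem fixR (m κ k : ℕ) : ∃ (C0 : ℕ) (K1 : ℝ), 0 ≤ K1 ∧
    ∀ (h δk p0 ε1 ε2 ε3 εs : ℝ) (a L : ℕ) (Ω : Type) [Fintype Ω] (P : Law Ω) (c : Cf Ω m)
      (o : Ob Ω m κ),
    (L : ℝ) = (κ + 4) * a → 1 ≤ k → 0 < p0 → 0 < ε3 → 0 ≤ ε1 → 6 * ε3 ≤ 1 → 2 * ε3 ≤ εs → ε3 ≤ ε2 →
    2 * (κ + 4) * ε3 ≤ 1 → 2 * (κ + 4) * ε1 ≤ 1 → 4 ≤ ε3 * (L : ℝ) →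
    (∀ ω i, 0 ≤ c.x ω i ∧ c.x ω i < 1) → (∀ ω i, 0 ≤ c.y ω i ∧ c.y ω i < 1) →
    (∀ ω, 0 ≤ c.t ω ∧ c.t ω < 1) →
    -- uniformity of the time
    ((L : ℝ) - (a : ℝ)) * Real.log 2 - 1 ≤ hc P (fun ω => fl1 L (c.t ω))
      (fun ω => (fl1 a (c.t ω), c.x ω, c.y ω, c.A ω)) →
    -- the killing lemma
    (∀ (Ω₂ : Type) [Fintype Ω₂] (Q : Law Ω₂) (ρ : Ω₂ → Ω), Dom Q ρ P (2 + 2 / p0) →
      ∀ (σ : Type) (D : Ω₂ → σ) (r r' : ℕ) (v : Ω₂ → Fin m → ℝ) (i0 : Fin m),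
        r ≤ r' → r' ≤ L → ε1 / 8 * (L : ℝ) ≤ (r' : ℝ) - r → i0 ∉ o.J →
        Fn Q (fun ω => o.Γ (ρ ω)) D → Fn Q v D →
        (∀ ω, 0 < Q.w ω → (∀ j ∈ o.J, v ω j = 0) ∧ v ω i0 = 1 ∧ ∀ i, |v ω i| ≤ 1) →
        mi Q (fun ω => (c.x (ρ ω), c.y (ρ ω))) D
          (fun ω => (c.t (ρ ω), c.A (ρ ω), fl r (c.x (ρ ω)), fl r (c.y (ρ ω)))) ≤
            δk * (L : ℝ) →
        (h - κ - 1) * ((r' : ℝ) - r) * Real.log 2 + δk * (L : ℝ) <
          hc Q (fun ω => fl r' (fun i => o.F c (ρ ω) i - o.F c (ρ ω) i0 * v ω i))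
            (fun ω => ((fl r (c.x (ρ ω)), fl r (c.y (ρ ω))), c.t (ρ ω), D ω, c.A (ρ ω)))) →
    -- the rates
    (∀ (Ω₂ : Type) [Fintype Ω₂] (Q : Law Ω₂) (ρ : Ω₂ → Ω), Dom Q ρ P (2 + 2 / p0) →
      Rate Q (c.comp ρ) (o.comp ρ) L h (ε3 * (L : ℝ))) →
    -- the core
    (∀ n s : ℕ, n ≤ s → s ≤ n + L →
      CoreAt m (k + 1) C0 ε1 ε1 (δk / 2) p0 ε2 L n s) →
    -- `R(k)`
    (∀ Q : Law (Fin 2 → Ω), (∀ w, Q.w w = cw P (key c a) 1 w) →
      ∀ s : ℕ, (s : ℝ) + ε3 * (L : ℝ) ≤ k * a →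
        hc Q (fun w => fl s (o.F c (w 1)))
          (fun w => (fl s (o.F c (w 0)), (fun i => (c.t (w i), o.G (w i))), c.A (w 0))) ≤
        ε3 * (L : ℝ)) →
    -- `C(k)`
    (∀ Q : Law (Fin (k + 2) → Ω), (∀ w, Q.w w = cw P (key c a) (k + 1) w) →
      ∑ w with (∃ i, i ∉ o.J ∧ ∃ j ∈ o.J,
          (2 : ℝ) ^ (-(((k + 1) * a : ℕ) : ℝ) + ε3 * (L : ℝ)) <
            |o.Γ (w (Fin.last (k + 1))) i j -
              ∑ l : Fin (k + 1), lag c.t w l * o.Γ (w l.castSucc) i j|), Q.w w ≤ ε3) →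
    -- `C(0)`
    (∀ Q : Law (Fin (0 + 2) → Ω), (∀ w, Q.w w = cw P (key c a) (0 + 1) w) →
      ∑ w with (∃ i, i ∉ o.J ∧ ∃ j ∈ o.J,
          (2 : ℝ) ^ (-(((0 + 1) * a : ℕ) : ℝ) + ε3 * (L : ℝ)) <
            |o.Γ (w (Fin.last (0 + 1))) i j -
              ∑ l : Fin (0 + 1), lag c.t w l * o.Γ (w l.castSucc) i j|), Q.w w ≤ ε3) →
    1 / p0 * (8 * (K1 * (ε3 * (L : ℝ) + 2)) + K1 + Real.log 2) ≤
      δk * (L : ℝ) →
    K1 ≤ δk / 2 * (L : ℝ) →
    13 * (K1 * (ε3 * (L : ℝ) + 2)) ≤ ε2 * (L : ℝ) →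
    ∀ Q : Law (Fin 2 → Ω), (∀ w, Q.w w = cw P (key c a) 1 w) →
      ∀ s : ℕ, (s : ℝ) + εs * (L : ℝ) ≤ (k + 1) * a →
        ((k : ℝ) * a < (s : ℝ) + ε3 * (L : ℝ)) → k ≤ κ + 1 →
        hc Q (fun w => fl s (o.F c (w 1)))
          (fun w => (fl s (o.F c (w 0)), (fun i => (c.t (w i), o.G (w i))), c.A (w 0))) ≤
        Real.log 2 + m * (ε1 * (L : ℝ) * Real.log 2 + Real.log (2 * C0 + 7)) +
          ε1 * (m * (L : ℝ) * Real.log 2) +
          3 * ε3 * (m * (L : ℝ) * Real.log 2) +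
          K1 * (ε3 * (L : ℝ) + 1) := by
  obtain ⟨C0, K1, hK1, hS⟩ := scaleR m κ k
  obtain ⟨K2, hK2, hF⟩ := fam_ent m κ k
  obtain ⟨K3, hK3, hE⟩ := fin_ent m κ k
  refine ⟨C0, K1 + K2 + K3, by (clear * - hK1 hK2 hK3; positivity), ?_⟩
  intro h δk p0 ε1 ε2 ε3 εs a L Ω _ P c o hLr hk hp0 hε3 hε1 a1 a2 a3 a4 a5 a6 hx hy ht hunif
    hkill hrate hcore hRK hCK hC0 b1 b2 b3 Q hQ s hs1 hs2 hkκ
  obtain ⟨n, hns, hsL, hsna, haL, hsnL, hn, e1, e2, n4⟩ := fixNum κ k a L s ε1 ε3 εs hLr hk hkκ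
    hε3 hε1 a2 a4 a5 a6 hs1 hs2
  -- the copies
  obtain ⟨Q0, hQ0⟩ := cw_exists P (key c a) (k + 2)
  have htyp := typ_prob P c o Q0 hQ0 _ _ ε3 hCK hC0
  generalize (2 : ℝ) ^ (-(((k + 1) * a : ℕ) : ℝ) + ε3 * L) = η1 at e1 htyp
  generalize (2 : ℝ) ^ (-(((0 + 1) * a : ℕ) : ℝ) + ε3 * L) = η2 at e2 htyp
  clear hCK hC0 a4 a5 a2 hs1 hs2
  have hnot := prE_not Q0 (TE c o η1 η2)
  have hhalf : 1 / 2 ≤ prE Q0 (TE c o η1 η2) := by linarith only [a1, htyp, hnot]
  have hp1 : 0 < 2 / p0 := by positivity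
  have hDom2 : ∀ (Ω₂ : Type) [Fintype Ω₂] (Q : Law Ω₂) (ρ : Ω₂ → Ω), Dom Q ρ P 2 →
      Rate Q (c.comp ρ) (o.comp ρ) L h (ε3 * L) := fun Ω₂ _ Q ρ hD =>
    hrate Ω₂ Q ρ (hD.mono (by linarith only [hp1]))
  have hRKn : ∀ Q : Law (Fin 2 → Ω), (∀ w, Q.w w = cw P (key c a) 1 w) →
      hc Q (fun w => fl n (o.F c (w 1)))
          (fun w => (fl n (o.F c (w 0)), (fun i => (c.t (w i), o.G (w i))), c.A (w 0))) ≤
        ε3 * L := fun Q hQ => hRK Q hQ n hn
  have hL0 : (0 : ℝ) ≤ L := Nat.cast_nonneg L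
  have hεL0 : 0 ≤ ε3 * (L : ℝ) := by (clear * - a6; positivity)
  obtain ⟨f1, f2, f3, f4, f5, f6, f7, f8⟩ := hF h (ε3 * L) 1 η1 η2 a L n s Ω P c o Q0 hεL0
    zero_le_one haL hns hsL hsna e2 hQ0 hhalf hDom2 hRKn hunif
  have hmarg : Dom Q0 (fun w => w 1) P 1 := fun ω => by
    rw [cw_marg hQ0 1 ω, one_mul]
  have hD1 : Dom (on Q0 (TE c o η1 η2)) (fun w => w 1) P 2 := by
    have h1 := (Dom.on (by norm_num) hhalf).comp hmarg
    norm_num at h1
    exact h1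
  have hsup : ∀ w, 0 < (on Q0 (TE c o η1 η2)).w w → Sup c a w ∧ TE c o η1 η2 w := by
    intro w hw
    have h1 := on_pos (by linarith only [a1, htyp, hnot]) hw
    exact ⟨(cw_supp hQ0 h1.2).1, h1.1⟩
  have hKK : K2 * (ε3 * L + 1) ≤ (K1 + K2 + K3) * (ε3 * L + 2) :=
    mul_le_mul (by linarith only [hK1, hK3]) (by linarith only []) (by linarith only [a6]) (by linarith only [hK1, hK2, hK3])
  have hKK' : K2 * (ε3 * L + 1 + 1) ≤ (K1 + K2 + K3) * (ε3 * L + 2) :=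
    mul_le_mul (by linarith only [hK1, hK3]) (by linarith only []) (by linarith only [a6]) (by linarith only [hK1, hK2, hK3])
  have hfin := hS h ((K1 + K2 + K3) * (ε3 * L + 2)) δk p0 ε1 ε2 ε1 η1 η2 a L n s Ω P c o
    (on Q0 (TE c o η1 η2)) hp0 hε1 hsL hns hsna e1 e2 hx hy ht hsup hD1 (f1.trans (by linarith only [hKK]))
    (le_trans (by linarith only [hKK]) f2) (f3.trans (by linarith only [hKK])) (f4.trans hKK) (f5.trans hKK) f6
    (fun j hj => le_trans (by linarith only [hKK']) (f7 j hj)) (f8.trans hKK)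
    (fun Ω₂ _ Q ρ hD => hkill Ω₂ Q ρ (hD.mono (by linarith only [])))
    (fun Ω₂ _ Q ρ hD r hr => ((hrate Ω₂ Q ρ (hD.mono (by linarith only []))).up r s hr hsL).trans (by
      have : ε3 * (L : ℝ) ≤ ε2 * L := mul_le_mul_of_nonneg_right a3 hL0
      linarith only [this]))
    (hcore n s hns hsnL) (le_trans (by
      refine mul_le_mul_of_nonneg_left ?_ (by positivity)
      linarith only [hK2, hK3]) b1) (le_trans (by linarith only [hK2, hK3]) b2) b3 n4
  have hfin2 := hE h (ε3 * L) _ (3 * ε3) η1 η2 a L n s Ω P c o Q0 hεL0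
    ((hc_nonneg _ _ _).trans hfin) (by positivity) haL hns hsL hQ0 hhalf htyp hDom2 hRKn hfin Q hQ
  clear hfin f1 f2 f3 f4 f5 f6 f7 f8 hkill hrate hcore hRK b1 b2 b3 hDom2 hRKn hS hF hE hunif
  refine hfin2.trans ?_
  have hb0 : 0 < Real.log 2 := Real.log_pos (by norm_num)
  have hsnLr : (s : ℝ) - n ≤ L := by
    have : (s : ℝ) ≤ n + L := by exact_mod_cast hsnL
    linarith only [this]
  have g1 : (m : ℝ) * ((s : ℝ) - n) * Real.log 2 ≤ m * L * Real.log 2 := by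
    refine mul_le_mul_of_nonneg_right ?_ hb0.le
    exact mul_le_mul_of_nonneg_left hsnLr (Nat.cast_nonneg m)
  have g2 := mul_le_mul_of_nonneg_left g1 hε1
  have g3 := mul_le_mul_of_nonneg_left g1 (show 0 ≤ 3 * ε3 by positivity)
  have g4 : K3 * (ε3 * L + 1) ≤ (K1 + K2 + K3) * (ε3 * L + 1) :=
    mul_le_mul_of_nonneg_right (by linarith only [hK1, hK2]) (by linarith only [a6])
  linarith only [g2, g3, g4]

end Vale.Agent.P127.Stk.R
end

section

/-!
# P127 / Stk / StepR : the step for the determinism (PROOF.md, section 9)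
-/

namespace Vale.Agent.P127.Stk

open Finset Vale.Agent.P127

theorem R.Hyp_mono {Ω : Type} [Fintype Ω] {m : ℕ} {h : ℝ} {κ a : ℕ} {ι εu ι' εu' e C : ℝ}
    {P : Law Ω} {c : Cf Ω m} {o : Ob Ω m κ} (H : Hyp h κ a ι εu e C P c o) (h1 : ι ≤ ι')
    (h2 : εu ≤ εu') : Hyp h κ a ι' εu' e C P c o where
  good := H.good
  cost := H.cost.trans (mul_le_mul_of_nonneg_right h1 (Nat.cast_nonneg _))
  rate := by
    refine H.rate.trans ?_
    have h3 : (0 : ℝ) ≤ (((κ + 4) * a : ℕ) : ℝ) * Real.log 2 :=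
      mul_nonneg (Nat.cast_nonneg _) (Real.log_nonneg (by norm_num))
    nlinarith only [h1, h3]
  unif := by
    have := H.unif
    linarith only [h2, this]

/-- choice of the constants -/
theorem R.numR (m κ C0 L0 : ℕ) (K1 δk p0 ε1 ε2 εs : ℝ) (hK1 : 0 ≤ K1) (hδk : 0 < δk)
    (hp0 : 0 < p0) (hε2 : 0 < ε2) (hεs : 0 < εs) (hε1m : ε1 * (8 * (m + 1)) = εs)
    (hεsκ : εs * (4 * (κ + 4)) ≤ 1) :
    ∃ ε3 : ℝ, 0 < ε3 ∧ 6 * ε3 ≤ 1 ∧ 2 * ε3 ≤ εs ∧ ε3 ≤ ε2 ∧ 2 * (κ + 4) * ε3 ≤ 1 ∧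
      2 * (κ + 4) * ε1 ≤ 1 ∧ ∃ N : ℝ, 0 < N ∧ ∀ L : ℕ, N ≤ L → L0 ≤ L ∧ 4 ≤ ε3 * (L : ℝ) ∧
      1 / p0 * (8 * (K1 * (ε3 * (L : ℝ) + 2)) + K1 + Real.log 2) ≤ δk * (L : ℝ) ∧
      K1 ≤ δk / 2 * (L : ℝ) ∧ 13 * (K1 * (ε3 * (L : ℝ) + 2)) ≤ ε2 * (L : ℝ) ∧
      Real.log 2 + m * (ε1 * (L : ℝ) * Real.log 2 + Real.log (2 * C0 + 7)) +
          ε1 * (m * (L : ℝ) * Real.log 2) + 3 * ε3 * (m * (L : ℝ) * Real.log 2) +
          K1 * (ε3 * (L : ℝ) + 1) ≤ εs * L := by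
  have hb0 : 0 < Real.log 2 := Real.log_pos (by norm_num)
  have hb1 : Real.log 2 ≤ 1 := by have := Real.log_two_lt_d9; linarith
  have hκ0 : (0 : ℝ) ≤ κ := Nat.cast_nonneg κ
  have hm0 : (0 : ℝ) ≤ m := Nat.cast_nonneg m
  have hε1 : 0 < ε1 := by
    by_contra hcon
    have : ε1 * (8 * (m + 1)) ≤ 0 := mul_nonpos_of_nonpos_of_nonneg (by linarith) (by (clear * -; positivity))
    linarith only [hεs, hε1m, this]
  have hε1s : 8 * ε1 ≤ εs := by nlinarith only [hε1m, hε1]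
  have hε1m' : 8 * (ε1 * m) ≤ εs := by linarith
  obtain ⟨W, hW⟩ : ∃ W : ℝ, W = 32 * (K1 + m + κ + 4) := ⟨_, rfl⟩
  have hW0 : 0 < W := by rw [hW]; (clear * - hK1; positivity)
  obtain ⟨ε3, hε3, q1, q2, q3⟩ : ∃ ε3 : ℝ, 0 < ε3 ∧ ε3 * W ≤ ε2 ∧ ε3 * W ≤ εs ∧
      ε3 * W ≤ δk * p0 := by
    refine ⟨min (min ε2 εs) (δk * p0) / W, div_pos (lt_min (lt_min hε2 hεs) (by positivity)) hW0,
      ?_, ?_, ?_⟩
    · rw [div_mul_cancel₀ _ hW0.ne']
      exact (min_le_left _ _).trans (min_le_left _ _)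
    · rw [div_mul_cancel₀ _ hW0.ne']
      exact (min_le_left _ _).trans (min_le_right _ _)
    · rw [div_mul_cancel₀ _ hW0.ne']
      exact min_le_right _ _
  have r1 : 32 * (ε3 * K1) ≤ ε3 * W := by
    rw [hW]; nlinarith only [hε3]
  have r3 : 32 * (ε3 * m) ≤ ε3 * W := by
    rw [hW]; nlinarith only [hε3, hK1]
  have r4 : 32 * (ε3 * (κ + 4)) ≤ ε3 * W := by
    rw [hW]; nlinarith only [hε3, hK1]
  have hεs1 : εs * (κ + 4) ≤ 1 := by nlinarith only [hεsκ]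
  have hεs4 : εs * 16 ≤ 1 := by nlinarith only [hεsκ]
  have r5 : 4 * ε3 ≤ ε3 * (κ + 4) := by nlinarith only [hε3]
  have hlogC : 0 ≤ Real.log (2 * (C0 : ℝ) + 7) := Real.log_nonneg (by
    have : (0 : ℝ) ≤ C0 := Nat.cast_nonneg _
    linarith only [])
  refine ⟨ε3, hε3, by linarith only [q2, r4, hεs4, r5], by linarith only [hε3, q2, r4, r5], by linarith only [hε3, q1, r4, r5], by linarith only [q2, r4, hεs4], ?_, ?_⟩
  · have : ε1 * (κ + 4) * 8 ≤ εs * (κ + 4) := by nlinarith only [hε1s]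
    linarith only [hεsκ, this]
  refine ⟨L0 + 52 * K1 / ε2 + 2 * (16 * K1 + K1 + 1) / (p0 * δk) + 2 * K1 / δk +
    2 * (1 + m * Real.log (2 * C0 + 7) + K1) / εs + 4 / ε3, by (clear * - hK1 hε2 hp0 hδk hlogC hεs hε3; positivity), ?_⟩
  intro L hL
  have p1 : 0 ≤ 52 * K1 / ε2 := by (clear * - hK1 hε2; positivity)
  have p2 : 0 ≤ 2 * (16 * K1 + K1 + 1) / (p0 * δk) := by (clear * - hK1 hp0 hδk; positivity)
  have p3 : 0 ≤ 2 * K1 / δk := by (clear * - hK1 hδk; positivity)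
  have p4 : 0 ≤ 2 * (1 + m * Real.log (2 * C0 + 7) + K1) / εs := by (clear * - hlogC hK1 hεs; positivity)
  have p5 : 0 ≤ 4 / ε3 := by positivity
  have p6 : (0 : ℝ) ≤ L0 := Nat.cast_nonneg L0
  have hL0 : (0 : ℝ) ≤ L := Nat.cast_nonneg L
  have s1 : 52 * K1 ≤ L * ε2 := by rw [← div_le_iff₀ hε2]; linarith only [hL, p2, p3, p4, p5]
  have s2 : 2 * (16 * K1 + K1 + 1) ≤ L * (p0 * δk) := by
    rw [← div_le_iff₀ (by positivity)]; linarith only [hL, p1, p3, p4, p5]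
  have s3 : 2 * K1 ≤ L * δk := by rw [← div_le_iff₀ hδk]; linarith
  have s4 : 2 * (1 + m * Real.log (2 * C0 + 7) + K1) ≤ L * εs := by
    rw [← div_le_iff₀ hεs]; (clear * - hL p1 p2 p3 p5; linarith)
  have s5 : 4 ≤ L * ε3 := by rw [← div_le_iff₀ hε3]; linarith only [hL, p1, p2, p3, p4]
  have t1 : 32 * (ε3 * K1) * L ≤ ε2 * L := mul_le_mul_of_nonneg_right (by linarith only [q1, r1]) hL0
  have t2 : 32 * (ε3 * K1) * L ≤ εs * L := mul_le_mul_of_nonneg_right (by linarith only [q2, r1]) hL0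
  have t3 : 32 * (ε3 * K1) * L ≤ δk * p0 * L := mul_le_mul_of_nonneg_right (by linarith only [q3, r1]) hL0
  have t4 : 32 * (ε3 * m) * L ≤ εs * L := mul_le_mul_of_nonneg_right (by linarith only [q2, r3]) hL0
  have t5 : 8 * (ε1 * m) * L ≤ εs * L := mul_le_mul_of_nonneg_right (by linarith only [hε1m, hε1]) hL0
  refine ⟨?_, by linarith only [s5], ?_, by linarith only [s3], by linarith only [hK1, s1, t1], ?_⟩
  · have : (L0 : ℝ) ≤ L := by linarith only [hL, p1, p2, p3, p4, p5]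
    exact_mod_cast this
  · rw [one_div, inv_mul_le_iff₀ hp0]
    have e1 : p0 * (δk * L) = δk * p0 * L := by ring
    have e2 : L * (p0 * δk) = δk * p0 * L := by ring
    have e3 : 8 * (K1 * (ε3 * L + 2)) = 8 * (ε3 * K1) * L + 16 * K1 := by ring
    rw [e1, e3]
    rw [e2] at s2
    have : 0 ≤ ε3 * K1 * L := by (clear * - hε3 hK1; positivity)
    linarith only [hK1, hb1, s2, t3]
  · have u1 : m * (ε1 * L * Real.log 2) ≤ m * (ε1 * L * 1) :=
      mul_le_mul_of_nonneg_left (mul_le_mul_of_nonneg_left hb1 (by (clear * - hε1; positivity))) hm0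
    have u2 : ε1 * (m * L * Real.log 2) ≤ ε1 * (m * L * 1) :=
      mul_le_mul_of_nonneg_left (mul_le_mul_of_nonneg_left hb1 (by (clear * -; positivity))) hε1.le
    have u3 : 3 * ε3 * (m * L * Real.log 2) ≤ 3 * ε3 * (m * L * 1) :=
      mul_le_mul_of_nonneg_left (mul_le_mul_of_nonneg_left hb1 (by (clear * -; positivity))) (by positivity)
    have v1 : (m : ℝ) * (ε1 * L * 1) = ε1 * m * L := by ring
    have v2 : ε1 * ((m : ℝ) * L * 1) = ε1 * m * L := by ring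
    have v3 : 3 * ε3 * ((m : ℝ) * L * 1) = 3 * (ε3 * m * L) := by ring
    have v4 : K1 * (ε3 * L + 1) = ε3 * K1 * L + K1 := by ring
    rw [v1] at u1
    rw [v2] at u2
    rw [v3] at u3
    rw [mul_add, v4]
    have v5 : 0 ≤ ε3 * m * L := by (clear * - hε3; positivity)
    have v6 : 0 ≤ ε3 * K1 * L := by (clear * - hε3 hK1; positivity)
    have v7 : 0 ≤ εs * L := by (clear * - hεs; positivity)
    linarith only [hb1, s4, t2, t4, t5, u1, u3, v5]

/-- the step for the determinism -/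
theorem stepR (Rg : Gr) : PStepR Rg := by
  intro m h κ k hk1 hk2 hLB hN hC0 hRK hCK ε hε
  have hεs0 : 0 < min ε (1 / (4 * ((κ : ℝ) + 4))) := lt_min hε (by (clear * -; positivity))
  have hεsε : min ε (1 / (4 * ((κ : ℝ) + 4))) ≤ ε := min_le_left _ _
  have hεsκ : min ε (1 / (4 * ((κ : ℝ) + 4))) * (4 * (κ + 4)) ≤ 1 := by
    have : min ε (1 / (4 * ((κ : ℝ) + 4))) ≤ 1 / (4 * (κ + 4)) := min_le_right _ _
    rwa [le_div_iff₀ (by (clear * -; positivity))] at this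
  generalize min ε (1 / (4 * ((κ : ℝ) + 4))) = εs at hεs0 hεsε hεsκ
  obtain ⟨C0, K1, hK1, hfix⟩ := R.fixR m κ k
  obtain ⟨ε1, hε10, hε1m⟩ : ∃ ε1 : ℝ, 0 < ε1 ∧ ε1 * (8 * ((m : ℝ) + 1)) = εs :=
    ⟨εs / (8 * (m + 1)), by positivity, by (clear * - hεs0; field_simp)⟩
  obtain ⟨δk, hδk, hkill⟩ := kill Rg hN (η := ε1 / 8) (by positivity)
  obtain ⟨p0, hp0, ε2, hε2, L0, hcore⟩ := R.coreR m (k + 1) C0 ε1 ε1 (δk / 2) hε10 hε10
    (by positivity)
  obtain ⟨ε3, hε3, a1, a2, a3, a4, a5, N, hN0, hnum⟩ := R.numR m κ C0 L0 K1 δk p0 ε1 ε2 εs hK1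
    hδk hp0 hε2 hεs0 hε1m hεsκ
  -- the hypotheses with the accuracy ε3
  obtain ⟨ι1, hι1, H1⟩ := rates_main Rg hLB ε3 (2 + 2 / p0) hε3
  obtain ⟨ι2, hι2, εu2, hεu2, H2⟩ := hRK ε3 hε3
  obtain ⟨ι3, hι3, εu3, hεu3, H3⟩ := hCK ε3 hε3
  obtain ⟨ι4, hι4, εu4, hεu4, H4⟩ := hC0 ε3 hε3
  refine ⟨min (min ι1 ι2) (min ι3 ι4), lt_min (lt_min hι1 hι2) (lt_min hι3 hι4),
    min (min εu2 εu3) (min εu4 1), lt_min (lt_min hεu2 hεu3) (lt_min hεu4 one_pos), ?_⟩
  intro g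
  obtain ⟨n1, hn1⟩ := H1 g
  obtain ⟨n2, hn2⟩ := H2 g
  obtain ⟨n3, hn3⟩ := H3 g
  obtain ⟨n4, hn4⟩ := H4 g
  obtain ⟨n5, hn5⟩ := hkill (2 + 2 / p0) g
  obtain ⟨n6, hn6⟩ := Rg.small g (1 / N) (by positivity)
  refine ⟨max (max (max n1 n2) (max n3 n4)) (max n5 n6), ?_⟩
  intro a e C hok Ω _ P c o hH Q hQ s hs
  have ok1 := Rg.anti g n1 _ _ _ _
    (((le_max_left _ _).trans (le_max_left _ _)).trans (le_max_left _ _)) hok
  have ok2 := Rg.anti g n2 _ _ _ _
    (((le_max_right _ _).trans (le_max_left _ _)).trans (le_max_left _ _)) hok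
  have ok3 := Rg.anti g n3 _ _ _ _
    (((le_max_left _ _).trans (le_max_right _ _)).trans (le_max_left _ _)) hok
  have ok4 := Rg.anti g n4 _ _ _ _
    (((le_max_right _ _).trans (le_max_right _ _)).trans (le_max_left _ _)) hok
  have ok5 := Rg.anti g n5 _ _ _ _ ((le_max_left _ _).trans (le_max_right _ _)) hok
  have ok6 := Rg.anti g n6 _ _ _ _ ((le_max_right _ _).trans (le_max_right _ _)) hok
  have hHa : Hyp h κ a ι1 1 e C P c o := R.Hyp_mono hH
    ((min_le_left _ _).trans (min_le_left _ _)) ((min_le_right _ _).trans (min_le_right _ _))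
  have hHb : Hyp h κ a ι2 εu2 e C P c o := R.Hyp_mono hH
    ((min_le_left _ _).trans (min_le_right _ _)) ((min_le_left _ _).trans (min_le_left _ _))
  have hHc : Hyp h κ a ι3 εu3 e C P c o := R.Hyp_mono hH
    ((min_le_right _ _).trans (min_le_left _ _)) ((min_le_left _ _).trans (min_le_right _ _))
  have hHd : Hyp h κ a ι4 εu4 e C P c o := R.Hyp_mono hH
    ((min_le_right _ _).trans (min_le_right _ _)) ((min_le_right _ _).trans (min_le_left _ _))
  have hRKa := hn2 a e C ok2 Ω P c o hHb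
  have hCKa := hn3 a e C ok3 Ω P c o hHc
  have hC0a := hn4 a e C ok4 Ω P c o hHd
  have hLN : N ≤ (((κ + 4) * a : ℕ) : ℝ) := by
    have h1 := (hn6 _ e C ok6).1
    rw [one_div, inv_mul_eq_div, le_div_iff₀ hN0, one_mul] at h1
    exact h1
  obtain ⟨b1, b2, b3, b4, b5, b6⟩ := hnum _ hLN
  have hL0 : (0 : ℝ) ≤ (((κ + 4) * a : ℕ) : ℝ) := Nat.cast_nonneg _
  have hsL : (s : ℝ) + εs * (((κ + 4) * a : ℕ) : ℝ) ≤ (k + 1) * a := by
    have h1 : εs * (((κ + 4) * a : ℕ) : ℝ) ≤ ε * (((κ + 4) * a : ℕ) : ℝ) :=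
      mul_le_mul_of_nonneg_right hεsε hL0
    push_cast at h1 hs ⊢
    linarith only [h1, hs]
  have hεL : εs * (((κ + 4) * a : ℕ) : ℝ) ≤ ε * (((κ + 4) * a : ℕ) : ℝ) :=
    mul_le_mul_of_nonneg_right hεsε hL0
  by_cases hcase : (s : ℝ) + ε3 * (((κ + 4) * a : ℕ) : ℝ) ≤ k * a
  · refine (hRKa Q hQ s hcase).trans ?_
    have h1 : ε3 * (((κ + 4) * a : ℕ) : ℝ) ≤ εs * (((κ + 4) * a : ℕ) : ℝ) :=
      mul_le_mul_of_nonneg_right (by linarith only [hε3, a2]) hL0
    linarith only [hεL, h1]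
  · push Not at hcase
    have hmain := hfix h δk p0 ε1 ε2 ε3 εs a ((κ + 4) * a) Ω P c o (by push_cast; ring) hk1 hp0
      hε3 hε10.le a1 a2 a3 a4 a5 b2 hH.good.x01 hH.good.y01 hH.good.t01 hHa.unif
      (fun Ω₂ _ Q ρ hD => hn5 _ e C ok5 Ω P c o hH.good Ω₂ Q ρ hD)
      (fun Ω₂ _ Q ρ hD => hn1 _ e C ok1 Ω Ω₂ P c o Q ρ hH.good hHa.cost hHa.rate hD)
      (fun n s h1 h2 => hcore _ n s b1 h1 h2) hRKa hCKa hC0a b3 b4 b5 Q hQ s hsL hcase hk2
    exact hmain.trans (b6.trans hεL)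

end Vale.Agent.P127.Stk
end

section

/-!
# P127 / Stk : entropies of a cube family (PROOF.md, section 8)
-/

namespace Vale.Agent.P127.Stk

open Finset Vale.Agent.P127

section ce

/-- the first digits of the truncated vector -/
theorem ce_fl_fl {ι : Type} {r N : ℕ} (h : r ≤ N) (v : ι → ℝ) :
    fl r (fun i => (fl N v i : ℝ) / 2 ^ N) = fl r v := by
  funext i
  show ⌊(2 : ℝ) ^ r * ((⌊(2 : ℝ) ^ N * v i⌋ : ℝ) / 2 ^ N)⌋ = ⌊(2 : ℝ) ^ r * v i⌋
  rw [floor_pow_aux h (v i)]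
  have h1 : (2 : ℝ) ^ r * ((⌊(2 : ℝ) ^ N * v i⌋ : ℝ) / 2 ^ N) =
      (⌊(2 : ℝ) ^ N * v i⌋ : ℝ) / ((2 ^ (N - r) : ℕ) : ℝ) := by
    have h2 : (2 : ℝ) ^ N = (2 : ℝ) ^ r * (2 : ℝ) ^ (N - r) := by
      rw [← pow_add, Nat.add_sub_cancel' h]
    rw [h2]
    push_cast
    field_simp
  rw [h1, Int.floor_div_natCast, Int.floor_intCast]

variable {Ω : Type} [Fintype Ω] {S T : Type*}

/-- entropy of a tuple -/
theorem ce_hc_pi {V : Type} [Fintype V] (P : Law Ω) (X : V → Ω → S) (Y : Ω → T) :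
    hc P (fun ω v => X v ω) Y ≤ ∑ v, hc P (X v) Y := by
  classical
  have h : ∀ s : Finset V, hc P (fun ω (v : s) => X v ω) Y ≤ ∑ v ∈ s, hc P (X v) Y := by
    intro s
    induction s using Finset.induction_on with
    | empty =>
      rw [Finset.sum_empty]
      refine (hc_zero P ?_).le
      intro ω ω' _ _ _
      funext v
      exact absurd v.2 (Finset.notMem_empty _)
    | insert a s ha ih =>
      rw [Finset.sum_insert ha]
      have h1 : hc P (fun ω (v : (insert a s : Finset V)) => X v ω) Y ≤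
          hc P (fun ω => (X a ω, fun v : s => X v ω)) Y := by
        refine hc_mono_left P ?_
        intro ω ω' _ _ e
        simp only [Prod.mk.injEq] at e
        funext v
        rcases Finset.mem_insert.1 v.2 with hv | hv
        · show X v ω = X v ω'
          rw [hv]
          exact e.1.1
        · exact congrFun e.1.2 ⟨v.1, hv⟩
      have h2 := hc_pair P (X a) (fun ω (v : s) => X v ω) Y
      have h3 : hc P (fun ω (v : s) => X v ω) (fun ω => (X a ω, Y ω)) ≤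
          hc P (fun ω (v : s) => X v ω) Y :=
        hc_mono_right P _ fun ω ω' _ _ e => congrArg Prod.snd e
      linarith
  have h1 : hc P (fun ω v => X v ω) Y ≤
      hc P (fun ω (v : (Finset.univ : Finset V)) => X v ω) Y := by
    refine hc_mono_left P ?_
    intro ω ω' _ _ e
    simp only [Prod.mk.injEq] at e
    funext v
    exact congrFun e.1 ⟨v, Finset.mem_univ v⟩
  exact h1.trans (h _)

end ce

section lin

variable {m : ℕ}

/-- the cell -/
theorem ce_cell (n : ℕ) (v : ℝ) : |v - (⌊(2 : ℝ) ^ n * v⌋ : ℝ) / 2 ^ n| ≤ (1 / 2 : ℝ) ^ n := by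
  have h2 : (0 : ℝ) < 2 ^ n := by positivity
  have a1 := Int.floor_le ((2 : ℝ) ^ n * v)
  have a2 := Int.lt_floor_add_one ((2 : ℝ) ^ n * v)
  have e1 : v - (⌊(2 : ℝ) ^ n * v⌋ : ℝ) / 2 ^ n =
      ((2 : ℝ) ^ n * v - ⌊(2 : ℝ) ^ n * v⌋) / 2 ^ n := by
    field_simp
  rw [e1, abs_div, abs_of_pos h2, one_div, inv_pow, div_le_iff₀ h2, inv_mul_cancel₀ h2.ne',
    abs_le]
  constructor <;> linarith

/-- change of the projected point -/
theorem ce_lin (κ n : ℕ) (J : Finset (Fin m)) (hJ : J.card = κ) (Γ : Fin m → Fin m → ℝ)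
    (hΓ : ∀ i j, |Γ i j| ≤ 3 ^ κ) (t : ℝ) (ht : 0 ≤ t ∧ t < 1) (x y x' y' : Fin m → ℝ)
    (hx : ∀ i, |x i - x' i| ≤ (1 / 2 : ℝ) ^ n) (hy : ∀ i, |y i - y' i| ≤ (1 / 2 : ℝ) ^ n)
    (i : Fin m) :
    |linF J Γ t x y i - linF J Γ t x' y' i| ≤
      ((2 * (1 + κ * 3 ^ κ) : ℕ) : ℝ) * (1 / 2 : ℝ) ^ n := by
  have hp : (0 : ℝ) ≤ (1 / 2 : ℝ) ^ n := by positivity
  have hd : ∀ j, |(x j + t * y j) - (x' j + t * y' j)| ≤ 2 * (1 / 2 : ℝ) ^ n := by
    intro j
    have e1 : (x j + t * y j) - (x' j + t * y' j) = (x j - x' j) + t * (y j - y' j) := by ring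
    rw [e1]
    refine (abs_add_le _ _).trans ?_
    rw [abs_mul, abs_of_nonneg ht.1]
    have h1 := hx j
    have h2 : t * |y j - y' j| ≤ 1 * (1 / 2 : ℝ) ^ n :=
      mul_le_mul ht.2.le (hy j) (abs_nonneg _) zero_le_one
    (clear * - h1 h2; linarith)
  unfold linF
  by_cases hi : i ∈ J
  · rw [if_pos hi, if_pos hi, sub_zero, abs_zero]
    (clear * -; positivity)
  · rw [if_neg hi, if_neg hi]
    have e1 : (x i + t * y i - ∑ j ∈ J, Γ i j * (x j + t * y j)) -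
        (x' i + t * y' i - ∑ j ∈ J, Γ i j * (x' j + t * y' j)) =
        ((x i + t * y i) - (x' i + t * y' i)) -
          ∑ j ∈ J, Γ i j * ((x j + t * y j) - (x' j + t * y' j)) := by
      simp only [mul_sub, Finset.sum_sub_distrib]
      ring
    rw [e1]
    refine (abs_sub _ _).trans ?_
    have h2 : |∑ j ∈ J, Γ i j * ((x j + t * y j) - (x' j + t * y' j))| ≤
        κ * (3 ^ κ * (2 * (1 / 2 : ℝ) ^ n)) := by
      refine (Finset.abs_sum_le_sum_abs _ _).trans ?_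
      have h3 : ∑ j ∈ J, |Γ i j * ((x j + t * y j) - (x' j + t * y' j))| ≤
          ∑ j ∈ J, (3 : ℝ) ^ κ * (2 * (1 / 2 : ℝ) ^ n) := by
        refine Finset.sum_le_sum fun j _ => ?_
        rw [abs_mul]
        exact mul_le_mul (hΓ i j) (hd j) (abs_nonneg _) (by positivity)
      rw [Finset.sum_const, hJ, nsmul_eq_mul] at h3
      exact h3
    have h3 := hd i
    push_cast
    linarith

end lin

section fam

variable {Ω Ω' : Type} [Fintype Ω] [Fintype Ω'] {m κ k : ℕ}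

omit [Fintype Ω] in
/-- the keys give the line -/
theorem ce_key {a : ℕ} {c : Cf Ω m} {ω ω' : Ω} (h : key c a ω = key c a ω') :
    c.x ω = c.x ω' ∧ c.y ω = c.y ω' ∧ c.A ω = c.A ω' := by
  unfold key at h
  simp only [Prod.mk.injEq] at h
  exact ⟨h.1, h.2.1, h.2.2.1⟩

/-- the condition of a family costs little -/
theorem ce_lower {a : ℕ} {K cost : ℝ} {P : Law Ω} {c : Cf Ω m} {o : Ob Ω m κ} {Q : Law Ω'}
    {π : CI k → Ω' → Ω} (h : CubeFam a k K cost P c o Q π) (i : CI k) {S T : Type*}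
    (X : Ω' → S) (Y : Ω' → T)
    (hX : Fn Q X (fun ω => ((c.x (π (vb k) ω), c.y (π (vb k) ω)), TT c o π ω i,
      c.A (π (vb k) ω))))
    (hY : Fn Q Y (fun ω => ((c.x (π (vb k) ω), c.y (π (vb k) ω)), TT c o π ω i,
      c.A (π (vb k) ω)))) :
    hc Q X (fun ω => (Y ω, c.t (π i ω), o.G (π i ω), c.A (π i ω))) - cost ≤
      hc Q X (fun ω => (Y ω, TT c o π ω, c.A (π (vb k) ω))) := by
  have h1 := Fam.add_T Q (X := X) (Y := Y)
    (l := fun ω => (c.x (π (vb k) ω), c.y (π (vb k) ω))) (Z := fun ω => TT c o π ω i)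
    (T0 := TT c o π) (A := fun ω => c.A (π (vb k) ω)) hX hY
    (fun ω ω' _ _ e => congrFun e i)
  have h2 := h.cost
  have h3 : hc Q X (fun ω => (Y ω, c.t (π i ω), o.G (π i ω), c.A (π i ω))) =
      hc Q X (fun ω => (Y ω, TT c o π ω i, c.A (π (vb k) ω))) := by
    refine hc_congr Q (fun ω ω' _ _ e => congrArg Prod.fst e)
      (fun ω ω' _ _ e => congrArg Prod.fst e) (fun ω ω' p p' e => ?_) (fun ω ω' p p' e => ?_)
    · simp only [TT, Prod.mk.injEq] at e ⊢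
      refine ⟨e.1, e.2.1.1, e.2.1.2, ?_⟩
      rw [(ce_key (h.keys ω p i (vb k))).2.2, (ce_key (h.keys ω' p' i (vb k))).2.2]
      exact e.2.2
    · simp only [TT, Prod.mk.injEq] at e ⊢
      refine ⟨e.1, ⟨e.2.1, e.2.2.1⟩, ?_⟩
      rw [← (ce_key (h.keys ω p i (vb k))).2.2, ← (ce_key (h.keys ω' p' i (vb k))).2.2]
      exact e.2.2.2
  linarith

/-- the projected points of a family are determined, up to few values, by the cell of the line
and the data -/
theorem ce_cells {a n : ℕ} {K cost : ℝ} {P : Law Ω} {c : Cf Ω m} {o : Ob Ω m κ} {Q : Law Ω'}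
    {π : CI k → Ω' → Ω} (hf : CubeFam a k K cost P c o Q π)
    (h01 : ∀ ω, 0 ≤ c.t ω ∧ c.t ω < 1) {T : Type*} (Z : Ω' → T) :
    hc Q (fun ω => fun S => fl n (cF c o π S ω))
      (fun ω => (cq n c π ω, TT c o π ω, Z ω)) ≤
      2 ^ (k + 2) * m * Real.log (2 * ((2 * (1 + κ * 3 ^ κ) : ℕ) : ℝ) + 3) := by
  have h1 := hc_fl_close Q (s := n) (2 * (1 + κ * 3 ^ κ))
    (fun ω (p : Finset (Fin (k + 2)) × Fin m) => cF c o π p.1 ω p.2)
    (fun ω (p : Finset (Fin (k + 2)) × Fin m) =>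
      linF o.J (o.Gh (TT c o π ω (Sum.inl p.1)).2) (TT c o π ω (Sum.inl p.1)).1
        (fun i => ((cq n c π ω).1 i : ℝ) / 2 ^ n) (fun i => ((cq n c π ω).2 i : ℝ) / 2 ^ n) p.2)
    (fun ω => (cq n c π ω, TT c o π ω, Z ω)) (by
      intro ω hω p
      have hk := ce_key (hf.keys ω hω (Sum.inl p.1) (vb k))
      show |o.F c (π (Sum.inl p.1) ω) p.2 - linF o.J (o.Gh (o.G (π (Sum.inl p.1) ω)))
        (c.t (π (Sum.inl p.1) ω)) _ _ p.2| ≤ _
      rw [F_eq_linF, o.Gh_G, hk.1, hk.2.1]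
      exact ce_lin κ n o.J o.card _ (fun i j => o.bd _ i j) _ (h01 _) _ _ _ _
        (fun i => ce_cell n _) (fun i => ce_cell n _) p.2)
  have h2 : (Fintype.card (Finset (Fin (k + 2)) × Fin m) : ℝ) = 2 ^ (k + 2) * m := by
    rw [Fintype.card_prod, Fintype.card_finset, Fintype.card_fin, Fintype.card_fin]
    push_cast
    ring
  rw [h2] at h1
  refine le_trans ?_ h1
  refine (hc_mono_left Q (X' := fun ω => fl n
    (fun (p : Finset (Fin (k + 2)) × Fin m) => cF c o π p.1 ω p.2)) ?_).trans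
      (hc_mono_right Q _ ?_)
  · intro ω ω' _ _ e
    simp only [Prod.mk.injEq] at e
    funext S i
    exact congrFun e.1 (S, i)
  · intro ω ω' _ _ e
    simp only [Prod.mk.injEq] at e ⊢
    refine ⟨?_, e.1, e.2⟩
    simp only [e.1, e.2.1]

/-- a logarithm -/
theorem ce_log {a κ k : ℕ} {εr : ℝ}
    (hbig : 2 ^ (k + 3) * (m + 1) * Real.log (4 * 3 ^ κ * (κ + 1) + 10) ≤
      εr * ((κ + 4) * a : ℕ)) :
    0 ≤ εr * ((κ + 4) * a : ℕ) ∧
    2 ^ (k + 2) * m * Real.log (2 * ((2 * (1 + κ * 3 ^ κ) : ℕ) : ℝ) + 3) ≤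
      εr * ((κ + 4) * a : ℕ) ∧
    (m : ℝ) * Real.log 7 ≤ εr * ((κ + 4) * a : ℕ) := by
  have h3 : (0 : ℝ) < 3 ^ κ := by positivity
  have hκ : (0 : ℝ) ≤ κ := Nat.cast_nonneg _
  have hm : (0 : ℝ) ≤ m := Nat.cast_nonneg _
  have hb : (0 : ℝ) ≤ Real.log (4 * 3 ^ κ * (κ + 1) + 10) :=
    Real.log_nonneg (by nlinarith only [h3])
  have hpos : (0 : ℝ) ≤ 2 ^ (k + 3) * (m + 1) * Real.log (4 * 3 ^ κ * (κ + 1) + 10) := by
    positivity
  have h1 : Real.log (2 * ((2 * (1 + κ * 3 ^ κ) : ℕ) : ℝ) + 3) ≤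
      Real.log (4 * 3 ^ κ * (κ + 1) + 10) := by
    refine Real.log_le_log (by positivity) ?_
    push_cast
    linarith
  have h2 : Real.log 7 ≤ Real.log (4 * 3 ^ κ * (κ + 1) + 10) := by
    refine Real.log_le_log (by norm_num) ?_
    nlinarith only [h3]
  have hk : (1 : ℝ) ≤ 2 ^ (k + 2) := one_le_pow₀ (by norm_num)
  have hk3 : (2 : ℝ) ^ (k + 3) = 2 * 2 ^ (k + 2) := by ring
  refine ⟨hpos.trans hbig, le_trans ?_ hbig, le_trans ?_ hbig⟩
  · refine mul_le_mul ?_ h1 (Real.log_nonneg (by push_cast; nlinarith only [h3]))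
      (by (clear * -; positivity))
    rw [hk3]
    nlinarith only [hk]
  · refine mul_le_mul ?_ h2 (Real.log_nonneg (by norm_num)) (by (clear * -; positivity))
    rw [hk3]
    nlinarith only [hk]

/-- hypotheses of the absorption lemma and of the displacement lemma -/
theorem cube_ent {a n N : ℕ} {h K cost εr : ℝ} {P : Law Ω} {c : Cf Ω m} {o : Ob Ω m κ}
    {Q : Law Ω'} {π : CI k → Ω' → Ω} (hf : CubeFam a k K cost P c o Q π)
    (hx : ∀ ω i, 0 ≤ c.x ω i ∧ c.x ω i < 1) (hy : ∀ ω i, 0 ≤ c.y ω i ∧ c.y ω i < 1)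
    (h01 : ∀ ω, 0 ≤ c.t ω ∧ c.t ω < 1)
    (hr : ∀ S, Rates h ((κ + 4) * a) εr c o Q (π (Sum.inl S)))
    (hR : ∀ S, hc Q (fun ω => fl n (cF c o π S ω))
      (fun ω => (fl n (cF c o π ∅ ω), TT c o π ω, c.A (π (vb k) ω))) ≤ εr * ((κ + 4) * a : ℕ))
    (hcost : cost ≤ εr * ((κ + 4) * a : ℕ)) (hnN : n ≤ N) (hN : N ≤ (κ + 4) * a)
    (hbig : 2 ^ (k + 3) * (m + 1) * Real.log (4 * 3 ^ κ * (κ + 1) + 10) ≤ εr * ((κ + 4) * a : ℕ)) :
    (∀ S, hc Q (cX N c o π S) (cB n c o π) ≤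
      (h - κ) * ((N : ℝ) - n) * Real.log 2 + εr * ((κ + 4) * a : ℕ)) ∧
    (∀ r : ℕ, n ≤ r → r ≤ N → (h - κ) * ((r : ℝ) - n) * Real.log 2 -
        3 * εr * ((κ + 4) * a : ℕ) ≤
      hc Q (fun ω => fl r (fun i => (cX N c o π ∅ ω i : ℝ) / 2 ^ N))
        (fun ω => (cq n c π ω, cB n c o π ω))) ∧
    (∀ s : ℕ, s ≤ n → (κ : ℝ) * s * Real.log 2 - 2 ^ (k + 4) * εr * ((κ + 4) * a : ℕ) ≤
      hc Q (fun ω => fl s (fun j : {j // j ∈ o.J} => cC n c o (cB n c o π ω) (cq n c π ω) j))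
        (fun ω => (cX N c o π ∅ ω, cB n c o π ω))) := by
  obtain ⟨hb0, hb1, hb2⟩ := ce_log (m := m) hbig
  refine ⟨fun S => ?_, fun r hnr hrN => ?_, fun s hs => ?_⟩
  · refine le_trans (hc_mono_right Q _ ?_) ((hr S).r3 n N hnN hN)
    intro ω ω' p p' e
    simp only [cB, Prod.mk.injEq] at e ⊢
    have e1 := congrFun e.1 (Sum.inl S)
    simp only [TT, Prod.mk.injEq] at e1
    refine ⟨congrFun e.2.2 S, e1.1, e1.2, ?_⟩
    rw [(ce_key (hf.keys ω p (Sum.inl S) (vb k))).2.2,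
      (ce_key (hf.keys ω' p' (Sum.inl S) (vb k))).2.2]
    exact e.2.1
  · have h1 := (hr ∅).r1 n r hnr (hrN.trans hN)
    have h2 := ce_lower hf (Sum.inl ∅) (fun ω => fl r (o.F c (π (Sum.inl ∅) ω)))
      (cq n c π) (by
        intro ω ω' _ _ e
        simp only [TT, Prod.mk.injEq] at e
        show fl r (o.F c (π (vb k) ω)) = fl r (o.F c (π (vb k) ω'))
        rw [F_eq_linF, F_eq_linF, e.1.1, e.1.2, e.2.1.1, o.fn _ _ e.2.1.2]) (by
        intro ω ω' _ _ e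
        simp only [TT, Prod.mk.injEq] at e
        show cq n c π ω = cq n c π ω'
        unfold cq
        rw [e.1.1, e.1.2])
    have h3 := ce_cells (n := n) hf h01 (fun ω => c.A (π (vb k) ω))
    have h4 := hc_le_add' Q (fun ω => fl r (o.F c (π (Sum.inl ∅) ω)))
      (fun ω => fun S => fl n (cF c o π S ω))
      (fun ω => (cq n c π ω, TT c o π ω, c.A (π (vb k) ω)))
    have h5 : hc Q (fun ω => fl r (o.F c (π (Sum.inl ∅) ω)))
        (fun ω => (fun S => fl n (cF c o π S ω),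
          cq n c π ω, TT c o π ω, c.A (π (vb k) ω))) ≤
        hc Q (fun ω => fl r (fun i => (cX N c o π ∅ ω i : ℝ) / 2 ^ N))
          (fun ω => (cq n c π ω, cB n c o π ω)) := by
      refine hc_mono_left Q ?_ |>.trans (hc_mono_right Q _ ?_)
      · intro ω ω' _ _ e
        simp only [Prod.mk.injEq] at e
        have e1 := e.1
        simp only [cX] at e1
        rw [ce_fl_fl hrN, ce_fl_fl hrN] at e1
        exact e1
      · intro ω ω' _ _ e
        simp only [cB, Prod.mk.injEq] at e ⊢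
        exact ⟨e.2.1, e.2.2.1, e.2.2.2, e.1⟩
    have h6 : hc Q (fun ω => fl r (o.F c (π (Sum.inl ∅) ω)))
        (fun ω => (fl n (c.x (π (Sum.inl ∅) ω)), fl n (c.y (π (Sum.inl ∅) ω)),
          c.t (π (Sum.inl ∅) ω), o.G (π (Sum.inl ∅) ω), c.A (π (Sum.inl ∅) ω))) ≤
        hc Q (fun ω => fl r (o.F c (π (Sum.inl ∅) ω)))
          (fun ω => (cq n c π ω, c.t (π (Sum.inl ∅) ω), o.G (π (Sum.inl ∅) ω),
            c.A (π (Sum.inl ∅) ω))) := by
      refine hc_mono_right Q _ ?_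
      intro ω ω' _ _ e
      simp only [Prod.mk.injEq] at e ⊢
      exact ⟨Prod.ext e.1 e.2.1, e.2.2.1, e.2.2.2.1, e.2.2.2.2⟩
    (clear * - hcost hb1 h1 h2 h3 h4 h5 h6; linarith)
  · have h1 := (hr ∅).r4 s N (hs.trans hnN) hN
    have h2 := ce_lower hf (Sum.inl ∅)
      (fun ω => fl s (fun j : {j // j ∈ o.J} => c.pt (π (Sum.inl ∅) ω) j))
      (fun ω => fl N (o.F c (π (Sum.inl ∅) ω))) (by
        intro ω ω' _ _ e
        simp only [TT, Prod.mk.injEq] at e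
        simp only [Cf.pt]
        show fl s (fun j : {j // j ∈ o.J} => c.x (π (vb k) ω) j + c.t (π (Sum.inl ∅) ω) *
          c.y (π (vb k) ω) j) = fl s (fun j : {j // j ∈ o.J} => c.x (π (vb k) ω') j +
          c.t (π (Sum.inl ∅) ω') * c.y (π (vb k) ω') j)
        rw [e.1.1, e.1.2, e.2.1.1]) (by
        intro ω ω' _ _ e
        simp only [TT, Prod.mk.injEq] at e
        show fl N (o.F c (π (vb k) ω)) = fl N (o.F c (π (vb k) ω'))
        rw [F_eq_linF, F_eq_linF, e.1.1, e.1.2, e.2.1.1, o.fn _ _ e.2.1.2])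
    have h3 := ce_hc_pi Q (fun S ω => fl n (cF c o π S ω))
      (fun ω => (fl N (o.F c (π (Sum.inl ∅) ω)), TT c o π ω, c.A (π (vb k) ω)))
    have h4 : ∑ S : Finset (Fin (k + 2)), hc Q (fun ω => fl n (cF c o π S ω))
        (fun ω => (fl N (o.F c (π (Sum.inl ∅) ω)), TT c o π ω, c.A (π (vb k) ω))) ≤
        ∑ S : Finset (Fin (k + 2)), εr * ((κ + 4) * a : ℕ) := by
      refine Finset.sum_le_sum fun S _ => le_trans (hc_mono_right Q _ ?_) (hR S)
      intro ω ω' _ _ e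
      simp only [Prod.mk.injEq] at e ⊢
      exact ⟨fl_of_fl hnN _ _ e.1, e.2.1, e.2.2⟩
    rw [Finset.sum_const, Finset.card_univ, Fintype.card_finset, Fintype.card_fin,
      nsmul_eq_mul, Nat.cast_pow, Nat.cast_ofNat] at h4
    have h5 := hc_le_add' Q
      (fun ω => fl s (fun j : {j // j ∈ o.J} => c.pt (π (Sum.inl ∅) ω) j))
      (fun ω => fun S => fl n (cF c o π S ω))
      (fun ω => (fl N (o.F c (π (Sum.inl ∅) ω)), TT c o π ω, c.A (π (vb k) ω)))
    have h6 := hc_le_add Q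
      (fun ω => fl s (fun j : {j // j ∈ o.J} => c.pt (π (Sum.inl ∅) ω) j))
      (fun ω => fl s (fun j : {j // j ∈ o.J} => cC n c o (cB n c o π ω) (cq n c π ω) j))
      (fun ω => (fun S => fl n (cF c o π S ω), fl N (o.F c (π (Sum.inl ∅) ω)), TT c o π ω,
        c.A (π (vb k) ω)))
    have h7 := hc_fl_close Q (s := s) 2
      (fun ω (j : {j // j ∈ o.J}) => c.pt (π (Sum.inl ∅) ω) j)
      (fun ω (j : {j // j ∈ o.J}) => cC n c o (cB n c o π ω) (cq n c π ω) j)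
      (fun ω => (fun S => fl n (cF c o π S ω), fl N (o.F c (π (Sum.inl ∅) ω)), TT c o π ω,
        c.A (π (vb k) ω))) (by
      intro ω _ j
      have hp : (1 / 2 : ℝ) ^ n ≤ (1 / 2 : ℝ) ^ s :=
        pow_le_pow_of_le_one (by norm_num) (by norm_num) hs
      have a1 := ce_cell n (c.x (π (vb k) ω) j)
      have a2 := ce_cell n (c.y (π (vb k) ω) j)
      have a3 := h01 (π (vb k) ω)
      show |(c.x (π (vb k) ω) j + c.t (π (vb k) ω) * c.y (π (vb k) ω) j) -
        ((⌊(2 : ℝ) ^ n * c.x (π (vb k) ω) j⌋ : ℝ) / 2 ^ n + c.t (π (vb k) ω) *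
          ((⌊(2 : ℝ) ^ n * c.y (π (vb k) ω) j⌋ : ℝ) / 2 ^ n))| ≤ _
      have e1 : (c.x (π (vb k) ω) j + c.t (π (vb k) ω) * c.y (π (vb k) ω) j) -
        ((⌊(2 : ℝ) ^ n * c.x (π (vb k) ω) j⌋ : ℝ) / 2 ^ n + c.t (π (vb k) ω) *
          ((⌊(2 : ℝ) ^ n * c.y (π (vb k) ω) j⌋ : ℝ) / 2 ^ n)) =
          (c.x (π (vb k) ω) j - (⌊(2 : ℝ) ^ n * c.x (π (vb k) ω) j⌋ : ℝ) / 2 ^ n) +
          c.t (π (vb k) ω) *
            (c.y (π (vb k) ω) j - (⌊(2 : ℝ) ^ n * c.y (π (vb k) ω) j⌋ : ℝ) / 2 ^ n) := by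
        ring
      rw [e1]
      refine (abs_add_le _ _).trans ?_
      rw [abs_mul, abs_of_nonneg a3.1]
      have h2 : c.t (π (vb k) ω) *
          |c.y (π (vb k) ω) j - (⌊(2 : ℝ) ^ n * c.y (π (vb k) ω) j⌋ : ℝ) / 2 ^ n| ≤
          1 * (1 / 2 : ℝ) ^ n :=
        mul_le_mul a3.2.le a2 (abs_nonneg _) zero_le_one
      push_cast
      linarith only [hp, a1, h2])
    have h8 : hc Q (fun ω => fl s (fun j : {j // j ∈ o.J} =>
          cC n c o (cB n c o π ω) (cq n c π ω) j))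
        (fun ω => (fun S => fl n (cF c o π S ω), fl N (o.F c (π (Sum.inl ∅) ω)), TT c o π ω,
          c.A (π (vb k) ω))) ≤
        hc Q (fun ω => fl s (fun j : {j // j ∈ o.J} =>
          cC n c o (cB n c o π ω) (cq n c π ω) j))
        (fun ω => (cX N c o π ∅ ω, cB n c o π ω)) := by
      refine hc_mono_right Q _ ?_
      intro ω ω' _ _ e
      simp only [cB, cX, Prod.mk.injEq] at e ⊢
      exact ⟨e.2.1, e.2.2.1, e.2.2.2, e.1⟩
    have h9 : (Fintype.card {j // j ∈ o.J} : ℝ) * Real.log (2 * ((2 : ℕ) : ℝ) + 3) ≤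
        (m : ℝ) * Real.log 7 := by
      have c1 : Fintype.card {j // j ∈ o.J} ≤ m := by
        rw [Fintype.card_coe]
        exact (Finset.card_le_univ _).trans (by rw [Fintype.card_fin])
      have c2 : (Fintype.card {j // j ∈ o.J} : ℝ) ≤ m := by exact_mod_cast c1
      have c3 : (2 * ((2 : ℕ) : ℝ) + 3) = 7 := by norm_num
      rw [c3]
      exact mul_le_mul_of_nonneg_right c2 (Real.log_nonneg (by norm_num))
    have hk2 : (4 : ℝ) ≤ 2 ^ (k + 2) := by
      have : (1 : ℝ) ≤ 2 ^ k := one_le_pow₀ (by norm_num)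
      have h4 : (2 : ℝ) ^ (k + 2) = 2 ^ k * 4 := by ring
      linarith only [this, h4]
    have hk4 : (2 : ℝ) ^ (k + 4) = 4 * 2 ^ (k + 2) := by ring
    have h10 : (0 : ℝ) ≤ (2 ^ (k + 2) - 4) * (εr * ((κ + 4) * a : ℕ)) :=
      mul_nonneg (by linarith only [hk2]) hb0
    rw [hk4]
    linarith

end fam

end Vale.Agent.P127.Stk
end

section

/-!
# P127 / Stk : the core of the step for `Γ` (PROOF.md, section 8)
-/

namespace Vale.Agent.P127.Stk

open Finset Vale.Agent.P127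

section aux

variable {Ω Ω' : Type} [Fintype Ω] [Fintype Ω'] {m κ k : ℕ}

/-- the digits of integers are the integers -/
theorem cc_fl_div (N : ℕ) {ι : Type} (z : ι → ℤ) : fl N (fun i => (z i : ℝ) / 2 ^ N) = z := by
  funext i
  have h : (2 : ℝ) ^ N * ((z i : ℝ) / 2 ^ N) = z i := by
    (clear * -; field_simp)
  simp only [fl, h, Int.floor_intCast]

theorem cc_linF_close {J : Finset (Fin m)} (hJ : J.card = κ) {Γ : Fin m → Fin m → ℝ}
    (hΓ : ∀ i j, |Γ i j| ≤ 3 ^ κ) {t : ℝ} (ht : 0 ≤ t ∧ t < 1) {x y x' y' : Fin m → ℝ} {e : ℝ}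
    (he : 0 ≤ e) (hx : ∀ i, |x i - x' i| ≤ e) (hy : ∀ i, |y i - y' i| ≤ e) (i : Fin m) :
    |linF J Γ t x y i - linF J Γ t x' y' i| ≤ 2 * (1 + κ * 3 ^ κ) * e := by
  have h1 : ∀ j, |(x j + t * y j) - (x' j + t * y' j)| ≤ 2 * e := by
    intro j
    have e1 : (x j + t * y j) - (x' j + t * y' j) = (x j - x' j) + t * (y j - y' j) := by ring
    rw [e1]
    refine (abs_add_le _ _).trans ?_
    rw [abs_mul, abs_of_nonneg ht.1]
    have := hx j
    have h2 := hy j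
    have h3 := abs_nonneg (y j - y' j)
    nlinarith only [this, ht, h2, he]
  unfold linF
  split_ifs with hi
  · simp only [sub_self, abs_zero]
    (clear * - he; positivity)
  · have e2 : ((x i + t * y i) - ∑ j ∈ J, Γ i j * (x j + t * y j)) -
        ((x' i + t * y' i) - ∑ j ∈ J, Γ i j * (x' j + t * y' j)) =
        ((x i + t * y i) - (x' i + t * y' i)) -
          ∑ j ∈ J, Γ i j * ((x j + t * y j) - (x' j + t * y' j)) := by
      simp only [mul_sub, sum_sub_distrib]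
      ring
    rw [e2]
    have h2 : |∑ j ∈ J, Γ i j * ((x j + t * y j) - (x' j + t * y' j))| ≤ κ * (3 ^ κ * (2 * e)) := by
      refine (Finset.abs_sum_le_sum_abs _ _).trans ?_
      calc ∑ j ∈ J, |Γ i j * ((x j + t * y j) - (x' j + t * y' j))|
          ≤ ∑ _j ∈ J, (3 : ℝ) ^ κ * (2 * e) := by
            refine Finset.sum_le_sum fun j _ => ?_
            rw [abs_mul]
            exact mul_le_mul (hΓ i j) (h1 j) (abs_nonneg _) (by positivity)
        _ = κ * (3 ^ κ * (2 * e)) := by rw [Finset.sum_const, hJ, nsmul_eq_mul]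
    have h3 := abs_sub ((x i + t * y i) - (x' i + t * y' i))
      (∑ j ∈ J, Γ i j * ((x j + t * y j) - (x' j + t * y' j)))
    have h4 := h1 i
    linarith

theorem cc_fl_dist (s : ℕ) {ι : Type} (v : ι → ℝ) (i : ι) :
    |v i - (fl s v i : ℝ) / 2 ^ s| ≤ (1 / 2 : ℝ) ^ s := by
  have h0 : (0 : ℝ) < 2 ^ s := by positivity
  have h1 := Int.floor_le ((2 : ℝ) ^ s * v i)
  have h2 := Int.lt_floor_add_one ((2 : ℝ) ^ s * v i)
  have e1 : v i - (fl s v i : ℝ) / 2 ^ s = ((2 : ℝ) ^ s * v i - fl s v i) / 2 ^ s := by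
    field_simp
  rw [e1, abs_div, abs_of_pos h0, div_le_iff₀ h0, one_div, inv_pow, inv_mul_cancel₀ h0.ne']
  unfold fl
  rw [abs_of_nonneg (by linarith only [h1])]
  linarith only [h2]

/-- the projected points are almost determined by the cell of the line and the data -/
theorem cc_flF {a : ℕ} {K cost : ℝ} {P : Law Ω} {c : Cf Ω m} {o : Ob Ω m κ} {Q : Law Ω'}
    {π : CI k → Ω' → Ω} (hf : CubeFam a k K cost P c o Q π)
    (h01 : ∀ ω, 0 ≤ c.t ω ∧ c.t ω < 1) (S : Finset (Fin (k + 2))) (s : ℕ) {T : Type}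
    (Z : Ω' → T) :
    hc Q (fun ω => fl s (cF c o π S ω))
      (fun ω => (fl s (c.x (π (vb k) ω)), fl s (c.y (π (vb k) ω)), TT c o π ω, Z ω)) ≤
      m * Real.log (2 * (2 * (1 + κ * 3 ^ κ)) + 3) := by
  classical
  -- the approximate point
  set v' : Ω' → Fin m → ℝ := fun ω => linF o.J (o.Gh (TT c o π ω (Sum.inl S)).2)
    (TT c o π ω (Sum.inl S)).1 (fun i => (fl s (c.x (π (vb k) ω)) i : ℝ) / 2 ^ s)
    (fun i => (fl s (c.y (π (vb k) ω)) i : ℝ) / 2 ^ s) with hv'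
  have hclose : ∀ ω, 0 < Q.w ω → ∀ i, |cF c o π S ω i - v' ω i| ≤
      ((2 * (1 + κ * 3 ^ κ) : ℕ) : ℝ) * (1 / 2 : ℝ) ^ s := by
    intro ω hω i
    have hk := hf.keys ω hω (Sum.inl S) (vb k)
    unfold key at hk
    simp only [Prod.mk.injEq] at hk
    have e1 : cF c o π S ω = linF o.J (o.Gh (TT c o π ω (Sum.inl S)).2)
        (TT c o π ω (Sum.inl S)).1 (c.x (π (vb k) ω)) (c.y (π (vb k) ω)) := by
      unfold cF TT
      simp only
      rw [F_eq_linF, o.Gh_G, hk.1, hk.2.1]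
    rw [e1, hv']
    have h2 := cc_linF_close (κ := κ) o.card (Γ := o.Gh (TT c o π ω (Sum.inl S)).2)
      (by
        intro i j
        unfold TT
        simp only
        rw [o.Gh_G]
        exact o.bd _ i j) (t := (TT c o π ω (Sum.inl S)).1) (h01 _)
      (x := c.x (π (vb k) ω)) (y := c.y (π (vb k) ω))
      (x' := fun i => (fl s (c.x (π (vb k) ω)) i : ℝ) / 2 ^ s)
      (y' := fun i => (fl s (c.y (π (vb k) ω)) i : ℝ) / 2 ^ s)
      (e := (1 / 2 : ℝ) ^ s) (by positivity) (fun i => cc_fl_dist s _ i)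
      (fun i => cc_fl_dist s _ i) i
    refine h2.trans (le_of_eq ?_)
    push_cast
    ring
  have h1 := hc_fl_close Q (s := s) (2 * (1 + κ * 3 ^ κ)) (cF c o π S) v'
    (fun ω => (fl s (c.x (π (vb k) ω)), fl s (c.y (π (vb k) ω)), TT c o π ω, Z ω)) hclose
  have h2 : hc Q (fun ω => fl s (cF c o π S ω))
      (fun ω => (fl s (c.x (π (vb k) ω)), fl s (c.y (π (vb k) ω)), TT c o π ω, Z ω)) ≤
      hc Q (fun ω => fl s (cF c o π S ω))
      (fun ω => (fl s (v' ω), fl s (c.x (π (vb k) ω)), fl s (c.y (π (vb k) ω)), TT c o π ω,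
        Z ω)) := by
    refine hc_mono_right Q _ ?_
    intro ω ω' _ _ h
    simp only [Prod.mk.injEq] at h ⊢
    obtain ⟨hx, hy, hT, hZ⟩ := h
    refine ⟨?_, hx, hy, hT, hZ⟩
    simp only [hv', hx, hy, hT]
  refine h2.trans (h1.trans (le_of_eq ?_))
  rw [Fintype.card_fin]
  push_cast
  ring

/-- the determinism of the projected points for the family -/
theorem cc_hR {a n : ℕ} {K cost x : ℝ} {P : Law Ω} {c : Cf Ω m} {o : Ob Ω m κ} {Q : Law Ω'}
    {π : CI k → Ω' → Ω} (hf : CubeFam a k K cost P c o Q π)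
    (hRK : ∀ Q2 : Law (Fin 2 → Ω), (∀ w, Q2.w w = cw P (key c a) 1 w) →
      hc Q2 (fun w => fl n (o.F c (w 1)))
        (fun w => (fl n (o.F c (w 0)), (fun i => (c.t (w i), o.G (w i))), c.A (w 0))) ≤ x)
    (S : Finset (Fin (k + 2))) :
    hc Q (fun ω => fl n (cF c o π S ω))
      (fun ω => (fl n (cF c o π ∅ ω), TT c o π ω, c.A (π (vb k) ω))) ≤ K * x := by
  classical
  have hK1 : 1 ≤ K := (hf.dom (vb k)).one_le
  obtain ⟨Q2, hQ2⟩ := cw_exists P (key c a) 1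
  have hx := hRK Q2 hQ2
  have hx0 : 0 ≤ x := (hc_nonneg Q2 _ _).trans hx
  by_cases hS : S = ∅
  · subst hS
    rw [hc_zero Q (X := fun ω => fl n (cF c o π ∅ ω))]
    · positivity
    · intro ω ω' _ _ h
      simp only [Prod.mk.injEq] at h
      exact h.1
  · have hdom : Dom Q (fun ω => ![π (Sum.inl ∅) ω, π (Sum.inl S) ω]) Q2 K := by
      intro w
      rw [hQ2]
      exact hf.pair S hS w
    have h1 := hdom.hc_le (fun w => fl n (o.F c (w 1)))
      (fun w => (fl n (o.F c (w 0)), (fun i => (c.t (w i), o.G (w i))), c.A (w 0)))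
    have h2 : hc Q (fun ω => fl n (cF c o π S ω))
        (fun ω => (fl n (cF c o π ∅ ω), TT c o π ω, c.A (π (vb k) ω))) ≤
        hc Q ((fun w : Fin 2 → Ω => fl n (o.F c (w 1))) ∘
          (fun ω => ![π (Sum.inl ∅) ω, π (Sum.inl S) ω]))
        ((fun w : Fin 2 → Ω => (fl n (o.F c (w 0)), (fun i => (c.t (w i), o.G (w i))),
          c.A (w 0))) ∘ (fun ω => ![π (Sum.inl ∅) ω, π (Sum.inl S) ω])) := by
      refine hc_mono_right Q _ ?_
      intro ω ω' _ _ h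
      simp only [Prod.mk.injEq] at h
      obtain ⟨h1, h2, h3⟩ := h
      simp only [Function.comp_apply, Matrix.cons_val_zero, Prod.mk.injEq]
      refine ⟨h1, ?_, h3⟩
      funext i
      have e0 := congrFun h2 (Sum.inl ∅)
      have e1 := congrFun h2 (Sum.inl S)
      unfold TT at e0 e1
      fin_cases i
      · simpa using e0
      · simpa using e1
    have hK0 : 0 ≤ K := by linarith
    exact h2.trans (h1.trans (mul_le_mul_of_nonneg_left hx hK0))

/-- the cube sum is small enough -/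
theorem cc_beta {a w β : ℕ} {i0 j0 : Fin m} {c : Cf Ω m} {o : Ob Ω m κ} {π : CI k → Ω' → Ω}
    {ω : Ω'} (h01 : ∀ ω, 0 ≤ c.t ω ∧ c.t ω < 1)
    (hk : ∀ i j, key c a (π i ω) = key c a (π j ω))
    (hc : IsCube (fun S => fl1 ((κ + 4) * a) (c.t (π (Sum.inl S) ω))))
    (ht : CTyp a w c o π ω) (hb : CBin β w i0 j0 o π ω) (hkκ : k ≤ κ)
    (hw : 3 * k + 6 + 2 * κ ≤ w) (hwa : k * w ≤ a) :
    (k + 1) * a ≤ β + 3 * w := by
  have hk' : ∀ i j, fl1 a (c.t (π i ω)) = fl1 a (c.t (π j ω)) := by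
    intro i j
    have := hk i j
    unfold key at this
    simp only [Prod.mk.injEq] at this
    exact this.2.2.2
  have haL : a ≤ (κ + 4) * a := Nat.le_mul_of_pos_left a (by omega)
  have h3 := (cube_interp a w ((κ + 4) * a) c o π ω h01 hk' hc haL ht i0 j0 hb.i0J hb.j0J).2.2
  have hlo := hb.lo
  -- the second term is smaller than the first one
  have h4 : ((k : ℝ) + 1) ^ 2 * 2 ^ (k + 1) * 3 ^ κ * 2 ^ (k * w) * 2 ^ a *
      (1 / 2) ^ ((κ + 4) * a) ≤ 2 ^ w * (1 / 2) ^ ((k + 1) * a) := by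
    have e1 : ((k : ℝ) + 1) ^ 2 ≤ 2 ^ (2 * k) := by
      have h5 : ((k : ℝ) + 1) ≤ 2 ^ k := by
        have := Nat.lt_two_pow_self (n := k)
        exact_mod_cast this
      calc ((k : ℝ) + 1) ^ 2 ≤ (2 ^ k) ^ 2 := by (clear * - h5; gcongr)
        _ = 2 ^ (2 * k) := by rw [← pow_mul, mul_comm]
    have e2 : (3 : ℝ) ^ κ ≤ 2 ^ (2 * κ) := by
      rw [pow_mul]
      gcongr
      norm_num
    have e3 : (1 / 2 : ℝ) ^ ((κ + 4) * a) = (1 / 2) ^ ((k + 1) * a) *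
        (1 / 2) ^ ((κ + 4) * a - (k + 1) * a) := by
      rw [← pow_add]
      congr 1
      have : (k + 1) * a ≤ (κ + 4) * a := Nat.mul_le_mul_right a (by omega)
      omega
    have e4 : 2 * a + a ≤ (κ + 4) * a - (k + 1) * a := by
      rw [← Nat.sub_mul]
      calc 2 * a + a = 3 * a := by ring
        _ ≤ (κ + 4 - (k + 1)) * a := Nat.mul_le_mul_right a (by omega)
    have e5 : (1 / 2 : ℝ) ^ ((κ + 4) * a - (k + 1) * a) ≤ (1 / 2) ^ (2 * a + a) :=
      pow_le_pow_of_le_one (by norm_num) (by norm_num) e4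
    calc ((k : ℝ) + 1) ^ 2 * 2 ^ (k + 1) * 3 ^ κ * 2 ^ (k * w) * 2 ^ a *
        (1 / 2) ^ ((κ + 4) * a)
        ≤ 2 ^ (2 * k) * 2 ^ (k + 1) * 2 ^ (2 * κ) * 2 ^ a * 2 ^ a *
          ((1 / 2) ^ ((k + 1) * a) * (1 / 2) ^ (2 * a + a)) := by
          rw [e3]
          have e6 : (2 : ℝ) ^ (k * w) ≤ 2 ^ a := pow_le_pow_right₀ (by norm_num) hwa
          gcongr
      _ = 2 ^ (3 * k + 1 + 2 * κ) * (1 / 2) ^ ((k + 1) * a) *
          (2 ^ (2 * a) * (1 / 2) ^ (2 * a + a)) := by ring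
      _ ≤ 2 ^ w * (1 / 2) ^ ((k + 1) * a) * 1 := by
          have e7 : (2 : ℝ) ^ (2 * a) * (1 / 2) ^ (2 * a + a) ≤ 1 := by
            rw [pow_add, ← mul_assoc, ← mul_pow]
            norm_num
            exact pow_le_one₀ (by norm_num) (by norm_num)
          have e8 : (2 : ℝ) ^ (3 * k + 1 + 2 * κ) ≤ 2 ^ w :=
            pow_le_pow_right₀ (by norm_num) (by omega)
          (clear * - e8 e7; gcongr)
      _ = _ := by ring
  have h5 : |cS o π ω i0 j0| ≤ 2 ^ (k + 3) * (2 ^ w * (1 / 2) ^ ((k + 1) * a)) := by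
    refine h3.trans ?_
    have : (2 : ℝ) ^ (k + 2) * (2 ^ w * (1 / 2) ^ ((k + 1) * a)) + 2 ^ (k + 2) *
        (2 ^ w * (1 / 2) ^ ((k + 1) * a)) = 2 ^ (k + 3) * (2 ^ w * (1 / 2) ^ ((k + 1) * a)) := by
      ring
    rw [← this]
    gcongr
  by_contra hcon
  rw [not_le] at hcon
  have h6 : (2 : ℝ) ^ (β + w) * |cS o π ω i0 j0| ≤ 1 := by
    calc (2 : ℝ) ^ (β + w) * |cS o π ω i0 j0|
        ≤ 2 ^ (β + w) * (2 ^ (k + 3) * (2 ^ w * (1 / 2) ^ ((k + 1) * a))) := by gcongr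
      _ = 2 ^ (β + w + (k + 3) + w) * (1 / 2) ^ ((k + 1) * a) := by ring
      _ ≤ 2 ^ ((k + 1) * a) * (1 / 2) ^ ((k + 1) * a) := by
          have : (2 : ℝ) ^ (β + w + (k + 3) + w) ≤ 2 ^ ((k + 1) * a) :=
            pow_le_pow_right₀ (by norm_num) (by omega)
          gcongr
      _ = 1 := by
          rw [← mul_pow]
          norm_num
  linarith only [hlo, h6]

theorem cc_cE (n : ℕ) (c : Cf Ω m) (o : Ob Ω m κ) (π : CI k → Ω' → Ω) (ω : Ω') (i j : Fin m) :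
    cE c o (cB n c o π ω) i j = cS o π ω i j := by
  unfold cE cS cB TT
  simp only [o.Gh_G]

theorem cc_kill_mi {a : ℕ} {K cost : ℝ} {P : Law Ω} {c : Cf Ω m} {o : Ob Ω m κ} {Q : Law Ω'}
    {π : CI k → Ω' → Ω} (hf : CubeFam a k K cost P c o Q π) (r : ℕ) :
    mi Q (fun ω => (c.x (π (vb k) ω), c.y (π (vb k) ω))) (TT c o π)
      (fun ω => (c.t (π (vb k) ω), c.A (π (vb k) ω), fl r (c.x (π (vb k) ω)),
        fl r (c.y (π (vb k) ω)))) ≤ cost := by
  refine le_trans ?_ hf.cost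
  set l : Ω' → (Fin m → ℝ) × (Fin m → ℝ) := fun ω => (c.x (π (vb k) ω), c.y (π (vb k) ω)) with hl
  set A : Ω' → c.α := fun ω => c.A (π (vb k) ω) with hA
  -- move the digits of the line
  have h1 : mi Q l (TT c o π) (fun ω => ((fl r (c.x (π (vb k) ω)), fl r (c.y (π (vb k) ω))), A ω)) ≤
      mi Q l (TT c o π) A := by
    refine mi_cond_le Q (TT c o π) A ?_
    intro ω ω' _ _ h
    simp only [hl, Prod.mk.injEq] at h
    simp only [h.1.1, h.1.2]
  -- move the time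
  have h2 : mi Q (TT c o π) l (fun ω => (c.t (π (vb k) ω),
      ((fl r (c.x (π (vb k) ω)), fl r (c.y (π (vb k) ω))), A ω))) ≤
      mi Q (TT c o π) l (fun ω => ((fl r (c.x (π (vb k) ω)), fl r (c.y (π (vb k) ω))), A ω)) := by
    refine mi_cond_le Q l _ ?_
    intro ω ω' _ _ h
    simp only [Prod.mk.injEq] at h
    have := congrFun h.1 (vb k)
    unfold TT at this
    simp only [Prod.mk.injEq] at this
    exact this.1
  have h3 : mi Q l (TT c o π) (fun ω => (c.t (π (vb k) ω), c.A (π (vb k) ω),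
      fl r (c.x (π (vb k) ω)), fl r (c.y (π (vb k) ω)))) =
      mi Q l (TT c o π) (fun ω => (c.t (π (vb k) ω),
      ((fl r (c.x (π (vb k) ω)), fl r (c.y (π (vb k) ω))), A ω))) := by
    refine mi_congr_cond Q l _ ?_ ?_
    · intro ω ω' _ _ h
      simp only [hA, Prod.mk.injEq] at h ⊢
      exact ⟨h.1, h.2.2, h.2.1⟩
    · intro ω ω' _ _ h
      simp only [hA, Prod.mk.injEq] at h ⊢
      exact ⟨h.1, h.2.2, h.2.1⟩
  rw [h3, mi_symm Q l]
  refine h2.trans ?_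
  rw [mi_symm Q (TT c o π) l]
  exact h1

theorem cc_kill_hc {a n N r : ℕ} {K cost : ℝ} {P : Law Ω} {c : Cf Ω m} {o : Ob Ω m κ}
    {Q : Law Ω'} {π : CI k → Ω' → Ω} (hf : CubeFam a k K cost P c o Q π)
    (h01 : ∀ ω, 0 ≤ c.t ω ∧ c.t ω < 1) (hnr : n ≤ r) (hrN : r ≤ N) (i0 j0 : Fin m)
    (hi0 : i0 ∉ o.J) (hj0 : j0 ∈ o.J)
    (hmax : ∀ ω, 0 < Q.w ω → ∀ i, i ∉ o.J → |cS o π ω i j0| ≤ |cS o π ω i0 j0|) :
    hc Q (fun ω => fl N (fun i => cF c o π ∅ ω i - cF c o π ∅ ω i0 *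
        (if i ∈ o.J then 0 else cS o π ω i j0 / cS o π ω i0 j0)))
      (fun ω => (fl r (c.x (π (vb k) ω)), fl r (c.y (π (vb k) ω)), c.t (π (vb k) ω), TT c o π ω,
        c.A (π (vb k) ω))) ≤
    hc Q (fun ω => fl N (fun i => (cX N c o π ∅ ω i : ℝ) / 2 ^ N - (cX N c o π ∅ ω i0 : ℝ) / 2 ^ N *
        (if i ∈ o.J then 0 else cE c o (cB n c o π ω) i j0 / cE c o (cB n c o π ω) i0 j0)))
      (fun ω => (fl r (fun i => (cX N c o π ∅ ω i : ℝ) / 2 ^ N), cq n c π ω, cB n c o π ω)) +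
      (m * Real.log 7 + (2 ^ (k + 2) + 1) * (m * Real.log (2 * (2 * (1 + κ * 3 ^ κ)) + 3))) := by
  classical
  set Cond := (fun ω => (fl r (c.x (π (vb k) ω)), fl r (c.y (π (vb k) ω)), c.t (π (vb k) ω),
    TT c o π ω, c.A (π (vb k) ω))) with hCond
  set v : Ω' → Fin m → ℝ := fun ω i => if i ∈ o.J then 0 else cS o π ω i j0 / cS o π ω i0 j0 with hv
  set V1 : Ω' → Fin m → ℝ := fun ω i => cF c o π ∅ ω i - cF c o π ∅ ω i0 * v ω i with hV1
  set V2 : Ω' → Fin m → ℝ := fun ω i => (cX N c o π ∅ ω i : ℝ) / 2 ^ N -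
    (cX N c o π ∅ ω i0 : ℝ) / 2 ^ N * v ω i with hV2
  have hvE : ∀ ω i, (if i ∈ o.J then (0 : ℝ) else cE c o (cB n c o π ω) i j0 /
      cE c o (cB n c o π ω) i0 j0) = v ω i := by
    intro ω i
    simp only [hv, cc_cE]
  simp only [hvE]
  change hc Q (fun ω => fl N (V1 ω)) Cond ≤ hc Q (fun ω => fl N (V2 ω)) _ + _
  have hv1 : ∀ ω, 0 < Q.w ω → ∀ i, |v ω i| ≤ 1 := by
    intro ω hω i
    simp only [hv]
    split_ifs with hi
    · simp only [abs_zero, zero_le_one]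
    · rw [abs_div]
      exact div_le_one_of_le₀ (hmax ω hω i hi) (abs_nonneg _)
  -- (1) replace `V1` by `V2`
  have hclose : ∀ ω, 0 < Q.w ω → ∀ i, |V1 ω i - V2 ω i| ≤ ((2 : ℕ) : ℝ) * (1 / 2 : ℝ) ^ N := by
    intro ω hω i
    have e1 : V1 ω i - V2 ω i = (cF c o π ∅ ω i - (cX N c o π ∅ ω i : ℝ) / 2 ^ N) -
        (cF c o π ∅ ω i0 - (cX N c o π ∅ ω i0 : ℝ) / 2 ^ N) * v ω i := by
      simp only [hV1, hV2]
      ring
    have h1 := cc_fl_dist N (cF c o π ∅ ω) i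
    have h2 := cc_fl_dist N (cF c o π ∅ ω) i0
    rw [e1]
    refine (abs_sub _ _).trans ?_
    rw [abs_mul]
    have h3 := hv1 ω hω i
    have h4 := abs_nonneg (cF c o π ∅ ω i0 - (cX N c o π ∅ ω i0 : ℝ) / 2 ^ N)
    have h5 : |cF c o π ∅ ω i - (cX N c o π ∅ ω i : ℝ) / 2 ^ N| ≤ (1 / 2 : ℝ) ^ N := h1
    have h6 : |cF c o π ∅ ω i0 - (cX N c o π ∅ ω i0 : ℝ) / 2 ^ N| ≤ (1 / 2 : ℝ) ^ N := h2
    push_cast
    nlinarith only [h5, h6, h3, h4]
  have s1 : hc Q (fun ω => fl N (V1 ω)) Cond ≤ hc Q (fun ω => fl N (V2 ω)) Cond +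
      m * Real.log 7 := by
    have h1 := hc_le_add Q (fun ω => fl N (V1 ω)) (fun ω => fl N (V2 ω)) Cond
    have h2 := hc_fl_close Q (s := N) 2 V1 V2 Cond hclose
    rw [Fintype.card_fin] at h2
    have e : ((2 : ℝ) * ((2 : ℕ) : ℝ) + 3) = 7 := by norm_num
    rw [e] at h2
    linarith only [h1, h2]
  -- (2) the condition
  set R : Ω' → (Fin m → ℤ) × (Finset (Fin (k + 2)) → Fin m → ℤ) := fun ω =>
    (fl r (cF c o π ∅ ω), fun S => fl n (cF c o π S ω)) with hR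
  have s2 : hc Q (fun ω => fl N (V2 ω)) Cond ≤
      hc Q (fun ω => fl N (V2 ω)) (fun ω => (R ω, Cond ω)) + hc Q R Cond :=
    hc_le_add' Q _ R Cond
  have s3 : hc Q (fun ω => fl N (V2 ω)) (fun ω => (R ω, Cond ω)) ≤
      hc Q (fun ω => fl N (V2 ω))
      (fun ω => (fl r (fun i => (cX N c o π ∅ ω i : ℝ) / 2 ^ N), cq n c π ω, cB n c o π ω)) := by
    refine hc_mono_right Q _ ?_
    intro ω ω' _ _ h
    simp only [hR, hCond, Prod.mk.injEq] at h
    obtain ⟨⟨h1, h2⟩, h3, h4, h5, h6, h7⟩ := h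
    simp only [Prod.mk.injEq]
    refine ⟨?_, ?_, ?_⟩
    · -- digits of the digits
      have key : ∀ ω, fl r (fun i => (cX N c o π ∅ ω i : ℝ) / 2 ^ N) = fl r (cF c o π ∅ ω) := by
        intro ω
        refine fl_of_fl hrN _ _ ?_
        exact cc_fl_div N (cX N c o π ∅ ω)
      rw [key, key]
      exact h1
    · unfold cq
      rw [fl_of_fl hnr _ _ h3, fl_of_fl hnr _ _ h4]
    · unfold cB
      simp only [Prod.mk.injEq]
      exact ⟨h6, h7, h2⟩
  have s4 : hc Q R Cond ≤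
      (2 ^ (k + 2) + 1) * (m * Real.log (2 * (2 * (1 + κ * 3 ^ κ)) + 3)) := by
    set Λ : ℝ := m * Real.log (2 * (2 * (1 + κ * 3 ^ κ)) + 3) with hΛ
    have hΛ0 : 0 ≤ Λ := by
      rw [hΛ]
      have : 0 ≤ Real.log (2 * (2 * (1 + κ * 3 ^ κ)) + 3) := by
        refine Real.log_nonneg ?_
        have : (0 : ℝ) ≤ κ * 3 ^ κ := by (clear * -; positivity)
        linarith only [this]
      (clear * - this; positivity)
    have hS : ∀ S, ∀ s ≤ r, ∀ {T : Type} (Z : Ω' → T), hc Q (fun ω => fl s (cF c o π S ω))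
        (fun ω => (Z ω, Cond ω)) ≤ Λ := by
      intro S s hs T Z
      refine le_trans ?_ (cc_flF hf h01 S s Z)
      refine hc_mono_right Q _ ?_
      intro ω ω' _ _ h
      simp only [hCond, Prod.mk.injEq] at h ⊢
      obtain ⟨h1, h3, h4, h5, h6, h7⟩ := h
      exact ⟨fl_of_fl hs _ _ h3, fl_of_fl hs _ _ h4, h6, h1⟩
    -- the family of the digits
    have hfam : ∀ (F : Finset (Finset (Fin (k + 2)))), hc Q
        (fun ω => (fun S : {S // S ∈ F} => fl n (cF c o π S ω)))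
        (fun ω => (fl r (cF c o π ∅ ω), Cond ω)) ≤ F.card * Λ := by
      intro F
      induction F using Finset.induction_on with
      | empty =>
        rw [hc_zero Q]
        · simp
        · intro ω ω' _ _ _
          funext S
          exact absurd S.2 (Finset.notMem_empty _)
      | insert S F hSF ih =>
        have h1 : hc Q (fun ω => (fun S' : {S' // S' ∈ insert S F} => fl n (cF c o π S' ω)))
            (fun ω => (fl r (cF c o π ∅ ω), Cond ω)) ≤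
            hc Q (fun ω => ((fun S' : {S' // S' ∈ F} => fl n (cF c o π S' ω)),
              fl n (cF c o π S ω))) (fun ω => (fl r (cF c o π ∅ ω), Cond ω)) := by
          refine hc_mono_left Q ?_
          intro ω ω' _ _ h
          simp only [Prod.mk.injEq] at h
          obtain ⟨⟨h1, h2⟩, _⟩ := h
          funext S'
          rcases Finset.mem_insert.1 S'.2 with h3 | h3
          · have : (S' : Finset (Fin (k + 2))) = S := h3
            simp only [this]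
            exact h2
          · exact congrFun h1 ⟨S'.1, h3⟩
        refine h1.trans ?_
        rw [hc_pair]
        have h2 := hS S n hnr (fun ω => ((fun S' : {S' // S' ∈ F} => fl n (cF c o π S' ω)),
          fl r (cF c o π ∅ ω)))
        have h3 : hc Q (fun ω => fl n (cF c o π S ω))
            (fun ω => ((fun S' : {S' // S' ∈ F} => fl n (cF c o π S' ω)),
              fl r (cF c o π ∅ ω), Cond ω)) ≤ Λ := by
          refine le_trans (le_of_eq ?_) h2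
          refine hc_congr Q ?_ ?_ ?_ ?_
          · intro ω ω' _ _ h; exact (Prod.mk.inj h).1
          · intro ω ω' _ _ h; exact (Prod.mk.inj h).1
          · intro ω ω' _ _ h
            simp only [Prod.mk.injEq] at h ⊢
            exact ⟨h.1.1, h.1.2, h.2⟩
          · intro ω ω' _ _ h
            simp only [Prod.mk.injEq] at h ⊢
            exact ⟨⟨h.1, h.2.1⟩, h.2.2⟩
        rw [Finset.card_insert_of_notMem hSF]
        push_cast
        linarith only [ih, h3]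
    have h1 := hc_pair Q (fun ω => fl r (cF c o π ∅ ω)) (fun ω => fun S => fl n (cF c o π S ω)) Cond
    have h2 : hc Q (fun ω => fl r (cF c o π ∅ ω)) Cond ≤ Λ := by
      have h3 := hS ∅ r le_rfl (fun _ => ())
      refine le_trans (le_of_eq ?_) h3
      refine hc_congr Q ?_ ?_ ?_ ?_
      · intro ω ω' _ _ h; exact (Prod.mk.inj h).1
      · intro ω ω' _ _ h; exact (Prod.mk.inj h).1
      · intro ω ω' _ _ h; exact (Prod.mk.inj h).2
      · intro ω ω' _ _ h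
        simp only [Prod.mk.injEq, true_and]
        exact h
    have h3 : hc Q (fun ω => fun S => fl n (cF c o π S ω))
        (fun ω => (fl r (cF c o π ∅ ω), Cond ω)) ≤ 2 ^ (k + 2) * Λ := by
      have h4 := hfam Finset.univ
      rw [Finset.card_univ, Fintype.card_finset, Fintype.card_fin] at h4
      push_cast at h4
      refine le_trans ?_ h4
      refine hc_mono_left Q ?_
      intro ω ω' _ _ h
      simp only [Prod.mk.injEq] at h
      funext S
      exact congrFun h.1 ⟨S, Finset.mem_univ S⟩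
    have h5 : hc Q R Cond = hc Q (fun ω => (fl r (cF c o π ∅ ω), fun S => fl n (cF c o π S ω)))
      Cond := rfl
    rw [h5, h1]
    linarith only [h2, h3]
  linarith only [s1, s2, s3, s4]

/-- the number of digits is large -/
theorem cc_big (R : Gr) (g : R.G) (X : ℝ) : ∃ n : ℕ, ∀ (L : ℕ) (e C : ℝ), R.ok g n L e C →
    X ≤ L := by
  obtain ⟨n, hn⟩ := R.small g (1 / (|X| + 1)) (by positivity)
  refine ⟨n, fun L e C h => ?_⟩
  have h1 := (hn L e C h).1
  have h2 : 0 < |X| + 1 := by positivity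
  rw [one_div, inv_mul_eq_div, le_div_iff₀ h2] at h1
  linarith [le_abs_self X]

theorem cc_hyp_mono {h : ℝ} {a : ℕ} {ι ι' εu εu' e C : ℝ} {P : Law Ω} {c : Cf Ω m}
    {o : Ob Ω m κ} (hH : Hyp h κ a ι εu e C P c o) (h1 : ι ≤ ι') (h2 : εu ≤ εu') :
    Hyp h κ a ι' εu' e C P c o := by
  refine ⟨hH.good, ?_, ?_, ?_⟩
  · refine hH.cost.trans ?_
    gcongr
  · refine hH.rate.trans ?_
    have h3 : (0 : ℝ) ≤ Real.log 2 := Real.log_nonneg (by norm_num)
    have h4 : (0 : ℝ) ≤ ((κ + 4) * a : ℕ) := by positivity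
    have h5 : (h - κ + ι) ≤ (h - κ + ι') := by linarith
    exact mul_le_mul_of_nonneg_right (mul_le_mul_of_nonneg_right h5 h4) h3
  · have := hH.unif
    linarith

theorem cc_pos (Q : Law Ω') : ∃ ω, 0 < Q.w ω := by
  by_contra hcon
  push Not at hcon
  have h1 : ∑ ω, Q.w ω ≤ 0 := Finset.sum_nonpos fun ω _ => hcon ω
  rw [Q.sum_one] at h1
  linarith

/-- the points of the cells -/
theorem cc_C01 {n : ℕ} {c : Cf Ω m} {o : Ob Ω m κ} {π : CI k → Ω' → Ω}
    (hx : ∀ ω i, 0 ≤ c.x ω i ∧ c.x ω i < 1) (hy : ∀ ω i, 0 ≤ c.y ω i ∧ c.y ω i < 1)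
    (h01 : ∀ ω, 0 ≤ c.t ω ∧ c.t ω < 1) (ω ω1 : Ω') (j : Fin m) :
    0 ≤ cC n c o (cB n c o π ω) (cq n c π ω1) j ∧
      cC n c o (cB n c o π ω) (cq n c π ω1) j ≤ 2 := by
  have h2 : (0 : ℝ) < 2 ^ n := by positivity
  have ht : (cB n c o π ω).1 (vb k) = (c.t (π (vb k) ω), o.G (π (vb k) ω)) := rfl
  have hd : ∀ v : ℝ, 0 ≤ v ∧ v < 1 → (0 : ℝ) ≤ (⌊(2 : ℝ) ^ n * v⌋ : ℝ) / 2 ^ n ∧
      (⌊(2 : ℝ) ^ n * v⌋ : ℝ) / 2 ^ n ≤ 1 := by
    intro v hv
    have h3 : (0 : ℝ) ≤ (2 : ℝ) ^ n * v := mul_nonneg h2.le hv.1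
    have h4 : (0 : ℤ) ≤ ⌊(2 : ℝ) ^ n * v⌋ := Int.floor_nonneg.mpr h3
    have h5 := Int.floor_le ((2 : ℝ) ^ n * v)
    refine ⟨div_nonneg (by exact_mod_cast h4) h2.le, ?_⟩
    rw [div_le_one h2]
    (clear * - h5 h2 hv; nlinarith [hv.2])
  have hX := hd _ (hx (π (vb k) ω1) j)
  have hY := hd _ (hy (π (vb k) ω1) j)
  have hT := h01 (π (vb k) ω)
  have e1 : cC n c o (cB n c o π ω) (cq n c π ω1) j =
      (⌊(2 : ℝ) ^ n * c.x (π (vb k) ω1) j⌋ : ℝ) / 2 ^ n +
        c.t (π (vb k) ω) * ((⌊(2 : ℝ) ^ n * c.y (π (vb k) ω1) j⌋ : ℝ) / 2 ^ n) := rfl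
  rw [e1]
  constructor
  · have := mul_nonneg hT.1 hY.1
    linarith only [hX, this]
  · have := mul_le_mul hT.2.le hY.2 hY.1 (by norm_num)
    linarith only [hX, this]

/-- absorption and displacement -/
theorem cc_disp {a n N β w : ℕ} {h K cost e1 e2 e3 : ℝ} {i0 j0 : Fin m} {P : Law Ω}
    {c : Cf Ω m} {o : Ob Ω m κ} {Q : Law Ω'} {π : CI k → Ω' → Ω}
    (hf : CubeFam a k K cost P c o Q π)
    (hx : ∀ ω i, 0 ≤ c.x ω i ∧ c.x ω i < 1) (hy : ∀ ω i, 0 ≤ c.y ω i ∧ c.y ω i < 1)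
    (h01 : ∀ ω, 0 ≤ c.t ω ∧ c.t ω < 1)
    (htyp : ∀ ω, 0 < Q.w ω → CTyp a w c o π ω ∧ CBin β w i0 j0 o π ω)
    (hnβ : n ≤ β) (hβN : β ≤ N) (he1 : 0 ≤ e1)
    (hN1 : N + w + 2 * k + 4 + 2 * κ ≤ (k + 2) * a)
    (hL1 : (k + 2) * a + k * w + 4 * k + 8 + 4 * κ ≤ (κ + 4) * a)
    {Ω'' ζ : Type} [Fintype Ω''] {P' : Law Ω''} {Z : Ω'' → ζ} {π' π1 π2 : Ω'' → Ω'}
    (hA : AbsOut Q P' (cB n c o π) (cq n c π) (cX N c o π ∅) Z π' π1 π2 e1)
    (hmain : hc P' (fun ω i => cX N c o π ∅ (π' ω) i +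
          ∑ S : Finset (Fin (k + 2)), (-1 : ℤ) ^ S.card *
            (cphi n N c o S (cB n c o π (π' ω)) (cq n c π (π2 ω)) i -
              cphi n N c o S (cB n c o π (π' ω)) (cq n c π (π1 ω)) i))
        (fun ω => (cq n c π (π' ω), cB n c o π (π' ω), Z ω)) ≤
        (h - κ) * ((N : ℝ) - n) * Real.log 2 + e1)
    (H2 : (h - κ) * ((β : ℝ) - n) * Real.log 2 - e2 ≤
      hc Q (fun ω => fl β (fun i => (cX N c o π ∅ ω i : ℝ) / 2 ^ N))
        (fun ω => (cq n c π ω, cB n c o π ω)))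
    (H3 : (κ : ℝ) * (N - β : ℕ) * Real.log 2 - e3 ≤
      hc Q (fun ω => fl (N - β) (fun j : {j // j ∈ o.J} =>
        cC n c o (cB n c o π ω) (cq n c π ω) j)) (fun ω => (cX N c o π ∅ ω, cB n c o π ω))) :
    hc Q (fun ω => fl N (fun i => (cX N c o π ∅ ω i : ℝ) / 2 ^ N -
        (cX N c o π ∅ ω i0 : ℝ) / 2 ^ N *
        (if i ∈ o.J then 0 else cE c o (cB n c o π ω) i j0 / cE c o (cB n c o π ω) i0 j0)))
      (fun ω => (fl β (fun i => (cX N c o π ∅ ω i : ℝ) / 2 ^ N), cq n c π ω, cB n c o π ω)) ≤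
      (h - κ - 1) * ((N : ℝ) - β) * Real.log 2 + 4 * e1 + e2 + e3 + w * Real.log 2 +
        (4 * m + 8) * Real.log (8 * m + 8 * (2 ^ (k + 3) : ℕ) + 8) := by
  classical
  obtain ⟨ω0, hω0⟩ := cc_pos Q
  have hi0 := (htyp ω0 hω0).2.i0J
  have hj0 := (htyp ω0 hω0).2.j0J
  have hsupp : ∀ ω, 0 < P'.w ω → 0 < Q.w (π' ω) := by
    intro ω hω
    rw [← hA.law]
    unfold Law.pr
    exact lt_of_lt_of_le hω (Finset.single_le_sum (f := fun ω => P'.w ω)
      (fun ω _ => P'.nn ω) (Finset.mem_filter.mpr ⟨Finset.mem_univ _, rfl⟩))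
  have hkey : ∀ ω, 0 < Q.w ω → ∀ i j, key c a (π i ω) = key c a (π j ω) := hf.keys
  have hdisp := disp hA o.J (fun b q j => cC n c o b q j) (fun b i j => cE c o b i j)
    (fun ω i => ∑ S : Finset (Fin (k + 2)), (-1 : ℤ) ^ S.card *
            (cphi n N c o S (cB n c o π (π' ω)) (cq n c π (π2 ω)) i -
              cphi n N c o S (cB n c o π (π' ω)) (cq n c π (π1 ω)) i))
    i0 j0 hi0 hj0 (h - κ) e2 e3 n β N w (2 ^ (k + 3)) hnβ hβN he1
    (by
      intro ω hω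
      have hb := (htyp ω hω).2
      simp only [cc_cE]
      exact ⟨fun i j hi hj => hb.le i j hi hj, hb.up, hb.lo⟩)
    (by
      intro ω hω
      have hq := hsupp ω hω
      have hW := cW_formula a w n N ((κ + 4) * a) c o π (π' ω) (π1 ω) (π2 ω) hx hy h01
        (hkey _ hq) (hf.cube _ hq) (htyp _ hq).1 hN1 hL1
      refine ⟨fun i hi => ?_, fun i hi => (hW i).2 hi⟩
      have := (hW i).1 hi
      push_cast at this ⊢
      exact this)
    (by
      intro ω hω j hj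
      have h1 := cc_C01 (n := n) (o := o) (π := π) hx hy h01 (π' ω) (π1 ω) j
      have h2 := cc_C01 (n := n) (o := o) (π := π) hx hy h01 (π' ω) (π2 ω) j
      rw [abs_le]
      constructor <;> linarith only [h1, h2])
    hmain H2
    (by
      rw [o.card]
      exact H3)
  refine hdisp.trans (le_of_eq ?_)
  push_cast
  ring

/-- the hypotheses of the absorption lemma -/
theorem cc_abs {a n N w : ℕ} {h K cost εr εA : ℝ} {i0 j0 : Fin m} {β : ℕ} {P : Law Ω}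
    {c : Cf Ω m} {o : Ob Ω m κ} {Q : Law Ω'} {π : CI k → Ω' → Ω}
    (hf : CubeFam a k K cost P c o Q π)
    (hx : ∀ ω i, 0 ≤ c.x ω i ∧ c.x ω i < 1) (hy : ∀ ω i, 0 ≤ c.y ω i ∧ c.y ω i < 1)
    (h01 : ∀ ω, 0 ≤ c.t ω ∧ c.t ω < 1)
    (htyp : ∀ ω, 0 < Q.w ω → CTyp a w c o π ω ∧ CBin β w i0 j0 o π ω)
    (hnN : n ≤ N) (hN : N + 2 * w ≤ n + a) (hw : 1 + 2 * κ + κ * 3 ^ κ ≤ 2 ^ w)
    (hε : 3 * εr * ((κ + 4) * a : ℕ) ≤ εA * (N - n : ℕ)) (hε0 : 0 ≤ εr)
    (hi : ∀ S, hc Q (cX N c o π S) (cB n c o π) ≤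
      (h - κ) * ((N : ℝ) - n) * Real.log 2 + εr * ((κ + 4) * a : ℕ))
    (hii : ∀ r : ℕ, n ≤ r → r ≤ N → (h - κ) * ((r : ℝ) - n) * Real.log 2 -
        3 * εr * ((κ + 4) * a : ℕ) ≤
      hc Q (fun ω => fl r (fun i => (cX N c o π ∅ ω i : ℝ) / 2 ^ N))
        (fun ω => (cq n c π ω, cB n c o π ω))) :
    (∀ (v : Finset (Fin (k + 2))) ω, 0 < Q.w ω → ∀ i, |cX N c o π v ω i - cX N c o π ∅ ω i -
      cphi n N c o v (cB n c o π ω) (cq n c π ω) i| ≤ (4 : ℕ)) ∧
    (∀ (v : Finset (Fin (k + 2))) ω ω', 0 < Q.w ω → 0 < Q.w ω' →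
      cB n c o π ω = cB n c o π ω' → ∀ i, |cX N c o π v ω i - cX N c o π v ω' i| ≤ 2 ^ (N - n)) ∧
    (∀ v, hc Q (cX N c o π v) (cB n c o π) ≤
      (h - κ) * ((N : ℝ) - n) * Real.log 2 + εA * (N - n : ℕ)) ∧
    (h - κ) * ((N : ℝ) - n) * Real.log 2 - εA * (N - n : ℕ) ≤
      hc Q (cX N c o π ∅) (fun ω => (cq n c π ω, cB n c o π ω)) := by
  refine ⟨?_, ?_, ?_, ?_⟩
  · intro v ω hω i
    exact cphi_noise a w n N c o π ω hx hy h01 (hf.keys ω hω) (htyp ω hω).1 hN hw v i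
  · intro v ω ω' _ _ hB i
    have h1 : fl n (cF c o π v ω) = fl n (cF c o π v ω') := by
      unfold cB at hB
      simp only [Prod.mk.injEq] at hB
      exact congrFun hB.2.2 v
    exact fl_digits hnN h1 i
  · intro v
    refine (hi v).trans ?_
    have h1 : εr * ((κ + 4) * a : ℕ) ≤ 3 * εr * ((κ + 4) * a : ℕ) := by
      have : 0 ≤ εr * ((κ + 4) * a : ℕ) := by positivity
      linarith only [this]
    linarith only [hε, h1]
  · have h1 := hii N hnN le_rfl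
    simp only [cc_fl_div] at h1
    linarith only [hε, h1]

/-- the scales -/
structure CSc (κ k a w β n N θ0 : ℕ) : Prop where
  nβ : n ≤ β
  βN : β ≤ N
  nN : n ≤ N
  NL : N ≤ (κ + 4) * a
  th : θ0 ≤ N - n
  Nβ : N - β ≤ n
  N2 : N + 2 * w ≤ n + a
  N1 : N + w + 2 * k + 4 + 2 * κ ≤ (k + 2) * a
  L1 : (k + 2) * a + k * w + 4 * k + 8 + 4 * κ ≤ (κ + 4) * a
  n3 : n + 3 * w = (k + 1) * a
  N6 : N + 6 * w = (k + 2) * a
  w4 : 12 * w ≤ a

theorem cc_sc {κ k a w β θ0 : ℕ} (hkκ : k ≤ κ) (hW : 20 * κ + 30 + θ0 ≤ w)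
    (hwa : 12 * (κ + 1) * w ≤ a) (hβn : (k + 1) * a ≤ β + 3 * w)
    (hβN : β + 6 * w ≤ (k + 2) * a) : ∃ n N, CSc κ k a w β n N θ0 := by
  have hwa' : 12 * w ≤ a := by
    refine le_trans ?_ hwa
    exact Nat.mul_le_mul_right w (by omega)
  have hkwa : k * w ≤ a := by
    refine le_trans ?_ hwa
    exact Nat.mul_le_mul_right w (by omega)
  have hka1 : (k + 1) * a = k * a + a := by ring
  have hka2 : (k + 2) * a = k * a + 2 * a := by ring
  have hκa : (κ + 4) * a = κ * a + 4 * a := by ring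
  have hkκa : k * a ≤ κ * a := Nat.mul_le_mul_right a hkκ
  refine ⟨(k + 1) * a - 3 * w, (k + 2) * a - 6 * w, ?_⟩
  constructor <;> omega

theorem CSc.thr {κ k a w β n N θ0 : ℕ} (h : CSc κ k a w β n N θ0) :
    3 / 4 * (a : ℝ) ≤ ((N - n : ℕ) : ℝ) ∧ ((N - n : ℕ) : ℝ) ≤ a := by
  have h1 : (k + 2) * a = (k + 1) * a + a := by ring
  have h2 : N - n + 3 * w = a := by
    have := h.n3
    have := h.N6
    have := h.nN
    omega
  have h3 : ((N - n : ℕ) : ℝ) + 3 * w = a := by exact_mod_cast h2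
  have h4 : 12 * (w : ℝ) ≤ a := by exact_mod_cast h.w4
  have : (0 : ℝ) ≤ w := Nat.cast_nonneg w
  constructor <;> linarith only [h3, h4]

/-- absorption, displacement, entropy of the projection along the direction -/
theorem cc_bound {a n N w β θ0 : ℕ} {h K cost εr εA ε' : ℝ} {i0 j0 : Fin m} {P : Law Ω}
    {c : Cf Ω m} {o : Ob Ω m κ} {Q : Law Ω'} {π : CI k → Ω' → Ω}
    (hf : CubeFam a k K cost P c o Q π) (hG : ∀ ω i, 0 ≤ c.x ω i ∧ c.x ω i < 1)
    (hy : ∀ ω i, 0 ≤ c.y ω i ∧ c.y ω i < 1) (h01 : ∀ ω, 0 ≤ c.t ω ∧ c.t ω < 1)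
    (htyp : ∀ ω, 0 < Q.w ω → CTyp a w c o π ω ∧ CBin β w i0 j0 o π ω)
    (hS : CSc κ k a w β n N θ0) (hwpow : 1 + 2 * κ + κ * 3 ^ κ ≤ 2 ^ w)
    (hr : ∀ S, Rates h ((κ + 4) * a) εr c o Q (π (Sum.inl S)))
    (hR : ∀ S, hc Q (fun ω => fl n (cF c o π S ω))
      (fun ω => (fl n (cF c o π ∅ ω), TT c o π ω, c.A (π (vb k) ω))) ≤
        εr * ((κ + 4) * a : ℕ))
    (hcost : cost ≤ εr * ((κ + 4) * a : ℕ))
    (hbig : 2 ^ (k + 3) * (m + 1) * Real.log (4 * 3 ^ κ * (κ + 1) + 10) ≤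
      εr * ((κ + 4) * a : ℕ))
    (hεr : 0 ≤ εr) (hεA : 0 < εA) (hε' : 0 ≤ ε') (hεrA : εr * (12 * (κ + 4)) ≤ εA)
    (hAbs : ∀ (Ω β γ : Type) [Fintype Ω] (P : Law Ω) (B : Ω → β) (q : Ω → γ)
      (X : Finset (Fin (k + 2)) → Ω → Fin m → ℤ)
      (φ : Finset (Fin (k + 2)) → β → γ → Fin m → ℤ) (b : Finset (Fin (k + 2)) → ℤ) (ρ : ℝ),
      (∀ v, b v = 1 ∨ b v = -1) →
      (∀ v ω, 0 < P.w ω → ∀ i, |X v ω i - X ∅ ω i - φ v (B ω) (q ω) i| ≤ (4 : ℕ)) →
      (∀ v ω ω', 0 < P.w ω → 0 < P.w ω' → B ω = B ω' → ∀ i,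
        |X v ω i - X v ω' i| ≤ 2 ^ (N - n)) →
      (∀ v, hc P (X v) B ≤ ρ + εA * (N - n : ℕ)) →
      ρ - εA * (N - n : ℕ) ≤ hc P (X ∅) (fun ω => (q ω, B ω)) →
      ∃ (Ω' ζ : Type) (_ : Fintype Ω') (P' : Law Ω') (Z : Ω' → ζ) (π π1 π2 : Ω' → Ω),
      (∀ ω, P'.pr π ω = P.w ω) ∧
      (∀ ω, 0 < P'.w ω → B (π1 ω) = B (π ω) ∧ B (π2 ω) = B (π ω) ∧
        X ∅ (π1 ω) = X ∅ (π2 ω)) ∧
      (∀ z ω, P'.pr (fun ω' => (Z ω', π1 ω')) (z, ω) = P'.pr (fun ω' => (Z ω', π ω')) (z, ω)) ∧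
      (∀ z ω, P'.pr (fun ω' => (Z ω', π2 ω')) (z, ω) = P'.pr (fun ω' => (Z ω', π ω')) (z, ω)) ∧
      mi P' π1 π2 (fun ω => (X ∅ (π1 ω), B (π ω), Z ω)) = 0 ∧
      mi P' π (fun ω => (π1 ω, π2 ω)) (fun ω => (B (π ω), Z ω)) = 0 ∧
      mi P' (fun ω => (q (π ω), X ∅ (π ω))) Z (fun ω => B (π ω)) ≤ ε' * (N - n : ℕ) ∧
      hc P' (fun ω i => X ∅ (π ω) i +
          ∑ v, b v * (φ v (B (π ω)) (q (π2 ω)) i - φ v (B (π ω)) (q (π1 ω)) i))
        (fun ω => (q (π ω), B (π ω), Z ω)) ≤ ρ + ε' * (N - n : ℕ)) :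
    hc Q (fun ω => fl N (fun i => cF c o π ∅ ω i - cF c o π ∅ ω i0 *
        (if i ∈ o.J then 0 else cS o π ω i j0 / cS o π ω i0 j0)))
      (fun ω => (fl β (c.x (π (vb k) ω)), fl β (c.y (π (vb k) ω)), c.t (π (vb k) ω), TT c o π ω,
        c.A (π (vb k) ω))) ≤
      (h - κ - 1) * ((N : ℝ) - β) * Real.log 2 + 4 * (ε' * (N - n : ℕ)) +
        3 * εr * ((κ + 4) * a : ℕ) + 2 ^ (k + 4) * εr * ((κ + 4) * a : ℕ) + w * Real.log 2 +
      ((4 * m + 8) * Real.log (8 * m + 8 * (2 ^ (k + 3) : ℕ) + 8) +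
      (m * Real.log 7 + (2 ^ (k + 2) + 1) * (m * Real.log (2 * (2 * (1 + κ * 3 ^ κ)) + 3)))) := by
  obtain ⟨hE1, hE2, hE3⟩ := cube_ent (n := n) (N := N) hf hG hy h01 hr hR hcost hS.nN
    hS.NL hbig
  have hεA3 : 3 * εr * ((κ + 4) * a : ℕ) ≤ εA * (N - n : ℕ) := by
    have h1 : 3 * εr * (((κ + 4) * a : ℕ) : ℝ) = (εr * (12 * (κ + 4))) * (a / 4) := by
      push_cast
      ring
    rw [h1]
    have h2 : (εr * (12 * (κ + 4))) * ((a : ℝ) / 4) ≤ εA * (a / 4) :=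
      mul_le_mul_of_nonneg_right hεrA (by (clear * -; positivity))
    have h3 : εA * ((a : ℝ) / 4) ≤ εA * (N - n : ℕ) := by
      refine mul_le_mul_of_nonneg_left ?_ hεA.le
      have := hS.thr.1
      have h4 : (0 : ℝ) ≤ a := Nat.cast_nonneg a
      linarith only [this]
    linarith only [h2, h3]
  obtain ⟨a1, a2, a3, a4⟩ := cc_abs (h := h) hf hG hy h01 htyp hS.nN hS.N2 hwpow hεA3 hεr
    hE1 hE2
  obtain ⟨Ω'', ζ, _, P', Z, π', π1, π2, b1, b2, b3, b4, b5, b6, b7, b8⟩ :=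
    hAbs Ω' _ _ Q (cB n c o π) (cq n c π) (cX N c o π)
      (fun S b q => cphi n N c o S b q) (fun S => (-1) ^ S.card)
      ((h - κ) * ((N : ℝ) - n) * Real.log 2)
      (fun S => neg_one_pow_eq_or ℤ S.card) a1 a2 a3 a4
  have hA : AbsOut Q P' (cB n c o π) (cq n c π) (cX N c o π ∅) Z π' π1 π2
      (ε' * (N - n : ℕ)) := ⟨b1, b2, b3, b4, b5, b6, b7⟩
  have hD := cc_disp (n := n) (N := N) (e2 := 3 * εr * ((κ + 4) * a : ℕ))
    (e3 := 2 ^ (k + 4) * εr * ((κ + 4) * a : ℕ)) hf hG hy h01 htyp hS.nβ hS.βN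
    (mul_nonneg hε' (Nat.cast_nonneg _))
    hS.N1 hS.L1 hA b8 (hE2 β hS.nβ hS.βN) (hE3 (N - β) hS.Nβ)
  obtain ⟨ω0, hω0⟩ := cc_pos Q
  have hi0 := (htyp ω0 hω0).2.i0J
  have hj0 := (htyp ω0 hω0).2.j0J
  have hKh := cc_kill_hc hf h01 hS.nβ hS.βN i0 j0 hi0 hj0
    (fun ω hω i hi => (htyp ω hω).2.le i j0 hi hj0)
  linarith only [hD, hKh]

/-- the killing lemma for the family -/
theorem cc_kill {a N w β : ℕ} {h K cost η δ : ℝ} {i0 j0 : Fin m} {P : Law Ω}
    {c : Cf Ω m} {o : Ob Ω m κ} {Q : Law Ω'} {π : CI k → Ω' → Ω}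
    (hf : CubeFam a k K cost P c o Q π) {L : ℕ} {e C : ℝ} (hG : Good P c L e C)
    (htyp : ∀ ω, 0 < Q.w ω → CTyp a w c o π ω ∧ CBin β w i0 j0 o π ω)
    (hβN : β ≤ N) (hNL : N ≤ L) (hηL : η * L ≤ (N : ℝ) - β) (hcost : cost ≤ δ * L)
    (hKill : ∀ (Ω Ω' D : Type) [Fintype Ω] [Fintype Ω'] (P : Law Ω) (c : Cf Ω m) (o : Ob Ω m κ)
      (Q : Law Ω') (π : Ω' → Ω) (Dt : Ω' → D) (r r' : ℕ) (i0 : Fin m) (v : Ω' → Fin m → ℝ),
      Good P c L e C → Dom Q π P K → r ≤ r' → r' ≤ L → η * L ≤ (r' : ℝ) - r →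
      i0 ∉ o.J → Fn Q (fun ω => o.Γ (π ω)) Dt → Fn Q v Dt →
      (∀ ω, 0 < Q.w ω → v ω i0 = 1 ∧ (∀ i, |v ω i| ≤ 1) ∧ ∀ j ∈ o.J, v ω j = 0) →
      mi Q (fun ω => (c.x (π ω), c.y (π ω))) Dt
        (fun ω => (c.t (π ω), c.A (π ω), fl r (c.x (π ω)), fl r (c.y (π ω)))) ≤ δ * L →
      hc Q (fun ω => fl r' (fun i => o.F c (π ω) i - o.F c (π ω) i0 * v ω i))
        (fun ω => (fl r (c.x (π ω)), fl r (c.y (π ω)), c.t (π ω), Dt ω, c.A (π ω))) ≤
        (h - κ - 1) * ((r' : ℝ) - r) * Real.log 2 + δ * L → False)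
    (hb : hc Q (fun ω => fl N (fun i => cF c o π ∅ ω i - cF c o π ∅ ω i0 *
        (if i ∈ o.J then 0 else cS o π ω i j0 / cS o π ω i0 j0)))
      (fun ω => (fl β (c.x (π (vb k) ω)), fl β (c.y (π (vb k) ω)), c.t (π (vb k) ω), TT c o π ω,
        c.A (π (vb k) ω))) ≤ (h - κ - 1) * ((N : ℝ) - β) * Real.log 2 + δ * L) : False := by
  obtain ⟨ω0, hω0⟩ := cc_pos Q
  have hi0 := (htyp ω0 hω0).2.i0J
  have hj0 := (htyp ω0 hω0).2.j0J
  refine hKill Ω Ω' _ P c o Q (π (vb k)) (TT c o π) β N i0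
    (fun ω i => if i ∈ o.J then 0 else cS o π ω i j0 / cS o π ω i0 j0) hG (hf.dom _) hβN
    hNL hηL hi0 ?_ ?_ ?_ ((cc_kill_mi hf β).trans hcost) hb
  · intro ω ω' _ _ hT
    have h1 := congrFun hT (vb k)
    unfold TT at h1
    simp only [Prod.mk.injEq] at h1
    exact o.fn _ _ h1.2
  · intro ω ω' _ _ hT
    have h1 : ∀ i j, cS o π ω i j = cS o π ω' i j := by
      intro i j
      unfold cS
      refine Finset.sum_congr rfl fun S _ => ?_
      have h2 := congrFun hT (Sum.inl S)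
      unfold TT at h2
      simp only [Prod.mk.injEq] at h2
      rw [o.fn _ _ h2.2]
    funext i
    simp only [h1]
  · intro ω hω
    have hb := (htyp ω hω).2
    have hne : cS o π ω i0 j0 ≠ 0 := by
      intro h0
      have := hb.lo
      rw [h0] at this
      simp only [abs_zero, mul_zero] at this
      linarith only [this]
    refine ⟨?_, fun i => ?_, fun j hj => ?_⟩
    · simp only [if_neg hi0, div_self hne]
    · split_ifs with hi
      · simp only [abs_zero, zero_le_one]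
      · rw [abs_div]
        exact div_le_one_of_le₀ (hb.le i j0 hi hj0) (abs_nonneg _)
    · simp only [if_pos hj]

end aux

/-- the errors are small -/
theorem cc_err {δ εr g L θ w B2 : ℝ} {k : ℕ} (hδ : 0 < δ) (hεr : 0 < εr)
    (hεrδ : εr * (16 * 2 ^ (k + 4)) ≤ δ) (hgδ : g ≤ δ / 8) (hw2 : w ≤ g * L) (hw0 : 0 ≤ w)
    (hL0 : 0 ≤ L) (hθ : θ ≤ L) (hB2 : B2 ≤ δ / 2 * L) (X : ℝ) :
    X + 4 * (δ / 32 * θ) + 3 * εr * L + 2 ^ (k + 4) * εr * L + w * Real.log 2 + B2 ≤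
      X + δ * L := by
  have hlog : Real.log 2 ≤ 1 := by
    have := Real.log_two_lt_d9
    linarith only [this]
  have hlog0 : 0 ≤ Real.log 2 := Real.log_nonneg (by norm_num)
  have c1 : 4 * (δ / 32 * θ) ≤ δ / 8 * L := by
    have : δ / 8 * θ ≤ δ / 8 * L := mul_le_mul_of_nonneg_left hθ (by positivity)
    linarith
  have c2 : 3 * εr * L ≤ δ / 16 * L := by
    have h2 : 3 * εr ≤ δ / 16 := by
      have h3 : (16 : ℝ) ≤ 2 ^ (k + 4) := by
        calc (16 : ℝ) = 2 ^ 4 := by norm_num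
          _ ≤ 2 ^ (k + 4) := pow_le_pow_right₀ (by norm_num) (by omega)
      have h4 : εr * (16 * 16) ≤ εr * (16 * 2 ^ (k + 4)) :=
        mul_le_mul_of_nonneg_left (by linarith only [h3]) hεr.le
      linarith only [hεr, hεrδ, h4]
    exact mul_le_mul_of_nonneg_right h2 hL0
  have c3 : 2 ^ (k + 4) * εr * L ≤ δ / 16 * L := by
    have h2 : 2 ^ (k + 4) * εr ≤ δ / 16 := by linarith only [hεrδ]
    exact mul_le_mul_of_nonneg_right h2 hL0
  have c4 : w * Real.log 2 ≤ δ / 8 * L := by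
    have h1 : w * Real.log 2 ≤ w * 1 := mul_le_mul_of_nonneg_left hlog hw0
    have h2 : g * L ≤ δ / 8 * L := mul_le_mul_of_nonneg_right hgδ hL0
    linarith only [hw2, h1, h2]
  have hδL : 0 ≤ δ * L := by (clear * - hδ hL0; positivity)
  linarith

theorem pccore (R : Gr) (habs : AbsB.PAbsV) (hkill : PKill R) (hrates : PRates R) :
    PCCore R := by
  intro m h κ k hkκ hLB hNK hRK η hη
  obtain ⟨δ, hδ, hKill⟩ := hkill m h κ hNK η hη
  have hκ0 : (0 : ℝ) ≤ κ := Nat.cast_nonneg κ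
  refine ⟨min (δ / 8) (1 / (12 * (κ + 4) * (κ + 1))), by (clear * - hδ; positivity), fun g hg hg0 K => ?_⟩
  have hgδ : g ≤ δ / 8 := hg0.trans (min_le_left _ _)
  have hgκ : g ≤ 1 / (12 * (κ + 4) * (κ + 1)) := hg0.trans (min_le_right _ _)
  -- absorption
  obtain ⟨εA, hεA, θ0, hAbs⟩ := habs m 4 (Finset (Fin (k + 2))) ∅ (δ / 32) (by positivity)
  obtain ⟨εr, hεr, hεrA, hεrδ⟩ : ∃ εr : ℝ, 0 < εr ∧ εr * (12 * (κ + 4)) ≤ εA ∧
      εr * (16 * 2 ^ (k + 4)) ≤ δ := by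
    refine ⟨min (εA / (12 * (κ + 4))) (δ / (16 * 2 ^ (k + 4))), by (clear * - hεA hδ; positivity), ?_, ?_⟩
    · rw [← le_div_iff₀ (by positivity)]
      exact min_le_left _ _
    · rw [← le_div_iff₀ (by positivity)]
      exact min_le_right _ _
  -- rates
  obtain ⟨ιr, hιr, hRates⟩ := hrates m h κ hLB εr K hεr
  -- determinism
  obtain ⟨εR, hεR, hεRg, hεRK⟩ : ∃ εR : ℝ, 0 < εR ∧ εR ≤ g ∧ |K| * εR ≤ εr := by
    refine ⟨min g (εr / (|K| + 1)), by (clear * - hg hεr; positivity), min_le_left _ _, ?_⟩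
    have h1 : min g (εr / (|K| + 1)) ≤ εr / (|K| + 1) := min_le_right _ _
    have h2 : |K| * (εr / (|K| + 1)) ≤ εr := by
      rw [mul_div_assoc', div_le_iff₀ (by positivity)]
      have := abs_nonneg K
      nlinarith only [hεr]
    exact (mul_le_mul_of_nonneg_left h1 (abs_nonneg K)).trans h2
  obtain ⟨ιR, hιR, εu, hεu, hRK'⟩ := hRK εR hεR
  refine ⟨εr, hεr, min ιr ιR, by (clear * - hιr hιR; positivity), εu, hεu, fun gr => ?_⟩
  obtain ⟨n1, hn1⟩ := hRates gr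
  obtain ⟨n2, hn2⟩ := hRK' gr
  obtain ⟨n3, hn3⟩ := hKill K gr
  -- large constants
  obtain ⟨n4, hn4⟩ := cc_big R gr
    (((1 + 2 * κ + κ * 3 ^ κ + (20 * κ + 30 + θ0) : ℕ) : ℝ) / (g / 2))
  obtain ⟨n5, hn5⟩ := cc_big R gr
    ((2 ^ (k + 3) * (m + 1) * Real.log (4 * 3 ^ κ * (κ + 1) + 10)) / εr)
  obtain ⟨n6, hn6⟩ := cc_big R gr
    (((4 * m + 8) * Real.log (8 * m + 8 * (2 ^ (k + 3) : ℕ) + 8) +
    (m * Real.log 7 + (2 ^ (k + 2) + 1) * (m * Real.log (2 * (2 * (1 + κ * 3 ^ κ)) + 3)))) /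
      (δ / 2))
  refine ⟨max (max n1 n2) (max (max n3 n4) (max n5 n6)), fun a e C hok => ?_⟩
  have ok1 := R.anti gr n1 _ _ e C (by omega) hok
  have ok2 := R.anti gr n2 _ _ e C (by omega) hok
  have ok3 := R.anti gr n3 _ _ e C (by omega) hok
  have hb4 := hn4 _ e C (R.anti gr n4 _ _ e C (by omega) hok)
  have hb5 := hn5 _ e C (R.anti gr n5 _ _ e C (by (clear * -; omega)) hok)
  have hb6 := hn6 _ e C (R.anti gr n6 _ _ e C (by omega) hok)
  intro Ω Ω' _ _ P c o Q π w β i0 j0 hH hf hw1 hw2 htyp hβ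
  have hLr : (((κ + 4) * a : ℕ) : ℝ) = (κ + 4) * a := by push_cast; ring
  have hL0 : (0 : ℝ) ≤ (((κ + 4) * a : ℕ) : ℝ) := Nat.cast_nonneg _
  rw [div_le_iff₀ (by positivity)] at hb4
  rw [div_le_iff₀ hεr] at hb5
  rw [div_le_iff₀ (by (clear * - hδ; positivity))] at hb6
  -- size of `w`
  have hwW : 1 + 2 * κ + κ * 3 ^ κ + (20 * κ + 30 + θ0) ≤ w := by
    have : ((1 + 2 * κ + κ * 3 ^ κ + (20 * κ + 30 + θ0) : ℕ) : ℝ) ≤ w := by linarith only [hb4, hw1]
    exact_mod_cast this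
  have hwa : 12 * (κ + 1) * w ≤ a := by
    have h1 : (w : ℝ) ≤ 1 / (12 * (κ + 4) * (κ + 1)) * (((κ + 4) * a : ℕ) : ℝ) :=
      hw2.trans (mul_le_mul_of_nonneg_right hgκ hL0)
    rw [hLr, one_div, inv_mul_eq_div, le_div_iff₀ (by (clear * -; positivity))] at h1
    have h2 : (κ + 4 : ℝ) * (12 * (κ + 1) * w) ≤ (κ + 4) * a := by linarith only [h1]
    have h3 := le_of_mul_le_mul_left h2 (by (clear * -; positivity))
    exact_mod_cast h3
  have hkwa : k * w ≤ a := by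
    refine le_trans ?_ hwa
    exact Nat.mul_le_mul_right w (by omega)
  have h01 := hH.good.t01
  obtain ⟨ω0, hω0⟩ := cc_pos Q
  -- scales
  have hβn : (k + 1) * a ≤ β + 3 * w :=
    cc_beta h01 (hf.keys ω0 hω0) (hf.cube ω0 hω0) (htyp ω0 hω0).1 (htyp ω0 hω0).2 hkκ
      (by omega) hkwa
  have hηL : 0 ≤ η * (((κ + 4) * a : ℕ) : ℝ) := mul_nonneg hη.le hL0
  have hβN : β + 6 * w ≤ (k + 2) * a := by
    have hβ' : (β : ℝ) + 6 * w ≤ (k + 2) * a := by linarith only [hβ, hηL]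
    exact_mod_cast hβ'
  obtain ⟨n, N, hS⟩ := cc_sc (θ0 := θ0) hkκ (by omega) hwa hβn hβN
  have hHr := cc_hyp_mono hH (min_le_left ιr ιR) le_rfl
  have hr : ∀ S, Rates h ((κ + 4) * a) εr c o Q (π (Sum.inl S)) := fun S =>
    hn1 _ e C ok1 Ω Ω' P c o Q _ hHr.good hHr.cost hHr.rate (hf.dom _)
  have hR : ∀ S, hc Q (fun ω => fl n (cF c o π S ω))
      (fun ω => (fl n (cF c o π ∅ ω), TT c o π ω, c.A (π (vb k) ω))) ≤
        εr * ((κ + 4) * a : ℕ) := by
    intro S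
    have h1 := hn2 a e C ok2 Ω P c o (cc_hyp_mono hH (min_le_right ιr ιR) le_rfl)
    have h3 : εR * (((κ + 4) * a : ℕ) : ℝ) ≤ g * (((κ + 4) * a : ℕ) : ℝ) :=
      mul_le_mul_of_nonneg_right hεRg hL0
    have h4 : (n : ℝ) + 3 * w = (k + 1) * a := by exact_mod_cast hS.n3
    have h6 : (0 : ℝ) ≤ w := Nat.cast_nonneg w
    have h7 : (n : ℝ) + εR * (((κ + 4) * a : ℕ) : ℝ) ≤ ((k + 1 : ℕ) : ℝ) * a := by
      push_cast at h3 hw1 ⊢
      linarith only [h4, h3, hw1]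
    have h2 := cc_hR (n := n) (x := εR * (((κ + 4) * a : ℕ) : ℝ)) hf
      (fun Q2 hQ2 => h1 Q2 hQ2 n h7) S
    refine h2.trans ?_
    have h5 : K * εR ≤ εr := (mul_le_mul_of_nonneg_right (le_abs_self K) hεR.le).trans hεRK
    have h8 := mul_le_mul_of_nonneg_right h5 hL0
    rw [mul_assoc] at h8
    exact h8
  have hwpow : 1 + 2 * κ + κ * 3 ^ κ ≤ 2 ^ w := by
    have : w < 2 ^ w := Nat.lt_two_pow_self
    (clear * - hkκ hwW this; omega)
  have hB := cc_bound hf hH.good.x01 hH.good.y01 h01 htyp hS hwpow hr hR le_rfl (by linarith only [hb5])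
    hεr.le hεA (by positivity) hεrA (hAbs (N - n) hS.th)
  have hNr : (N : ℝ) + 6 * w = (k + 2) * a := by exact_mod_cast hS.N6
  refine cc_kill hf hH.good htyp hS.βN hS.NL (by linarith only [hβ, hNr]) ?_ (hn3 _ e C ok3) (hB.trans ?_)
  · refine mul_le_mul_of_nonneg_right ?_ hL0
    have h2 : (1 : ℝ) ≤ 16 * 2 ^ (k + 4) := by
      have : (1 : ℝ) ≤ 2 ^ (k + 4) := one_le_pow₀ (by norm_num)
      linarith only [this]
    have h3 := mul_le_mul_of_nonneg_left h2 hεr.le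
    linarith only [hεrδ, h3]
  · have haL : (a : ℝ) ≤ (((κ + 4) * a : ℕ) : ℝ) := by
      have : a ≤ (κ + 4) * a := Nat.le_mul_of_pos_left a (by omega)
      exact_mod_cast this
    exact cc_err hδ hεr hεrδ hgδ hw2 (Nat.cast_nonneg w) hL0 (hS.thr.2.trans haL)
      (by linarith only [hb6]) _

end Vale.Agent.P127.Stk
end

section

/-!
# P127 / Stk : the family of progressions as a cube family
-/

namespace Vale.Agent.P127.Stk

open Finset Vale.Agent.P127

section wrap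

variable {Ω : Type} {m : ℕ}

/-- the low digits lie in `[0, 2^(L-a))` -/
theorem cwr_floor {a L : ℕ} (h : a ≤ L) (t : ℝ) :
    0 ≤ fl1 L t - 2 ^ (L - a) * fl1 a t ∧ fl1 L t - 2 ^ (L - a) * fl1 a t < 2 ^ (L - a) := by
  have h1 : fl1 a t = fl1 L t / ((2 ^ (L - a) : ℕ) : ℤ) := floor_pow_aux h t
  have h2 : ((2 ^ (L - a) : ℕ) : ℤ) = 2 ^ (L - a) := by push_cast; rfl
  rw [h2] at h1
  have hpos : (0 : ℤ) < 2 ^ (L - a) := by positivity
  have h3 : fl1 L t - 2 ^ (L - a) * fl1 a t = fl1 L t % 2 ^ (L - a) := by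
    rw [h1]
    have := Int.emod_add_mul_ediv (fl1 L t) (2 ^ (L - a))
    linarith only [this]
  rw [h3]
  exact ⟨Int.emod_nonneg _ hpos.ne', Int.emod_lt_of_pos _ hpos⟩

theorem cwr_low (c : Cf Ω m) (κ a : ℕ) (ω : Ω) :
    0 ≤ low c a ((κ + 4) * a) ω ∧ low c a ((κ + 4) * a) ω < ((2 ^ ((κ + 3) * a) : ℕ) : ℤ) := by
  have haL : a ≤ (κ + 4) * a := by nlinarith
  have hLa : (κ + 4) * a - a = (κ + 3) * a := by
    have : (κ + 4) * a = (κ + 3) * a + a := by ring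
    omega
  have := cwr_floor haL (c.t ω)
  rw [hLa] at this
  unfold low
  rw [hLa]
  push_cast
  exact this

/-- the entropy hypothesis in terms of the low digits -/
theorem cwr_hc [Fintype Ω] (P : Law Ω) (c : Cf Ω m) (a L : ℕ) :
    hc P (low c a L) (key c a) =
      hc P (fun ω => fl1 L (c.t ω)) (fun ω => (fl1 a (c.t ω), c.x ω, c.y ω, c.A ω)) := by
  refine hc_congr P ?_ ?_ ?_ ?_
  · intro ω ω' _ _ e
    simp only [key, Prod.mk.injEq] at e
    simp only [low, e.1, e.2.2.2.2]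
  · intro ω ω' _ _ e
    simp only [key, Prod.mk.injEq] at e
    have h1 := e.1
    simp only [low, e.2.2.2.2] at h1
    linarith only [h1]
  · intro ω ω' _ _ e
    simp only [Prod.mk.injEq] at e
    simp only [key, Prod.mk.injEq]
    exact ⟨e.2.1, e.2.2.1, e.2.2.2, e.1⟩
  · intro ω ω' _ _ e
    simp only [key, Prod.mk.injEq] at e
    simp only [Prod.mk.injEq]
    exact ⟨e.2.2.2, e.1, e.2.1, e.2.2.1⟩

end wrap

/-- lower bound for the normalising constant of the law of progressions -/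
theorem ap_Z (k : ℕ) : ∃ a0 : ℕ, ∃ εu0 : ℝ, 0 < εu0 ∧
    ∀ (κ m : ℕ) (h ι εu e C : ℝ) (a : ℕ) (Ω : Type) [Fintype Ω] (P : Law Ω) (c : Cf Ω m)
      (o : Ob Ω m κ) (Q0 : Law (Fin (k + 3) → Ω)) (Z : ℝ), a0 ≤ a → εu ≤ εu0 →
      Hyp h κ a ι εu e C P c o → 0 < Z →
      (∀ w, Q0.w w =
        apw P (key c a) (low c a ((κ + 4) * a)) (2 ^ ((κ + 3) * a)) (k + 2) w / Z) →
      1 / (4 * ((k + 2 : ℕ) : ℝ)) / (((2 ^ ((κ + 3) * a) : ℕ) : ℝ)) ^ (k + 2 - 1) ≤ Z := by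
  obtain ⟨δ, hδ, M0, hM0⟩ := apw_mass_ge (k + 2) (by omega)
  refine ⟨M0, (δ / 2) ^ 2, by positivity, ?_⟩
  intro κ m h ι εu e C a Ω _ P c o Q0 Z ha hεu hyp hZ hQ
  rw [ap_norm hZ hQ]
  have hM : M0 ≤ 2 ^ ((κ + 3) * a) := by
    have h1 : a ≤ (κ + 3) * a := by nlinarith only []
    have h2 : a < 2 ^ a := Nat.lt_two_pow_self
    have h3 : 2 ^ a ≤ 2 ^ ((κ + 3) * a) := Nat.pow_le_pow_right (by norm_num) h1
    omega
  refine hM0 _ hM Ω _ P (key c a) (low c a ((κ + 4) * a)) (fun ω _ => cwr_low c κ a ω) ?_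
  have h1 := unif_l1 P (key c a) (low c a ((κ + 4) * a)) (2 ^ ((κ + 3) * a))
    Nat.one_le_two_pow (fun ω _ => cwr_low c κ a ω) ((δ / 2) ^ 2) (by positivity) (by
      rw [cwr_hc]
      have h2 := hyp.unif
      have h3 : Real.log ((2 ^ ((κ + 3) * a) : ℕ) : ℝ) =
          (((κ + 4) * a : ℕ) - (a : ℝ)) * Real.log 2 := by
        push_cast
        rw [Real.log_pow]
        push_cast
        ring
      rw [h3]
      linarith only [hεu, h2])
  rw [Real.sqrt_sq (by positivity)] at h1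
  linarith only [h1]

/-- the statement of `ap_family` (helper662) -/
def PAPFam : Prop := ∀ (p n : ℕ) (c0 : ℝ), 1 ≤ p → 0 < c0 → ∃ K : ℝ, 1 ≤ K ∧
  ∀ (Ω S T T' V S' : Type) [Fintype Ω] (P : Law Ω) (W : Ω → S) (U : Ω → ℤ) (M : ℕ)
    (Q0 : Law (Fin (p + 1) → Ω)) (Z : ℝ) (l : Ω → T) (A : Ω → T') (B : Ω → V) (I : Ω → S'),
    1 ≤ M → (∀ ω, 0 < P.w ω → 0 ≤ U ω ∧ U ω < M) →
    (∀ w, Q0.w w = apw P W U M p w / Z) → 0 < Z → c0 / (M : ℝ) ^ (p - 1) ≤ Z →
    Fn P I B → Fn P U B →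
    Fn P W (fun ω => (l ω, A ω, I ω)) → Fn P (fun ω => (l ω, A ω, I ω)) W →
    ∃ (Ω₁ : Type) (_ : Fintype Ω₁) (Q : Law Ω₁) (π : Fin (p + 1) ⊕ Fin n → Ω₁ → Ω),
      (∀ v, Q.pr (fun x j => π (Sum.inl j) x) v = Q0.w v) ∧
      (∀ x, 0 < Q.w x → ∀ i, W (π i x) = W (π (Sum.inl 0) x) ∧ 0 < P.w (π i x)) ∧
      (∀ x, 0 < Q.w x → ∃ μ : ℤ, ∀ j : Fin (p + 1),
        U (π (Sum.inl j) x) = U (π (Sum.inl 0) x) + (j : ℕ) * μ) ∧
      (∀ i, Dom Q (π i) P K) ∧
      (∀ i j, i ≠ j → ∀ v, Q.pr (fun x => ![π (Sum.inl i) x, π (Sum.inl j) x]) v ≤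
        K * cw P W 1 v) ∧
      (∀ j v, Q.pr (fun x => (Fin.snoc (fun l => π (Sum.inr l) x) (π (Sum.inl j) x) :
        Fin (n + 1) → Ω)) v ≤ K * cw P W n v) ∧
      mi Q (fun x => l (π (Sum.inl 0) x)) (fun x i => B (π i x))
        (fun x => A (π (Sum.inl 0) x)) ≤ K * (mi P l B A + 1)

/-- the existence of the family, from `ap_family` -/
theorem pclaw_of (hfam : PAPFam) : PCLaw := by
  classical
  intro κ k
  obtain ⟨a0, εu0, hεu0, hZ⟩ := ap_Z k
  have hc0 : (0 : ℝ) < 1 / (4 * ((k + 2 : ℕ) : ℝ)) := by positivity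
  obtain ⟨K, hK, hF⟩ := hfam (k + 2) (k + 1) (1 / (4 * ((k + 2 : ℕ) : ℝ))) (by omega) hc0
  refine ⟨K, by linarith only [hK], a0, εu0, hεu0, ?_⟩
  intro m h ι εu e C a Ω _ P c o Q0 Z ha hεu hyp hZ0 hQ0
  have hZ1 := hZ κ m h ι εu e C a Ω P c o Q0 Z ha hεu hyp hZ0 hQ0
  obtain ⟨Ω₁, inst, Q, π, h1, h2, h3, h4, h5, h6, h7⟩ := hF Ω _ _ _ _ _ P (key c a)
    (low c a ((κ + 4) * a)) (2 ^ ((κ + 3) * a)) Q0 Z (fun ω => (c.x ω, c.y ω)) c.A
    (fun ω => (c.t ω, o.G ω)) (fun ω => fl1 a (c.t ω)) Nat.one_le_two_pow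
    (fun ω _ => cwr_low c κ a ω) hQ0 hZ0 hZ1
    (by
      intro ω ω' _ _ e
      have : c.t ω = c.t ω' := congrArg Prod.fst e
      simp only [this])
    (by
      intro ω ω' _ _ e
      have : c.t ω = c.t ω' := congrArg Prod.fst e
      simp only [low, this])
    (by
      intro ω ω' _ _ e
      simp only [Prod.mk.injEq] at e
      simp only [key, Prod.mk.injEq]
      exact ⟨e.1.1, e.1.2, e.2.1, e.2.2⟩)
    (by
      intro ω ω' _ _ e
      simp only [key, Prod.mk.injEq] at e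
      simp only [Prod.mk.injEq]
      exact ⟨⟨e.1, e.2.1⟩, e.2.2.1, e.2.2.2⟩)
  have hvx0 : vx (∅ : Finset (Fin (k + 2))) = 0 := by
    unfold vx
    rfl
  have hkeys : ∀ x, 0 < Q.w x → ∀ i j, key c a (π i x) = key c a (π j x) := fun x hx i j =>
    ((h2 x hx i).1).trans ((h2 x hx j).1).symm
  refine ⟨Ω₁, inst, Q, Sum.elim (fun S => π (Sum.inl (vx S))) (fun l => π (Sum.inr l)),
    ⟨?_, ?_, ?_, ?_, ?_, ?_⟩, ?_⟩
  · intro x hx i j
    rcases i with i | i <;> rcases j with j | j <;> exact hkeys x hx _ _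
  · intro i
    rcases i with i | i
    · exact h4 _
    · exact h4 _
  · intro S hS w
    simp only [Sum.elim_inl]
    rw [hvx0]
    refine h5 0 (vx S) ?_ w
    intro e
    apply hS
    have e1 : ((0 : Fin (k + 3)) : ℕ) = (vx S : ℕ) := congrArg Fin.val e
    have e2 : S.card = 0 := e1.symm
    exact Finset.card_eq_zero.1 e2
  · intro S w
    exact h6 (vx S) w
  · have e1 : mi P (fun ω => (c.x ω, c.y ω)) (fun ω => (c.t ω, o.G ω)) c.A ≤
        C + ι * ((κ + 4) * a : ℕ) := by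
      rw [mi_pair]
      have := hyp.good.ind
      have := hyp.cost
      (clear hfam k a0 εu0 hεu0 hZ hc0 K hK hF Q0 Z ha hεu hZ0 hQ0 hZ1 Q π h1 h2 h3 h4 h5 h6 h7 hvx0 hkeys; linarith)
    have e2 : K * (mi P (fun ω => (c.x ω, c.y ω)) (fun ω => (c.t ω, o.G ω)) c.A + 1) ≤
        K * (C + ι * ((κ + 4) * a : ℕ) + 1) :=
      mul_le_mul_of_nonneg_left (by linarith only [e1]) (by linarith only [hK])
    refine le_trans ?_ (h7.trans e2)
    simp only [Sum.elim_inl]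
    rw [hvx0]
    refine mi_mono_right Q _ ?_
    intro x x' _ _ e
    have e3 := congrArg Prod.fst e
    simp only at e3
    funext i
    rcases i with i | i
    · exact congrFun e3 (Sum.inl (vx i))
    · exact congrFun e3 (Sum.inr i)
  · intro x hx
    simp only [Sum.elim_inl]
    obtain ⟨μ, hμ⟩ := h3 x hx
    refine isCube_ap (fun l => fl1 ((κ + 4) * a) (c.t (π (Sum.inl l) x))) μ ?_
    intro l
    have e1 := hμ l
    have e2 := hkeys x hx (Sum.inl l) (Sum.inl 0)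
    simp only [key, Prod.mk.injEq] at e2
    simp only [low, e2.2.2.2] at e1
    linarith only [e1]
  · intro thr
    set F : (Fin (k + 3) → Ω) → Prop := fun w => ∃ i, i ∉ o.J ∧ ∃ j ∈ o.J,
      thr < |∑ l : Fin (k + 3), (-1 : ℝ) ^ (l : ℕ) * ((k + 2).choose l : ℝ) * o.Γ (w l) i j| with hF
    have e1 : ∀ x, cBad o (Sum.elim (fun S => π (Sum.inl (vx S))) (fun l => π (Sum.inr l)))
        thr x ↔ F (fun j => π (Sum.inl j) x) := fun x =>
      cBad_ap o _ (fun l x => π (Sum.inl l) x) (fun S => rfl) thr x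
    have e2 : ∑ w with F w, Q0.w w = ∑ w with F w, Q.pr (fun x j => π (Sum.inl j) x) w :=
      Finset.sum_congr rfl fun w _ => (h1 w).symm
    refine le_of_eq ?_
    calc ∑ w with F w, Q0.w w = ∑ w with F w, Q.pr (fun x j => π (Sum.inl j) x) w := e2
      _ = ∑ x with F (fun j => π (Sum.inl j) x), Q.w x := by
          rw [Finset.sum_filter]
          have e3 : ∀ w : Fin (k + 3) → Ω, (if F w then
              Q.pr (fun x j => π (Sum.inl j) x) w else 0) =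
              ∑ x, if (fun j => π (Sum.inl j) x) = w then (if F w then Q.w x else 0) else 0 := by
            intro w
            unfold Law.pr
            by_cases hw : F w
            · rw [if_pos hw, Finset.sum_filter]
              refine Finset.sum_congr rfl fun x _ => ?_
              split_ifs <;> rfl
            · rw [if_neg hw]
              symm
              refine Finset.sum_eq_zero fun x _ => ?_
              split_ifs <;> rfl
          rw [Finset.sum_congr rfl fun w _ => e3 w, Finset.sum_comm, Finset.sum_filter]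
          refine Finset.sum_congr rfl fun x _ => ?_
          rw [Finset.sum_ite_eq]
          simp only [mem_univ, ↓reduceIte]
      _ = prE Q (cBad o (Sum.elim (fun S => π (Sum.inl (vx S))) (fun l => π (Sum.inr l))) thr) := by
          unfold prE
          refine Finset.sum_congr ?_ fun _ _ => rfl
          ext x
          simp only [Finset.mem_filter, Finset.mem_univ, true_and]
          exact (e1 x).symm

end Vale.Agent.P127.Stk
end

section

/-!
# P127 / Stk / CNodes : adding independent samples over the key (helper662)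
-/

namespace Vale.Agent.P127.Stk

open Finset Vale.Agent.P127

section nodes

variable {Ω Ω' : Type} [Fintype Ω] [Fintype Ω'] {S S' T T' V : Type*}

theorem pr_ite (P : Law Ω) (X : Ω → S) (x : S) [∀ ω, Decidable (X ω = x)] :
    P.pr X x = ∑ ω, if X ω = x then P.w ω else 0 := by
  unfold Law.pr
  rw [Finset.sum_filter]
  refine Finset.sum_congr rfl fun ω _ => ?_
  split_ifs <;> rfl

open Classical in
/-- conditional weight of `ω` given the key `s` -/
noncomputable def kerw (P : Law Ω) (W : Ω → S) (s : S) (ω : Ω) : ℝ :=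
  if W ω = s then P.w ω / P.pr W s else 0

theorem kerw_nonneg (P : Law Ω) (W : Ω → S) (s : S) (ω : Ω) : 0 ≤ kerw P W s ω := by
  unfold kerw
  split_ifs
  · exact div_nonneg (P.nn _) (P.pr_nonneg _ _)
  · exact le_rfl

theorem kerw_sum {P : Law Ω} {W : Ω → S} {s : S} (hs : 0 < P.pr W s) :
    ∑ ω, kerw P W s ω = 1 := by
  classical
  unfold kerw
  rw [← Finset.sum_filter, ← Finset.sum_div]
  have : ∑ ω with W ω = s, P.w ω = P.pr W s := by
    unfold Law.pr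
    exact Finset.sum_congr (by ext; simp only [mem_filter, mem_univ, true_and]) fun _ _ => rfl
  rw [this]
  exact div_self hs.ne'

theorem kerw_pos {P : Law Ω} {W : Ω → S} {s : S} {ω : Ω} (h : 0 < kerw P W s ω) :
    W ω = s ∧ 0 < P.w ω := by
  unfold kerw at h
  split_ifs at h with h1
  · refine ⟨h1, ?_⟩
    rcases (P.nn ω).eq_or_lt with h2 | h2
    · rw [← h2, zero_div] at h
      exact absurd h (lt_irrefl _)
    · exact h2
  · exact absurd h (lt_irrefl _)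

/-- weights of the extension of `Q` by `n` samples over the key of `π` -/
noncomputable def nodew (P : Law Ω) (W : Ω → S) (Q : Law Ω') (π : Ω' → Ω) (n : ℕ)
    (x : Ω' × (Fin n → Ω)) : ℝ :=
  Q.w x.1 * ∏ l, kerw P W (W (π x.1)) (x.2 l)

theorem nodes_exists (P : Law Ω) (W : Ω → S) (Q : Law Ω') (π : Ω' → Ω) (n : ℕ)
    (hπ : ∀ w, 0 < Q.w w → 0 < P.w (π w)) :
    ∃ Q' : Law (Ω' × (Fin n → Ω)), ∀ x, Q'.w x = nodew P W Q π n x := by
  classical
  refine ⟨⟨nodew P W Q π n, fun x => ?_, ?_⟩, fun _ => rfl⟩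
  · exact mul_nonneg (Q.nn _) (Finset.prod_nonneg fun l _ => kerw_nonneg _ _ _ _)
  · rw [Fintype.sum_prod_type]
    rw [← Q.sum_one]
    refine Finset.sum_congr rfl fun w _ => ?_
    unfold nodew
    simp only
    rw [← Finset.mul_sum, sum_prod_tuple (fun _ => kerw P W (W (π w)))]
    rcases (Q.nn w).eq_or_lt with h | h
    · rw [← h, zero_mul]
    · have := kerw_sum (P.pr_pos W (hπ w h))
      rw [this]
      simp only [prod_const_one, mul_one]

variable {P : Law Ω} {W : Ω → S} {Q : Law Ω'} {π : Ω' → Ω} {n : ℕ}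
  {Q' : Law (Ω' × (Fin n → Ω))}

theorem nodes_supp (hQ' : ∀ x, Q'.w x = nodew P W Q π n x) {x : Ω' × (Fin n → Ω)}
    (hx : 0 < Q'.w x) : 0 < Q.w x.1 ∧ ∀ l, W (x.2 l) = W (π x.1) ∧ 0 < P.w (x.2 l) := by
  rw [hQ' x] at hx
  unfold nodew at hx
  have h1 : 0 < Q.w x.1 := by
    rcases (Q.nn x.1).eq_or_lt with h | h
    · rw [← h, zero_mul] at hx
      exact absurd hx (lt_irrefl _)
    · exact h
  refine ⟨h1, fun l => ?_⟩
  refine kerw_pos (P := P) (W := W) (s := W (π x.1)) ?_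
  rcases (kerw_nonneg P W (W (π x.1)) (x.2 l)).eq_or_lt with h | h
  · rw [Finset.prod_eq_zero (mem_univ l) h.symm, mul_zero] at hx
    exact absurd hx (lt_irrefl _)
  · exact h

theorem nodes_fst (hQ' : ∀ x, Q'.w x = nodew P W Q π n x)
    (hπ : ∀ w, 0 < Q.w w → 0 < P.w (π w)) (w : Ω') : Q'.pr Prod.fst w = Q.w w := by
  classical
  unfold Law.pr
  rw [Finset.sum_filter, Fintype.sum_prod_type]
  simp only
  rw [Finset.sum_eq_single w]
  · have h1 : ∀ ν : Fin n → Ω, (if w = w then Q'.w (w, ν) else 0) =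
        Q.w w * ∏ l, kerw P W (W (π w)) (ν l) := fun ν => by
      rw [if_pos rfl, hQ']
      rfl
    rw [Finset.sum_congr rfl fun ν _ => h1 ν, ← Finset.mul_sum,
      sum_prod_tuple (fun _ => kerw P W (W (π w)))]
    rcases (Q.nn w).eq_or_lt with h | h
    · rw [← h, zero_mul]
    · rw [kerw_sum (P.pr_pos W (hπ w h))]
      simp only [prod_const_one, mul_one]
  · intro b _ hb
    exact Finset.sum_eq_zero fun ν _ => if_neg hb
  · intro h
    exact absurd (mem_univ w) h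

/-- domination of the tuple (nodes, vertex) -/
theorem nodes_dom (hQ' : ∀ x, Q'.w x = nodew P W Q π n x) {K : ℝ} (ρ : Ω' → Ω)
    (hρ : ∀ w, 0 < Q.w w → W (ρ w) = W (π w)) (hd : Dom Q ρ P K) (v : Fin (n + 1) → Ω) :
    Q'.pr (fun x => (Fin.snoc x.2 (ρ x.1) : Fin (n + 1) → Ω)) v ≤ K * cw P W n v := by
  classical
  have hK : 0 ≤ K := zero_le_one.trans hd.one_le
  have h1 : Q'.pr (fun x => (Fin.snoc x.2 (ρ x.1) : Fin (n + 1) → Ω)) v ≤
      ∑ w with ρ w = v (Fin.last n), Q.w w *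
        ∏ l : Fin n, kerw P W (W (v (Fin.last n))) (v l.castSucc) := by
    rw [pr_ite, Finset.sum_filter, Fintype.sum_prod_type]
    refine Finset.sum_le_sum fun w _ => ?_
    by_cases hw : ρ w = v (Fin.last n)
    · rw [if_pos hw]
      have h2 : ∀ ν : Fin n → Ω, (if (Fin.snoc ν (ρ w) : Fin (n + 1) → Ω) = v then
          Q'.w (w, ν) else 0) ≤ if ν = (fun l => v l.castSucc) then
          Q.w w * ∏ l : Fin n, kerw P W (W (v (Fin.last n))) (v l.castSucc) else 0 := by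
        intro ν
        by_cases h3 : (Fin.snoc ν (ρ w) : Fin (n + 1) → Ω) = v
        · have h4 : ν = fun l => v l.castSucc := by
            funext l
            rw [← h3, Fin.snoc_castSucc]
          rw [if_pos h3, if_pos h4, hQ']
          unfold nodew
          simp only
          rcases (Q.nn w).eq_or_lt with h5 | h5
          · rw [← h5, zero_mul, zero_mul]
          · rw [← hρ w h5, hw, h4]
        · rw [if_neg h3]
          split_ifs
          · exact mul_nonneg (Q.nn _) (Finset.prod_nonneg fun l _ => kerw_nonneg _ _ _ _)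
          · exact le_rfl
      refine (Finset.sum_le_sum fun ν _ => h2 ν).trans ?_
      rw [Finset.sum_ite_eq' univ (fun l : Fin n => v l.castSucc)]
      simp only [mem_univ, ↓reduceIte, Std.le_refl]
    · rw [if_neg hw]
      refine Finset.sum_nonpos fun ν _ => ?_
      have : ¬ (Fin.snoc ν (ρ w) : Fin (n + 1) → Ω) = v := by
        intro h
        apply hw
        rw [← h, Fin.snoc_last]
      simp [this]
  refine h1.trans ?_
  rw [← Finset.sum_mul]
  have h2 : ∑ w with ρ w = v (Fin.last n), Q.w w ≤ K * P.w (v (Fin.last n)) := by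
    have := hd (v (Fin.last n))
    unfold Law.pr at this
    convert this
  have h3 : 0 ≤ ∏ l : Fin n, kerw P W (W (v (Fin.last n))) (v l.castSucc) :=
    Finset.prod_nonneg fun l _ => kerw_nonneg _ _ _ _
  refine (mul_le_mul_of_nonneg_right h2 h3).trans ?_
  rw [mul_assoc]
  refine mul_le_mul_of_nonneg_left ?_ hK
  by_cases h4 : ∀ l : Fin n, W (v l.castSucc) = W (v (Fin.last n))
  · have h5 : ∀ i : Fin (n + 1), W (v i) = W (v 0) := by
      have h6 : ∀ i : Fin (n + 1), W (v i) = W (v (Fin.last n)) := fun i =>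
        Fin.lastCases rfl h4 i
      intro i
      rw [h6 i, h6 0]
    unfold cw
    rw [if_pos h5, Fin.prod_univ_castSucc]
    have h6 : ∏ l : Fin n, kerw P W (W (v (Fin.last n))) (v l.castSucc) =
        (∏ l : Fin n, P.w (v l.castSucc)) / (P.pr W (W (v 0))) ^ n := by
      have h7 : ∀ l : Fin n, kerw P W (W (v (Fin.last n))) (v l.castSucc) =
          P.w (v l.castSucc) / P.pr W (W (v 0)) := by
        intro l
        unfold kerw
        rw [if_pos (h4 l), h5 (Fin.last n)]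
      rw [Finset.prod_congr rfl fun l _ => h7 l, Finset.prod_div_distrib, Finset.prod_const,
        Finset.card_univ, Fintype.card_fin]
    rw [h6]
    apply le_of_eq
    ring
  · push Not at h4
    obtain ⟨l, hl⟩ := h4
    have h5 : kerw P W (W (v (Fin.last n))) (v l.castSucc) = 0 := by
      unfold kerw
      exact if_neg hl
    rw [Finset.prod_eq_zero (mem_univ l) h5, mul_zero]
    unfold cw
    split_ifs
    · exact div_nonneg (Finset.prod_nonneg fun _ _ => P.nn _)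
        (pow_nonneg (P.pr_nonneg _ _) _)
    · exact le_rfl

/-- domination of one node -/
theorem nodes_dom1 (hQ' : ∀ x, Q'.w x = nodew P W Q π n x) {K : ℝ}
    (hd : Dom Q π P K) (l : Fin n) : Dom Q' (fun x => x.2 l) P K := by
  classical
  have hK : 0 ≤ K := zero_le_one.trans hd.one_le
  intro ω
  have h1 : Q'.pr (fun x => x.2 l) ω ≤ ∑ w, Q.w w * kerw P W (W (π w)) ω := by
    unfold Law.pr
    rw [Finset.sum_filter, Fintype.sum_prod_type]
    refine Finset.sum_le_sum fun w _ => ?_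
    have h2 : ∀ ν : Fin n → Ω, (if ν l = ω then Q'.w (w, ν) else 0) =
        Q.w w * ∏ l', (fun l' ω' => if l' = l then (if ω' = ω then kerw P W (W (π w)) ω' else 0)
          else kerw P W (W (π w)) ω') l' (ν l') := by
      intro ν
      by_cases h3 : ν l = ω
      · rw [if_pos h3, hQ']
        unfold nodew
        simp only
        congr 1
        refine Finset.prod_congr rfl fun l' _ => ?_
        by_cases h4 : l' = l
        · rw [if_pos h4, if_pos (by rw [h4, h3])]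
        · rw [if_neg h4]
      · rw [if_neg h3]
        symm
        apply mul_eq_zero_of_right
        refine Finset.prod_eq_zero (mem_univ l) ?_
        simp [h3]
    rw [Finset.sum_congr rfl fun ν _ => h2 ν, ← Finset.mul_sum,
      sum_prod_tuple (fun l' ω' => if l' = l then (if ω' = ω then kerw P W (W (π w)) ω' else 0)
          else kerw P W (W (π w)) ω')]
    rcases (Q.nn w).eq_or_lt with h3 | h3
    · rw [← h3, zero_mul, zero_mul]
    · refine mul_le_mul_of_nonneg_left ?_ h3.le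
      have h4 : 0 < P.pr W (W (π w)) := P.pr_pos W (hd.pos h3)
      have h5 : ∀ l' ∈ (univ : Finset (Fin n)), ∑ ω', (if l' = l then
          (if ω' = ω then kerw P W (W (π w)) ω' else 0) else kerw P W (W (π w)) ω') =
          if l' = l then kerw P W (W (π w)) ω else 1 := by
        intro l' _
        by_cases h6 : l' = l
        · simp only [h6, ↓reduceIte, sum_ite_eq', mem_univ]
        · simp only [if_neg h6]
          exact kerw_sum h4
      rw [Finset.prod_congr rfl h5, Finset.prod_ite_eq' univ l]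
      simp only [mem_univ, ↓reduceIte, Std.le_refl]
  refine h1.trans ?_
  have h2 : ∀ w, Q.w w * kerw P W (W (π w)) ω =
      (if W (π w) = W ω then Q.w w else 0) * (P.w ω / P.pr W (W ω)) := by
    intro w
    unfold kerw
    by_cases h3 : W ω = W (π w)
    · rw [if_pos h3, if_pos h3.symm, h3]
    · rw [if_neg h3, if_neg (Ne.symm h3)]
      ring
  rw [Finset.sum_congr rfl fun w _ => h2 w, ← Finset.sum_mul, ← Finset.sum_filter]
  have h3 : ∑ w with W (π w) = W ω, Q.w w ≤ K * P.pr W (W ω) := by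
    have h4 : ∑ w with W (π w) = W ω, Q.w w = ∑ ω' with W ω' = W ω, Q.pr π ω' := by
      unfold Law.pr
      rw [← Finset.sum_fiberwise_of_maps_to (g := π) (t := univ.filter fun ω' => W ω' = W ω)
        (s := univ.filter fun w => W (π w) = W ω)]
      · refine Finset.sum_congr rfl fun ω' hω' => Finset.sum_congr ?_ fun _ _ => rfl
        ext w
        simp only [mem_filter, mem_univ, true_and] at hω' ⊢
        constructor
        · rintro ⟨_, h⟩
          exact h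
        · intro h
          exact ⟨by rw [h, hω'], h⟩
      · intro w hw
        simpa only [mem_filter, mem_univ, true_and] using hw
    rw [h4]
    unfold Law.pr
    rw [Finset.mul_sum]
    refine (Finset.sum_le_sum fun ω' _ => hd ω').trans (le_of_eq ?_)
    exact Finset.sum_congr (by ext; simp) fun _ _ => rfl
  have h4 : 0 ≤ P.w ω / P.pr W (W ω) := div_nonneg (P.nn _) (P.pr_nonneg _ _)
  refine (mul_le_mul_of_nonneg_right h3 h4).trans ?_
  rcases (P.nn ω).eq_or_lt with h5 | h5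
  · rw [← h5]
    simp
  · have h6 := P.pr_pos W h5
    apply le_of_eq
    field_simp

/-- a product of sub-kernels is a sub-kernel -/
theorem prod_kernel_le (g : Fin n → V → ℝ) (hg : ∀ l b, 0 ≤ g l b)
    (h1 : ∀ l, ∀ F : Finset V, ∑ b ∈ F, g l b ≤ 1) (F : Finset (Fin n → V)) :
    ∑ N ∈ F, ∏ l, g l (N l) ≤ 1 := by
  classical
  have h2 : F ⊆ Fintype.piFinset fun l => F.image fun N => N l := by
    intro N hN
    rw [Fintype.mem_piFinset]
    exact fun l => mem_image_of_mem _ hN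
  refine (Finset.sum_le_sum_of_subset_of_nonneg h2
    fun N _ _ => Finset.prod_nonneg fun l _ => hg l _).trans ?_
  rw [← Finset.prod_univ_sum]
  exact Finset.prod_le_one (fun l _ => Finset.sum_nonneg fun b _ => hg l b) fun l _ => h1 l _

/-- the joint law of the data of the nodes and the old sample point -/
theorem nodes_pr (hQ' : ∀ x, Q'.w x = nodew P W Q π n x) (B : Ω → V) (x : Ω' × (Fin n → Ω)) :
    Q'.pr (fun x => ((fun l => B (x.2 l)), x.1)) ((fun l => B (x.2 l)), x.1) =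
      Q.w x.1 * ∏ l, (P.pr (fun ω => (B ω, W ω)) (B (x.2 l), W (π x.1)) /
        P.pr W (W (π x.1))) := by
  classical
  rw [pr_ite, Fintype.sum_prod_type, Finset.sum_eq_single x.1]
  · set f : Fin n → Ω → ℝ := fun l ω => if B ω = B (x.2 l) then kerw P W (W (π x.1)) ω else 0
      with hf
    have h1 : ∀ ν : Fin n → Ω, (if ((fun l => B (ν l)), x.1) = ((fun l => B (x.2 l)), x.1) then
        Q'.w (x.1, ν) else 0) = Q.w x.1 * ∏ l, f l (ν l) := by
      intro ν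
      by_cases h2 : ∀ l, B (ν l) = B (x.2 l)
      · rw [if_pos (by rw [Prod.mk.injEq]; exact ⟨funext h2, rfl⟩), hQ']
        unfold nodew
        simp only
        congr 1
        refine Finset.prod_congr rfl fun l _ => ?_
        simp only [hf]
        rw [if_pos (h2 l)]
      · rw [if_neg (by rw [Prod.mk.injEq]; exact fun h => h2 fun l => congrFun h.1 l)]
        push Not at h2
        obtain ⟨l, hl⟩ := h2
        rw [Finset.prod_eq_zero (mem_univ l) (by simp only [hf]; rw [if_neg hl]), mul_zero]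
    rw [Finset.sum_congr rfl fun ν _ => h1 ν, ← Finset.mul_sum, sum_prod_tuple f]
    congr 1
    refine Finset.prod_congr rfl fun l _ => ?_
    simp only [hf, kerw]
    rw [pr_ite P (fun ω => (B ω, W ω)) (B (x.2 l), W (π x.1)), Finset.sum_div]
    refine Finset.sum_congr rfl fun ω _ => ?_
    by_cases h3 : B ω = B (x.2 l)
    · by_cases h4 : W ω = W (π x.1)
      · rw [if_pos h3, if_pos h4, if_pos (by rw [h3, h4])]
      · rw [if_pos h3, if_neg h4, if_neg (by rw [Prod.mk.injEq]; exact fun h => h4 h.2),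
          zero_div]
    · rw [if_neg h3, if_neg (by rw [Prod.mk.injEq]; exact fun h => h3 h.1), zero_div]
  · intro w _ hw
    refine Finset.sum_eq_zero fun ν _ => if_neg ?_
    rw [Prod.mk.injEq]
    exact fun h => hw h.2
  · intro h
    exact absurd (mem_univ _) h

/-- cost of the nodes -/
theorem nodes_cost (hQ' : ∀ x, Q'.w x = nodew P W Q π n x) {K : ℝ} (hd : Dom Q π P K)
    (l : Ω → T) (A : Ω → T') (B : Ω → V) (I : Ω → S') {τ : Type*} (D : Ω' → τ)
    (hI : Fn P I B) (hW : Fn P W (fun ω => (l ω, A ω, I ω)))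
    (hW' : Fn P (fun ω => (l ω, A ω, I ω)) W) (hD : Fn Q (fun w => I (π w)) D) :
    mi Q' (fun x => l (π x.1)) (fun x => (D x.1, fun l => B (x.2 l))) (fun x => A (π x.1)) ≤
      mi Q (fun w => l (π w)) D (fun w => A (π w)) + n * (K * (mi P l B A + 1)) := by
  classical
  have hK : 0 ≤ K := zero_le_one.trans hd.one_le
  have hπ : ∀ w, 0 < Q.w w → 0 < P.w (π w) := fun w hw => hd.pos hw
  have hfst := nodes_fst hQ' hπ
  set N : Ω' × (Fin n → Ω) → (Fin n → V) := fun x l => B (x.2 l) with hN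
  have h1 := mi_pair Q' (fun x => l (π x.1)) (fun x => D x.1) N (fun x => A (π x.1))
  have h2 : mi Q' (fun x => l (π x.1)) (fun x => D x.1) (fun x => A (π x.1)) =
      mi Q (fun w => l (π w)) D (fun w => A (π w)) := by
    have e1 := hc_of_law Q' Q Prod.fst hfst (fun w => l (π w)) (fun w => A (π w))
    have e2 := hc_of_law Q' Q Prod.fst hfst (fun w => l (π w)) (fun w => (D w, A (π w)))
    unfold mi
    rw [← e1, ← e2]
    rfl
  have h3 : mi Q' (fun x => l (π x.1)) N (fun x => (D x.1, A (π x.1))) =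
      hc Q' N (fun x => (D x.1, A (π x.1))) -
        hc Q' N (fun x => (l (π x.1), D x.1, A (π x.1))) := by
    rw [mi_symm]
    rfl
  have h4 : hc Q' N (fun x => (D x.1, A (π x.1))) ≤
      hc Q' N (fun x => (I (π x.1), A (π x.1))) := by
    refine hc_mono_right Q' N ?_
    intro x x' hx hx' he
    simp only [Prod.mk.injEq] at he ⊢
    exact ⟨hD x.1 x'.1 (nodes_supp hQ' hx).1 (nodes_supp hQ' hx').1 he.1, he.2⟩
  have h5 : hc Q' N Prod.fst ≤ hc Q' N (fun x => (l (π x.1), D x.1, A (π x.1))) := by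
    refine hc_mono_right Q' N ?_
    intro x x' _ _ he
    simp only [he]
  -- the support
  have hsup : ∀ x, 0 < Q'.w x → ∀ j, 0 < P.w (x.2 j) ∧ W (x.2 j) = W (π x.1) ∧
      l (x.2 j) = l (π x.1) ∧ A (x.2 j) = A (π x.1) ∧ I (x.2 j) = I (π x.1) := by
    intro x hx j
    obtain ⟨g1, g2⟩ := nodes_supp hQ' hx
    have g3 := hW' (x.2 j) (π x.1) (g2 j).2 (hπ _ g1) (g2 j).1
    simp only [Prod.mk.injEq] at g3
    exact ⟨(g2 j).2, (g2 j).1, g3.1, g3.2.1, g3.2.2⟩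
  set b : Ω → ℝ := fun ω => P.pr (fun ω => (B ω, I ω, A ω)) (B ω, I ω, A ω) with hb
  set a : Ω → ℝ := fun ω => P.pr (fun ω => (I ω, A ω)) (I ω, A ω) with ha
  set d : Ω → ℝ := fun ω => P.pr (fun ω => (l ω, B ω, I ω, A ω)) (l ω, B ω, I ω, A ω) with hd'
  set e : Ω → ℝ := fun ω => P.pr (fun ω => (l ω, I ω, A ω)) (l ω, I ω, A ω) with he'
  have hb0 : ∀ {ω}, 0 < P.w ω → 0 < b ω := fun h => P.pr_pos (fun ω => (B ω, I ω, A ω)) h
  have ha0 : ∀ {ω}, 0 < P.w ω → 0 < a ω := fun h => P.pr_pos (fun ω => (I ω, A ω)) h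
  have hd0 : ∀ {ω}, 0 < P.w ω → 0 < d ω :=
    fun h => P.pr_pos (fun ω => (l ω, B ω, I ω, A ω)) h
  have he0 : ∀ {ω}, 0 < P.w ω → 0 < e ω := fun h => P.pr_pos (fun ω => (l ω, I ω, A ω)) h
  have hdens : ∀ ω, dens P l B (fun ω => (I ω, A ω)) ω =
      Real.log (d ω) + Real.log (a ω) - Real.log (e ω) - Real.log (b ω) := fun ω => rfl
  have h6 : hc Q' N (fun x => (I (π x.1), A (π x.1))) ≤
      Q'.ex (fun x => - ∑ j, (Real.log (b (x.2 j)) - Real.log (a (x.2 j)))) := by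
    have g := Q'.gibbs_cond N (fun x => (I (π x.1), A (π x.1)))
      (fun v y => ∏ j, P.pr (fun ω => (B ω, I ω, A ω)) (v j, y) /
        P.pr (fun ω => (I ω, A ω)) y)
      (fun v y => Finset.prod_nonneg fun j _ => div_nonneg (P.pr_nonneg _ _) (P.pr_nonneg _ _))
      (fun y F => prod_kernel_le (fun _ v => P.pr (fun ω => (B ω, I ω, A ω)) (v, y) /
        P.pr (fun ω => (I ω, A ω)) y)
        (fun _ v => div_nonneg (P.pr_nonneg _ _) (P.pr_nonneg _ _))
        (fun _ F => by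
          rw [← Finset.sum_div]
          exact div_le_one_of_le₀ (P.sum_pr_pair_le B (fun ω => (I ω, A ω)) y F)
            (P.pr_nonneg _ _)) F)
      (fun x hx => by
        refine Finset.prod_pos fun j _ => ?_
        obtain ⟨g1, _, _, g4, g5⟩ := hsup x hx j
        have q1 := hb0 g1
        have q2 := ha0 g1
        simp only [hb, ha] at q1 q2
        rw [g4, g5] at q1 q2
        exact div_pos q1 q2)
    refine g.trans (le_of_eq (Q'.ex_congr fun x hx => ?_))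
    rw [Real.log_prod (s := univ) (fun j _ => by
      obtain ⟨g1, _, _, g4, g5⟩ := hsup x hx j
      have q1 := hb0 g1
      have q2 := ha0 g1
      simp only [hb, ha] at q1 q2
      rw [g4, g5] at q1 q2
      exact (div_pos q1 q2).ne')]
    congr 1
    refine Finset.sum_congr rfl fun j _ => ?_
    obtain ⟨g1, _, _, g4, g5⟩ := hsup x hx j
    have q1 := hb0 g1
    have q2 := ha0 g1
    simp only [hb, ha] at q1 q2 ⊢
    rw [g4, g5] at q1 q2 ⊢
    exact Real.log_div q1.ne' q2.ne'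
  have h7 : Q'.ex (fun x => - ∑ j, (Real.log (d (x.2 j)) - Real.log (e (x.2 j)))) ≤
      hc Q' N Prod.fst := by
    have e1 : hc Q' N Prod.fst = Q'.ex (fun x =>
        -Real.log (Q'.pr (fun x => (N x, x.1)) (N x, x.1)) - (-Real.log (Q'.pr Prod.fst x.1))) := by
      rw [Q'.ex_sub]
      rfl
    rw [e1]
    refine Q'.ex_mono fun x hx => ?_
    obtain ⟨k1, _⟩ := nodes_supp hQ' hx
    have e2 := nodes_pr hQ' B x
    have e3 : ∏ j, (P.pr (fun ω => (B ω, W ω)) (B (x.2 j), W (π x.1)) / P.pr W (W (π x.1))) =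
        ∏ j, (d (x.2 j) / e (x.2 j)) := by
      refine Finset.prod_congr rfl fun j _ => ?_
      obtain ⟨g1, g2, g3, g4, g5⟩ := hsup x hx j
      rw [← g2]
      have q1 : P.pr (fun ω => (B ω, W ω)) (B (x.2 j), W (x.2 j)) = d (x.2 j) := by
        refine claw_pr_congr P (X := fun ω => (B ω, W ω))
          (Y := fun ω => (l ω, B ω, I ω, A ω)) ?_ ?_ g1
        · intro ω ω' r1 r2 hh
          simp only [Prod.mk.injEq] at hh ⊢
          exact ⟨hh.2.1, hW ω ω' r1 r2 (by simp only [Prod.mk.injEq]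
                                           exact ⟨hh.1, hh.2.2.2, hh.2.2.1⟩)⟩
        · intro ω ω' r1 r2 hh
          simp only [Prod.mk.injEq] at hh ⊢
          have := hW' ω ω' r1 r2 hh.2
          simp only [Prod.mk.injEq] at this
          exact ⟨this.1, hh.1, this.2.2, this.2.1⟩
      have q2 : P.pr W (W (x.2 j)) = e (x.2 j) := by
        refine claw_pr_congr P (X := W) (Y := fun ω => (l ω, I ω, A ω)) ?_ ?_ g1
        · intro ω ω' r1 r2 hh
          simp only [Prod.mk.injEq] at hh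
          exact hW ω ω' r1 r2 (by simp only [Prod.mk.injEq]; exact ⟨hh.1, hh.2.2, hh.2.1⟩)
        · intro ω ω' r1 r2 hh
          have := hW' ω ω' r1 r2 hh
          simp only [Prod.mk.injEq] at this ⊢
          exact ⟨this.1, this.2.2, this.2.1⟩
      rw [q1, q2]
    have e4 : Q'.pr (fun x => (N x, x.1)) (N x, x.1) = Q.w x.1 * ∏ j, (d (x.2 j) / e (x.2 j)) := by
      rw [← e3]
      exact e2
    rw [e4, hfst x.1]
    have e5 : 0 < ∏ j, (d (x.2 j) / e (x.2 j)) :=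
      Finset.prod_pos fun j _ => div_pos (hd0 (hsup x hx j).1) (he0 (hsup x hx j).1)
    rw [Real.log_mul k1.ne' e5.ne', Real.log_prod (s := univ)
      (fun j _ => (div_pos (hd0 (hsup x hx j).1) (he0 (hsup x hx j).1)).ne'),
      Finset.sum_congr rfl fun j _ =>
        Real.log_div (hd0 (hsup x hx j).1).ne' (he0 (hsup x hx j).1).ne']
    linarith only []
  have h8 : Q'.ex (fun x => - ∑ j, (Real.log (b (x.2 j)) - Real.log (a (x.2 j)))) -
      Q'.ex (fun x => - ∑ j, (Real.log (d (x.2 j)) - Real.log (e (x.2 j)))) =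
      ∑ j, Q'.ex (fun x => dens P l B (fun ω => (I ω, A ω)) (x.2 j)) := by
    rw [← Q'.ex_sub]
    unfold Law.ex
    rw [Finset.sum_comm]
    refine Finset.sum_congr rfl fun x _ => ?_
    rw [← Finset.mul_sum]
    congr 1
    simp only
    rw [neg_sub_neg, ← Finset.sum_sub_distrib]
    refine Finset.sum_congr rfl fun j _ => ?_
    rw [hdens]
    ring
  have h9 : ∑ j, Q'.ex (fun x => dens P l B (fun ω => (I ω, A ω)) (x.2 j)) ≤
      n * (K * (mi P l B A + 1)) := by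
    have g1 : mi P l B (fun ω => (I ω, A ω)) ≤ mi P l B A := by
      rw [mi_symm P l B (fun ω => (I ω, A ω)), mi_symm P l B A]
      refine mi_cond_le P (X := B) l (W := I) A ?_
      intro ω ω' q1 q2 hh
      simp only [Prod.mk.injEq] at hh
      exact hI ω ω' q1 q2 hh.1
    have g2 : ∀ j ∈ (univ : Finset (Fin n)),
        Q'.ex (fun x => dens P l B (fun ω => (I ω, A ω)) (x.2 j)) ≤ K * (mi P l B A + 1) := by
      intro j _
      refine (dens_dom (nodes_dom1 hQ' hd j) l B (fun ω => (I ω, A ω))).trans ?_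
      exact mul_le_mul_of_nonneg_left (by linarith only [g1]) hK
    refine (Finset.sum_le_sum g2).trans (le_of_eq ?_)
    rw [Finset.sum_const, Finset.card_univ, Fintype.card_fin, nsmul_eq_mul]
  rw [h1, h2, h3]
  linarith

end nodes

end Vale.Agent.P127.Stk
end

section

/-!
# P127 / Stk / CFam : the family of a progression law (helper662)
-/

namespace Vale.Agent.P127.Stk

open Finset Vale.Agent.P127

/-- probabilities under a law with given marginal -/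
theorem pr_of_marg {Ω₁ Ω₂ : Type} [Fintype Ω₁] [Fintype Ω₂] {T : Type*} (P₁ : Law Ω₁)
    (P₂ : Law Ω₂) (π : Ω₁ → Ω₂) (h : ∀ ω, P₁.pr π ω = P₂.w ω) (X : Ω₂ → T) (t : T) :
    P₁.pr (fun x => X (π x)) t = P₂.pr X t := by
  classical
  have h1 : P₁.pr (fun x => X (π x)) t = P₁.ex (fun x => (fun ω => if X ω = t then 1 else 0)
      (π x)) := by
    rw [pr_ite]
    unfold Law.ex
    exact Finset.sum_congr rfl fun x _ => by simp
  rw [h1, claw_ex_pull P₁ π (fun ω => if X ω = t then 1 else 0), pr_ite]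
  exact Finset.sum_congr rfl fun ω _ => by rw [h]; simp only [mul_ite, mul_one, mul_zero]

/-- the family of a progression law with `n` extra samples over the key -/
theorem ap_family (p n : ℕ) (c0 : ℝ) (hp : 1 ≤ p) (hc0 : 0 < c0) : ∃ K : ℝ, 1 ≤ K ∧
    ∀ (Ω S T T' V S' : Type) [Fintype Ω] (P : Law Ω) (W : Ω → S) (U : Ω → ℤ) (M : ℕ)
      (Q0 : Law (Fin (p + 1) → Ω)) (Z : ℝ) (l : Ω → T) (A : Ω → T') (B : Ω → V) (I : Ω → S'),
      1 ≤ M → (∀ ω, 0 < P.w ω → 0 ≤ U ω ∧ U ω < M) →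
      (∀ w, Q0.w w = apw P W U M p w / Z) → 0 < Z → c0 / (M : ℝ) ^ (p - 1) ≤ Z →
      Fn P I B → Fn P U B →
      Fn P W (fun ω => (l ω, A ω, I ω)) → Fn P (fun ω => (l ω, A ω, I ω)) W →
      ∃ (Ω₁ : Type) (_ : Fintype Ω₁) (Q : Law Ω₁) (π : Fin (p + 1) ⊕ Fin n → Ω₁ → Ω),
        (∀ v, Q.pr (fun x j => π (Sum.inl j) x) v = Q0.w v) ∧
        (∀ x, 0 < Q.w x → ∀ i, W (π i x) = W (π (Sum.inl 0) x) ∧ 0 < P.w (π i x)) ∧
        (∀ x, 0 < Q.w x → ∃ μ : ℤ, ∀ j : Fin (p + 1),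
          U (π (Sum.inl j) x) = U (π (Sum.inl 0) x) + (j : ℕ) * μ) ∧
        (∀ i, Dom Q (π i) P K) ∧
        (∀ i j, i ≠ j → ∀ v, Q.pr (fun x => ![π (Sum.inl i) x, π (Sum.inl j) x]) v ≤
          K * cw P W 1 v) ∧
        (∀ j v, Q.pr (fun x => (Fin.snoc (fun l => π (Sum.inr l) x) (π (Sum.inl j) x) :
          Fin (n + 1) → Ω)) v ≤ K * cw P W n v) ∧
        mi Q (fun x => l (π (Sum.inl 0) x)) (fun x i => B (π i x))
          (fun x => A (π (Sum.inl 0) x)) ≤ K * (mi P l B A + 1) := by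
  classical
  set K1 : ℝ := 8 / c0 with hK1
  have hK10 : 0 < K1 := by positivity
  refine ⟨1 + |Real.log (1 / c0)| + (p + 2) * K1 + n * K1 + K1, ?_, ?_⟩
  · have h1 := abs_nonneg (Real.log (1 / c0))
    have h2 : 0 ≤ ((p : ℝ) + 2) * K1 := by positivity
    have h3 : 0 ≤ (n : ℝ) * K1 := by positivity
    linarith only [hK10, h1, h2, h3]
  intro Ω S T T' V S' _ P W U M Q0 Z l A B I hM hU hQ hZ hcZ hI hUB hW hW'
  set K : ℝ := 1 + |Real.log (1 / c0)| + (p + 2) * K1 + n * K1 + K1 with hK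
  have hK1K : K1 ≤ K := by
    have h1 := abs_nonneg (Real.log (1 / c0))
    have h2 : 0 ≤ ((p : ℝ) + 2) * K1 := by positivity
    have h3 : 0 ≤ (n : ℝ) * K1 := by (clear * - hc0; positivity)
    linarith only [h1, h2, h3]
  have hd : ∀ j, Dom Q0 (fun w => w j) P K1 := fun j =>
    ap_dom1 hM hp hU hQ hZ hcZ hc0 j
  have hsup : ∀ w, 0 < Q0.w w → (∀ j, W (w j) = W (w 0)) ∧
      (∃ μ : ℤ, ∀ j : Fin (p + 1), U (w j) = U (w 0) + (j : ℕ) * μ) ∧ ∀ j, 0 < P.w (w j) := by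
    intro w hw
    rw [hQ] at hw
    exact clw_pos hM ((div_pos_iff_of_pos_right hZ).1 hw)
  have hπ : ∀ w, 0 < Q0.w w → 0 < P.w (w 0) := fun w hw => (hsup w hw).2.2 0
  obtain ⟨Q, hQ'⟩ := nodes_exists P W Q0 (fun w => w 0) n hπ
  have hfst := nodes_fst hQ' hπ
  refine ⟨(Fin (p + 1) → Ω) × (Fin n → Ω), inferInstance, Q,
    fun i x => Sum.elim (fun j => x.1 j) (fun k => x.2 k) i, ?_, ?_, ?_, ?_, ?_, ?_, ?_⟩
  · intro v
    exact hfst v
  · intro x hx i
    obtain ⟨g1, g2⟩ := nodes_supp hQ' hx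
    obtain ⟨k1, _, k3⟩ := hsup x.1 g1
    rcases i with j | k
    · exact ⟨k1 j, k3 j⟩
    · exact g2 k
  · intro x hx
    obtain ⟨g1, _⟩ := nodes_supp hQ' hx
    exact (hsup x.1 g1).2.1
  · intro i
    rcases i with j | k
    · have h1 : Dom Q Prod.fst Q0 1 := fun w => by rw [hfst w, one_mul]
      have h2 := h1.comp (hd j)
      rw [one_mul] at h2
      exact h2.mono hK1K
    · exact (nodes_dom1 hQ' (hd 0) k).mono hK1K
  · intro i j hij v
    have h1 := ap_dom2 hM hp hU hQ hZ hcZ hc0 hij v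
    have h2 : Q.pr (fun x => ![x.1 i, x.1 j]) v = Q0.pr (fun w => ![w i, w j]) v :=
      pr_of_marg Q Q0 Prod.fst hfst (fun w => ![w i, w j]) v
    have h3 : 0 ≤ cw P W 1 v := by
      unfold cw
      split_ifs
      · exact div_nonneg (Finset.prod_nonneg fun _ _ => P.nn _)
          (pow_nonneg (P.pr_nonneg _ _) _)
      · exact le_rfl
    have h4 : 4 / c0 ≤ K := by
      refine le_trans ?_ hK1K
      rw [hK1]
      exact div_le_div_of_nonneg_right (by norm_num) hc0.le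
    show Q.pr (fun x => ![x.1 i, x.1 j]) v ≤ _
    rw [h2]
    exact h1.trans (mul_le_mul_of_nonneg_right h4 h3)
  · intro j v
    have h1 := nodes_dom hQ' (fun w => w j) (fun w hw => (hsup w hw).1 j) (hd j) v
    have h3 : 0 ≤ cw P W n v := by
      unfold cw
      split_ifs
      · exact div_nonneg (Finset.prod_nonneg fun _ _ => P.nn _)
          (pow_nonneg (P.pr_nonneg _ _) _)
      · exact le_rfl
    exact h1.trans (mul_le_mul_of_nonneg_right hK1K h3)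
  · have h1 := nodes_cost hQ' (hd 0) l A B I (fun w j => B (w j)) hI hW hW' (by
      intro w w' g1 g2 he
      have e0 : B (w 0) = B (w' 0) := congrFun he 0
      exact hI _ _ (hπ w g1) (hπ w' g2) e0)
    have h2 := ap_cost hM hp hU hQ hZ hcZ hc0 l A B I hI hUB hW hW'
    have h3 : mi Q (fun x => l (x.1 0)) (fun x i => B (Sum.elim (fun j => x.1 j)
        (fun k => x.2 k) i)) (fun x => A (x.1 0)) ≤
        mi Q (fun x => l (x.1 0)) (fun x => ((fun j => B (x.1 j)), fun k => B (x.2 k)))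
        (fun x => A (x.1 0)) := by
      refine mi_mono_right Q (fun x => l (x.1 0)) ?_
      intro x x' _ _ he
      simp only [Prod.mk.injEq] at he
      funext i
      rcases i with j | k
      · exact congrFun he.1.1 j
      · exact congrFun he.1.2 k
    have h4 := mi_nonneg P l B A
    have h5 := le_abs_self (Real.log (1 / c0))
    have h6 := abs_nonneg (Real.log (1 / c0))
    have h7 : |Real.log (1 / c0)| ≤ |Real.log (1 / c0)| * (mi P l B A + 1) := by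
      nlinarith only [h4, h6]
    have h8 : 0 ≤ (1 + K1) * (mi P l B A + 1) := by (clear * - hc0 h4; positivity)
    show mi Q (fun x => l (x.1 0)) (fun x i => B (Sum.elim (fun j => x.1 j)
        (fun k => x.2 k) i)) (fun x => A (x.1 0)) ≤ _
    have h9 : K * (mi P l B A + 1) = (1 + K1) * (mi P l B A + 1) +
        |Real.log (1 / c0)| * (mi P l B A + 1) + (p + 2) * (K1 * (mi P l B A + 1)) +
        n * (K1 * (mi P l B A + 1)) := by
      rw [hK]
      ring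
    rw [h9]
    linarith only [h1, h2, h3, h5, h7, h8]

end Vale.Agent.P127.Stk
end

section

/-!
# P127 / Stk / CPclaw : existence of the family of progressions (helper662, helper692)
-/

namespace Vale.Agent.P127.Stk

theorem pclaw : PCLaw := pclaw_of ap_family

end Vale.Agent.P127.Stk
end

section

/-!
# P127 / Stk : from the entropic core theorem to the lower bound `LB m m` (PROOF.md, section 11)
-/

namespace Vale.Agent.P127.Stk

open Finset Vale.Agent.P127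

section hcTop

variable {Ω : Type} [Fintype Ω] {S T U S' T' : Type*}

/-- conditional entropy is nonnegative -/
lemma hc_nonneg_top (P : Law Ω) (X : Ω → S) (Y : Ω → T) : 0 ≤ hc P X Y := by
  unfold hc
  have : P.H Y ≤ P.H (fun ω => (X ω, Y ω)) :=
    P.H_mono (X := fun ω => (X ω, Y ω)) (Y := Y) (fun ω ω' h => (Prod.mk.inj h).2)
  linarith

/-- conditional entropy depends only on the partitions -/
lemma hc_congr_top (P : Law Ω) {X : Ω → S} {Y : Ω → T} {X' : Ω → S'} {Y' : Ω → T'}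
    (hX : ∀ ω ω', X ω = X ω' ↔ X' ω = X' ω') (hY : ∀ ω ω', Y ω = Y ω' ↔ Y' ω = Y' ω') :
    hc P X Y = hc P X' Y' := by
  unfold hc
  rw [P.H_congr hY, P.H_congr (X := fun ω => (X ω, Y ω)) (Y := fun ω => (X' ω, Y' ω))]
  intro ω ω'
  simp only [Prod.mk.injEq, hX ω ω', hY ω ω']

end hcTop

/-- the trivial object of type `0` -/
def Ob.triv (Ω : Type) (m : ℕ) : Ob Ω m 0 where
  γ := Unit
  G := fun _ => ()
  J := ∅
  Γ := fun _ _ _ => 0
  card := by simp
  bd := by intro ω i j; simp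
  fn := by intro ω ω' _; rfl

lemma Ob.triv_F {Ω : Type} {m : ℕ} (c : Cf Ω m) (ω : Ω) : (Ob.triv Ω m).F c ω = c.pt ω := by
  unfold Ob.F Ob.app
  funext i
  simp [Ob.triv]

lemma LB_mono_top {R : Gr} {m : ℕ} {h h' : ℝ} (hh : h' ≤ h) (H : LB R m h) : LB R m h' := by
  intro ι hι g
  obtain ⟨n, H'⟩ := H ι hι g
  refine ⟨n, ?_⟩
  intro L e C hL Ω _ P c hg
  refine le_trans ?_ (H' L e C hL Ω P c hg)
  have h2 : 0 ≤ (L : ℝ) * Real.log 2 := mul_nonneg (Nat.cast_nonneg _) (Real.log_nonneg (by norm_num))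
  nlinarith

lemma LB_zero_top (R : Gr) (m : ℕ) : LB R m 0 := by
  intro ι hι g
  refine ⟨0, ?_⟩
  intro L e C _ Ω _ P c _
  refine le_trans ?_ (hc_nonneg_top P _ _)
  have h2 : 0 ≤ (L : ℝ) * Real.log 2 := mul_nonneg (Nat.cast_nonneg _) (Real.log_nonneg (by norm_num))
  nlinarith

lemma LB_sup_top {R : Gr} {m : ℕ} {h : ℝ} (H : ∀ h' < h, LB R m h') : LB R m h := by
  intro ι hι g
  obtain ⟨n, H'⟩ := H (h - ι / 2) (by linarith) (ι / 2) (by linarith) g
  refine ⟨n, ?_⟩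
  intro L e C hL Ω _ P c hg
  have := H' L e C hL Ω P c hg
  have h3 : h - ι / 2 - ι / 2 = h - ι := by ring
  rwa [h3] at this

/-- if the lower bound fails above `h`, there are extremal objects of type `0` -/
lemma YK_zero_top {R : Gr} {m : ℕ} {h : ℝ} (H : ∀ h' > h, ¬ LB R m h') : YK R m h 0 := by
  intro ι hι
  have h1 := H (h + ι) (by linarith)
  unfold LB at h1
  push Not at h1
  obtain ⟨ι', hι', g, h2⟩ := h1
  refine ⟨g, ?_⟩
  intro n
  obtain ⟨L, e, C, hL, Ω, inst, P, c, hg, hlt⟩ := h2 n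
  refine ⟨L, e, C, hL, Ω, inst, P, c, Ob.triv Ω m, hg, ?_, ?_⟩
  · have h3 : mi P (fun ω => (c.x ω, c.y ω)) (Ob.triv Ω m).G (fun ω => (c.t ω, c.A ω)) = 0 := by
      unfold mi
      rw [sub_eq_zero]
      refine hc_congr_top P (fun _ _ => Iff.rfl) ?_
      intro ω ω'
      simp [Ob.triv]
    rw [h3]
    (clear * - hι; positivity)
  · have h4 : hc P (fun ω => fl L ((Ob.triv Ω m).F c ω))
        (fun ω => (c.t ω, (Ob.triv Ω m).G ω, c.A ω)) =
        hc P (fun ω => fl L (c.pt ω)) (fun ω => (c.t ω, c.A ω)) := by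
      refine hc_congr_top P ?_ ?_
      · intro ω ω'
        rw [Ob.triv_F, Ob.triv_F]
      · intro ω ω'
        simp [Ob.triv]
    rw [h4]
    refine hlt.le.trans ?_
    have h2 : 0 ≤ (L : ℝ) * Real.log 2 :=
      mul_nonneg (Nat.cast_nonneg _) (Real.log_nonneg (by norm_num))
    push_cast
    nlinarith only [hι', h2]

/-- there are no extremal objects of type `κ ≥ m` when `h < m` -/
lemma YK_top_false {R : Gr} {m : ℕ} {h : ℝ} (hm : h < m) {κ : ℕ} (hκ : m ≤ κ) :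
    ¬ YK R m h κ := by
  intro H
  have hpos : 0 < ((m : ℝ) - h) / 2 := by linarith only [hm]
  obtain ⟨g, H'⟩ := H (((m : ℝ) - h) / 2) hpos
  obtain ⟨n, hn⟩ := R.small g 1 one_pos
  obtain ⟨L, e, C, hL, Ω, inst, P, c, o, _, _, hr⟩ := H' n
  have h0 := hc_nonneg_top P (fun ω => fl L (o.F c ω)) (fun ω => (c.t ω, o.G ω, c.A ω))
  have hL1 : (1 : ℝ) ≤ (L : ℝ) := by simpa only [Nat.one_le_cast, one_mul] using (hn L e C hL).1
  have h2 : 0 < (L : ℝ) * Real.log 2 := mul_pos (by linarith only [hL1]) (Real.log_pos (by norm_num))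
  have hκ' : (m : ℝ) ≤ κ := by exact_mod_cast hκ
  have h3 : (h - κ + ((m : ℝ) - h) / 2) * ((L : ℝ) * Real.log 2) < 0 :=
    mul_neg_of_neg_of_pos (by linarith only [hm, hκ']) h2
  linarith

/-- no extremal objects -/
lemma NK_of_not_YK {R : Gr} {m : ℕ} {h : ℝ} {κ : ℕ} (H : ¬ YK R m h κ) : NK R m h κ := by
  unfold YK at H
  push Not at H
  obtain ⟨ι, hι, H1⟩ := H
  refine ⟨ι, hι, ?_⟩
  intro g
  obtain ⟨n, H2⟩ := H1 g
  refine ⟨n, ?_⟩
  intro L e C hL Ω inst P c o hg hmi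
  exact (H2 L e C hL Ω inst P c o hg hmi).le

/-- the lower bound for the entropy rate of `x + t y`, from the parts -/
theorem LB_top (R : Gr) (hW : PWindow R) (hB : PBase R) (hC : PStepC R) (hR : PStepR R)
    (hE : PEnd R) (m : ℕ) : LB R m m := by
  by_contra hcon
  have hbdd : BddAbove {h : ℝ | LB R m h} := by
    refine ⟨m, ?_⟩
    intro h hh
    by_contra hlt
    push Not at hlt
    exact hcon (LB_mono_top hlt.le hh)
  have hne : ({h : ℝ | LB R m h}).Nonempty := ⟨0, LB_zero_top R m⟩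
  set h : ℝ := sSup {h : ℝ | LB R m h} with hdef
  have h1 : LB R m h := by
    refine LB_sup_top ?_
    intro h' hh'
    obtain ⟨h'', hm'', hlt⟩ := exists_lt_of_lt_csSup hne hh'
    exact LB_mono_top hlt.le hm''
  have h2 : ∀ h' > h, ¬ LB R m h' := by
    intro h' hh' H
    exact absurd (le_csSup hbdd H) (not_le.mpr hh')
  have hm : h < m := by
    by_contra hge
    push Not at hge
    exact hcon (LB_mono_top hge h1)
  have hY0 : YK R m h 0 := YK_zero_top h2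
  -- the maximal type
  have hfind : ∃ κ, YK R m h κ ∧ ¬ YK R m h (κ + 1) := by
    by_contra hno
    push Not at hno
    have hall : ∀ κ, YK R m h κ := by
      intro κ
      induction κ with
      | zero => exact hY0
      | succ κ ih => exact hno κ ih
    exact YK_top_false hm le_rfl (hall m)
  obtain ⟨κ, hκ, hκ1⟩ := hfind
  have hκm : κ < m := by
    by_contra hge
    push Not at hge
    exact YK_top_false hm hge hκ
  exact core R hW hB hC hR hE m h κ hm hκm h1 hκ (NK_of_not_YK hκ1)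

end Vale.Agent.P127.Stk
end

section

/-!
# P127 / Stk : the entropic lower bound `LB R m m`, assembled from all parts
-/

namespace Vale.Agent.P127.Stk

open Vale.Agent.P127

/-- section 3 -/
theorem pkill_all (R : Gr) : PKill R := by
  intro m h κ hN η hη
  exact kill_flat R hN hη

/-- section 2 -/
theorem prates_all (R : Gr) : PRates R := by
  intro m h κ hLB ε K hε
  obtain ⟨ι, hι, H⟩ := rates_main R (κ := κ) hLB ε K hε
  refine ⟨ι, hι, fun g => ?_⟩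
  obtain ⟨n, hn⟩ := H g
  refine ⟨n, fun L e C hok => ?_⟩
  intro Ω Ω' _ _ P c o Q π hG hcost hrate hD
  have hR := hn L e C hok Ω Ω' P c o Q π hG hcost hrate hD
  refine ⟨fun s s' h1 h2 => ?_, fun s s' h1 h2 => ?_, fun s s' h1 h2 => ?_⟩
  · refine (hR.lo s s' h1 h2).trans (le_of_eq ?_)
    refine hc_congr Q (fun ω ω' _ _ he => ?_) (fun ω ω' _ _ he => ?_) (fun ω ω' _ _ he => ?_)
      (fun ω ω' _ _ he => ?_)
    · exact (Prod.mk.inj he).1
    · exact (Prod.mk.inj he).1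
    · simp only [Prod.mk.injEq] at he ⊢
      exact ⟨Prod.ext he.1 he.2.1, he.2.2⟩
    · simp only [Prod.mk.injEq] at he ⊢
      exact ⟨congrArg Prod.fst he.1, congrArg Prod.snd he.1, he.2⟩
  · exact hR.up s s' h1 h2
  · exact hR.cJ s s' h1 h2

/-- the step for `Γ` (section 8) -/
theorem pStepC (R : Gr) : PStepC R :=
  stepC_of R (interp R) pclaw
    (pcmain (pccore R (AbsB.pAbsV pabs) (pkill_all R) (prates_all R)))

/-- the lower bound for the entropy rate, all growth classes -/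
theorem LB_main (R : Gr) (m : ℕ) : LB R m m :=
  LB_top R (pWindow R) (pBase R) (pStepC R) (stepR R) (pEnd R) m

end Vale.Agent.P127.Stk
end

section

end

section

/-!
# P127 / Stk : the affine reduction for a set of directions of positive outer measure
-/

namespace Vale.Agent.P127.Stk

open MeasureTheory Vale.Agent.P127

variable {m : ℕ}

/-- the unit sphere -/
abbrev Sph (n : ℕ) : Type := Metric.sphere (0 : EuclideanSpace ℝ (Fin n)) 1

lemma dir_eq_uv (v : Fin m → ℝ) : dir v = uv v := by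
  have h : pt 0 v 1 = dv v := by
    ext i
    refine Fin.lastCases ?_ (fun i => ?_) i
    · rw [pt_last, dv_last]
    · rw [pt_castSucc, dv_cast]
      simp
  unfold dir uv
  rw [h]

/-- a chart of the sphere in which a set of directions has a non-null set of slopes -/
theorem exists_chart {D : Set (Sph (m + 1))}
    (hD : (volume : Measure (EuclideanSpace ℝ (Fin (m + 1)))).toSphere D ≠ 0) :
    ∃ U : EuclideanSpace ℝ (Fin (m + 1)) ≃ₗᵢ[ℝ] EuclideanSpace ℝ (Fin (m + 1)),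
      volume {v : Fin m → ℝ | (∀ i, |v i| ≤ 1) ∧ ∃ e ∈ D, U e.1 = uv v} ≠ 0 := by
  by_contra hcon
  push Not at hcon
  apply hD
  set V : Fin (m + 1) × Bool → Set (Fin m → ℝ) := fun q =>
    {v | (∀ i, |v i| ≤ 1) ∧ ∃ e ∈ D, swapIso q.1 q.2 e.1 = uv v} with hV
  have hV0 : ∀ q, volume (toMeasurable volume (V q)) = 0 := by
    intro q
    rw [measure_toMeasurable]
    exact hcon _
  have hsub : D ⊆ ⋃ q : Fin (m + 1) × Bool, {e : Sph (m + 1) |
      0 < (swapIso q.1 q.2 e.1).ofLp (Fin.last m) ∧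
        slope (swapIso q.1 q.2 e.1) ∈ toMeasurable volume (V q)} := by
    intro e he
    have hn : ‖e.1‖ = 1 := by simp only [norm_eq_of_mem_sphere]
    have hne : e.1 ≠ 0 := by
      intro h0
      rw [h0, norm_zero] at hn
      exact zero_ne_one hn
    obtain ⟨i, b, h1, h2⟩ := exists_swapIso hne
    refine Set.mem_iUnion.2 ⟨(i, b), h1, subset_toMeasurable _ _ ⟨fun j => ?_, e, he, ?_⟩⟩
    · simp only [slope]
      rw [abs_div, abs_of_pos h1, div_le_one h1]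
      exact h2 _
    · rw [← dir_eq_uv, dir_slope (by rw [LinearIsometryEquiv.norm_map]; exact hn) h1]
  refine le_antisymm ?_ zero_le
  calc _ ≤ _ := measure_mono hsub
    _ ≤ ∑ q : Fin (m + 1) × Bool, _ := measure_iUnion_fintype_le _ _
    _ ≤ ∑ q : Fin (m + 1) × Bool, ((m + 1 : ℕ) : ENNReal) * volume (toMeasurable volume (V q)) :=
        Finset.sum_le_sum fun q _ => toSphere_slope_le _ (measurableSet_toMeasurable _ _)
    _ = 0 := by simp [hV0]

/-- the action of an isometry on the space of lines -/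
noncomputable def isoLS (U : EuclideanSpace ℝ (Fin (m + 1)) ≃ₗᵢ[ℝ] EuclideanSpace ℝ (Fin (m + 1)))
    (p : LS m) : LS m :=
  ((U.toContinuousLinearEquiv : EuclideanSpace ℝ (Fin (m + 1)) →L[ℝ]
      EuclideanSpace ℝ (Fin (m + 1))).comp (p.1.comp
    (U.symm.toContinuousLinearEquiv : EuclideanSpace ℝ (Fin (m + 1)) →L[ℝ]
      EuclideanSpace ℝ (Fin (m + 1)))), U p.2)

lemma isoLS_fst (U : EuclideanSpace ℝ (Fin (m + 1)) ≃ₗᵢ[ℝ] EuclideanSpace ℝ (Fin (m + 1)))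
    (p : LS m) (u : EuclideanSpace ℝ (Fin (m + 1))) : (isoLS U p).1 u = U (p.1 (U.symm u)) := rfl

lemma isoLS_dist (U : EuclideanSpace ℝ (Fin (m + 1)) ≃ₗᵢ[ℝ] EuclideanSpace ℝ (Fin (m + 1)))
    (p q : LS m) : dist (isoLS U p) (isoLS U q) ≤ dist p q := by
  rw [Prod.dist_eq, Prod.dist_eq]
  refine max_le_max ?_ ?_
  · rw [dist_eq_norm, dist_eq_norm]
    refine ContinuousLinearMap.opNorm_le_bound _ (norm_nonneg _) fun u => ?_
    have h1 : ((isoLS U p).1 - (isoLS U q).1) u = U ((p.1 - q.1) (U.symm u)) := by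
      rw [sub_apply, isoLS_fst, isoLS_fst, ← map_sub, sub_apply]
    rw [h1, LinearIsometryEquiv.norm_map]
    have h2 := (p.1 - q.1).le_opNorm (U.symm u)
    rwa [LinearIsometryEquiv.norm_map] at h2
  · exact (U.dist_map _ _).le

lemma isLn_iso (U : EuclideanSpace ℝ (Fin (m + 1)) ≃ₗᵢ[ℝ] EuclideanSpace ℝ (Fin (m + 1)))
    (a e : EuclideanSpace ℝ (Fin (m + 1))) (he : ‖e‖ = 1) :
    IsLn (isoLS U (toLine a e)) (U a) (U e) := by
  obtain ⟨h1, h2⟩ := isLn_toLine a e he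
  constructor
  · intro u
    rw [isoLS_fst, h1, map_smul]
    congr 1
    rw [← U.inner_map_map, U.apply_symm_apply]
  · show U (toLine a e).2 = _
    rw [h2, map_sub, map_smul, U.inner_map_map]

lemma ln_reg' {p : LS m} {a : EuclideanSpace ℝ (Fin (m + 1))} {y : Fin m → ℝ}
    (h : IsLn p a (uv y)) (hy : ∀ i, |y i| ≤ 1) {R : ℝ} (hR : ‖p.2‖ ≤ R) :
    p ∈ Reg m (1 / ((m : ℝ) + 1)) R := by
  have h0 := dv_one_le y
  refine ⟨?_, fun i => ?_, hR⟩
  · rw [ln_elast h, WithLp.ofLp_smul, Pi.smul_apply, uv_last, smul_eq_mul, ← mul_inv, ← pow_two,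
      one_div]
    refine inv_anti₀ (by positivity) ?_
    rw [dv_sq]
    have : ∑ i, y i ^ 2 ≤ m := by
      calc ∑ i, y i ^ 2 ≤ ∑ _i : Fin m, (1 : ℝ) := by
            refine Finset.sum_le_sum fun i _ => ?_
            rw [← sq_abs]
            exact pow_le_one₀ (abs_nonneg _) (hy i)
        _ = m := by simp only [Finset.sum_const, Finset.card_univ, Fintype.card_fin, nsmul_eq_mul, mul_one]
    linarith
  · rw [ln_slp h]
    exact hy i

/-- the classes of slopes -/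
def Vcl (K : Set (EuclideanSpace ℝ (Fin (m + 1)))) (V : Set (Fin m → ℝ))
    (l : (Fin m → ℝ) → LS m) (S : ℕ → Set (LS m))
    (q : ℕ × ℚ × ℚ × (Fin m → ℤ) × (Fin m → ℤ) × ℕ) : Set (Fin m → ℝ) :=
  {v | v ∈ V ∧ l v ∈ S q.1 ∧ (q.2.1 : ℝ) < q.2.2.1 ∧
    (∀ r ∈ Set.Icc (q.2.1 : ℝ) q.2.2.1, pt (ps0 (l v)) v r ∈ K) ∧
    (∀ i, ⌊v i⌋ = q.2.2.2.1 i) ∧
    (∀ i, 0 ≤ (ps0 (l v) i + q.2.1 * v i) / (q.2.2.1 - q.2.1) - q.2.2.2.2.1 i ∧
      (ps0 (l v) i + q.2.1 * v i) / (q.2.2.1 - q.2.1) - q.2.2.2.2.1 i < 1) ∧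
    ‖(l v).2‖ ≤ q.2.2.2.2.2}

theorem exists_Vcl {K : Set (EuclideanSpace ℝ (Fin (m + 1)))} {V : Set (Fin m → ℝ)}
    (hV : volume V ≠ 0) {b : (Fin m → ℝ) → EuclideanSpace ℝ (Fin (m + 1))}
    (hK : ∀ v ∈ V, ∃ r > 0, ∀ t ∈ Set.Icc (0 : ℝ) r, b v + t • uv v ∈ K)
    {l : (Fin m → ℝ) → LS m} (hl : ∀ v ∈ V, IsLn (l v) (b v) (uv v))
    {S : ℕ → Set (LS m)} (hS : ∀ v ∈ V, ∃ i, l v ∈ S i) :
    ∃ q, volume (Vcl K V l S q) ≠ 0 := by
  have hcov : V ⊆ ⋃ q, Vcl K V l S q := by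
    intro y hy
    obtain ⟨i, hi⟩ := hS _ hy
    obtain ⟨r0, hr0, hr⟩ := hK _ hy
    have h0 := dv_one_le y
    have hinv : (0 : ℝ) < ‖dv y‖⁻¹ := inv_pos.2 (by linarith)
    have hL := hl _ hy
    set al := (b y).ofLp (Fin.last m) with hal
    obtain ⟨h₁, h11, h12⟩ := exists_rat_btwn
      (show al < al + r0 * ‖dv y‖⁻¹ by
        have := mul_pos hr0 hinv
        linarith only [this])
    obtain ⟨h₂, h21, h22⟩ := exists_rat_btwn h12
    obtain ⟨R, hR⟩ := exists_nat_ge ‖(l y).2‖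
    refine Set.mem_iUnion.2 ⟨(i, h₁, h₂, (fun i => ⌊y i⌋), (fun i =>
      ⌊(ps0 (l y) i + h₁ * y i) / (h₂ - h₁)⌋), R), hy, hi, by exact_mod_cast h21, ?_,
      fun _ => rfl, ?_, hR⟩
    · intro r hr'
      rw [ln_pt hL]
      refine hr _ ⟨?_, ?_⟩
      · have : 0 ≤ r - al := by
          have := hr'.1
          simp only at this
          linarith only [h11, this]
        (clear * - this h0; positivity)
      · have h3 : r - al ≤ r0 * ‖dv y‖⁻¹ := by
          have := hr'.2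
          simp only at this
          linarith only [h22, this]
        calc (r - al) * ‖dv y‖ ≤ (r0 * ‖dv y‖⁻¹) * ‖dv y‖ :=
              mul_le_mul_of_nonneg_right h3 (norm_nonneg _)
          _ = r0 := by rw [mul_assoc, inv_mul_cancel₀ (by linarith only [h0]), mul_one]
    · intro i
      simp only
      constructor
      · linarith only [Int.floor_le ((ps0 (l y) i + h₁ * y i) / (h₂ - h₁))]
      · linarith [Int.lt_floor_add_one ((ps0 (l y) i + h₁ * y i) / (h₂ - h₁))]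
  have hvol : volume (⋃ q, Vcl K V l S q) ≠ 0 := fun h0 => hV (measure_mono_null hcov h0)
  obtain ⟨q, hpos⟩ := exists_measure_pos_of_not_measure_iUnion_null hvol
  exact ⟨q, hpos.ne'⟩

/-- the affine reduction for a set of directions of positive outer measure and segments of
arbitrary lengths -/
theorem red2 {K : Set (EuclideanSpace ℝ (Fin (m + 1)))} {D : Set (Sph (m + 1))}
    (hD : (volume : Measure (EuclideanSpace ℝ (Fin (m + 1)))).toSphere D ≠ 0)
    {a : Sph (m + 1) → EuclideanSpace ℝ (Fin (m + 1))}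
    (hK : ∀ e ∈ D, ∃ r > 0, ∀ t ∈ Set.Icc (0 : ℝ) r, a e + t • e.1 ∈ K)
    {S : ℕ → Set (LS m)} (hS : ∀ e ∈ D, ∃ i, toLine (a e) e.1 ∈ S i) {η : ℝ}
    (hbox : ∀ i, ∃ A : ℝ, ∀ s : ℕ, ∃ C : Finset (LS m), (C.card : ℝ) ≤ A * 2 ^ ((m + η) * s) ∧
      S i ⊆ ⋃ c ∈ C, Metric.closedBall c ((1 / 2 : ℝ) ^ s)) :
    ∃ (K' : Set (EuclideanSpace ℝ (Fin (m + 1)))) (Y : Set (Fin m → ℝ))
      (x : (Fin m → ℝ) → Fin m → ℝ), dimH K' ≤ dimH K ∧
      (∀ y ∈ Y, ∀ i, 0 ≤ y i ∧ y i < 1) ∧ (∀ y ∈ Y, ∀ i, 0 ≤ x y i ∧ x y i < 1) ∧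
      volume Y ≠ 0 ∧ (∀ y ∈ Y, ∀ t ∈ Set.Icc (0 : ℝ) 1, pt (x y) y t ∈ K') ∧
      ∃ A : ℝ, ∀ s : ℕ, ∃ F : Finset ((Fin m → ℤ) × (Fin m → ℤ)),
        (F.card : ℝ) ≤ A * 2 ^ ((m + η) * s) ∧ ∀ y ∈ Y, (fl s (x y), fl s y) ∈ F := by
  classical
  obtain ⟨U, hU⟩ := exists_chart hD
  set V : Set (Fin m → ℝ) := {v | (∀ i, |v i| ≤ 1) ∧ ∃ e ∈ D, U e.1 = uv v} with hV
  have hVne : V.Nonempty := nonempty_of_measure_ne_zero hU
  obtain ⟨v0, hv0⟩ := hVne
  obtain ⟨e0, he0, _⟩ := hv0.2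
  have hex : ∀ v : Fin m → ℝ, ∃ e : Sph (m + 1), v ∈ V → e ∈ D ∧ U e.1 = uv v := by
    intro v
    by_cases hv : v ∈ V
    · obtain ⟨e, he, h⟩ := hv.2
      exact ⟨e, fun _ => ⟨he, h⟩⟩
    · exact ⟨e0, fun h => absurd h hv⟩
  choose ε hε using hex
  set l : (Fin m → ℝ) → LS m := fun v => isoLS U (toLine (a (ε v)) (ε v).1) with hl
  set b : (Fin m → ℝ) → EuclideanSpace ℝ (Fin (m + 1)) := fun v => U (a (ε v)) with hb0
  have hlL : ∀ v ∈ V, IsLn (l v) (b v) (uv v) := by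
    intro v hv
    rw [← (hε v hv).2]
    exact isLn_iso U _ _ (by simp only [norm_eq_of_mem_sphere])
  obtain ⟨⟨i, h₁, h₂, z, kk, R⟩, hvol⟩ := exists_Vcl (K := U '' K) hU (b := b) (l := l)
    (S := fun i => isoLS U '' S i) (by
      intro v hv
      obtain ⟨r, hr, h⟩ := hK _ (hε v hv).1
      refine ⟨r, hr, fun t ht => ⟨_, h t ht, ?_⟩⟩
      rw [map_add, map_smul, (hε v hv).2]) hlL (by
      intro v hv
      obtain ⟨i, hi⟩ := hS _ (hε v hv).1
      exact ⟨i, _, hi, rfl⟩)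
  set W := Vcl (U '' K) V l (fun i => isoLS U '' S i) (i, h₁, h₂, z, kk, R) with hW
  have hWne : W.Nonempty := nonempty_of_measure_ne_zero hvol
  have hlt : (h₁ : ℝ) < h₂ := by
    obtain ⟨y, hy⟩ := hWne
    exact hy.2.2.1
  set lam : ℝ := h₂ - h₁ with hlam
  have hlam0 : 0 < lam := by linarith only [hlt]
  set zr : Fin m → ℝ := fun i => z i with hzr
  set Y : Set (Fin m → ℝ) := (fun y => y + zr) ⁻¹' W with hY
  have hY0 : volume Y ≠ 0 := by
    rw [hY, measure_preimage_add_right]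
    exact hvol
  set x : (Fin m → ℝ) → Fin m → ℝ := fun y i =>
    (ps0 (l (y + zr)) i + h₁ * (y + zr) i) / lam - kk i with hx
  set zv : EuclideanSpace ℝ (Fin (m + 1)) :=
    WithLp.toLp 2 (Fin.snoc (α := fun _ => ℝ) zr 0) with hzv
  have hzvc : ∀ i : Fin m, zv.ofLp (Fin.castSucc i) = z i := fun i => by simp [hzv, hzr]
  have hzvl : zv.ofLp (Fin.last m) = 0 := by simp [hzv]
  set bb : EuclideanSpace ℝ (Fin (m + 1)) :=
    WithLp.toLp 2 (Fin.snoc (α := fun _ => ℝ) (fun i => (kk i : ℝ) - h₁ * z i / lam)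
      (h₁ / lam)) with hbb
  have hbc : ∀ i : Fin m, bb.ofLp (Fin.castSucc i) = kk i - h₁ * z i / lam := fun i => by
    simp only [hbb, Fin.snoc_castSucc]
  have hbl : bb.ofLp (Fin.last m) = h₁ / lam := by simp [hbb]
  set T0 : EuclideanSpace ℝ (Fin (m + 1)) →L[ℝ] EuclideanSpace ℝ (Fin (m + 1)) :=
    lam⁻¹ • (ContinuousLinearMap.id ℝ _ -
      (EuclideanSpace.proj (𝕜 := ℝ) (Fin.last m)).smulRight zv) with hT0
  have hT0a : ∀ p, T0 p = lam⁻¹ • (p - p.ofLp (Fin.last m) • zv) := by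
    intro p
    simp only [hT0, smul_apply, sub_apply, ContinuousLinearMap.id_apply, ContinuousLinearMap.smulRight_apply, PiLp.proj_apply]
  set L : EuclideanSpace ℝ (Fin (m + 1)) → EuclideanSpace ℝ (Fin (m + 1)) := fun p =>
    T0 p - bb with hL
  have hLip : LipschitzWith ‖T0‖₊ L := by
    refine LipschitzWith.of_dist_le_mul fun p q => ?_
    rw [hL]
    simp only
    rw [dist_sub_right]
    exact T0.lipschitz.dist_le_mul p q
  refine ⟨L '' (U '' K), Y, x, ?_, ?_, fun y hy => hy.2.2.2.2.2.1, hY0, ?_, ?_⟩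
  · exact (hLip.dimH_image_le _).trans (le_of_eq (U.isometry.dimH_image K))
  · intro y hy j
    have h1 := hy.2.2.2.2.1 j
    simp only [Pi.add_apply, hzr] at h1
    have h2 := Int.floor_le (y j + (z j : ℝ))
    have h3 := Int.lt_floor_add_one (y j + (z j : ℝ))
    rw [h1] at h2 h3
    constructor <;> linarith only [h2, h3]
  · intro y hy t ht
    have hr : (h₁ : ℝ) + lam * t ∈ Set.Icc (h₁ : ℝ) h₂ := by
      constructor
      · have := mul_nonneg hlam0.le ht.1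
        linarith only [this]
      · have := mul_le_mul_of_nonneg_left ht.2 hlam0.le
        linarith only [this]
    refine ⟨_, hy.2.2.2.1 _ hr, ?_⟩
    ext j
    refine Fin.lastCases ?_ (fun j => ?_) j
    · rw [pt_last, hL]
      simp only [hT0a, WithLp.ofLp_sub, WithLp.ofLp_smul, Pi.sub_apply, Pi.smul_apply,
        smul_eq_mul, hbl, pt_last, hzvl]
      field_simp
      ring
    · rw [pt_castSucc, hL]
      simp only [hT0a, WithLp.ofLp_sub, WithLp.ofLp_smul, Pi.sub_apply, Pi.smul_apply,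
        smul_eq_mul, hbc, pt_castSucc, pt_last, hx, hzvc, Pi.add_apply, hzr]
      field_simp
      ring
  · obtain ⟨A, hA⟩ := hbox i
    set γ : ℝ := 1 / ((m : ℝ) + 1) with hγ
    have hγ0 : 0 < γ := by (clear * -; positivity)
    set c1 : ℝ := (2 + (R : ℝ) * (2 / γ) + |(h₁ : ℝ)| * (2 / γ)) / lam with hc1
    obtain ⟨N, hN⟩ := exists_nat_ge (max (2 * c1) (2 * (2 / γ)))
    have hN1 : 2 * c1 ≤ N := (le_max_left _ _).trans hN
    have hN2 : 2 * (2 / γ) ≤ N := (le_max_right _ _).trans hN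
    refine ⟨(2 * N + 3) ^ (2 * m) * A, fun s => ?_⟩
    obtain ⟨C, hC, hCS⟩ := hA s
    set T : Set (LS m) := l '' W with hT
    have hTreg : ∀ p ∈ T, p ∈ Reg m γ R := by
      rintro _ ⟨v, hv, rfl⟩
      exact ln_reg' (hlL v hv.1) hv.1.1 hv.2.2.2.2.2.2
    have hTS : T ⊆ ⋃ c ∈ C.image (isoLS U), Metric.closedBall c ((1 / 2 : ℝ) ^ s) := by
      rintro _ ⟨v, hv, rfl⟩
      obtain ⟨p, hp, hpe⟩ := hv.2.1
      obtain ⟨c, hc, hpc⟩ := Set.mem_iUnion₂.1 (hCS hp)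
      refine Set.mem_iUnion₂.2 ⟨isoLS U c, Finset.mem_image_of_mem _ hc, ?_⟩
      rw [← hpe, Metric.mem_closedBall]
      exact (isoLS_dist U p c).trans hpc
    obtain ⟨F, hF, hF'⟩ := cells_of_cover (T := T) (s := s)
      (fun p i => (ps0 p i + h₁ * slp p i) / lam - kk i) (fun p i => slp p i - z i) N (by
        intro p hp q hq j
        have e : (ps0 p j + h₁ * slp p j) / lam - kk j - ((ps0 q j + h₁ * slp q j) / lam - kk j) =
            ((ps0 p j - ps0 q j) + h₁ * (slp p j - slp q j)) / lam := by ring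
        rw [e, abs_div, abs_of_pos hlam0]
        have h3 := ps0_lip hγ0 (hTreg p hp) (hTreg q hq) j
        have h4 := slp_lip hγ0 (hTreg p hp) (hTreg q hq) j
        have h5 := abs_add_le (ps0 p j - ps0 q j) (h₁ * (slp p j - slp q j))
        rw [abs_mul] at h5
        have h6 : |(h₁ : ℝ)| * |slp p j - slp q j| ≤ |(h₁ : ℝ)| * (2 / γ * dist p q) :=
          mul_le_mul_of_nonneg_left h4 (abs_nonneg _)
        have h7 : |(ps0 p j - ps0 q j) + h₁ * (slp p j - slp q j)| / lam ≤ c1 * dist p q := by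
          rw [hc1, div_mul_eq_mul_div]
          refine div_le_div_of_nonneg_right ?_ hlam0.le
          nlinarith only [h3, h5, h6]
        have h8 : 2 * c1 * dist p q ≤ N * dist p q :=
          mul_le_mul_of_nonneg_right hN1 dist_nonneg
        linarith only [h7, h8]) (by
        intro p hp q hq j
        have h4 := slp_lip hγ0 (hTreg p hp) (hTreg q hq) j
        have h8 : 2 * (2 / γ) * dist p q ≤ N * dist p q :=
          mul_le_mul_of_nonneg_right hN2 dist_nonneg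
        have e : slp p j - z j - (slp q j - z j) = slp p j - slp q j := by ring
        rw [e]
        linarith only [h4, h8]) _ hTS
    refine ⟨F, hF.trans ?_, fun y hy => ?_⟩
    · rw [mul_assoc]
      refine mul_le_mul_of_nonneg_left ?_ (by (clear * -; positivity))
      refine le_trans ?_ hC
      exact_mod_cast Finset.card_image_le
    · have h3 := hF' _ ⟨_, hy, rfl⟩
      have h4 : ∀ j, slp (l (y + zr)) j = (y + zr) j := fun j =>
        ln_slp (hlL _ hy.1) j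
      have h5 : (fun i => slp (l (y + zr)) i - (z i : ℝ)) = y := by
        funext j
        rw [h4 j]
        simp [hzr]
      have h6 : (fun i => (ps0 (l (y + zr)) i + h₁ * slp (l (y + zr)) i) / lam - (kk i : ℝ)) =
          x y := by
        funext j
        rw [h4 j]
      rw [h5, h6] at h3
      exact h3

end Vale.Agent.P127.Stk
end

section

/-!
# P127 / Stk : the final theorem for a set of directions of positive outer measure
-/

namespace Vale.Agent.P127.Stk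

open MeasureTheory Vale.Agent.P127

/-- The final statement for near-sticky families: `D` is a set of directions of positive outer
surface measure, `K` contains a segment of positive length of the line `a e + ℝ e` for every
`e ∈ D`, and these lines form a set of packing dimension at most `n - 1 + η`. -/
def NearStickyD (n : ℕ) : Prop :=
  ∀ ε : ℝ, 0 < ε → ∃ η : ℝ, 0 < η ∧
    ∀ (K : Set (EuclideanSpace ℝ (Fin n)))
      (D : Set (Metric.sphere (0 : EuclideanSpace ℝ (Fin n)) 1))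
      (a : Metric.sphere (0 : EuclideanSpace ℝ (Fin n)) 1 → EuclideanSpace ℝ (Fin n)),
      (volume : Measure (EuclideanSpace ℝ (Fin n))).toSphere D ≠ 0 →
      (∀ e ∈ D, ∃ r : ℝ, 0 < r ∧ ∀ t ∈ Set.Icc (0 : ℝ) r, a e + t • e.1 ∈ K) →
      packingDim ((fun e => toLine (a e) e.1) '' D) ≤ (((n : ℝ) - 1 + η : ℝ) : EReal) →
      ENNReal.ofReal ((n : ℝ) - ε) ≤ dimH K

/-- the near-sticky theorem -/
theorem nearStickyD_of {n : ℕ} (hn : 2 ≤ n) (h : HausNorm (n - 1)) : NearStickyD n := by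
  obtain ⟨m, rfl⟩ : ∃ m, n = m + 1 := ⟨n - 1, by omega⟩
  simp only [Nat.add_sub_cancel] at h
  intro ε hε
  obtain ⟨η, hη, hmain⟩ := h ε hε
  refine ⟨η / 2, by positivity, fun K D a hD hK hp => ?_⟩
  have h1 : packingDim ((fun e : Sph (m + 1) => toLine (a e) e.1) '' D) <
      (((m : ℝ) + η : ℝ) : EReal) := by
    refine hp.trans_lt (EReal.coe_lt_coe_iff.2 ?_)
    push_cast
    linarith only [hη]
  unfold packingDim at h1
  simp only [iInf_lt_iff] at h1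
  obtain ⟨S, hS, hSd⟩ := h1
  obtain ⟨K', Y, x, hdim, hY, hx, hvol, hK', hcells⟩ := red2 hD
    (fun e he => by
      obtain ⟨r, hr, h⟩ := hK e he
      exact ⟨r, hr, h⟩) (S := S)
    (fun e he => Set.mem_iUnion.1 (hS ⟨e, he, rfl⟩)) (η := η) (fun i => by
      obtain ⟨C, hC, hcov⟩ := cov_le_of_upper
        ((le_iSup (fun i => upperMinkowskiDim (S i)) i).trans_lt hSd)
      refine ⟨C, fun s => ?_⟩
      exact exists_finite_cover (by positivity) (by positivity) (hcov s))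
  have h2 := hmain K' Y x hY hx hvol hK' hcells
  refine le_trans (le_of_eq ?_) (h2.trans hdim)
  congr 1
  push_cast
  ring

end Vale.Agent.P127.Stk
end

section

/-!
# P127: sticky Kakeya sets, the final theorems
-/

namespace Vale.Agent.P127.St

open MeasureTheory Vale.Agent.P127

theorem nearSticky (n : ℕ) (hn : 2 ≤ n) (ε : ℝ) (hε : 0 < ε) : ∃ η : ℝ, 0 < η ∧
    ∀ K : Set (EuclideanSpace ℝ (Fin n)), HasSegments volume ((n : ℝ) - 1 + η) K →
      ENNReal.ofReal ((n : ℝ) - ε) ≤ dimH K := by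
  obtain ⟨η, hη, h⟩ := Stk.nearStickyD_of hn (Stk.hausNorm_of (Stk.LB_main Stk.GrP (n - 1))) ε hε
  refine ⟨η, hη, fun K hK => ?_⟩
  obtain ⟨D, a, hD, hpos, ha, hp⟩ := hK
  refine h K (Subtype.val ⁻¹' D) (fun e => a e.1) hpos (fun e he => ha e.1 he) ?_
  refine le_trans (le_of_eq ?_) hp
  have e1 : ((fun e : Metric.sphere (0 : EuclideanSpace ℝ (Fin n)) 1 =>
      Stk.toLine (a e.1) e.1) '' (Subtype.val ⁻¹' D)) = lines D a := by
    ext p
    constructor
    · rintro ⟨e, he, rfl⟩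
      exact ⟨e.1, he, rfl⟩
    · rintro ⟨e, he, rfl⟩
      exact ⟨⟨e, hD he⟩, he, rfl⟩
  rw [e1]
  rfl

theorem sticky (n : ℕ) (hn : 2 ≤ n) (K : Set (EuclideanSpace ℝ (Fin n)))
    (hK : IsStickyKakeya n K) : dimH K = n := by
  obtain ⟨a, ha, hp⟩ := hK
  refine Stk.dimH_of_LB (Stk.LB_main Stk.GrP) n hn K ⟨a, fun e he t ht => ha e (by simpa only [mem_sphere_iff_norm, sub_zero] using he)
    t ht, ?_⟩
  refine le_trans (le_of_eq ?_) hp
  have e1 : {p | ∃ e : EuclideanSpace ℝ (Fin n), ‖e‖ = 1 ∧ p = Stk.toLine (a e) e} =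
      lines (Metric.sphere 0 1) a := by
    ext p
    constructor
    · rintro ⟨e, he, rfl⟩
      exact ⟨e, by simpa only [mem_sphere_iff_norm, sub_zero] using he, rfl⟩
    · rintro ⟨e, he, rfl⟩
      exact ⟨e, by simpa only [mem_sphere_iff_norm, sub_zero] using he, rfl⟩
  rw [e1]
  rfl

end Vale.Agent.P127.St
end
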